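import Mathlib

/-!
P199: assembly of a counterexample from a step lemma.

A stage consists of a domain `R` with a central field `K`, two elements `x y` of `R` and a countable
subfield `k` of `K`.  If every element of `k⟨x,y⟩` can be made algebraic in a later stage, and no
stage is finite over its central field, then the colimit gives a two-generated infinite-dimensional
division algebra which is algebraic over a field.
-/

open Polynomial

namespace Vale.Agent.P199.Assemble

/-- A domain with a central field, two elements and a countable subfield of the central field. -/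
structure Stage : Type 1 where
  K : Type
  [fieldK : Field K]
  R : Type
  [ringR : Ring R]
  [domR : IsDomain R]
  ι : K →+* R
  central : ∀ (c : K) (r : R), ι c * r = r * ι c
  x : R
  y : R
  k : Subfield K
  countable_k : Countable k

attribute [instance] Stage.fieldK Stage.ringR Stage.domR Stage.countable_k

namespace Stage

/-- The subring generated by the countable field and the two elements. -/
def gens (S : Stage) : Subring S.R :=
  Subring.closure (S.ι '' (S.k : Set S.K) ∪ {S.x, S.y})

/-- The subring generated by the whole central field and the two elements. -/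
def full (S : Stage) : Subring S.R :=
  Subring.closure (Set.range S.ι ∪ {S.x, S.y})

/-- `K⟨x,y⟩` is not spanned over `K` by a finite family. -/
def Big (S : Stage) : Prop :=
  ∀ (n : ℕ) (b : Fin n → S.R), ∃ a ∈ S.full, ∀ c : Fin n → S.K, a ≠ ∑ i, S.ι (c i) * b i

/-- An element is killed by a nonzero polynomial with coefficients in `k`. -/
def AlgElem (S : Stage) (a : S.R) : Prop :=
  ∃ p : Polynomial S.k, p ≠ 0 ∧ p.eval₂ (S.ι.comp S.k.subtype) a = 0

/-- Morphisms of stages. -/
structure Hom (S S' : Stage) where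
  g : S.K →+* S'.K
  f : S.R →+* S'.R
  comm : ∀ c, f (S.ι c) = S'.ι (g c)
  map_x : f S.x = S'.x
  map_y : f S.y = S'.y
  map_k : ∀ c ∈ S.k, g c ∈ S'.k

/-- The identity morphism. -/
def Hom.id (S : Stage) : Hom S S where
  g := RingHom.id _
  f := RingHom.id _
  comm _ := rfl
  map_x := rfl
  map_y := rfl
  map_k _ h := h

/-- Composition of morphisms. -/
def Hom.comp {S S' S'' : Stage} (ψ : Hom S' S'') (φ : Hom S S') : Hom S S'' where
  g := ψ.g.comp φ.g
  f := ψ.f.comp φ.f
  comm c := by simp only [RingHom.comp_apply, φ.comm, ψ.comm]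
  map_x := by simp only [RingHom.comp_apply, φ.map_x, ψ.map_x]
  map_y := by simp only [RingHom.comp_apply, φ.map_y, ψ.map_y]
  map_k c h := ψ.map_k _ (φ.map_k c h)

/-- The induced map of countable fields. -/
def Hom.restr {S S' : Stage} (φ : Hom S S') : S.k →+* S'.k :=
  (φ.g.comp S.k.subtype).codRestrict S'.k fun c => φ.map_k c c.2

theorem Hom.mapsTo_gens {S S' : Stage} (φ : Hom S S') {a : S.R} (ha : a ∈ S.gens) :
    φ.f a ∈ S'.gens := by
  induction ha using Subring.closure_induction with
  | mem b hb =>
    rcases hb with ⟨c, hc, rfl⟩ | hb | hb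
    · rw [φ.comm]
      exact Subring.subset_closure (Or.inl ⟨_, φ.map_k c hc, rfl⟩)
    · rw [hb, φ.map_x]
      exact Subring.subset_closure (Or.inr (Or.inl rfl))
    · rw [Set.mem_singleton_iff.1 hb, φ.map_y]
      exact Subring.subset_closure (Or.inr (Or.inr rfl))
  | zero => simp
  | one => simp
  | add a b _ _ ha hb => simpa using Subring.add_mem _ ha hb
  | neg a _ ha => simpa using Subring.neg_mem _ ha
  | mul a b _ _ ha hb => simpa using Subring.mul_mem _ ha hb

theorem gens_countable (S : Stage) : Countable S.gens := by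
  -- the generating set is countable, so its words and their integral combinations are
  let s : Set S.R := S.ι '' (S.k : Set S.K) ∪ {S.x, S.y}
  have hs : s.Countable := by
    refine Set.Countable.union (Set.Countable.image ?_ _) ?_
    · exact Set.countable_coe_iff.1 S.countable_k
    · exact (Set.finite_singleton S.y).insert S.x |>.countable
  have : Countable s := hs.to_subtype
  let φ : FreeRing s →+* S.R := FreeRing.lift (fun a => (a : S.R))
  have hle : S.gens ≤ φ.range := by
    refine Subring.closure_le.2 fun a ha => ?_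
    exact ⟨FreeRing.of ⟨a, ha⟩, FreeRing.lift_of _ _⟩
  have : Countable (FreeRing s) := by
    unfold FreeRing
    infer_instance
  have : Countable φ.range := Set.countable_coe_iff.2 (Set.countable_range _)
  exact Set.countable_coe_iff.2 ((Set.countable_coe_iff.1 this).mono hle)

end Stage

open Stage

section

variable (P : Stage → Prop)

/-- The step hypothesis. -/
def StepHyp : Prop :=
  ∀ S : Stage, P S → ∀ a ∈ S.gens, ∃ (S' : Stage) (φ : Stage.Hom S S'), P S' ∧ S'.AlgElem (φ.f a)

/-- The state of the recursion: a stage and the transported enumerations. -/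
structure State : Type 1 where
  S : Stage
  good : P S
  e : ℕ → ℕ → S.gens

variable {P}

/-- An enumeration of the countable generated subring. -/
noncomputable def enum (S : Stage) : ℕ → S.gens :=
  haveI := gens_countable S
  Classical.choose (exists_surjective_nat S.gens)

theorem enum_surjective (S : Stage) : Function.Surjective (enum S) := by
  have := gens_countable S
  exact Classical.choose_spec (exists_surjective_nat S.gens)

variable (hstep : StepHyp P)

/-- The next stage. -/
noncomputable def nextS (n : ℕ) (T : State P) : Stage :=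
  Classical.choose (hstep T.S T.good _ (T.e (Nat.unpair n).1 (Nat.unpair n).2).2)

/-- The transition to the next stage. -/
noncomputable def nextHom (n : ℕ) (T : State P) : Stage.Hom T.S (nextS hstep n T) :=
  Classical.choose (Classical.choose_spec
    (hstep T.S T.good _ (T.e (Nat.unpair n).1 (Nat.unpair n).2).2))

theorem next_spec (n : ℕ) (T : State P) : P (nextS hstep n T) ∧
    (nextS hstep n T).AlgElem ((nextHom hstep n T).f (T.e (Nat.unpair n).1 (Nat.unpair n).2).1) :=
  Classical.choose_spec (Classical.choose_spec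
    (hstep T.S T.good _ (T.e (Nat.unpair n).1 (Nat.unpair n).2).2))

variable {S₀ : Stage} (h₀ : P S₀)

/-- The sequence of states. -/
noncomputable def seq : ℕ → State P
  | 0 => ⟨S₀, h₀, fun _ => enum S₀⟩
  | n + 1 =>
    { S := nextS hstep n (seq n)
      good := (next_spec hstep n (seq n)).1
      e := fun i j =>
        if i ≤ n then ⟨_, (nextHom hstep n (seq n)).mapsTo_gens ((seq n).e i j).2⟩
        else enum _ j }

theorem seq_e_self (m : ℕ) : Function.Surjective ((seq hstep h₀ m).e m) := by
  cases m with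
  | zero => exact enum_surjective _
  | succ m =>
    intro a
    obtain ⟨j, hj⟩ := enum_surjective _ a
    exact ⟨j, by simp only [seq, Nat.not_succ_le_self, if_false]; exact hj⟩

/-- The stages. -/
noncomputable abbrev stage (n : ℕ) : Stage := (seq hstep h₀ n).S

/-- The successive transition. -/
noncomputable def stepHom (n : ℕ) : Stage.Hom (stage hstep h₀ n) (stage hstep h₀ (n + 1)) :=
  nextHom hstep n (seq hstep h₀ n)

/-- The transition between any two stages. -/
noncomputable def trans (i j : ℕ) (h : i ≤ j) : Stage.Hom (stage hstep h₀ i) (stage hstep h₀ j) :=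
  Nat.leRecOn (C := fun j => Stage.Hom (stage hstep h₀ i) (stage hstep h₀ j)) h
    (fun {k} φ => (stepHom hstep h₀ k).comp φ) (Stage.Hom.id _)

theorem trans_self (i : ℕ) : trans hstep h₀ i i le_rfl = Stage.Hom.id _ :=
  Nat.leRecOn_self _

theorem trans_succ {i j : ℕ} (h : i ≤ j) :
    trans hstep h₀ i (j + 1) (h.trans (Nat.le_succ j)) =
      (stepHom hstep h₀ j).comp (trans hstep h₀ i j h) :=
  Nat.leRecOn_succ h _

theorem trans_trans {i j l : ℕ} (hij : i ≤ j) (hjl : j ≤ l) :
    trans hstep h₀ i l (hij.trans hjl) =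
      (trans hstep h₀ j l hjl).comp (trans hstep h₀ i j hij) := by
  induction l, hjl using Nat.le_induction with
  | base => rw [trans_self]; rfl
  | succ l hl ih => rw [trans_succ hstep h₀ (hij.trans hl), ih, trans_succ hstep h₀ hl]; rfl

theorem seq_e_trans (m n j : ℕ) (h : m ≤ n) :
    ((seq hstep h₀ n).e m j).1 = (trans hstep h₀ m n h).f ((seq hstep h₀ m).e m j).1 := by
  induction n, h using Nat.le_induction with
  | base => rw [trans_self]; rfl
  | succ n hn ih =>
    rw [trans_succ hstep h₀ hn]
    show _ = (stepHom hstep h₀ n).f _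
    rw [show ((seq hstep h₀ (n + 1)).e m j).1 = (stepHom hstep h₀ n).f ((seq hstep h₀ n).e m j).1 by
      simp only [seq, hn, if_true]; rfl, ih]

/-- Every element of a stage becomes algebraic at a later stage. -/
theorem eventually_alg (m : ℕ) (a : (stage hstep h₀ m).R) (ha : a ∈ (stage hstep h₀ m).gens) :
    ∃ (n : ℕ) (h : m ≤ n), (stage hstep h₀ n).AlgElem ((trans hstep h₀ m n h).f a) := by
  obtain ⟨j, hj⟩ := seq_e_self hstep h₀ m ⟨a, ha⟩
  have hm : m ≤ Nat.pair m j := Nat.left_le_pair _ _
  refine ⟨Nat.pair m j + 1, hm.trans (Nat.le_succ _), ?_⟩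
  rw [trans_succ hstep h₀ hm]
  show AlgElem _ ((stepHom hstep h₀ _).f ((trans hstep h₀ m _ hm).f a))
  have e : a = ((seq hstep h₀ m).e m j).1 := by rw [hj]
  rw [e, ← seq_e_trans]
  have := (next_spec hstep (Nat.pair m j) (seq hstep h₀ (Nat.pair m j))).2
  simp only [Nat.unpair_pair] at this ⊢
  have key : ∀ p q, Nat.unpair (Nat.pair m j) = (p, q) → (nextS hstep (Nat.pair m j)
      (seq hstep h₀ (Nat.pair m j))).AlgElem ((nextHom hstep (Nat.pair m j)
        (seq hstep h₀ (Nat.pair m j))).f ((seq hstep h₀ (Nat.pair m j)).e p q).1) := by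
    intro p q hpq
    have := (next_spec hstep (Nat.pair m j) (seq hstep h₀ (Nat.pair m j))).2
    rwa [hpq] at this
  exact key m j (Nat.unpair_pair m j)

/-- Ring transition maps. -/
noncomputable def transR (i j : ℕ) (h : i ≤ j) :
    (stage hstep h₀ i).R →+* (stage hstep h₀ j).R :=
  (trans hstep h₀ i j h).f

/-- Field transition maps. -/
noncomputable def transK (i j : ℕ) (h : i ≤ j) :
    (stage hstep h₀ i).k →+* (stage hstep h₀ j).k :=
  (trans hstep h₀ i j h).restr

instance directedR : DirectedSystem (fun i => (stage hstep h₀ i).R)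
    fun i j h => transR hstep h₀ i j h where
  map_self i a := by simp only [transR, trans_self]; rfl
  map_map k j i hij hjk a := by
    simp only [transR]
    rw [trans_trans hstep h₀ hij hjk]; rfl

instance directedK : DirectedSystem (fun i => (stage hstep h₀ i).k)
    fun i j h => transK hstep h₀ i j h where
  map_self i a := by simp only [transK, trans_self]; rfl
  map_map k j i hij hjk a := by
    simp only [transK]
    rw [trans_trans hstep h₀ hij hjk]; rfl

/-- The limit field. -/
noncomputable abbrev LimK : Type :=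
  DirectLimit (fun i => (stage hstep h₀ i).k) (transK hstep h₀)

/-- The limit ring. -/
noncomputable abbrev LimR : Type :=
  DirectLimit (fun i => (stage hstep h₀ i).R) (transR hstep h₀)

/-- Insertion into the limit ring. -/
noncomputable def ofR (i : ℕ) : (stage hstep h₀ i).R →+* LimR hstep h₀ :=
  DirectLimit.Ring.of _ (transR hstep h₀) i

/-- Insertion into the limit field. -/
noncomputable def ofK (i : ℕ) : (stage hstep h₀ i).k →+* LimK hstep h₀ :=
  DirectLimit.Ring.of _ (transK hstep h₀) i

theorem ofR_trans {i j : ℕ} (h : i ≤ j) (a : (stage hstep h₀ i).R) :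
    ofR hstep h₀ j ((trans hstep h₀ i j h).f a) = ofR hstep h₀ i a :=
  DirectLimit.Ring.of_f (f := transR hstep h₀) h a

theorem ofR_eq {i j : ℕ} {a : (stage hstep h₀ i).R} {b : (stage hstep h₀ j).R}
    (h : ofR hstep h₀ i a = ofR hstep h₀ j b) :
    ∃ (l : ℕ) (hi : i ≤ l) (hj : j ≤ l),
      (trans hstep h₀ i l hi).f a = (trans hstep h₀ j l hj).f b := by
  obtain ⟨l, hi, hj, hab⟩ := Quotient.exact h
  exact ⟨l, hi, hj, hab⟩

theorem ofR_surj (a : LimR hstep h₀) : ∃ i b, ofR hstep h₀ i b = a := by
  obtain ⟨i, b, rfl⟩ := DirectLimit.exists_eq_mk _ a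
  exact ⟨i, b, rfl⟩

instance : NoZeroDivisors (LimR hstep h₀) where
  eq_zero_or_eq_zero_of_mul_eq_zero {a b} hab := by
    obtain ⟨i, a, rfl⟩ := ofR_surj hstep h₀ a
    obtain ⟨j, b, rfl⟩ := ofR_surj hstep h₀ b
    rw [← ofR_trans hstep h₀ (le_max_left i j) a, ← ofR_trans hstep h₀ (le_max_right i j) b,
      ← map_mul, ← map_zero (ofR hstep h₀ (max i j))] at hab
    obtain ⟨l, hi, hj, e⟩ := ofR_eq hstep h₀ hab
    rw [map_mul, map_zero] at e
    rcases mul_eq_zero.1 e with e | e
    · left
      rw [← ofR_trans hstep h₀ (le_max_left i j) a, ← ofR_trans hstep h₀ hi, e, map_zero]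
    · right
      rw [← ofR_trans hstep h₀ (le_max_right i j) b, ← ofR_trans hstep h₀ hi, e, map_zero]

instance : Nontrivial (LimR hstep h₀) := by
  refine ⟨⟨0, 1, fun h => ?_⟩⟩
  rw [← map_zero (ofR hstep h₀ 0), ← map_one (ofR hstep h₀ 0)] at h
  obtain ⟨l, hi, hj, e⟩ := ofR_eq hstep h₀ h
  rw [map_zero, map_one] at e
  exact zero_ne_one e

instance : IsDomain (LimR hstep h₀) := NoZeroDivisors.to_isDomain _

/-- The structure map of the limit field in the limit ring. -/
noncomputable def limι : LimK hstep h₀ →+* LimR hstep h₀ :=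
  DirectLimit.Ring.lift (fun i => (stage hstep h₀ i).k) (transK hstep h₀) (LimR hstep h₀)
    (fun i => (ofR hstep h₀ i).comp ((stage hstep h₀ i).ι.comp (stage hstep h₀ i).k.subtype))
    (fun i j h c => by
      show ofR hstep h₀ j ((stage hstep h₀ j).ι ((trans hstep h₀ i j h).g c)) = _
      rw [← (trans hstep h₀ i j h).comm, ofR_trans]
      rfl)

theorem limι_of (i : ℕ) (c : (stage hstep h₀ i).k) :
    limι hstep h₀ (ofK hstep h₀ i c) = ofR hstep h₀ i ((stage hstep h₀ i).ι c) :=
  rfl

theorem ofK_surj (c : LimK hstep h₀) : ∃ i b, ofK hstep h₀ i b = c := by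
  obtain ⟨i, b, rfl⟩ := DirectLimit.exists_eq_mk _ c
  exact ⟨i, b, rfl⟩

theorem limι_central (c : LimK hstep h₀) (a : LimR hstep h₀) :
    limι hstep h₀ c * a = a * limι hstep h₀ c := by
  obtain ⟨i, c, rfl⟩ := ofK_surj hstep h₀ c
  obtain ⟨j, a, rfl⟩ := ofR_surj hstep h₀ a
  rw [limι_of, ← ofR_trans hstep h₀ (le_max_left i j), ← ofR_trans hstep h₀ (le_max_right i j) a,
    ← map_mul, ← map_mul, (trans hstep h₀ i _ _).comm, (stage hstep h₀ _).central]

noncomputable instance : Algebra (LimK hstep h₀) (LimR hstep h₀) :=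
  (limι hstep h₀).toAlgebra' (limι_central hstep h₀)

/-- The first generator in the limit. -/
noncomputable def X : LimR hstep h₀ := ofR hstep h₀ 0 (stage hstep h₀ 0).x

/-- The second generator in the limit. -/
noncomputable def Y : LimR hstep h₀ := ofR hstep h₀ 0 (stage hstep h₀ 0).y

theorem ofR_x (i : ℕ) : ofR hstep h₀ i (stage hstep h₀ i).x = X hstep h₀ := by
  rw [← (trans hstep h₀ 0 i (Nat.zero_le i)).map_x, ofR_trans]
  rfl

theorem ofR_y (i : ℕ) : ofR hstep h₀ i (stage hstep h₀ i).y = Y hstep h₀ := by
  rw [← (trans hstep h₀ 0 i (Nat.zero_le i)).map_y, ofR_trans]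
  rfl

/-- The algebra generated by the two elements over the limit field. -/
noncomputable def Alg : Subalgebra (LimK hstep h₀) (LimR hstep h₀) :=
  Algebra.adjoin (LimK hstep h₀) {X hstep h₀, Y hstep h₀}

theorem mem_Alg_lift {a : LimR hstep h₀} (ha : a ∈ Alg hstep h₀) :
    ∃ i, ∃ b ∈ (stage hstep h₀ i).gens, ofR hstep h₀ i b = a := by
  induction ha using Algebra.adjoin_induction with
  | mem b hb =>
    rcases hb with hb | hb
    · exact ⟨0, _, Subring.subset_closure (Or.inr (Or.inl rfl)), hb ▸ rfl⟩
    · exact ⟨0, _, Subring.subset_closure (Or.inr (Or.inr rfl)),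
        (Set.mem_singleton_iff.1 hb) ▸ rfl⟩
  | algebraMap c =>
    obtain ⟨i, c, rfl⟩ := ofK_surj hstep h₀ c
    exact ⟨i, _, Subring.subset_closure (Or.inl ⟨c, c.2, rfl⟩), rfl⟩
  | add a b _ _ ha hb =>
    obtain ⟨i, a, ha', rfl⟩ := ha
    obtain ⟨j, b, hb', rfl⟩ := hb
    refine ⟨max i j, _, Subring.add_mem _
      ((trans hstep h₀ i _ (le_max_left i j)).mapsTo_gens ha')
      ((trans hstep h₀ j _ (le_max_right i j)).mapsTo_gens hb'), ?_⟩
    rw [map_add, ofR_trans, ofR_trans]
  | mul a b _ _ ha hb =>
    obtain ⟨i, a, ha', rfl⟩ := ha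
    obtain ⟨j, b, hb', rfl⟩ := hb
    refine ⟨max i j, _, Subring.mul_mem _
      ((trans hstep h₀ i _ (le_max_left i j)).mapsTo_gens ha')
      ((trans hstep h₀ j _ (le_max_right i j)).mapsTo_gens hb'), ?_⟩
    rw [map_mul, ofR_trans, ofR_trans]

theorem isAlgebraic_Alg : Algebra.IsAlgebraic (LimK hstep h₀) (Alg hstep h₀) := by
  refine ⟨fun a => ?_⟩
  refine (isAlgebraic_algHom_iff (Alg hstep h₀).val Subtype.val_injective).1 ?_
  obtain ⟨i, b, hb, e⟩ := mem_Alg_lift hstep h₀ a.2
  obtain ⟨n, hn, p, hp, hpe⟩ := eventually_alg hstep h₀ i b hb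
  refine ⟨p.map (ofK hstep h₀ n), (Polynomial.map_ne_zero_iff (ofK hstep h₀ n).injective).2 hp, ?_⟩
  have key : algebraMap (LimK hstep h₀) (LimR hstep h₀) = limι hstep h₀ := rfl
  rw [Polynomial.aeval_def, Polynomial.eval₂_map, key]
  show Polynomial.eval₂ _ (a : LimR hstep h₀) p = 0
  rw [← e, ← ofR_trans hstep h₀ hn b, show (limι hstep h₀).comp (ofK hstep h₀ n) =
    (ofR hstep h₀ n).comp ((stage hstep h₀ n).ι.comp (stage hstep h₀ n).k.subtype) from rfl,
    ← Polynomial.hom_eval₂, hpe, map_zero]

theorem not_finite_Alg (hbig : ∀ S, P S → S.Big) :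
    ¬ Module.Finite (LimK hstep h₀) (Alg hstep h₀) := by
  intro hfin
  obtain ⟨n, v, hv⟩ := Module.Finite.exists_fin (R := LimK hstep h₀) (M := Alg hstep h₀)
  let W : Submodule (LimK hstep h₀) (LimR hstep h₀) :=
    Submodule.span (LimK hstep h₀) (Set.range fun i => (v i : LimR hstep h₀))
  have hW : ∀ a ∈ Alg hstep h₀, a ∈ W := by
    intro a ha
    have : (⟨a, ha⟩ : Alg hstep h₀) ∈ Submodule.span (LimK hstep h₀) (Set.range v) := by
      rw [hv]; trivial
    have := Submodule.mem_map_of_mem (f := (Alg hstep h₀).val.toLinearMap) this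
    rw [Submodule.map_span, ← Set.range_comp] at this
    exact this
  -- finitely many relations, all of which hold in one stage
  let Q : ℕ → Prop := fun m => ∃ b : Fin n → (stage hstep h₀ m).R,
    ∀ i, ofR hstep h₀ m (b i) = (v i : LimR hstep h₀)
  have hQ : ∀ᶠ m in Filter.atTop, Q m := by
    have : ∀ i, ∀ᶠ m in Filter.atTop, ∃ b, ofR hstep h₀ m b = (v i : LimR hstep h₀) := by
      intro i
      obtain ⟨j, b, hb⟩ := ofR_surj hstep h₀ (v i : LimR hstep h₀)
      filter_upwards [Filter.eventually_ge_atTop j] with m hm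
      exact ⟨_, (ofR_trans hstep h₀ hm b).trans hb⟩
    filter_upwards [Filter.eventually_all.2 this] with m hm
    choose b hb using hm
    exact ⟨b, hb⟩
  obtain ⟨m, b, hb⟩ := hQ.exists
  -- an element of the span is a combination of the lifted family at all later stages
  let T : (l : ℕ) → m ≤ l → (stage hstep h₀ l).R → Prop := fun l hl a =>
    ∃ c : Fin n → (stage hstep h₀ l).K,
      a = ∑ i, (stage hstep h₀ l).ι (c i) * (trans hstep h₀ m l hl).f (b i)
  have comb : ∀ (s : ℕ) (hs : m ≤ s) (a : (stage hstep h₀ s).R),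
      ofR hstep h₀ s a ∈ W → ∀ᶠ l in Filter.atTop,
        ∃ (hl : s ≤ l), T l (hs.trans hl) ((trans hstep h₀ s l hl).f a) := by
    intro s hs a ha
    obtain ⟨c, hc⟩ := (Submodule.mem_span_range_iff_exists_fun _).1 ha
    choose j c' hc' using fun i => ofK_surj hstep h₀ (c i)
    obtain ⟨t, hst, hjt⟩ : ∃ t, s ≤ t ∧ ∀ i, j i ≤ t :=
      ⟨s + ∑ i, j i, Nat.le_add_right _ _, fun i =>
        (Finset.single_le_sum (fun _ _ => Nat.zero_le _) (Finset.mem_univ i)).trans
          (Nat.le_add_left _ _)⟩
    have e : ofR hstep h₀ t ((trans hstep h₀ s t hst).f a) = ofR hstep h₀ t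
        (∑ i, (stage hstep h₀ t).ι ((trans hstep h₀ (j i) t (hjt i)).g (c' i)) *
          (trans hstep h₀ m t (hs.trans hst)).f (b i)) := by
      rw [ofR_trans, ← hc, map_sum]
      refine Finset.sum_congr rfl fun i _ => ?_
      rw [map_mul, ofR_trans, hb, ← (trans hstep h₀ (j i) t (hjt i)).comm, ofR_trans, Algebra.smul_def,
        ← hc' i]
      rfl
    obtain ⟨l₀, hl₀, hl₀', e'⟩ := ofR_eq hstep h₀ e
    filter_upwards [Filter.eventually_ge_atTop l₀] with l hl
    refine ⟨hst.trans (hl₀.trans hl),
      fun i => (trans hstep h₀ t l (hl₀.trans hl)).g ((trans hstep h₀ (j i) t (hjt i)).g (c' i)), ?_⟩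
    have e2 := congrArg (trans hstep h₀ l₀ l hl).f e'
    change ((trans hstep h₀ l₀ l hl).comp (trans hstep h₀ t l₀ hl₀)).f _ =
      ((trans hstep h₀ l₀ l hl).comp (trans hstep h₀ t l₀ hl₀')).f _ at e2
    rw [← trans_trans] at e2
    rw [trans_trans hstep h₀ hst (hl₀.trans hl)]
    show (trans hstep h₀ t l _).f ((trans hstep h₀ s t hst).f a) = _
    rw [e2, map_sum]
    refine Finset.sum_congr rfl fun i _ => ?_
    rw [map_mul, (trans hstep h₀ t l _).comm,
      trans_trans hstep h₀ (hs.trans hst) (hl₀.trans hl)]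
    rfl
  have hmem : ∀ (s : ℕ) (a : (stage hstep h₀ s).R), ofR hstep h₀ s a ∈ Alg hstep h₀ →
      ofR hstep h₀ s a ∈ W := fun s a h => hW _ h
  have hX : X hstep h₀ ∈ Alg hstep h₀ := Algebra.subset_adjoin (Or.inl rfl)
  have hY : Y hstep h₀ ∈ Alg hstep h₀ := Algebra.subset_adjoin (Or.inr rfl)
  have h1 := comb m le_rfl 1 (hmem m 1 (by rw [map_one]; exact one_mem _))
  have hx := fun i => comb m le_rfl ((stage hstep h₀ m).x * b i) (hmem m _ (by
    rw [map_mul, hb, ofR_x]; exact mul_mem hX (v i).2))
  have hy := fun i => comb m le_rfl ((stage hstep h₀ m).y * b i) (hmem m _ (by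
    rw [map_mul, hb, ofR_y]; exact mul_mem hY (v i).2))
  obtain ⟨l, ⟨hl, h1⟩, hx, hy⟩ :=
    (h1.and ((Filter.eventually_all.2 hx).and (Filter.eventually_all.2 hy))).exists
  -- the stage `l` is then finite over its central field
  obtain ⟨a, ha, hne⟩ := hbig _ (seq hstep h₀ l).good n fun i => (trans hstep h₀ m l hl).f (b i)
  let φ := (trans hstep h₀ m l hl).f
  have Tadd : ∀ u w, T l hl u → T l hl w → T l hl (u + w) := by
    rintro u w ⟨c, rfl⟩ ⟨d, rfl⟩
    exact ⟨c + d, by simp [add_mul, Finset.sum_add_distrib]⟩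
  have Tsmul : ∀ k u, T l hl u → T l hl ((stage hstep h₀ l).ι k * u) := by
    rintro k u ⟨c, rfl⟩
    exact ⟨fun i => k * c i, by simp [Finset.mul_sum, mul_assoc]⟩
  have Tzero : T l hl 0 := ⟨0, by simp⟩
  have Tgen : ∀ g, (∀ i, T l hl (g * φ (b i))) → ∀ u, T l hl u → T l hl (g * u) := by
    rintro g hg u ⟨c, rfl⟩
    rw [Finset.mul_sum]
    refine Finset.sum_induction _ (T l hl) Tadd Tzero fun i _ => ?_
    rw [← mul_assoc, ← (stage hstep h₀ l).central, mul_assoc]
    exact Tsmul _ _ (hg i)
  have main : ∀ g ∈ (stage hstep h₀ l).full, ∀ u, T l hl u → T l hl (g * u) := by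
    intro g hg
    induction hg using Subring.closure_induction with
    | mem g hg =>
      rcases hg with ⟨k, rfl⟩ | hg | hg
      · exact Tsmul k
      · refine Tgen g fun i => ?_
        obtain ⟨_, h⟩ := hx i
        rw [map_mul, (trans hstep h₀ m l hl).map_x] at h
        rw [hg]; exact h
      · refine Tgen g fun i => ?_
        obtain ⟨_, h⟩ := hy i
        rw [map_mul, (trans hstep h₀ m l hl).map_y] at h
        rw [Set.mem_singleton_iff.1 hg]; exact h
    | zero => intro u _; simpa using Tzero
    | one => intro u hu; simpa using hu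
    | add g g' _ _ hg hg' => intro u hu; rw [add_mul]; exact Tadd _ _ (hg u hu) (hg' u hu)
    | neg g _ hg =>
      intro u hu
      have := Tsmul (-1) _ (hg u hu)
      simpa using this
    | mul g g' _ _ hg hg' => intro u hu; rw [mul_assoc]; exact hg _ (hg' u hu)
  have h1' : T l hl 1 := by simpa using h1
  obtain ⟨c, hc⟩ := main a ha 1 h1'
  exact hne c (by simpa using hc)

end

/-- A domain which is algebraic over a field is a division ring. -/
theorem isUnit_of_algebraic {k A : Type} [Field k] [Ring A] [IsDomain A] [Algebra k A]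
    [Algebra.IsAlgebraic k A] {a : A} (ha : a ≠ 0) : IsUnit a :=
  IsArtinianRing.isUnit_of_isIntegral_of_nonZeroDivisor (R := k)
    (Algebra.IsAlgebraic.isAlgebraic a).isIntegral (mem_nonZeroDivisors_of_ne_zero ha)

/-- Assembly: a step hypothesis gives an algebraic division algebra which is generated by two
elements and infinite-dimensional. -/
theorem exists_of_step {P : Stage → Prop} (hstep : StepHyp P) (hbig : ∀ S, P S → S.Big)
    {S₀ : Stage} (h₀ : P S₀) :
    ∃ (k : Type) (_ : Field k) (A : Type) (_ : DivisionRing A) (_ : Algebra k A) (x y : A),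
      Algebra.IsAlgebraic k A ∧ Algebra.adjoin k ({x, y} : Set A) = ⊤ ∧ ¬ Module.Finite k A := by
  classical
  let k := LimK hstep h₀
  let A := Alg hstep h₀
  have : Algebra.IsAlgebraic k A := isAlgebraic_Alg hstep h₀
  have hu : ∀ a : A, IsUnit a ∨ a = 0 := fun a =>
    (em (a = 0)).symm.imp_left fun h => isUnit_of_algebraic (k := k) h
  let inst : DivisionRing A := DivisionRing.ofIsUnitOrEqZero hu
  refine ⟨k, inferInstance, A, inst, (Alg hstep h₀).algebra,
    ⟨X hstep h₀, Algebra.subset_adjoin (Or.inl rfl)⟩,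
    ⟨Y hstep h₀, Algebra.subset_adjoin (Or.inr rfl)⟩,
    isAlgebraic_Alg hstep h₀, ?_, not_finite_Alg hstep h₀ hbig⟩
  apply Subalgebra.map_injective (f := (Alg hstep h₀).val) Subtype.val_injective
  rw [AlgHom.map_adjoin, Algebra.map_top, Subalgebra.range_val, Set.image_pair]
  rfl

/-- An algebraic algebra over a field `k` which is generated by finitely many elements and finite
over a field `Z` between `k` and its centre is finite over `k`. -/
theorem finite_of_finite_tower {k Z A : Type} [Field k] [Field Z] [Ring A] [Algebra k Z]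
    [Algebra k A] [Algebra Z A] [IsScalarTower k Z A] [Algebra.IsAlgebraic k A]
    (hinj : Function.Injective (algebraMap Z A)) [Module.Finite Z A] (s : Finset A)
    (hgen : Algebra.adjoin k (s : Set A) = ⊤) : Module.Finite k A := by
  classical
  let b := Module.finBasis Z A
  let cs : Set Z :=
    (Set.range fun p : _ × _ × _ => b.repr (b p.1 * b p.2.1) p.2.2) ∪
      (Set.range fun i => b.repr 1 i) ∪ Set.range fun p : s × _ => b.repr (p.1 : A) p.2
  have hfin : cs.Finite := ((Set.finite_range _).union (Set.finite_range _)).union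
    (Set.finite_range _)
  have hint : ∀ c ∈ cs, IsIntegral k c := fun c _ =>
    (isIntegral_algHom_iff (IsScalarTower.toAlgHom k Z A) hinj).1
      (Algebra.IsAlgebraic.isAlgebraic (R := k) _).isIntegral
  let Z₀ : IntermediateField k Z := IntermediateField.adjoin k cs
  have : Finite cs := hfin.to_subtype
  have : FiniteDimensional k Z₀ := IntermediateField.finiteDimensional_adjoin hint
  let M : Submodule Z₀ A := Submodule.span Z₀ (Set.range b)
  have hcoord : ∀ a : A, (∀ i, b.repr a i ∈ Z₀) → a ∈ M := by
    intro a ha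
    rw [← b.sum_repr a]
    refine Submodule.sum_mem _ fun i _ => ?_
    have := M.smul_mem (⟨b.repr a i, ha i⟩ : Z₀) (Submodule.subset_span ⟨i, rfl⟩)
    exact this
  have hcs : ∀ c ∈ cs, c ∈ Z₀ := fun c hc => IntermediateField.subset_adjoin k _ hc
  have hbb : ∀ i j, b i * b j ∈ M := fun i j =>
    hcoord _ fun l => hcs _ (Or.inl (Or.inl ⟨(i, j, l), rfl⟩))
  have h1 : (1 : A) ∈ M := hcoord _ fun l => hcs _ (Or.inl (Or.inr ⟨l, rfl⟩))
  have hmul : ∀ u ∈ M, ∀ w ∈ M, u * w ∈ M := by
    intro u hu w hw
    induction hu using Submodule.span_induction with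
    | mem u hu =>
      obtain ⟨i, rfl⟩ := hu
      induction hw using Submodule.span_induction with
      | mem w hw => obtain ⟨j, rfl⟩ := hw; exact hbb i j
      | zero => simp
      | add w w' _ _ h h' => rw [mul_add]; exact add_mem h h'
      | smul c w _ h => rw [mul_smul_comm]; exact Submodule.smul_mem _ c h
    | zero => simp
    | add u u' _ _ h h' => rw [add_mul]; exact add_mem h h'
    | smul c u _ h => rw [smul_mul_assoc]; exact Submodule.smul_mem _ c h
  let B : Subalgebra Z₀ A := M.toSubalgebra h1 fun u w hu hw => hmul u hu w hw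
  have hsB : (s : Set A) ⊆ B.restrictScalars k := fun a ha =>
    hcoord _ fun l => hcs _ (Or.inr ⟨(⟨a, ha⟩, l), rfl⟩)
  have hMtop : M = ⊤ := eq_top_iff.2 fun a _ =>
    (Algebra.adjoin_le hsB) (hgen ▸ Algebra.mem_top)
  have : Module.Finite Z₀ A := ⟨hMtop ▸ Submodule.fg_span (Set.finite_range b)⟩
  exact Module.Finite.trans Z₀ A

/-- If a two-generated algebraic division algebra is infinite-dimensional, it is infinite over its
centre, so it is a counterexample to Kurosh's problem over the centre. -/
theorem not_finite_center {k A : Type} [Field k] [DivisionRing A] [Algebra k A]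
    [Algebra.IsAlgebraic k A] {x y : A} (hgen : Algebra.adjoin k ({x, y} : Set A) = ⊤)
    (hinf : ¬ Module.Finite k A) :
    Algebra.IsAlgebraic (Subring.center A) A ∧
      ¬ Module.Finite (Subring.center A) (Algebra.adjoin (Subring.center A) ({x, y} : Set A)) := by
  classical
  let ψ : k →+* Subring.center A := (algebraMap k A).codRestrict (Subring.center A) fun c =>
    Subring.mem_center_iff.2 fun a => (Algebra.commutes c a).symm
  let _ : Algebra k (Subring.center A) := ψ.toAlgebra
  have : IsScalarTower k (Subring.center A) A := IsScalarTower.of_algebraMap_eq fun c => rfl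
  have halg : Algebra.IsAlgebraic (Subring.center A) A :=
    ⟨fun a => (Algebra.IsAlgebraic.isAlgebraic (R := k) a).tower_top _⟩
  refine ⟨halg, fun hfin => hinf ?_⟩
  have hle : ∀ a ∈ Algebra.adjoin k ({x, y} : Set A),
      a ∈ Algebra.adjoin (Subring.center A) ({x, y} : Set A) := by
    intro a ha
    induction ha using Algebra.adjoin_induction with
    | mem b hb => exact Algebra.subset_adjoin hb
    | algebraMap c =>
      exact Subalgebra.algebraMap_mem (Algebra.adjoin (Subring.center A) ({x, y} : Set A)) (ψ c)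
    | add b c _ _ hb hc => exact add_mem hb hc
    | mul b c _ _ hb hc => exact mul_mem hb hc
  have : Module.Finite (Subring.center A) A :=
    Module.Finite.of_surjective
      (Algebra.adjoin (Subring.center A) ({x, y} : Set A)).val.toLinearMap
      fun a => ⟨⟨a, hle a (hgen ▸ Algebra.mem_top)⟩, rfl⟩
  exact finite_of_finite_tower (Z := Subring.center A) Subtype.val_injective {x, y}
    (by simpa using hgen)

/-- Assembly in the form of Kurosh's question: a step hypothesis gives a division ring which is
algebraic over its centre and is not locally finite. -/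
theorem kurosh_of_step {P : Stage → Prop} (hstep : StepHyp P) (hbig : ∀ S, P S → S.Big)
    {S₀ : Stage} (h₀ : P S₀) :
    ∃ (A : Type) (_ : DivisionRing A), Algebra.IsAlgebraic (Subring.center A) A ∧
      ∃ S : Finset A,
        ¬ Module.Finite (Subring.center A) (Algebra.adjoin (Subring.center A) (S : Set A)) := by
  classical
  obtain ⟨k, hk, A, hA, halgA, x, y, halg, hgen, hinf⟩ := exists_of_step hstep hbig h₀
  obtain ⟨h1, h2⟩ := not_finite_center hgen hinf
  exact ⟨A, hA, h1, {x, y}, by rw [Finset.coe_pair]; exact h2⟩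

end Vale.Agent.P199.Assemble
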