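import Mathlib
import Vale.Agent.P199.Assemble

/-!
P199: the assembly from an abstract step which only asks for algebraicity over the central field of
the next stage and for preservation of density.
-/

namespace Vale.Agent.P199.Assemble

/-- A countable set generates a countable subfield. -/
theorem countable_closure {F : Type} [Field F] {s : Set F} (hs : s.Countable) :
    Countable (Subfield.closure s) := by
  rw [← Cardinal.mk_le_aleph0_iff]
  exact (Subfield.cardinalMk_closure_le_max s).trans
    (max_le (Cardinal.mk_le_aleph0_iff.2 hs.to_subtype) le_rfl)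

/-- Assembly from an abstract step: stages are domains `R s` over fields `K s` with a density
predicate on subalgebras; every transcendental element can be made algebraic in another stage by a
homomorphism preserving density. -/
theorem kurosh_of_abstract_step {St : Type 1} (K : St → Type) [∀ s, Field (K s)] (R : St → Type)
    [∀ s, Ring (R s)] [∀ s, IsDomain (R s)] [∀ s, Algebra (K s) (R s)]
    (Dense : ∀ s, Subalgebra (K s) (R s) → Prop)
    (hbig : ∀ s P, Dense s P → ¬ Module.Finite (K s) P)
    (s₀ : St) (x₀ y₀ : R s₀) (hd : Dense s₀ (Algebra.adjoin (K s₀) {x₀, y₀}))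
    (step : ∀ s (a : R s), ¬ IsAlgebraic (K s) a →
      ∃ (s' : St) (g : K s →+* K s') (φ : R s →+* R s'),
        (∀ c, φ (algebraMap (K s) (R s) c) = algebraMap (K s') (R s') (g c)) ∧
        IsAlgebraic (K s') (φ a) ∧
        ∀ P, Dense s P → Dense s' (Algebra.adjoin (K s') (φ '' (P : Set (R s))))) :
    ∃ (A : Type) (_ : DivisionRing A), Algebra.IsAlgebraic (Subring.center A) A ∧
      ∃ S : Finset A,
        ¬ Module.Finite (Subring.center A) (Algebra.adjoin (Subring.center A) (S : Set A)) := by
  classical
  let mkS : ∀ (s : St) (_ _ : R s) (k : Subfield (K s)), Countable k → Stage := fun s x y k hk =>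
    { K := K s
      R := R s
      ι := algebraMap (K s) (R s)
      central := fun c r => Algebra.commutes c r
      x := x
      y := y
      k := k
      countable_k := hk }
  let P : Stage → Prop := fun S => ∃ (s : St) (x y : R s) (k : Subfield (K s)) (hk : Countable k),
    Dense s (Algebra.adjoin (K s) {x, y}) ∧ S = mkS s x y k hk
  refine kurosh_of_step (P := P) ?_ ?_
    (S₀ := mkS s₀ x₀ y₀ (Subfield.closure ∅) (countable_closure Set.countable_empty))
    ⟨s₀, x₀, y₀, _, _, hd, rfl⟩
  · rintro S ⟨s, x, y, k, hk, hdense, rfl⟩ a -
    obtain ⟨s', g, φ, hg, halg, hd'⟩ : ∃ (s' : St) (g : K s →+* K s') (φ : R s →+* R s'),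
        (∀ c, φ (algebraMap (K s) (R s) c) = algebraMap (K s') (R s') (g c)) ∧
        IsAlgebraic (K s') (φ a) ∧ Dense s' (Algebra.adjoin (K s') {φ x, φ y}) := by
      by_cases ha : IsAlgebraic (K s) (a : R s)
      · exact ⟨s, RingHom.id _, RingHom.id _, fun _ => rfl, ha, hdense⟩
      · obtain ⟨s', g, φ, hg, halg, hd'⟩ := step s a ha
        refine ⟨s', g, φ, hg, halg, ?_⟩
        have := hd' _ hdense
        suffices e : Algebra.adjoin (K s') (φ '' (Algebra.adjoin (K s) {x, y} : Set (R s))) =
            Algebra.adjoin (K s') {φ x, φ y} by rwa [e] at this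
        refine le_antisymm (Algebra.adjoin_le ?_) (Algebra.adjoin_le ?_)
        · rintro _ ⟨r, hr, rfl⟩
          induction hr using Algebra.adjoin_induction with
          | mem z hz =>
            rcases hz with hz | hz
            · rw [hz]; exact Algebra.subset_adjoin (Or.inl rfl)
            · rw [Set.mem_singleton_iff.1 hz]; exact Algebra.subset_adjoin (Or.inr rfl)
          | algebraMap c =>
            rw [SetLike.mem_coe, hg]
            exact Subalgebra.algebraMap_mem _ _
          | add u v _ _ hu hv =>
            rw [SetLike.mem_coe, map_add]; exact add_mem hu hv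
          | mul u v _ _ hu hv =>
            rw [SetLike.mem_coe, map_mul]; exact mul_mem hu hv
        · rintro z (rfl | rfl)
          · exact Algebra.subset_adjoin ⟨x, Algebra.subset_adjoin (Or.inl rfl), rfl⟩
          · exact Algebra.subset_adjoin ⟨y, Algebra.subset_adjoin (Or.inr rfl), rfl⟩
    obtain ⟨p, hp, hpa⟩ := halg
    let k' : Subfield (K s') := Subfield.closure (g '' (k : Set (K s)) ∪ Set.range p.coeff)
    have hk' : Countable k' := countable_closure
      ((Set.Countable.image (Set.countable_coe_iff.1 hk) _).union (Set.countable_range _))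
    have hcoeff : (↑p.coeffs : Set (K s')) ⊆ (k'.toSubring : Set (K s')) := by
      intro c hc
      obtain ⟨n, -, rfl⟩ := Polynomial.mem_coeffs_iff.1 hc
      exact Subfield.subset_closure (Or.inr ⟨n, rfl⟩)
    refine ⟨mkS s' (φ x) (φ y) k' hk',
      { g := g
        f := φ
        comm := hg
        map_x := rfl
        map_y := rfl
        map_k := fun c hc => Subfield.subset_closure (Or.inl ⟨c, hc, rfl⟩) },
      ⟨s', φ x, φ y, k', hk', hd', rfl⟩, ?_⟩
    obtain ⟨q, hq⟩ : ∃ q : Polynomial k', q.map k'.subtype = p :=
      ⟨p.toSubring k'.toSubring hcoeff, Polynomial.map_toSubring _ _ _⟩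
    refine ⟨q, fun h0 => hp (by rw [← hq, h0, Polynomial.map_zero]), ?_⟩
    show Polynomial.eval₂ ((algebraMap (K s') (R s')).comp k'.subtype) (φ a) q = 0
    rw [← Polynomial.eval₂_map, hq]
    exact hpa
  · rintro S ⟨s, x, y, k, hk, hdense, rfl⟩ n b
    by_contra hall
    push Not at hall
    refine hbig s _ hdense ?_
    let A := Algebra.adjoin (K s) ({x, y} : Set (R s))
    let W : Submodule (K s) (R s) := Submodule.span (K s) (Set.range fun i => (b i : R s))
    have : Module.Finite (K s) W := Module.Finite.span_of_finite _ (Set.finite_range _)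
    have hle : A.toSubmodule ≤ W := by
      intro r hr
      have hfull : r ∈ (mkS s x y k hk).full := by
        induction hr using Algebra.adjoin_induction with
        | mem z hz => exact Subring.subset_closure (Or.inr hz)
        | algebraMap c => exact Subring.subset_closure (Or.inl ⟨c, rfl⟩)
        | add u v _ _ hu hv => exact add_mem hu hv
        | mul u v _ _ hu hv => exact mul_mem hu hv
      obtain ⟨c, hc⟩ := hall r hfull
      rw [hc]
      refine Submodule.sum_mem _ fun i _ => ?_
      show algebraMap (K s) (R s) (c i) * (b i : R s) ∈ W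
      rw [← Algebra.smul_def]
      exact Submodule.smul_mem _ _ (Submodule.subset_span ⟨i, rfl⟩)
    exact Module.Finite.of_injective (Submodule.inclusion hle) (Submodule.inclusion_injective hle)

end Vale.Agent.P199.Assemble
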