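import Vale.Agent.P199.SelectDefs

/-!
# P199: openness of the pairing statement (K3)

For a matrix `A` with simple spectrum, the operator `X ↦ ∑_{k ≠ k'} P_k X P_k' / (λ_k - λ_k')` is,
up to the square of a discriminant `gzero A`, a polynomial in the entries of `A`: if
`det (χ_A (A + z)) = z ^ q g(z)` and `g(z) = g0 + z h(z)`, it is `h(ad)^2 ad / g0^2`.
Hence independence of the second order forms is open in the point.
-/

namespace Vale.Agent.P199.OpenPairs

open Finset Polynomial

section Ring

variable {R S : Type*} [CommRing R] [CommRing S] {q : ℕ} {ι Cls : Type*} [Fintype ι]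

/-- `det (χ_A (A + z))`, a polynomial in `z` whose roots are the differences of the eigenvalues. -/
noncomputable def res (A : Matrix (Fin q) (Fin q) R) : R[X] :=
  Matrix.det (A.charpoly.eval₂ ((Matrix.scalar (Fin q)).comp (Polynomial.C : R →+* R[X]))
    (A.map Polynomial.C + Matrix.scalar (Fin q) X))

/-- The lowest coefficient of `res`. -/
noncomputable def gzero (A : Matrix (Fin q) (Fin q) R) : R := (res A).coeff q

/-- `X ↦ A X - X A`. -/
def adL (A : Matrix (Fin q) (Fin q) R) : Module.End R (Matrix (Fin q) (Fin q) R) :=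
  LinearMap.mulLeft R A - LinearMap.mulRight R A

/-- The higher coefficients of `res`, evaluated at `adL`. -/
noncomputable def hop (A : Matrix (Fin q) (Fin q) R) : Module.End R (Matrix (Fin q) (Fin q) R) :=
  ∑ i ∈ range (q * q + 1), (res A).coeff (q + 1 + i) • adL A ^ i

/-- The polynomial form of the inverse of `adL` off its kernel. -/
noncomputable def op (A : Matrix (Fin q) (Fin q) R) : Module.End R (Matrix (Fin q) (Fin q) R) :=
  hop A * hop A * adL A

theorem res_map (f : R →+* S) (A : Matrix (Fin q) (Fin q) R) :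
    (res A).map f = res (A.map f) := by
  rw [res, res, ← Polynomial.coe_mapRingHom, RingHom.map_det, hom_eval₂, Matrix.charpoly_map,
    eval₂_map]
  congr 2
  · ext a i j
    simp [Matrix.scalar_apply, Matrix.diagonal_apply, apply_ite (Polynomial.map f)]
  · ext i j
    simp [Matrix.scalar_apply, Matrix.diagonal_apply, apply_ite (Polynomial.map f)]

theorem gzero_map (f : R →+* S) (A : Matrix (Fin q) (Fin q) R) :
    f (gzero A) = gzero (A.map f) := by
  rw [gzero, gzero, ← res_map, coeff_map]

theorem adL_map (f : R →+* S) (A Z : Matrix (Fin q) (Fin q) R) :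
    (adL A Z).map f = adL (A.map f) (Z.map f) := by
  simp [adL, Matrix.map_sub, Matrix.map_mul]

theorem hop_map (f : R →+* S) (A Z : Matrix (Fin q) (Fin q) R) :
    (hop A Z).map f = hop (A.map f) (Z.map f) := by
  have hpow : ∀ i : ℕ, ((adL A ^ i) Z).map f = (adL (A.map f) ^ i) (Z.map f) := by
    intro i
    induction i with
    | zero => simp
    | succ i ih => rw [pow_succ', pow_succ', Module.End.mul_apply, Module.End.mul_apply, adL_map, ih]
  simp only [hop, LinearMap.sum_apply, LinearMap.smul_apply, ← RingHom.mapMatrix_apply f, map_sum]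
  refine sum_congr rfl fun i _ => ?_
  rw [RingHom.mapMatrix_apply, Matrix.map_smul', hpow, ← coeff_map, res_map]
  · rfl
  · exact map_mul f

theorem op_map (f : R →+* S) (A Z : Matrix (Fin q) (Fin q) R) :
    (op A Z).map f = op (A.map f) (Z.map f) := by
  simp only [op, Module.End.mul_apply, hop_map, adL_map]

/-- The linear form at a tuple of matrices, over a ring. -/
def mat (l : Cls → ι → R) (C : Cls) (Y : ι → Matrix (Fin q) (Fin q) R) :
    Matrix (Fin q) (Fin q) R :=
  ∑ i, l C i • Y i

theorem mat_map (f : R →+* S) (l : Cls → ι → R) (C : Cls)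
    (Y : ι → Matrix (Fin q) (Fin q) R) :
    (mat l C Y).map f = mat (fun C i => f (l C i)) C (fun i => (Y i).map f) := by
  ext a b
  simp [mat, Matrix.sum_apply, map_sum]

variable [Fintype Cls] [DecidableEq Cls]

/-- The second order form, cleared of denominators. -/
noncomputable def phi (l : Cls → ι → R) (c : ι → Matrix (Fin q) (Fin q) R) (w : Cls → R)
    (U V : ι → Matrix (Fin q) (Fin q) R) : R :=
  ∑ C, w C * (∏ D ∈ univ.erase C, gzero (mat l D c) ^ 2) *
    Matrix.trace (op (mat l C c) (mat l C U) * mat l C V)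

theorem phi_map (f : R →+* S) (l : Cls → ι → R) (c : ι → Matrix (Fin q) (Fin q) R) (w : Cls → R)
    (U V : ι → Matrix (Fin q) (Fin q) R) :
    f (phi l c w U V) = phi (fun C i => f (l C i)) (fun i => (c i).map f) (fun C => f (w C))
      (fun i => (U i).map f) (fun i => (V i).map f) := by
  simp only [phi, map_sum, map_mul, map_prod, map_pow, gzero_map, mat_map, AddMonoidHom.map_trace,
    Matrix.map_mul, op_map]

/-- The standard basis of tuples. -/
def stdTuple [DecidableEq ι] (R : Type*) [CommRing R] (p : ι × Fin q × Fin q) :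
    ι → Matrix (Fin q) (Fin q) R :=
  Pi.single p.1 (Matrix.single p.2.1 p.2.2 1)

omit [Fintype ι] in
theorem stdTuple_map [DecidableEq ι] (f : R →+* S) (p : ι × Fin q × Fin q) :
    (fun i => (stdTuple R p i).map f) = stdTuple S p := by
  funext i
  by_cases h : i = p.1
  · subst h; simp [stdTuple]
  · simp [stdTuple, h]

theorem span_stdTuple [DecidableEq ι] :
    Submodule.span R (Set.range (stdTuple R : ι × Fin q × Fin q → _)) = ⊤ := by
  refine eq_top_iff.mpr fun V _ => ?_
  have hV : V = ∑ p : ι × Fin q × Fin q, V p.1 p.2.1 p.2.2 • stdTuple R p := by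
    funext j
    ext a b
    simp only [Finset.sum_apply, Pi.smul_apply, Matrix.sum_apply, Matrix.smul_apply, stdTuple]
    rw [sum_eq_single (j, a, b)]
    · simp
    · rintro ⟨j', a', b'⟩ - hne
      by_cases hj : j' = j
      · subst hj
        simp only [Pi.single_eq_same, Matrix.single_apply]
        rw [if_neg fun h => hne (by rw [h.1, h.2]), smul_zero]
      · simp [Ne.symm hj]
    · simp
  rw [hV]
  exact Submodule.sum_mem _ fun p _ => Submodule.smul_mem _ _ (Submodule.subset_span ⟨p, rfl⟩)

end Ring

section Spectral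

variable {F : Type*} [Field F] {q : ℕ} {A : Matrix (Fin q) (Fin q) F} {lam : Fin q → F}

theorem res_eq (hA : A.charpoly = ∏ k, (X - Polynomial.C (lam k))) :
    res A = X ^ q * ∏ k, ((-1 : F[X]) ^ (q + 1) *
      ∏ k' ∈ univ.erase k, (Polynomial.C (lam k - lam k') - X)) := by
  let φ : F[X] →* F[X] := Matrix.detMonoidHom.comp
    (eval₂RingHom' ((Matrix.scalar (Fin q)).comp (Polynomial.C : F →+* F[X]))
      (A.map Polynomial.C + Matrix.scalar (Fin q) X)
      (fun a => Matrix.scalar_commute _ (fun r => Commute.all _ _) _)).toMonoidHom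
  have hφ : ∀ p : F[X], φ p = Matrix.det (p.eval₂ ((Matrix.scalar (Fin q)).comp
      (Polynomial.C : F →+* F[X])) (A.map Polynomial.C + Matrix.scalar (Fin q) X)) := fun p => rfl
  rw [res, ← hφ, hA, map_prod]
  have hfac : ∀ k, φ (X - Polynomial.C (lam k)) =
      X * ((-1 : F[X]) ^ (q + 1) * ∏ k' ∈ univ.erase k, (Polynomial.C (lam k - lam k') - X)) := by
    intro k
    rw [hφ, eval₂_sub, eval₂_X, eval₂_C]
    rw [show A.map Polynomial.C + Matrix.scalar (Fin q) (X : F[X]) -
        ((Matrix.scalar (Fin q)).comp Polynomial.C) (lam k) =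
        -(Matrix.scalar (Fin q) (Polynomial.C (lam k) - X) - A.map Polynomial.C) by
      rw [map_sub, RingHom.comp_apply]; abel]
    rw [Matrix.det_neg, ← Matrix.eval_charpoly, Fintype.card_fin, Matrix.charpoly_map, hA,
      Polynomial.map_prod, eval_prod, ← mul_prod_erase univ _ (mem_univ k)]
    simp only [Polynomial.map_sub, map_X, map_C, eval_sub, eval_X, eval_C]
    rw [prod_congr rfl fun k' _ => show Polynomial.C (lam k) - X - Polynomial.C (lam k') =
      Polynomial.C (lam k - lam k') - X by rw [map_sub]; ring]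
    ring
  simp only [hfac]
  rw [prod_mul_distrib, prod_const, card_univ, Fintype.card_fin]

theorem natDegree_factor (lam : Fin q → F) :
    (∏ k, ((-1 : F[X]) ^ (q + 1) *
      ∏ k' ∈ univ.erase k, (Polynomial.C (lam k - lam k') - X))).natDegree ≤ q * q := by
  refine (natDegree_prod_le _ _).trans ((sum_le_card_nsmul _ _ q fun k _ => ?_).trans (by simp))
  refine natDegree_mul_le.trans ?_
  have h1 : ((-1 : F[X]) ^ (q + 1)).natDegree = 0 := by simp
  have h2 : (∏ k' ∈ univ.erase k, (Polynomial.C (lam k - lam k') - X)).natDegree ≤ q := by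
    refine (natDegree_prod_le _ _).trans ((sum_le_card_nsmul _ _ 1 fun k' _ => ?_).trans (by simp))
    compute_degree
  omega

theorem gzero_ne_zero (hA : A.charpoly = ∏ k, (X - Polynomial.C (lam k)))
    (hl : Function.Injective lam) : gzero A ≠ 0 := by
  rw [gzero, res_eq hA, coeff_X_pow_mul', if_pos le_rfl, Nat.sub_self, coeff_zero_eq_eval_zero,
    eval_prod]
  refine prod_ne_zero_iff.mpr fun k _ => ?_
  rw [eval_mul, eval_prod]
  refine mul_ne_zero (by simp) (prod_ne_zero_iff.mpr fun k' hk' => ?_)
  simpa [sub_eq_zero] using hl.ne (mem_erase.mp hk').1.symm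

theorem op_eq (hq : 0 < q) (hA : A.charpoly = ∏ k, (X - Polynomial.C (lam k)))
    (hl : Function.Injective lam) (Z : Matrix (Fin q) (Fin q) F) :
    op A Z = gzero A ^ 2 • ∑ k, ∑ k' ∈ univ.erase k,
      (lam k - lam k')⁻¹ • (SelectLin.proj A lam k * Z * SelectLin.proj A lam k') := by
  set g : F[X] := ∏ k, ((-1 : F[X]) ^ (q + 1) *
      ∏ k' ∈ univ.erase k, (Polynomial.C (lam k - lam k') - X)) with hg
  have hres : res A = X ^ q * g := res_eq hA
  have hg0 : gzero A = g.coeff 0 := by
    rw [gzero, hres, coeff_X_pow_mul', if_pos le_rfl, Nat.sub_self]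
  have hcoef : ∀ i, (res A).coeff (q + 1 + i) = g.divX.coeff i := by
    intro i
    rw [hres, coeff_X_pow_mul', if_pos (by omega), coeff_divX]
    congr 1
    omega
  have hP : ∀ k, A * SelectLin.proj A lam k = lam k • SelectLin.proj A lam k ∧
      SelectLin.proj A lam k * A = lam k • SelectLin.proj A lam k := by
    intro k
    have h : aeval A ((X - Polynomial.C (lam k)) * Lagrange.basis univ lam k) = 0 := by
      refine SelectLin.aeval_eq_zero_of_eval hA hl fun i => ?_
      rcases eq_or_ne k i with rfl | h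
      · simp
      · simp [Lagrange.eval_basis_of_ne h (mem_univ i)]
    have h' := h
    rw [mul_comm] at h'
    rw [map_mul, map_sub, aeval_X, aeval_C] at h h'
    rw [sub_mul, sub_eq_zero, ← Algebra.smul_def] at h
    rw [mul_sub, sub_eq_zero, ← Algebra.commutes, ← Algebra.smul_def] at h'
    exact ⟨h, h'⟩
  have hsum : ∑ k, SelectLin.proj A lam k = 1 := by
    have : NeZero q := ⟨hq.ne'⟩
    simp only [SelectLin.proj]
    rw [← map_sum, Lagrange.sum_basis hl.injOn univ_nonempty, map_one]
  have had : ∀ k k', adL A (SelectLin.proj A lam k * Z * SelectLin.proj A lam k') =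
      (lam k - lam k') • (SelectLin.proj A lam k * Z * SelectLin.proj A lam k') := by
    intro k k'
    simp only [adL, LinearMap.sub_apply, LinearMap.mulLeft_apply, LinearMap.mulRight_apply]
    rw [← mul_assoc, ← mul_assoc, (hP k).1, mul_assoc _ _ A, (hP k').2, Matrix.smul_mul,
      Matrix.smul_mul, Matrix.mul_smul, sub_smul]
  have hhop : ∀ (Y : Matrix (Fin q) (Fin q) F) (μ : F), adL A Y = μ • Y →
      hop A Y = g.divX.eval μ • Y := by
    intro Y μ hY
    have hpow : ∀ i : ℕ, (adL A ^ i) Y = μ ^ i • Y := by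
      intro i
      induction i with
      | zero => simp
      | succ i ih =>
        rw [pow_succ', Module.End.mul_apply, ih, map_smul, hY, smul_smul, pow_succ]
    have hdeg : g.divX.natDegree < q * q + 1 := by
      rw [natDegree_divX_eq_natDegree_tsub_one]
      have := natDegree_factor lam
      rw [← hg] at this
      omega
    rw [eval_eq_sum_range' hdeg, sum_smul]
    simp only [hop, LinearMap.sum_apply, LinearMap.smul_apply, hcoef, hpow, smul_smul]
  have hop' : ∀ k k', op A (SelectLin.proj A lam k * Z * SelectLin.proj A lam k') =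
      (g.divX.eval (lam k - lam k') * g.divX.eval (lam k - lam k') * (lam k - lam k')) •
        (SelectLin.proj A lam k * Z * SelectLin.proj A lam k') := by
    intro k k'
    simp only [op, Module.End.mul_apply, had, map_smul, hhop _ _ (had k k'), smul_smul]
    congr 1
    ring
  have hZ : Z = ∑ k, ∑ k', SelectLin.proj A lam k * Z * SelectLin.proj A lam k' := by
    simp only [← mul_sum, ← sum_mul, hsum, one_mul, mul_one]
  conv_lhs => rw [hZ]
  rw [smul_sum, map_sum]
  refine sum_congr rfl fun k _ => ?_
  rw [map_sum, smul_sum, ← sum_erase univ (a := k) (by rw [hop' k k, sub_self, mul_zero, zero_smul])]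
  refine sum_congr rfl fun k' hk' => ?_
  rw [hop', smul_smul]
  congr 1
  have hμ : lam k - lam k' ≠ 0 := sub_ne_zero.mpr (hl.ne (mem_erase.mp hk').1.symm)
  have hroot : g.eval (lam k - lam k') = 0 := by
    rw [hg, eval_prod, prod_eq_zero (mem_univ k)]
    rw [eval_mul, eval_prod, prod_eq_zero (i := k') hk' (by simp), mul_zero]
  rw [← g.divX_mul_X_add, eval_add, eval_mul, eval_X, eval_C, ← hg0] at hroot
  rw [eq_neg_of_add_eq_zero_right hroot]
  field_simp

end Spectral

section Pairs

variable {F : Type} [Field F] {ι Cls : Type} [Fintype ι] [Fintype Cls] {q : ℕ}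

/-- `PsiP` as a linear form in its last argument. -/
noncomputable def psiLin (l : Cls → ι → F) (c : ι → Matrix (Fin q) (Fin q) F)
    (lam : Cls → Fin q → F) (w : Cls → F) (U : ι → Matrix (Fin q) (Fin q) F) :
    (ι → Matrix (Fin q) (Fin q) F) →ₗ[F] F :=
  ∑ C, w C • ∑ k, ∑ k' ∈ univ.erase k, (lam C k - lam C k')⁻¹ •
    ((Matrix.traceLinearMap (Fin q) F F).comp ((LinearMap.mulLeft F
        (SelectLin.proj (Kernels.M l C c) (lam C) k * Kernels.M l C U *
          SelectLin.proj (Kernels.M l C c) (lam C) k')).comp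
      (∑ i, l C i • LinearMap.proj i)))

theorem psiLin_apply (l : Cls → ι → F) (c : ι → Matrix (Fin q) (Fin q) F)
    (lam : Cls → Fin q → F) (w : Cls → F) (U V : ι → Matrix (Fin q) (Fin q) F) :
    psiLin l c lam w U V = PsiP l c lam w U V := by
  simp [psiLin, PsiP, Kernels.M, LinearMap.sum_apply, div_eq_inv_mul, mul_sum, Matrix.trace_sum, mul_assoc]

theorem phi_eq [DecidableEq Cls] (hq : 0 < q) (l : Cls → ι → F)
    (c : ι → Matrix (Fin q) (Fin q) F) (lam : Cls → Fin q → F)
    (hlam : ∀ C, Function.Injective (lam C) ∧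
      (Kernels.M l C c).charpoly = ∏ k, (X - Polynomial.C (lam C k)))
    (w : Cls → F) (U V : ι → Matrix (Fin q) (Fin q) F) :
    phi l c w U V = (∏ D, gzero (mat l D c) ^ 2) * psiLin l c lam w U V := by
  rw [psiLin_apply, PsiP, mul_sum, phi]
  refine sum_congr rfl fun C _ => ?_
  rw [← mul_prod_erase univ _ (mem_univ C), op_eq (A := mat l C c) hq (hlam C).2 (hlam C).1]
  simp only [Matrix.smul_mul, Matrix.trace_smul, smul_eq_mul, sum_mul, Matrix.trace_sum, mul_sum]
  refine sum_congr rfl fun k _ => sum_congr rfl fun k' _ => ?_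
  simp only [mat, Kernels.M]
  ring

theorem psiLin_diag [DecidableEq ι] (l : Cls → ι → F) (t : ι → Fin q → F)
    (ht : ∀ C, Function.Injective fun k => ∑ i, l C i * t i k) (w : Cls → F)
    (U V : ι → Matrix (Fin q) (Fin q) F) :
    (∀ C, (Kernels.M l C fun i => Matrix.diagonal (t i)).charpoly =
      ∏ k, (X - Polynomial.C (∑ i, l C i * t i k))) ∧
    psiLin l (fun i => Matrix.diagonal (t i)) (fun C k => ∑ i, l C i * t i k) w U V =
      Kernels.Psi l t w U V := by
  have hM : ∀ C, Kernels.M l C (fun i => Matrix.diagonal (t i)) =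
      Matrix.diagonal fun k => ∑ i, l C i * t i k := by
    intro C
    ext a b
    by_cases h : a = b
    · subst h; simp [Kernels.M, Matrix.sum_apply]
    · simp [Kernels.M, Matrix.sum_apply, h]
  have hproj : ∀ C k, SelectLin.proj (Matrix.diagonal fun k => ∑ i, l C i * t i k)
      (fun k => ∑ i, l C i * t i k) k = Matrix.single k k (1 : F) := by
    intro C k
    rw [SelectLin.proj, ← Matrix.diagonalAlgHom_apply F, aeval_algHom_apply,
      Matrix.diagonalAlgHom_apply, ← Matrix.diagonal_single]
    congr 1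
    funext j
    simp only [coe_aeval_eq_eval, aeval_pi_apply]
    rcases eq_or_ne k j with rfl | h
    · rw [Pi.single_eq_same]
      exact Lagrange.eval_basis_self (v := fun k => ∑ i, l C i * t i k) (ht C).injOn (mem_univ k)
    · rw [Pi.single_eq_of_ne h.symm]
      exact Lagrange.eval_basis_of_ne (v := fun k => ∑ i, l C i * t i k) h (mem_univ j)
  refine ⟨fun C => by rw [hM, Matrix.charpoly_diagonal], ?_⟩
  rw [psiLin_apply, PsiP, Kernels.Psi]
  simp only [hM, hproj]
  refine sum_congr rfl fun C _ => congrArg (w C * ·) (sum_congr rfl fun k _ => sum_congr rfl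
    fun k' _ => ?_)
  rw [show Matrix.single k k (1 : F) * Kernels.M l C U * Matrix.single k' k' 1 =
    Matrix.single k k' (Kernels.M l C U k k') by simp, Matrix.trace_single_mul]
  simp

/-- (K3) Independence of the pairings is an open condition on the point. -/
theorem open_pairs [CharZero F] (l : Cls → ι → F) (h0 : ∀ C, l C ≠ 0)
    (hpair : ∀ C D, C ≠ D → LinearIndependent F ![l C, l D]) {m : ℕ} (om : Fin m → Cls → F)
    (hom : LinearIndependent F om) (B : ℕ) :
    ∃ N : ℕ, ∀ q ≥ N, ∃ P : MvPolynomial (ι × Fin q × Fin q) F, P ≠ 0 ∧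
      ∀ (F₀ : Type) [Field F₀] [CharZero F₀] (f : F →+* F₀)
        (c : ι → Matrix (Fin q) (Fin q) F₀) (lam : Cls → Fin q → F₀),
        MvPolynomial.eval₂ f (fun x => c x.1 x.2.1 x.2.2) P ≠ 0 →
        (∀ C, Function.Injective (lam C) ∧
          (Kernels.M (fun C i => f (l C i)) C c).charpoly = ∏ k, (X - Polynomial.C (lam C k))) →
        ∀ (J : Type) [Fintype J] (e : J → ι → Matrix (Fin q) (Fin q) F₀),
          Submodule.span F₀ (Set.range e) = ⊤ →
          ∃ U : Fin (B * q) → ι → Matrix (Fin q) (Fin q) F₀,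
            LinearIndependent F₀ fun (x : Fin m × Fin (B * q)) (i : J) =>
              PsiP (fun C i => f (l C i)) c lam (fun C => f (om x.1 C)) (U x.2) (e i) := by
  classical
  obtain ⟨N, hN⟩ := Kernels.pairs l h0 hpair om hom B
  refine ⟨N + 1, fun q hq => ?_⟩
  obtain ⟨t, u, ht, hu⟩ := hN q (by omega)
  have hq0 : 0 < q := by omega
  -- the matrix at the diagonal point and a right inverse
  let t' : ι → Matrix (Fin q) (Fin q) F := fun i => Matrix.diagonal (t i)
  let Φ0 : Matrix (Fin m × Fin (B * q)) (ι × Fin q × Fin q) F :=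
    Matrix.of fun x p => phi l t' (om x.1) (u x.2) (stdTuple F p)
  have hΦ0 : LinearIndependent F Φ0.row := by
    rw [Fintype.linearIndependent_iff] at hu ⊢
    intro g hg
    refine hu g ?_
    funext V
    have hzero : ∑ x, g x • psiLin l t' (fun C k => ∑ i, l C i * t i k) (om x.1) (u x.2) = 0 := by
      refine LinearMap.ext_on_range span_stdTuple fun p => ?_
      have h1 := congrFun hg p
      simp only [Finset.sum_apply, Pi.smul_apply, smul_eq_mul, Pi.zero_apply, Matrix.row_apply,
        Φ0, Matrix.of_apply] at h1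
      simp only [LinearMap.sum_apply, LinearMap.smul_apply, smul_eq_mul, LinearMap.zero_apply]
      have hne : (∏ D, gzero (mat l D t') ^ 2) ≠ 0 := prod_ne_zero_iff.mpr fun D _ =>
        pow_ne_zero _ (gzero_ne_zero ((psiLin_diag l t ht (fun _ => 0) t' t').1 D) (ht D))
      refine (mul_eq_zero.mp (?_ : (∏ D, gzero (mat l D t') ^ 2) * _ = 0)).resolve_left hne
      rw [← h1, mul_sum]
      refine sum_congr rfl fun x _ => ?_
      rw [phi_eq hq0 l t' _ (fun C => ⟨ht C, (psiLin_diag l t ht (om x.1) t' t').1 C⟩)]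
      ring
    have := DFunLike.congr_fun hzero V
    simp only [LinearMap.sum_apply, LinearMap.smul_apply, smul_eq_mul, LinearMap.zero_apply,
      t', fun x : Fin m × Fin (B * q) => (psiLin_diag l t ht (om x.1) (u x.2) V).2] at this
    simpa using this
  obtain ⟨w, hw⟩ : ∃ w : Matrix (ι × Fin q × Fin q) (Fin m × Fin (B * q)) F, Φ0 * w = 1 := by
    have hinj : Function.Injective (Matrix.mulVecLin Φ0.transpose) := by
      rw [Matrix.coe_mulVecLin, Matrix.mulVec_injective_iff]
      exact hΦ0
    obtain ⟨g, hg⟩ := LinearMap.exists_leftInverse_of_injective _ (LinearMap.ker_eq_bot.mpr hinj)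
    refine ⟨(LinearMap.toMatrix' g).transpose, ?_⟩
    have h' : LinearMap.toMatrix' g * Φ0.transpose = 1 := by
      rw [← LinearMap.toMatrix'_toLin' Φ0.transpose, Matrix.toLin'_apply',
        ← LinearMap.toMatrix'_comp, hg, LinearMap.toMatrix'_id]
    rw [← Matrix.transpose_transpose Φ0, ← Matrix.transpose_mul, h', Matrix.transpose_one]
  -- the generic matrix
  let cX : ι → Matrix (Fin q) (Fin q) (MvPolynomial (ι × Fin q × Fin q) F) :=
    fun i => Matrix.of fun a b => MvPolynomial.X (i, a, b)
  let ΦX : Matrix (Fin m × Fin (B * q)) (ι × Fin q × Fin q) (MvPolynomial (ι × Fin q × Fin q) F) :=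
    Matrix.of fun x p => phi (fun C i => MvPolynomial.C (l C i)) cX
      (fun C => MvPolynomial.C (om x.1 C)) (fun i => (u x.2 i).map MvPolynomial.C) (stdTuple _ p)
  have hspec : ∀ {K : Type} [Field K] (f : F →+* K) (c : ι → Matrix (Fin q) (Fin q) K),
      (MvPolynomial.eval₂ f (fun x => c x.1 x.2.1 x.2.2) (Matrix.det (ΦX * (w.map MvPolynomial.C : Matrix (ι × Fin q × Fin q) (Fin m × Fin (B * q)) (MvPolynomial (ι × Fin q × Fin q) F))))) =
        ((Matrix.of fun (x : Fin m × Fin (B * q)) (p : ι × Fin q × Fin q) =>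
          phi (fun C i => f (l C i)) c (fun C => f (om x.1 C))
            (fun i => (u x.2 i).map f) (stdTuple K p)) * w.map f).det := by
    intro K _ f c
    let φ := MvPolynomial.eval₂Hom f (fun x : ι × Fin q × Fin q => c x.1 x.2.1 x.2.2)
    have hφC : ∀ a, φ (MvPolynomial.C a) = f a := fun a => MvPolynomial.eval₂Hom_C f _ a
    show φ _ = _
    rw [RingHom.map_det, RingHom.mapMatrix_apply, Matrix.map_mul]
    congr 2
    · ext x p
      simp only [Matrix.map_apply, ΦX, Matrix.of_apply, phi_map, hφC, stdTuple_map]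
      congr 1
      · funext i; ext a b; simp [cX, φ]
      · funext i; ext a b; simp [hφC]
    · ext a b; simp [hφC]
  refine ⟨Matrix.det (ΦX * (w.map MvPolynomial.C : Matrix (ι × Fin q × Fin q) (Fin m × Fin (B * q)) (MvPolynomial (ι × Fin q × Fin q) F))), ?_, ?_⟩
  · intro h
    have h1 := hspec (RingHom.id F) t'
    rw [h, MvPolynomial.eval₂_zero] at h1
    have h2 : ((Φ0 * w).det) = 0 := by
      rw [h1]
      congr 2
    rw [hw, Matrix.det_one] at h2
    exact one_ne_zero h2
  intro F₀ _ _ f c lam hP hlam J _ e he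
  refine ⟨fun r i => (u r i).map f, ?_⟩
  rw [hspec] at hP
  rw [Fintype.linearIndependent_iff]
  intro g hg
  have hzero : ∑ x : Fin m × Fin (B * q), g x • psiLin (fun C i => f (l C i)) c lam
      (fun C => f (om x.1 C)) (fun i => (u x.2 i).map f) = 0 := by
    refine LinearMap.ext_on_range he fun i => ?_
    have h1 := congrFun hg i
    simpa [psiLin_apply] using h1
  have hvec : Matrix.vecMul g (Matrix.of fun (x : Fin m × Fin (B * q)) (p : ι × Fin q × Fin q) =>
      phi (fun C i => f (l C i)) c (fun C => f (om x.1 C))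
        (fun i => (u x.2 i).map f) (stdTuple F₀ p)) = 0 := by
    funext p
    have h1 := DFunLike.congr_fun hzero (stdTuple F₀ p)
    simp only [LinearMap.sum_apply, LinearMap.smul_apply, smul_eq_mul, LinearMap.zero_apply] at h1
    simp only [Matrix.vecMul, dotProduct, Matrix.of_apply, phi_eq hq0 _ c lam hlam, Pi.zero_apply]
    rw [← mul_zero (∏ D, gzero (mat (fun C i => f (l C i)) D c) ^ 2), ← h1, mul_sum]
    exact sum_congr rfl fun x _ => by ring
  have := Matrix.eq_zero_of_vecMul_eq_zero hP (v := g)
    (by rw [← Matrix.vecMul_vecMul, hvec, Matrix.zero_vecMul])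
  exact fun x => congrFun this x

end Pairs

end Vale.Agent.P199.OpenPairs
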