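import Mathlib.Data.List.Rotate
import Mathlib.Algebra.Module.Basic
import Mathlib.Algebra.Field.Basic
import Mathlib.Algebra.CharZero.Defs
import Mathlib.Algebra.BigOperators.Module
import Mathlib.Algebra.BigOperators.Group.Finset.Piecewise
import Mathlib.Tactic.Abel

/-!
A homogeneous noncommutative polynomial all of whose rotation sums vanish is a sum of
commutators with the variables.
-/

namespace Vale.Agent.P199.Cyclic

open Finset

variable {K A s : Type*} [Field K] [CharZero K] [AddCommGroup A] [Module K A]

/-- The averaged primitive of a coefficient function along rotations. -/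
def avg (K : Type*) [Field K] {A : Type*} [AddCommGroup A] [Module K A] (D : ℕ)
    (f : List s → A) (w : List s) : A :=
  -((D : K)⁻¹ • ∑ r ∈ range D, ((D : K) - (r : K)) • f (w.rotate (r + 1)))

lemma avg_sub (D : ℕ) (hD : D ≠ 0) (f : List s → A) (w : List s) (hw : w.length = D)
    (h : ∑ r ∈ range D, f (w.rotate r) = 0) :
    avg K D f w - avg K D f (w.rotate (D - 1)) = f w := by
  have hper : ∀ r, f ((w.rotate (D - 1)).rotate (r + 1)) = f (w.rotate r) := by
    intro r
    rw [List.rotate_rotate, show D - 1 + (r + 1) = w.length + r by omega,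
      ← List.rotate_rotate, List.rotate_length]
  obtain ⟨E, rfl⟩ := Nat.exists_eq_succ_of_ne_zero hD
  simp only [avg, hper, neg_sub_neg]
  rw [← smul_sub]
  have h1 : ∑ r ∈ range (E + 1), (((E + 1 : ℕ) : K) - (r : K)) • f (w.rotate r) -
      ∑ r ∈ range (E + 1), (((E + 1 : ℕ) : K) - (r : K)) • f (w.rotate (r + 1)) =
      ((E + 1 : ℕ) : K) • f w - ∑ r ∈ range (E + 1), f (w.rotate (r + 1)) := by
    have key : ∀ n ≤ E + 1, ∑ r ∈ range n, (((E + 1 : ℕ) : K) - (r : K)) • f (w.rotate r) -
        ∑ r ∈ range n, (((E + 1 : ℕ) : K) - (r : K)) • f (w.rotate (r + 1)) =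
        ((E + 1 : ℕ) : K) • f w - (((E + 1 : ℕ) : K) - (n : K)) • f (w.rotate n) -
          ∑ r ∈ range n, f (w.rotate (r + 1)) := by
      intro n hn
      induction n with
      | zero => simp
      | succ n ih =>
        specialize ih (by omega)
        rw [sum_range_succ, sum_range_succ, sum_range_succ]
        rw [show ((n + 1 : ℕ) : K) = (n : K) + 1 by push_cast; rfl]
        rw [sub_eq_iff_eq_add] at ih
        rw [ih]
        simp only [sub_smul, add_smul, one_smul]
        abel
    rw [key (E + 1) le_rfl, sub_self, zero_smul, sub_zero]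
  have h2 : ∑ r ∈ range (E + 1), f (w.rotate (r + 1)) = 0 := by
    rw [sum_range_succ' (fun r => f (w.rotate r)) E, List.rotate_zero] at h
    rw [sum_range_succ, show E + 1 = w.length from hw.symm, List.rotate_length]
    exact h
  rw [h1, h2, sub_zero, smul_smul, inv_mul_cancel₀ (Nat.cast_ne_zero.2 hD), one_smul]

/-- Vanishing rotation sums imply being a sum of commutators with the variables: the
coefficient at `w` of `∑ i, (w_i X_i - X_i w_i)` is given by the right hand side. -/
theorem exists_commutator (K : Type*) [Field K] [CharZero K] [Module K A] [Fintype s]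
    [DecidableEq s] (D : ℕ) (hD : D ≠ 0) (f : List s → A)
    (hhom : ∀ w, w.length ≠ D → f w = 0)
    (hrot : ∀ w : List s, w.length = D → ∑ r ∈ range D, f (w.rotate r) = 0) :
    ∃ X : s → List s → A, (∀ i t, t.length + 1 ≠ D → X i t = 0) ∧
      ∀ w, f w = (∑ i, if w.head? = some i then X i w.tail else 0) -
        ∑ i, if w.getLast? = some i then X i w.dropLast else 0 := by
  refine ⟨fun i t => if t.length + 1 = D then avg K D f (i :: t) else 0,
    fun i t ht => if_neg ht, fun w => ?_⟩
  rcases List.eq_nil_or_concat' w with rfl | ⟨u, a, rfl⟩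
  · simp [hhom [] (by simpa using hD.symm)]
  obtain ⟨b, t, hbt⟩ := List.exists_cons_of_ne_nil (l := u ++ [a]) (by simp)
  have hlen : t.length = u.length := by
    have := congrArg List.length hbt
    simpa using this.symm
  have e1 : (u ++ [a]).head? = some b := by rw [hbt]; rfl
  have e2 : (u ++ [a]).tail = t := by rw [hbt]; rfl
  simp only [e1, e2, List.getLast?_concat, List.dropLast_concat, Option.some.injEq,
    Finset.sum_ite_eq, mem_univ, ↓reduceIte, hlen]
  by_cases hu : u.length + 1 = D
  · rw [if_pos hu, if_pos hu, ← hbt]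
    have hl : (u ++ [a]).length = D := by simp [hu]
    have hr : (u ++ [a]).rotate (D - 1) = a :: u := by
      rw [show D - 1 = u.length by omega, List.rotate_append_length_eq]
      rfl
    have := avg_sub (K := K) D hD f (u ++ [a]) hl (hrot _ hl)
    rw [hr] at this
    exact this.symm
  · rw [if_neg hu, if_neg hu, sub_zero]
    exact hhom _ (by simpa using hu)

end Vale.Agent.P199.Cyclic
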