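import Mathlib.LinearAlgebra.Matrix.ToLin
import Mathlib.LinearAlgebra.Dual.Lemmas
import Mathlib.Algebra.Algebra.Defs
import Mathlib.LinearAlgebra.Matrix.Rank

/-!
Linear systems with coefficients in a subfield.
-/

namespace Vale.Agent.P199.Descent

open Matrix

variable {K F : Type*} [Field K] [Field F] {m n : Type*} [Fintype m] [Fintype n]

/-- A system over `K` solvable over an extension is solvable over `K`. -/
theorem exists_mulVec_eq (φ : K →+* F) (A : Matrix m n K) (b : m → K)
    {x : n → F} (hx : A.map φ *ᵥ x = φ ∘ b) : ∃ y : n → K, A *ᵥ y = b := by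
  classical
  by_contra hno
  have hb : b ∉ LinearMap.range A.mulVecLin := fun ⟨y, hy⟩ => hno ⟨y, hy⟩
  obtain ⟨f, hfb, hf⟩ := Submodule.exists_dual_map_eq_bot_of_notMem hb inferInstance
  let c : m → K := fun i => f (Pi.single i 1)
  have hfc : ∀ v : m → K, f v = ∑ i, c i * v i := by
    intro v
    rw [LinearMap.pi_apply_eq_sum_univ f v]
    refine Finset.sum_congr rfl fun i _ => ?_
    rw [smul_eq_mul, mul_comm]
    congr 1
    refine congrArg f (funext fun j => ?_)
    simp [Pi.single_apply, eq_comm]
  have hcA : ∀ j, ∑ i, c i * A i j = 0 := by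
    intro j
    have h1 : f (A.mulVecLin (Pi.single j 1)) ∈ (LinearMap.range A.mulVecLin).map f :=
      ⟨_, ⟨_, rfl⟩, rfl⟩
    rw [hf, Submodule.mem_bot, hfc] at h1
    simpa using h1
  refine hfb ?_
  rw [hfc]
  refine φ.injective ?_
  rw [map_sum, map_zero]
  calc ∑ i, φ (c i * b i) = ∑ i, φ (c i) * (A.map φ *ᵥ x) i := by simp [hx]
    _ = ∑ i, φ (c i) * ∑ j, φ (A i j) * x j := by simp [Matrix.mulVec, dotProduct]
    _ = ∑ j, φ (∑ i, c i * A i j) * x j := by
        simp only [Finset.mul_sum, map_sum, map_mul, Finset.sum_mul, mul_assoc]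
        rw [Finset.sum_comm]
    _ = 0 := by simp [hcA]

/-- An affine system solvable over the extension: some solution over the extension is
rational. -/
theorem exists_rational (φ : K →+* F) (A : Matrix m n K) (b : m → K)
    (hx : ∃ x : n → F, A.map φ *ᵥ x = φ ∘ b) :
    ∃ y : n → K, A *ᵥ y = b ∧ A.map φ *ᵥ (φ ∘ y) = φ ∘ b := by
  obtain ⟨x, hx⟩ := hx
  obtain ⟨y, hy⟩ := exists_mulVec_eq φ A b hx
  refine ⟨y, hy, funext fun i => ?_⟩
  rw [Function.comp_apply, ← hy]
  exact (RingHom.map_mulVec φ A y i).symm

/-- A vector outside a `K`-subspace of the kernel over `F` comes with a rational one. -/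
theorem exists_mem_ker_dot_ne_zero (φ : K →+* F) (A : Matrix m n K) (w : n → F)
    {x : n → F} (hx : A.map φ *ᵥ x = 0) (hw : w ⬝ᵥ x ≠ 0) :
    ∃ y : n → K, A *ᵥ y = 0 ∧ w ⬝ᵥ (φ ∘ y) ≠ 0 := by
  classical
  letI := φ.toAlgebra
  by_contra hno
  push Not at hno
  -- split the weights along a basis of `F` over `K`
  let b := Module.Free.chooseBasis K F
  have hsum : ∀ y : n → K, b.repr (w ⬝ᵥ (φ ∘ y)) = ∑ j, y j • b.repr (w j) := by
    intro y
    rw [dotProduct, map_sum]
    refine Finset.sum_congr rfl fun j _ => ?_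
    rw [← map_smul]
    congr 1
    rw [Algebra.smul_def, mul_comm]
    rfl
  have hall : ∀ k, ∃ z : m → K, ∀ j, ∑ i, z i * A i j = b.repr (w j) k := by
    intro k
    let r : n → K := fun j => b.repr (w j) k
    by_contra hz
    push Not at hz
    have hr : r ∉ LinearMap.range A.transpose.mulVecLin := by
      rintro ⟨z, hz'⟩
      obtain ⟨j, hj⟩ := hz z
      refine hj ?_
      have := congrFun hz' j
      rw [Matrix.mulVecLin_apply, Matrix.mulVec_transpose] at this
      exact this
    obtain ⟨f, hfr, hf⟩ := Submodule.exists_dual_map_eq_bot_of_notMem hr inferInstance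
    let y : n → K := fun j => f (Pi.single j 1)
    have hfy : ∀ v : n → K, f v = ∑ j, y j * v j := by
      intro v
      rw [LinearMap.pi_apply_eq_sum_univ f v]
      refine Finset.sum_congr rfl fun j _ => ?_
      rw [smul_eq_mul, mul_comm]
      congr 1
      refine congrArg f (funext fun i => ?_)
      simp [Pi.single_apply, eq_comm]
    have hAy : A *ᵥ y = 0 := by
      funext i
      have h1 : f (A.transpose.mulVecLin (Pi.single i 1)) ∈
          (LinearMap.range A.transpose.mulVecLin).map f := ⟨_, ⟨_, rfl⟩, rfl⟩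
      rw [hf, Submodule.mem_bot, hfy] at h1
      simpa [Matrix.mulVec, dotProduct, mul_comm] using h1
    refine hfr ?_
    rw [hfy]
    have := congrArg (fun v => v k) (congrArg b.repr (hno y hAy))
    simp only [hsum, map_zero, Finsupp.coe_zero, Pi.zero_apply, Finsupp.coe_finset_sum,
      Finset.sum_apply, Finsupp.coe_smul, Pi.smul_apply, smul_eq_mul] at this
    exact this
  choose z hz using hall
  refine hw ?_
  let S := Finset.univ.biUnion fun j => (b.repr (w j)).support
  have hwj : ∀ j, w j = ∑ k ∈ S, φ (b.repr (w j) k) * b k := by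
    intro j
    conv_lhs => rw [← b.linearCombination_repr (w j)]
    rw [Finsupp.linearCombination_apply, Finsupp.sum_of_support_subset _
      (Finset.subset_biUnion_of_mem (fun j => (b.repr (w j)).support) (Finset.mem_univ j))
      (fun k a => a • b k) (fun k _ => zero_smul K _)]
    exact Finset.sum_congr rfl fun k _ => Algebra.smul_def _ _
  have hA : ∀ i, ∑ j, φ (A i j) * x j = 0 := fun i => by
    simpa [Matrix.mulVec, dotProduct] using congrFun hx i
  calc w ⬝ᵥ x = ∑ j, ∑ k ∈ S, ∑ i, φ (z k i) * φ (A i j) * b k * x j := by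
        simp only [dotProduct]
        refine Finset.sum_congr rfl fun j _ => ?_
        rw [hwj j, Finset.sum_mul]
        refine Finset.sum_congr rfl fun k _ => ?_
        rw [← hz k j, map_sum, Finset.sum_mul, Finset.sum_mul]
        exact Finset.sum_congr rfl fun i _ => by rw [map_mul]
    _ = ∑ k ∈ S, ∑ i, φ (z k i) * b k * ∑ j, φ (A i j) * x j := by
        rw [Finset.sum_comm]
        refine Finset.sum_congr rfl fun k _ => ?_
        rw [Finset.sum_comm]
        refine Finset.sum_congr rfl fun i _ => ?_
        rw [Finset.mul_sum]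
        exact Finset.sum_congr rfl fun j _ => by ring
    _ = 0 := by simp [hA]

end Vale.Agent.P199.Descent
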