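import Vale.Agent.P199.Greedy
import Mathlib.LinearAlgebra.Dual.Lemmas
import Mathlib.RingTheory.Noetherian.Basic

/-!
Two vectors with jointly independent functionals under a space of bilinear forms of large rank.
-/

namespace Vale.Agent.P199.TwoVectors

open Module Greedy

variable {K V ι : Type*} [Field K] [AddCommGroup V] [Module K V]

lemma finrank_range_le_map_add {W : Type*} [AddCommGroup W] [Module K W] [FiniteDimensional K V]
    (f : V →ₗ[K] W) (P : Submodule K V) :
    finrank K (LinearMap.range f) + finrank K P ≤ finrank K (P.map f) + finrank K V := by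
  obtain ⟨C, hC⟩ := exists_isCompl P
  have h1 := Submodule.finrank_add_eq_of_isCompl hC
  have h2 : LinearMap.range f = P.map f ⊔ C.map f := by
    rw [← Submodule.map_sup, hC.sup_eq_top, Submodule.map_top]
  have h3 := Submodule.finrank_add_le_finrank_add_finrank (P.map f) (C.map f)
  have h4 := Submodule.finrank_map_le f C
  rw [← h2] at h3
  omega

lemma finrank_le_map_add_ker {W W' : Type*} [AddCommGroup W] [Module K W] [AddCommGroup W']
    [Module K W'] [FiniteDimensional K W] (f : W →ₗ[K] W') (S : Submodule K W) :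
    finrank K S ≤ finrank K (S.map f) + finrank K (LinearMap.ker f) := by
  have h1 := LinearMap.finrank_range_add_finrank_ker (f.domRestrict S)
  have h2 : LinearMap.range (f.domRestrict S) = S.map f := by
    ext x
    simp [LinearMap.mem_range]
  have h3 : finrank K (LinearMap.ker (f.domRestrict S)) ≤ finrank K (LinearMap.ker f) := by
    refine LinearMap.finrank_le_finrank_of_injective (f := (S.subtype.comp
      (LinearMap.ker (f.domRestrict S)).subtype).codRestrict (LinearMap.ker f) fun x => x.2) ?_
    intro a b h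
    exact Subtype.ext (Subtype.ext (congrArg Subtype.val h :))
  rw [h2] at h1
  omega

/-- Greedy choice avoiding a proper subspace of a subspace. -/
lemma exists_apply_notMem [Infinite K] {W : Type*} [AddCommGroup W] [Module K W]
    [FiniteDimensional K W] [Fintype ι] (T : ι → V →ₗ[K] W)
    (hT : ∀ c : ι → K, c ≠ 0 → Fintype.card ι ≤ finrank K (LinearMap.range (∑ i, c i • T i)))
    {H : Submodule K V} (hH : H ≠ ⊤) :
    ∃ u, u ∉ H ∧ LinearIndependent K (fun i => T i u) := by
  obtain ⟨u, hu⟩ := exists_linearIndependent_apply T hT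
  by_cases hmem : u ∈ H
  · obtain ⟨w, hw⟩ : ∃ w, w ∉ H := by
      by_contra h; push Not at h
      exact hH (eq_top_iff.2 fun x _ => h x)
    obtain ⟨e, he, hind⟩ := exists_ne_zero_linearIndependent (fun i => T i w) hu
    refine ⟨u + e • w, fun h => hw ?_, by simpa using hind⟩
    have h' := H.sub_mem h hmem
    rw [add_sub_cancel_left] at h'
    simpa [he] using H.smul_mem e⁻¹ h'
  · exact ⟨u, hmem, hu⟩

/-- Two vectors, independent modulo `G`, isotropic for every form, whose functionals are
jointly independent. -/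
theorem exists_two [Infinite K] [FiniteDimensional K V] [Fintype ι]
    (B : ι → V →ₗ[K] Dual K V)
    (hB : ∀ c : ι → K, c ≠ 0 → 3 * Fintype.card ι ≤ finrank K (LinearMap.range (∑ i, c i • B i)))
    (G : Submodule K V) (hG : finrank K G + Fintype.card ι + 2 ≤ finrank K V) :
    ∃ u₁ u₂ : V, u₁ ∉ G ∧ u₂ ∉ G ⊔ Submodule.span K {u₁} ∧ (∀ i, B i u₁ u₂ = 0) ∧
      LinearIndependent K (Sum.elim (fun i => B i u₁) fun i => B i u₂) := by
  classical
  have hG1 : G ≠ ⊤ := fun h => by rw [h, finrank_top] at hG; omega
  obtain ⟨u₁, hu₁G, hu₁⟩ :=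
    exists_apply_notMem B (fun c hc => le_trans (by omega) (hB c hc)) hG1
  let ev : V →ₗ[K] (ι → K) := LinearMap.pi fun i => B i u₁
  let P := LinearMap.ker ev
  have hP : finrank K V ≤ finrank K P + Fintype.card ι := by
    have h1 := LinearMap.finrank_range_add_finrank_ker ev
    have h2 := Submodule.finrank_le (LinearMap.range ev)
    rw [Module.finrank_fintype_fun_eq_card] at h2
    show finrank K V ≤ finrank K (LinearMap.ker ev) + Fintype.card ι
    omega
  let L : Submodule K (Dual K V) := Submodule.span K (Set.range fun i => B i u₁)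
  have hL : finrank K L ≤ Fintype.card ι := finrank_range_le_card (fun i => B i u₁)
  let T : ι → P →ₗ[K] (Dual K V ⧸ L) := fun i => (L.mkQ.comp (B i)).comp P.subtype
  have hT : ∀ c : ι → K, c ≠ 0 →
      Fintype.card ι ≤ finrank K (LinearMap.range (∑ i, c i • T i)) := by
    intro c hc
    have hcomb : ∑ i, c i • T i = (L.mkQ.comp (∑ i, c i • B i)).comp P.subtype := by
      ext x
      simp [T]
    rw [hcomb, LinearMap.range_comp, Submodule.range_subtype, Submodule.map_comp]
    have h1 := finrank_range_le_map_add (∑ i, c i • B i) P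
    have h2 := finrank_le_map_add_ker L.mkQ (P.map (∑ i, c i • B i))
    rw [Submodule.ker_mkQ] at h2
    have h4 := hB c hc
    omega
  let H : Submodule K P := (G ⊔ Submodule.span K {u₁}).comap P.subtype
  have hH : H ≠ ⊤ := by
    intro h
    have hle : P ≤ G ⊔ Submodule.span K {u₁} := fun x hx =>
      (show (⟨x, hx⟩ : P) ∈ H from h ▸ Submodule.mem_top)
    have h1 := Submodule.finrank_mono hle
    have h2 := Submodule.finrank_add_le_finrank_add_finrank G (Submodule.span K {u₁})
    have h3 : finrank K (Submodule.span K {u₁}) ≤ 1 := by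
      refine (finrank_span_le_card ({u₁} : Set V)).trans ?_
      simp
    omega
  obtain ⟨u₂, hu₂H, hu₂⟩ := exists_apply_notMem T hT hH
  refine ⟨u₁, u₂, hu₁G, hu₂H, fun i => congrFun u₂.2 i, ?_⟩
  refine hu₁.sum_type (LinearIndependent.of_comp L.mkQ hu₂) ?_
  rw [Submodule.disjoint_def]
  intro x hx hx2
  obtain ⟨g, rfl⟩ := (Submodule.mem_span_range_iff_exists_fun K).1 hx2
  have hzero : L.mkQ (∑ i, g i • B i (u₂ : V)) = 0 := (Submodule.Quotient.mk_eq_zero L).2 hx
  rw [map_sum] at hzero
  have hg := Fintype.linearIndependent_iff.1 hu₂ g (by simpa [T] using hzero)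
  simp [hg]

end Vale.Agent.P199.TwoVectors
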