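import Mathlib.Algebra.MvPolynomial.Funext
import Mathlib.LinearAlgebra.Matrix.Rank
import Mathlib.LinearAlgebra.FiniteDimensional.Lemmas
import Mathlib.LinearAlgebra.Matrix.NonsingularInverse
import Mathlib.RingTheory.MvPolynomial.Basic

/-!
Identities between polynomials tested on the points of an infinite subfield.
-/

namespace Vale.Agent.P199.Universal

open Matrix MvPolynomial

variable {K F : Type*} [Field K] [Infinite K] [Field F] {σ : Type*}

/-- A polynomial vanishing at all points of an infinite subfield is zero. -/
theorem eq_zero_of_eval_eq_zero (φ : K →+* F) (P : MvPolynomial σ F)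
    (h : ∀ x : σ → K, eval (φ ∘ x) P = 0) : P = 0 := by
  refine funext_set (R := F) (fun _ => Set.range φ)
    (fun _ => Set.infinite_range_of_injective φ.injective) fun y hy => ?_
  choose x hx using fun i => hy i (Set.mem_univ i)
  have : y = φ ∘ x := (funext hx).symm
  rw [this, h x, map_zero]

/-- Some point of the subfield avoids any finite family of nonzero polynomials. -/
theorem exists_eval_ne_zero (φ : K →+* F) {κ : Type*} (S : Finset κ) (P : κ → MvPolynomial σ F)
    (h : ∀ k ∈ S, P k ≠ 0) : ∃ x : σ → K, ∀ k ∈ S, eval (φ ∘ x) (P k) ≠ 0 := by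
  classical
  have hprod : ∏ k ∈ S, P k ≠ 0 := Finset.prod_ne_zero_iff.2 h
  by_contra hno
  push Not at hno
  refine hprod (eq_zero_of_eval_eq_zero φ _ fun x => ?_)
  obtain ⟨k, hk, hk0⟩ := hno x
  rw [map_prod]
  exact Finset.prod_eq_zero hk hk0

/-- A matrix of rank at least `r` has a nonvanishing minor of size `r`. -/
theorem exists_minor {L : Type*} [Field L] {m n : Type*} [Fintype m] [Fintype n]
    (A : Matrix m n L) {r : ℕ} (hr : r ≤ A.rank) :
    ∃ (f : Fin r → m) (g : Fin r → n), (A.submatrix f g).det ≠ 0 := by
  classical
  obtain ⟨b, hbsub, hbspan, hbind⟩ := exists_linearIndependent L (Set.range A.row)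
  haveI : Fintype b := ((Set.finite_range _).subset hbsub).fintype
  have hcard : r ≤ Fintype.card b := by
    rw [Matrix.rank_eq_finrank_span_row, ← hbspan, finrank_span_set_eq_card hbind,
      Set.toFinset_card] at hr
    exact hr
  obtain ⟨e⟩ : Nonempty (Fin r ↪ b) :=
    Function.Embedding.nonempty_of_card_le (by simpa using hcard)
  choose idx hidx using fun x : b => hbsub x.2
  let f : Fin r → m := fun i => idx (e i)
  have hrows : LinearIndependent L (A.submatrix f id).row := by
    have he : (A.submatrix f id).row = fun i => ((e i : b) : n → L) :=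
      funext fun i => hidx (e i)
    rw [he]
    exact hbind.comp e e.injective
  obtain ⟨c, hcsub, hcspan, hcind⟩ :=
    exists_linearIndependent L (Set.range (A.submatrix f id).col)
  haveI : Fintype c := ((Set.finite_range _).subset hcsub).fintype
  have hccard : Fintype.card c = r := by
    have h1 := hrows.rank_matrix
    rw [Matrix.rank_eq_finrank_span_cols, ← hcspan, finrank_span_set_eq_card hcind,
      Set.toFinset_card, Fintype.card_fin] at h1
    exact h1
  choose jdx hjdx using fun x : c => hcsub x.2
  let e' : Fin r ≃ c := (Fintype.equivFinOfCardEq hccard).symm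
  refine ⟨f, fun j => jdx (e' j), ?_⟩
  have hcols : LinearIndependent L (A.submatrix f fun j => jdx (e' j)).col := by
    have he : (A.submatrix f fun j => jdx (e' j)).col = fun j => ((e' j : c) : Fin r → L) :=
      funext fun j => hjdx (e' j)
    rw [he]
    exact hcind.comp e' e'.injective
  exact fun h0 => by
    have hu := Matrix.linearIndependent_cols_iff_isUnit.1 hcols
    rw [Matrix.isUnit_iff_isUnit_det, isUnit_iff_ne_zero] at hu
    exact hu h0

/-- A matrix of polynomials of rank at most `r` at all points of the subfield has rank at most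
`r` at every point of every extension. -/
theorem rank_le_of_forall (φ : K →+* F) {m n : Type*} [Fintype m] [Fintype n]
    (A : Matrix m n (MvPolynomial σ F)) {r : ℕ}
    (h : ∀ x : σ → K, (A.map (eval (φ ∘ x))).rank ≤ r)
    {L : Type*} [Field L] (ψ : MvPolynomial σ F →+* L) : (A.map ψ).rank ≤ r := by
  classical
  by_contra hlt
  obtain ⟨f, g, hdet⟩ := exists_minor (A.map ψ) (r := r + 1) (by omega)
  have hne : (A.submatrix f g).det ≠ 0 := by
    intro h0
    refine hdet ?_
    rw [submatrix_map, ← RingHom.mapMatrix_apply, ← RingHom.map_det, h0, map_zero]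
  obtain ⟨x, hx⟩ := exists_eval_ne_zero φ {()} (fun _ => (A.submatrix f g).det)
    (fun _ _ => hne)
  have hx' := hx () (Finset.mem_singleton_self _)
  rw [RingHom.map_det, RingHom.mapMatrix_apply, ← submatrix_map] at hx'
  have h1 : ((A.map (eval (φ ∘ x))).submatrix f g).rank = r + 1 := by
    rw [Matrix.rank_of_isUnit _ ((Matrix.isUnit_iff_isUnit_det _).2 (isUnit_iff_ne_zero.2 hx')),
      Fintype.card_fin]
  have h2 := Matrix.rank_submatrix_le (A.map (eval (φ ∘ x))) f g
  have := h x
  omega

end Vale.Agent.P199.Universal
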