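import Vale.Agent.P199.Greedy
import Vale.Agent.P199.TwoVectors
import Vale.Agent.P199.Universal
import Vale.Agent.P199.Cyclic
import Vale.Agent.P199.Descent
import Mathlib.RingTheory.MvPolynomial.Basic
import Mathlib.Algebra.CharZero.Infinite
import Mathlib.LinearAlgebra.Dimension.StrongRankCondition

/-!
Rational choices: the greedy vectors may be taken among the points of a form over a subfield.
-/

namespace Vale.Agent.P199.RationalChoice

open Module Greedy TwoVectors

variable {F V ι : Type*} [Field F] [AddCommGroup V] [Module F V]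

/-- A set of points of a form over a subfield: closed under sums and scalars from it. -/
structure KPoints (K : Subfield F) (S : Set V) : Prop where
  zero_mem : (0 : V) ∈ S
  add_mem : ∀ {u v}, u ∈ S → v ∈ S → u + v ∈ S
  smul_mem : ∀ {k : F} {v}, k ∈ K → v ∈ S → k • v ∈ S

lemma KPoints.sum_mem {K : Subfield F} {S : Set V} (hS : KPoints K S) {κ : Type*} (s : Finset κ)
    (f : κ → V) (h : ∀ i ∈ s, f i ∈ S) : ∑ i ∈ s, f i ∈ S := by
  classical
  induction s using Finset.induction with
  | empty => simpa using hS.zero_mem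
  | insert a s ha ih =>
    rw [Finset.sum_insert ha]
    exact hS.add_mem (h a (Finset.mem_insert_self a s))
      (ih fun i hi => h i (Finset.mem_insert_of_mem hi))

/-- An independent evaluation avoiding a proper subspace can be made rational. -/
theorem exists_point_of_exists [CharZero F] [FiniteDimensional F V] {W : Type*} [AddCommGroup W]
    [Module F W] [Fintype ι] (K : Subfield F) (S : Set V) (hS : KPoints K S)
    (hspan : Submodule.span F S = ⊤) (T : ι → V →ₗ[F] W) (P : Submodule F V)
    (h : ∃ u, u ∉ P ∧ LinearIndependent F fun i => T i u) :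
    ∃ u ∈ S, u ∉ P ∧ LinearIndependent F fun i => T i u := by
  classical
  obtain ⟨u₀, hu₀P, hu₀⟩ := h
  obtain ⟨b, hbS, hbspan, hbind⟩ := exists_linearIndependent F S
  haveI : Fintype b := (LinearIndependent.setFinite hbind).fintype
  have hu₀b : u₀ ∈ Submodule.span F (Set.range fun k : b => (k : V)) := by
    rw [Subtype.range_coe, hbspan, hspan]; trivial
  obtain ⟨x₀, hx₀⟩ := (Submodule.mem_span_range_iff_exists_fun F).1 hu₀b
  obtain ⟨φ, hφu, hφP⟩ := Submodule.exists_dual_map_eq_bot_of_notMem hu₀P inferInstance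
  obtain ⟨L, hL⟩ := LinearMap.exists_leftInverse_of_injective
    (Fintype.linearCombination F fun i => T i u₀)
    (LinearMap.ker_eq_bot.2 hu₀.fintypeLinearCombination_injective)
  let M : Matrix ι ι (MvPolynomial b F) :=
    Matrix.of fun i j => ∑ k : b, MvPolynomial.C (L (T i k) j) * MvPolynomial.X k
  let p : MvPolynomial b F :=
    M.det * ∑ k : b, MvPolynomial.C (φ k) * MvPolynomial.X k
  have hMev : ∀ x : b → F, ∀ i j,
      MvPolynomial.eval x (M i j) = L (T i (∑ k, x k • (k : V))) j := by
    intro x i j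
    simp [M, map_sum, mul_comm]
  have hφev : ∀ x : b → F, MvPolynomial.eval x
      (∑ k : b, MvPolynomial.C (φ k) * MvPolynomial.X k) = φ (∑ k, x k • (k : V)) := by
    intro x
    simp [map_sum, mul_comm]
  have hp : p ≠ 0 := by
    intro hp0
    have h1 : MvPolynomial.eval x₀ p = 0 := by rw [hp0, map_zero]
    simp only [p, map_mul, hφev, hx₀, RingHom.map_det] at h1
    have hone : (MvPolynomial.eval x₀).mapMatrix M = 1 := by
      ext i j
      rw [RingHom.mapMatrix_apply, Matrix.map_apply, hMev, hx₀]
      have := LinearMap.congr_fun hL (Pi.single i 1)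
      simp only [LinearMap.comp_apply, Fintype.linearCombination_apply_single, one_smul,
        LinearMap.id_apply] at this
      rw [this]
      simp [Matrix.one_apply, Pi.single_apply, eq_comm]
    rw [hone, Matrix.det_one, one_mul] at h1
    exact hφu h1
  haveI : Infinite K := Infinite.of_injective (fun n : ℕ => (n : K)) Nat.cast_injective
  obtain ⟨x, hx⟩ := Universal.exists_eval_ne_zero K.subtype {()} (fun _ => p) (fun _ _ => hp)
  have hx' := hx () (Finset.mem_singleton_self _)
  simp only [p, map_mul, hφev, RingHom.map_det, mul_ne_zero_iff] at hx'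
  set u := ∑ k, (K.subtype ∘ x) k • (k : V)
  refine ⟨u, hS.sum_mem _ _ fun k _ => hS.smul_mem (x k).2 (hbS k.2), fun hmem => hx'.2 ?_,
    LinearIndependent.of_comp L ?_⟩
  · have : φ u ∈ P.map φ := ⟨u, hmem, rfl⟩
    rwa [hφP, Submodule.mem_bot] at this
  · have he : (L ∘ fun i => T i u) =
        ((MvPolynomial.eval (K.subtype ∘ x)).mapMatrix M).row := by
      funext i j
      exact (hMev _ i j).symm
    rw [he]
    exact Matrix.linearIndependent_rows_of_det_ne_zero hx'.1

/-- Greedy choice among rational points, avoiding a proper subspace. -/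
theorem exists_greedy [CharZero F] [FiniteDimensional F V] {W : Type*} [AddCommGroup W]
    [Module F W] [FiniteDimensional F W] [Fintype ι] (K : Subfield F) (S : Set V)
    (hS : KPoints K S) (hspan : Submodule.span F S = ⊤) (T : ι → V →ₗ[F] W)
    (hT : ∀ c : ι → F, c ≠ 0 → Fintype.card ι ≤ finrank F (LinearMap.range (∑ i, c i • T i)))
    {P : Submodule F V} (hP : P ≠ ⊤) :
    ∃ u ∈ S, u ∉ P ∧ LinearIndependent F fun i => T i u :=
  exists_point_of_exists K S hS hspan T P (exists_apply_notMem T hT hP)

/-- The two rational vectors. -/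
theorem exists_pair [CharZero F] [FiniteDimensional F V] [Fintype ι] (K : Subfield F) (S : Set V)
    (hS : KPoints K S) (hspan : Submodule.span F S = ⊤) (B : ι → V →ₗ[F] Dual F V)
    (hB : ∀ c : ι → F, c ≠ 0 → 3 * Fintype.card ι ≤ finrank F (LinearMap.range (∑ i, c i • B i)))
    (G : Submodule F V) (hG : finrank F G + Fintype.card ι + 1 < finrank F V)
    (hrat : ∀ u₁ ∈ S,
      Submodule.span F {v | v ∈ S ∧ ∀ a, B a u₁ v = 0} = ⨅ a, LinearMap.ker (B a u₁)) :
    ∃ u₁ u₂ : V, u₁ ∈ S ∧ u₂ ∈ S ∧ (∀ a, B a u₁ u₂ = 0) ∧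
      (∀ c d : F, c • u₁ + d • u₂ ∈ G → c = 0 ∧ d = 0) ∧
      Function.Surjective fun v : V => Sum.elim (fun a => B a u₁ v) fun a => B a u₂ v := by
  classical
  have hG1 : G ≠ ⊤ := fun h => by rw [h, finrank_top] at hG; omega
  obtain ⟨u₁, hu₁S, hu₁G, hu₁⟩ :=
    exists_greedy K S hS hspan B (fun c hc => le_trans (by omega) (hB c hc)) hG1
  let ev : V →ₗ[F] (ι → F) := LinearMap.pi fun i => B i u₁
  let P := LinearMap.ker ev
  have hPeq : P = ⨅ a, LinearMap.ker (B a u₁) := LinearMap.ker_pi _
  have hP : finrank F V ≤ finrank F P + Fintype.card ι := by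
    have h1 := LinearMap.finrank_range_add_finrank_ker ev
    have h2 := Submodule.finrank_le (LinearMap.range ev)
    rw [Module.finrank_fintype_fun_eq_card] at h2
    show finrank F V ≤ finrank F (LinearMap.ker ev) + Fintype.card ι
    omega
  let L : Submodule F (Dual F V) := Submodule.span F (Set.range fun i => B i u₁)
  have hL : finrank F L ≤ Fintype.card ι := finrank_range_le_card (fun i => B i u₁)
  let T : ι → P →ₗ[F] (Dual F V ⧸ L) := fun i => (L.mkQ.comp (B i)).comp P.subtype
  have hT : ∀ c : ι → F, c ≠ 0 →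
      Fintype.card ι ≤ finrank F (LinearMap.range (∑ i, c i • T i)) := by
    intro c hc
    have hcomb : ∑ i, c i • T i = (L.mkQ.comp (∑ i, c i • B i)).comp P.subtype := by
      ext x
      simp [T]
    rw [hcomb, LinearMap.range_comp, Submodule.range_subtype, Submodule.map_comp]
    have h1 := finrank_range_le_map_add (∑ i, c i • B i) P
    have h2 := finrank_le_map_add_ker L.mkQ (P.map (∑ i, c i • B i))
    rw [Submodule.ker_mkQ] at h2
    have h4 := hB c hc
    omega
  let H : Submodule F P := (G ⊔ Submodule.span F {u₁}).comap P.subtype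
  have hH : H ≠ ⊤ := by
    intro h
    have hle : P ≤ G ⊔ Submodule.span F {u₁} := fun x hx =>
      (show (⟨x, hx⟩ : P) ∈ H from h ▸ Submodule.mem_top)
    have h1 := Submodule.finrank_mono hle
    have h2 := Submodule.finrank_add_le_finrank_add_finrank G (Submodule.span F {u₁})
    have h3 : finrank F (Submodule.span F {u₁}) ≤ 1 := by
      refine (finrank_span_le_card ({u₁} : Set V)).trans ?_
      simp
    omega
  let SP : Set P := {v | (v : V) ∈ S}
  have hSP : KPoints K SP :=
    ⟨hS.zero_mem, fun hu hv => hS.add_mem hu hv, fun hk hv => hS.smul_mem hk hv⟩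
  have hspanP : Submodule.span F SP = ⊤ := by
    refine Submodule.map_injective_of_injective P.subtype_injective ?_
    rw [Submodule.map_span, Submodule.map_subtype_top]
    refine le_antisymm (Submodule.span_le.2 ?_) ?_
    · rintro _ ⟨v, -, rfl⟩
      exact v.2
    · conv_lhs => rw [hPeq, ← hrat u₁ hu₁S]
      refine Submodule.span_mono ?_
      rintro v ⟨hvS, hv⟩
      exact ⟨⟨v, LinearMap.mem_ker.2 (funext hv)⟩, hvS, rfl⟩
  obtain ⟨u₂, hu₂S, hu₂H, hu₂⟩ := exists_greedy K SP hSP hspanP T hT hH
  have hiso : ∀ i, B i u₁ (u₂ : V) = 0 := fun i => congrFun (LinearMap.mem_ker.1 u₂.2) i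
  have hind : LinearIndependent F (Sum.elim (fun i => B i u₁) fun i => B i (u₂ : V)) := by
    refine hu₁.sum_type (LinearIndependent.of_comp L.mkQ hu₂) ?_
    rw [Submodule.disjoint_def]
    intro x hx hx2
    obtain ⟨g, rfl⟩ := (Submodule.mem_span_range_iff_exists_fun F).1 hx2
    have hzero : L.mkQ (∑ i, g i • B i (u₂ : V)) = 0 := (Submodule.Quotient.mk_eq_zero L).2 hx
    rw [map_sum] at hzero
    have hg := Fintype.linearIndependent_iff.1 hu₂ g (by simpa [T] using hzero)
    simp [hg]
  refine ⟨u₁, u₂, hu₁S, hu₂S, hiso, ?_, ?_⟩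
  · intro c d hcd
    have hd : d = 0 := by
      by_contra hd
      refine hu₂H ?_
      show (u₂ : V) ∈ G ⊔ Submodule.span F {u₁}
      have hsplit : (u₂ : V) = d⁻¹ • (c • u₁ + d • (u₂ : V)) + (-(d⁻¹ * c)) • u₁ := by
        rw [smul_add, smul_smul, smul_smul, inv_mul_cancel₀ hd, one_smul, neg_smul]
        abel
      rw [hsplit]
      exact Submodule.add_mem_sup (G.smul_mem _ hcd)
        (Submodule.smul_mem _ _ (Submodule.mem_span_singleton_self u₁))
    refine ⟨?_, hd⟩
    by_contra hc
    refine hu₁G ?_
    rw [hd, zero_smul, add_zero] at hcd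
    simpa [hc] using G.smul_mem c⁻¹ hcd
  · let Φ : V →ₗ[F] (ι ⊕ ι → F) :=
      LinearMap.pi (Sum.elim (fun i => B i u₁) fun i => B i (u₂ : V))
    have hsur : Function.Surjective Φ := by
      rw [← LinearMap.range_eq_top]
      by_contra hne
      obtain ⟨y, hy⟩ : ∃ y, y ∉ LinearMap.range Φ := by
        by_contra h; push Not at h
        exact hne (eq_top_iff.2 fun x _ => h x)
      obtain ⟨f, hfy, hf⟩ := Submodule.exists_dual_map_eq_bot_of_notMem hy inferInstance
      have hf' : ∀ v, f (Φ v) = 0 := fun v => by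
        have h1 : f (Φ v) ∈ (LinearMap.range Φ).map f := ⟨_, ⟨v, rfl⟩, rfl⟩
        rwa [hf, Submodule.mem_bot] at h1
      have hexp : ∀ z : ι ⊕ ι → F, f z = ∑ j, z j * f (Pi.single j 1) := by
        intro z
        rw [LinearMap.pi_apply_eq_sum_univ f z]
        refine Finset.sum_congr rfl fun j _ => ?_
        rw [smul_eq_mul]
        congr 1
        refine congrArg f (funext fun i => ?_)
        simp [Pi.single_apply, eq_comm]
      have hzero := Fintype.linearIndependent_iff.1 hind (fun j => f (Pi.single j 1)) (by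
        ext v
        have h1 := hf' v
        rw [hexp] at h1
        simpa [Φ, mul_comm] using h1)
      refine hfy ?_
      rw [hexp]
      exact Finset.sum_eq_zero fun j _ => by rw [hzero j, mul_zero]
    intro y
    obtain ⟨v, hv⟩ := hsur y
    refine ⟨v, ?_⟩
    funext j
    rw [← hv]
    cases j <;> rfl

/-- The cyclic lemma in head/last form. -/
theorem exists_commutator_head {A s : Type*} [AddCommGroup A] (K : Type*) [Field K] [CharZero K]
    [Module K A] [Fintype s] [DecidableEq s] (D : ℕ) (hD : D ≠ 0) (f : List s → A)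
    (hhom : ∀ w, w.length ≠ D → f w = 0)
    (hrot : ∀ w : List s, w.length = D → ∑ r ∈ Finset.range D, f (w.rotate r) = 0) :
    ∃ X : s → List s → A, (∀ i t, t.length + 1 ≠ D → X i t = 0) ∧
      ∀ w : List s, ∀ hw : w ≠ [],
        f w = X (w.head hw) w.tail - X (w.getLast hw) w.dropLast := by
  obtain ⟨X, hX, h⟩ := Cyclic.exists_commutator K D hD f hhom hrot
  refine ⟨X, hX, fun w hw => ?_⟩
  rw [h w, List.head?_eq_some_head hw, List.getLast?_eq_some_getLast hw]
  simp

/-- The kernel over `F` of a matrix over a subfield is spanned by its rational points. -/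
theorem span_rational_ker {m n : Type*} [Fintype m] [Fintype n] (K : Subfield F)
    (A : Matrix m n K) :
    Submodule.span F {x : n → F | (∀ j, x j ∈ K) ∧ (A.map K.subtype).mulVec x = 0} =
      LinearMap.ker (A.map K.subtype).mulVecLin := by
  classical
  refine le_antisymm (Submodule.span_le.2 fun x hx => LinearMap.mem_ker.2 hx.2) fun x hx => ?_
  by_contra hxs
  obtain ⟨f, hfx, hf⟩ := Submodule.exists_dual_map_eq_bot_of_notMem hxs inferInstance
  let w : n → F := fun j => f (Pi.single j 1)
  have hw : ∀ z : n → F, dotProduct w z = f z := by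
    intro z
    rw [LinearMap.pi_apply_eq_sum_univ f z]
    refine Finset.sum_congr rfl fun j _ => ?_
    rw [smul_eq_mul, mul_comm]
    congr 1
    refine congrArg f (funext fun i => ?_)
    simp [Pi.single_apply, eq_comm]
  obtain ⟨y, hy, hy0⟩ := Descent.exists_mem_ker_dot_ne_zero K.subtype A w
    (x := x) (LinearMap.mem_ker.1 hx) (by rw [hw]; exact hfx)
  refine hy0 ?_
  rw [hw]
  have hmem : (K.subtype ∘ y) ∈
      {x : n → F | (∀ j, x j ∈ K) ∧ (A.map K.subtype).mulVec x = 0} := by
    refine ⟨fun j => (y j).2, funext fun i => ?_⟩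
    have := (RingHom.map_mulVec K.subtype A y i).symm
    rw [this, hy]
    simp
  have h1 : f (K.subtype ∘ y) ∈
      (Submodule.span F {x : n → F | (∀ j, x j ∈ K) ∧ (A.map K.subtype).mulVec x = 0}).map f :=
    ⟨_, Submodule.subset_span hmem, rfl⟩
  rwa [hf, Submodule.mem_bot] at h1

end Vale.Agent.P199.RationalChoice
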