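import Vale.Agent.P199.SolveAux
import Vale.Agent.P199.RationalChoice

/-!
Order-by-order solution of a system of series with coefficients rational over a subfield.
-/

namespace Vale.Agent.P199.Solve

open Finset Module Series

variable {F : Type*} [Field F] {ι : Type*} [Fintype ι] [DecidableEq ι] {κ : Type*}

/-- The common kernel of the linear parts. -/
def linKer {σ : Type*} (ys : σ → Ser F ι) : Submodule F (ι → F) :=
  ⨅ s, LinearMap.ker (lin (ys s))

lemma mem_linKer {σ : Type*} {ys : σ → Ser F ι} {v : ι → F} :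
    v ∈ linKer ys ↔ ∀ s, lin (ys s) v = 0 := by
  simp [linKer, Submodule.mem_iInf]

/-- The quadratic form of a relation, on the common kernel of the linear parts. -/
def relForm {σ : Type*} [Fintype σ] (ys : σ → Ser F ι) (ω : σ → F) :
    linKer ys →ₗ[F] Dual F (linKer ys) :=
  (∑ s, ω s • quad (ys s)).compl₁₂ (linKer ys).subtype (linKer ys).subtype

lemma relForm_apply {σ : Type*} [Fintype σ] (ys : σ → Ser F ι) (ω : σ → F) (u v : linKer ys) :
    relForm ys ω u v = ∑ s, ω s * quad (ys s) u v := by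
  simp [relForm, LinearMap.compl₁₂_apply, LinearMap.sum_apply, LinearMap.smul_apply]

lemma exists_lin_eq {σ : Type*} [Fintype σ] (ys : σ → Ser F ι) (t : σ → F)
    (h : ∀ ω : σ → F, (∀ i, ∑ s, ω s * (ys s).coeff [i] = 0) → ∑ s, ω s * t s = 0) :
    ∃ g : ι → F, ∀ s, lin (ys s) g = t s := by
  classical
  let L : (ι → F) →ₗ[F] (σ → F) := LinearMap.pi fun s => lin (ys s)
  by_contra hno
  push Not at hno
  have ht : t ∉ LinearMap.range L := by
    rintro ⟨g, hg⟩
    obtain ⟨s, hs⟩ := hno g
    exact hs (congrFun hg s)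
  obtain ⟨f, hft, hf⟩ := Submodule.exists_dual_map_eq_bot_of_notMem ht inferInstance
  have hexp : ∀ z : σ → F, f z = ∑ s, f (Pi.single s 1) * z s := by
    intro z
    rw [LinearMap.pi_apply_eq_sum_univ f z]
    refine sum_congr rfl fun s _ => ?_
    rw [smul_eq_mul, mul_comm]
    congr 1
    refine congrArg f (funext fun i => ?_)
    simp [Pi.single_apply, eq_comm]
  refine hft ?_
  rw [hexp]
  refine h _ fun i => ?_
  have h1 : f (L (Pi.single i 1)) ∈ (LinearMap.range L).map f := ⟨_, ⟨_, rfl⟩, rfl⟩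
  rw [hf, Submodule.mem_bot, hexp] at h1
  simpa [L, lin_apply, Pi.single_apply] using h1

lemma lin_mem (K : Subfield F) (y : Ser F ι) (hy : ∀ w, y.coeff w ∈ K) (v : ι → F)
    (hv : ∀ i, v i ∈ K) : lin y v ∈ K := by
  rw [lin_apply]
  exact sum_mem fun i _ => K.mul_mem (hy _) (hv i)

lemma quad_mem (K : Subfield F) (y : Ser F ι) (hy : ∀ w, y.coeff w ∈ K) (u v : ι → F)
    (hu : ∀ i, u i ∈ K) (hv : ∀ i, v i ∈ K) : quad y u v ∈ K := by
  rw [quad_apply]
  exact sum_mem fun i _ => sum_mem fun j _ => K.mul_mem (hy _) (K.mul_mem (hu i) (hv j))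


/-- If the change can be made over `F`, it can be made over `K`. -/
theorem rationalise [Fintype κ] [DecidableEq κ] {τ : Type*} [Fintype τ] (K : Subfield F)
    (zs : τ → Ser F ι) (hz : ∀ j w, (zs j).coeff w ∈ K) (h δ : ι → Ser F κ)
    (hh : ∀ i W, (h i).coeff W ∈ K) (h0 : ∀ i, (h i).coeff [] = 0) {D M : ℕ} (hD : 2 ≤ D)
    (hM : M ≤ D + 1) (hδ : ∀ i, Ser.LowVanish D (δ i))
    (hvan : ∀ j, Ser.LowVanish (M + 1) (substS (h + δ) (zs j))) :
    ∃ δ' : ι → Ser F κ, (∀ i W, (δ' i).coeff W ∈ K) ∧ (∀ i, Ser.LowVanish D (δ' i)) ∧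
      ∀ j, Ser.LowVanish (M + 1) (substS (h + δ') (zs j)) := by
  classical
  let U : Finset (List κ) := (Icc D M).biUnion (words κ)
  have hU : ∀ W, W ∈ U ↔ D ≤ W.length ∧ W.length ≤ M := fun W => by
    simp [U, mem_words, mem_biUnion]
  let ser : (↥U × ι → F) → ι → Ser F κ :=
    fun x i => ⟨fun W => if hW : W ∈ U then x (⟨W, hW⟩, i) else 0⟩
  have hser : ∀ x i, Ser.LowVanish D (ser x i) := fun x i W hW =>
    dif_neg fun hWU => absurd ((hU W).1 hWU).1 (not_le.2 hW)
  let vmap : List κ → (↥U × ι → F) →ₗ[F] (ι → F) := fun W =>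
    { toFun := fun x => vec (ser x) W
      map_add' := fun x x' => by funext i; by_cases hW : W ∈ U <;> simp [vec, ser, hW]
      map_smul' := fun c x => by funext i; by_cases hW : W ∈ U <;> simp [vec, ser, hW] }
  let Φ : (↥U × ι → F) →ₗ[F] (τ × ↥U → F) := LinearMap.pi fun r =>
    (lin (zs r.1)).comp (vmap r.2.1) +
      (quad (zs r.1) (vec h (r.2.1.take 1))).comp (vmap (r.2.1.drop 1)) +
      ((quad (zs r.1)).flip (vec h (r.2.1.drop (r.2.1.length - 1)))).comp
        (vmap (r.2.1.take (r.2.1.length - 1)))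
  have hΦ : ∀ x r, Φ x r = lin (zs r.1) (vec (ser x) r.2.1) +
      quad (zs r.1) (vec h (r.2.1.take 1)) (vec (ser x) (r.2.1.drop 1)) +
      quad (zs r.1) (vec (ser x) (r.2.1.take (r.2.1.length - 1)))
        (vec h (r.2.1.drop (r.2.1.length - 1))) := fun x r => rfl
  have hchange : ∀ x (r : τ × ↥U), (substS (h + ser x) (zs r.1)).coeff r.2.1 =
      (substS h (zs r.1)).coeff r.2.1 + Φ x r := by
    intro x r
    rw [substS_change h (ser x) h0 hD (hser x) (zs r.1) (((hU _).1 r.2.2).2.trans hM), hΦ]
    abel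
  -- the solution over `F`
  let x₀ : ↥U × ι → F := fun c => (δ c.2).coeff c.1.1
  have hx₀ : ∀ W, W.length ≤ M → vec (ser x₀) W = vec δ W := by
    intro W hW
    funext i
    by_cases hWU : W ∈ U
    · simp [vec, ser, x₀, hWU]
    · simp only [vec, ser, hWU, dite_false]
      exact (hδ i W (not_le.1 fun hle => hWU ((hU W).2 ⟨hle, hW⟩))).symm
  have hsol : ∀ r, Φ x₀ r = -(substS h (zs r.1)).coeff r.2.1 := by
    intro r
    have hl := ((hU _).1 r.2.2).2
    have h1 := hvan r.1 r.2.1 (Nat.lt_succ_of_le hl)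
    rw [substS_change h δ h0 hD hδ (zs r.1) (hl.trans hM), ← hx₀ _ hl,
      ← hx₀ _ (le_trans (by simp [List.length_drop]) hl),
      ← hx₀ (r.2.1.take (r.2.1.length - 1)) (le_trans (by simp [List.length_take]) hl)] at h1
    rw [hΦ, eq_neg_iff_add_eq_zero]
    rw [← h1]
    abel
  have hmem : ∀ r c, LinearMap.toMatrix' Φ r c ∈ K := by
    intro r c
    rw [LinearMap.toMatrix'_apply, hΦ]
    have hv : ∀ W i, vec (ser (Pi.single c (1 : F))) W i ∈ K := by
      intro W i
      by_cases hW : W ∈ U
      · simp only [vec, ser, hW, dite_true, Pi.single_apply]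
        split_ifs
        · exact K.one_mem
        · exact K.zero_mem
      · simp only [vec, ser, hW, dite_false]
        exact K.zero_mem
    exact K.add_mem (K.add_mem (lin_mem K _ (hz _) _ (hv _))
      (quad_mem K _ (hz _) _ _ (fun i => hh i _) (hv _)))
      (quad_mem K _ (hz _) _ _ (hv _) (fun i => hh i _))
  let A : Matrix (τ × ↥U) (↥U × ι) K := fun r c => ⟨_, hmem r c⟩
  let b : τ × ↥U → K := fun r =>
    ⟨-(substS h (zs r.1)).coeff r.2.1, K.neg_mem (substS_mem K h hh _ (hz _) _)⟩
  have hA : A.map K.subtype = LinearMap.toMatrix' Φ := rfl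
  obtain ⟨y, -, hy⟩ := Descent.exists_rational K.subtype A b ⟨x₀, by
    rw [hA, LinearMap.toMatrix'_mulVec]
    exact funext hsol⟩
  rw [hA, LinearMap.toMatrix'_mulVec] at hy
  refine ⟨ser (K.subtype ∘ y), fun i W => ?_, hser _, fun j W hW => ?_⟩
  · by_cases hWU : W ∈ U
    · simp only [ser, hWU, dite_true]
      exact (y _).2
    · simp only [ser, hWU, dite_false]
      exact K.zero_mem
  · by_cases hWU : W ∈ U
    · rw [hchange _ (j, ⟨W, hWU⟩), congrFun hy (j, ⟨W, hWU⟩)]
      simp [b]
    · have hlt : W.length < D := not_le.1 fun hle => hWU ((hU W).2 ⟨hle, by omega⟩)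
      have hz0 : ∀ δ₁ : ι → Ser F κ, (∀ i, Ser.LowVanish D (δ₁ i)) →
          (substS (h + δ₁) (zs j)).coeff W = (substS h (zs j)).coeff W := by
        intro δ₁ hδ₁
        have e : ∀ V : List κ, V.length ≤ W.length → vec δ₁ V = 0 := fun V hV =>
          funext fun i => hδ₁ i V (by omega)
        rw [substS_change h δ₁ h0 hD hδ₁ (zs j) (by omega), e W le_rfl,
          e (W.drop 1) (by simp [List.length_drop]),
          e (W.take (W.length - 1)) (by simp [List.length_take])]
        simp
      rw [hz0 _ (hser _), ← hz0 δ hδ]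
      exact hvan j W hW

section Main

variable [CharZero F] {σ τ α : Type*} [Fintype σ] [Fintype τ] [Fintype α]

/-- The data of the solved system. -/
structure System (K : Subfield F) (ys : σ → Ser F ι) (zs : τ → Ser F ι) (om : α → σ → F) :
    Prop where
  const : ∀ s, (ys s).coeff [] = 0
  rational : ∀ j w, (zs j).coeff w ∈ K
  span_coeff : ∃ P : σ → τ → F, ∀ s w, (ys s).coeff w = ∑ j, P s j * (zs j).coeff w
  vanish : ∀ (d k : ℕ) (h : ι → Ser F (Fin d)), (∀ i, (h i).coeff [] = 0) →
    (∀ s, Ser.LowVanish k (substS h (ys s))) → ∀ j, Ser.LowVanish k (substS h (zs j))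
  null : NullRel ys
  rel : ∀ a i, ∑ s, om a s * (ys s).coeff [i] = 0
  rel_span : ∀ ω : σ → F, (∀ i, ∑ s, ω s * (ys s).coeff [i] = 0) →
    ∃ c : α → F, ω = ∑ a, c a • om a

variable {K : Subfield F} {ys : σ → Ser F ι} {zs : τ → Ser F ι} {om : α → σ → F}

omit [CharZero F] in
lemma System.subst_of_zs (S : System K ys zs om) (h : ι → Ser F κ) (W : List κ)
    (hW : ∀ j, (substS h (zs j)).coeff W = 0) (s : σ) : (substS h (ys s)).coeff W = 0 := by
  obtain ⟨P, hP⟩ := S.span_coeff
  have e : (substS h (ys s)).coeff W = ∑ j, P s j * (substS h (zs j)).coeff W := by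
    simp only [substS_coeff, hP, sum_mul, mul_sum]
    rw [sum_comm (s := (univ : Finset τ))]
    refine sum_congr rfl fun k _ => ?_
    rw [sum_comm (s := (univ : Finset τ))]
    exact sum_congr rfl fun w _ => sum_congr rfl fun j _ => by ring
  rw [e]
  exact sum_eq_zero fun j _ => by rw [hW j, mul_zero]

omit [CharZero F] in
lemma System.exists_lin (S : System K ys zs om) (t : σ → F)
    (h : ∀ a, ∑ s, om a s * t s = 0) : ∃ g : ι → F, ∀ s, lin (ys s) g = t s := by
  refine exists_lin_eq ys t fun ω hω => ?_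
  obtain ⟨c, rfl⟩ := S.rel_span ω hω
  simp only [Finset.sum_apply, Pi.smul_apply, smul_eq_mul, sum_mul, mul_assoc]
  rw [sum_comm]
  exact sum_eq_zero fun a _ => by rw [← mul_sum, h a, mul_zero]

omit [CharZero F] in
lemma System.sum_lin (S : System K ys zs om) (a : α) (v : ι → F) :
    ∑ s, om a s * lin (ys s) v = 0 := by
  simp only [lin_apply, mul_sum, ← mul_assoc]
  rw [sum_comm]
  exact sum_eq_zero fun i _ => by rw [← sum_mul, S.rel a i, zero_mul]

lemma System.diag (S : System K ys zs om) (a : α) (u : linKer ys) :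
    relForm ys (om a) u u = 0 := by
  let h : ι → Ser F (Fin 1) := fun i => ⟨fun W => if W.length = 1 then (u : ι → F) i else 0⟩
  have h0 : ∀ i, (h i).coeff [] = 0 := fun i => by simp [h]
  have hv : vec h [0] = (u : ι → F) := by funext i; simp [h, vec]
  have hlow : ∀ s, Ser.LowVanish 2 (substS h (ys s)) := by
    intro s W hW
    match W, hW with
    | [], _ => simp [substS_coeff, words, S.const]
    | [b], _ =>
      obtain rfl : b = 0 := Subsingleton.elim _ _
      rw [substS_coeff_one h (ys s) (S.const s), hv]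
      exact mem_linKer.1 u.2 s
  have h2 : vec h [0, 0] = 0 := by funext i; simp [h, vec]
  have := S.null (om a) (S.rel a) 1 2 h h0 hlow [0, 0] rfl
  simp only [Finset.sum_range_succ, Finset.sum_range_zero, zero_add, List.rotate_zero,
    show ([0, 0] : List (Fin 1)).rotate 1 = [0, 0] from rfl,
    substS_coeff_two h h0 _ (S.const _), hv, h2, map_zero] at this
  rw [relForm_apply]
  have h3 : (2 : F) * ∑ s, om a s * quad (ys s) (u : ι → F) u = 0 := by
    rw [two_mul]; simpa using this
  exact (mul_eq_zero.1 h3).resolve_left two_ne_zero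

lemma System.skew (S : System K ys zs om) (a : α) (u v : linKer ys) :
    relForm ys (om a) u v = -relForm ys (om a) v u := by
  have := S.diag a (u + v)
  simp only [map_add, LinearMap.add_apply, S.diag, zero_add, add_zero] at this
  linear_combination this

lemma System.exists_degree_two (S : System K ys zs om) (u : Fin 2 → linKer ys)
    (hu : ∀ a p q, relForm ys (om a) (u p) (u q) = 0) :
    ∃ h : ι → Ser F (Fin 2), (∀ i, (h i).coeff [] = 0) ∧ (∀ b, vec h [b] = u b) ∧
      ∀ s, Ser.LowVanish 3 (substS h (ys s)) := by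
  have hex : ∀ p q : Fin 2, ∃ g : ι → F, ∀ s, lin (ys s) g = -quad (ys s) (u p) (u q) := by
    intro p q
    refine S.exists_lin _ fun a => ?_
    have := hu a p q
    rw [relForm_apply] at this
    simp only [mul_neg, sum_neg_distrib, this, neg_zero]
  choose g hg using hex
  let h : ι → Ser F (Fin 2) := fun i => ⟨fun W => match W with
    | [b] => (u b : ι → F) i
    | [p, q] => g p q i
    | _ => 0⟩
  refine ⟨h, fun i => rfl, fun b => rfl, fun s W hW => ?_⟩
  match W, hW with
  | [], _ => simp [substS_coeff, words, S.const]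
  | [b], _ =>
    rw [substS_coeff_one h (ys s) (S.const s)]
    exact mem_linKer.1 (u b).2 s
  | [p, q], _ =>
    rw [substS_coeff_two h (fun i => rfl) (ys s) (S.const s)]
    show lin (ys s) (g p q) + quad (ys s) (u p : ι → F) (u q) = 0
    rw [hg p q s, neg_add_cancel]

lemma System.linKer_eq (S : System K ys zs om) (v : ι → F) :
    v ∈ linKer ys ↔ ∀ j, lin (zs j) v = 0 := by
  rw [mem_linKer]
  constructor
  · intro hv j
    let h : ι → Ser F (Fin 1) := fun i => ⟨fun W => if W.length = 1 then v i else 0⟩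
    have hvv : vec h [0] = v := by funext i; simp [h, vec]
    have hlow : ∀ s, Ser.LowVanish 2 (substS h (ys s)) := by
      intro s W hW
      match W, hW with
      | [], _ => simp [substS_coeff, words, S.const]
      | [b], _ =>
        obtain rfl : b = 0 := Subsingleton.elim _ _
        rw [substS_coeff_one h (ys s) (S.const s), hvv]
        exact hv s
    have hall := S.vanish 1 2 h (fun i => by simp [h]) hlow j
    have hz0 : (zs j).coeff [] = 0 := by
      simpa [substS_coeff, words, Ser.coeff_one, Series.const] using hall [] (by simp)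
    have h1 := hall [0] (by simp)
    rwa [substS_coeff_one h (zs j) hz0, hvv] at h1
  · intro hv s
    obtain ⟨P, hP⟩ := S.span_coeff
    simp only [lin_apply, hP, sum_mul]
    rw [sum_comm]
    refine sum_eq_zero fun j _ => ?_
    have := hv j
    rw [lin_apply] at this
    simp only [mul_assoc, ← mul_sum, this, mul_zero]

lemma System.zs_const (S : System K ys zs om) (j : τ) : (zs j).coeff [] = 0 := by
  have hlow : ∀ s, Ser.LowVanish 1 (substS (0 : ι → Ser F (Fin 1)) (ys s)) := fun s W hW => by
    obtain rfl : W = [] := List.eq_nil_of_length_eq_zero (by omega)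
    simp [substS_coeff, words, S.const]
  simpa [substS_coeff, words, Ser.coeff_one, Series.const] using S.vanish 1 1 0 (fun i => rfl) hlow j [] (by simp)

lemma System.isotropic_iff (S : System K ys zs om) (u v : linKer ys) :
    (∀ a, relForm ys (om a) u v = 0) ↔
      ∃ g : ι → F, ∀ j, quad (zs j) (u : ι → F) v + lin (zs j) g = 0 := by
  constructor
  · intro hv
    obtain ⟨h, h0, h1, h2⟩ := S.exists_degree_two ![u, v] fun a p q => by
      fin_cases p <;> fin_cases q <;> simp [S.diag, hv a, S.skew a v u]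
    refine ⟨vec h [0, 1], fun j => ?_⟩
    have := S.vanish 2 3 h h0 h2 j [0, 1] (by simp)
    rw [substS_coeff_two h h0 _ (S.zs_const j), h1, h1] at this
    rw [add_comm]
    exact this
  · rintro ⟨g, hg⟩ a
    obtain ⟨P, hP⟩ := S.span_coeff
    have e : ∀ s, quad (ys s) (u : ι → F) v + lin (ys s) g =
        ∑ j, P s j * (quad (zs j) (u : ι → F) v + lin (zs j) g) := by
      intro s
      simp only [quad_apply, lin_apply, hP, sum_mul, mul_add, mul_sum, sum_add_distrib, mul_assoc]
      congr 1
      · exact (sum_congr rfl fun i _ => sum_comm).trans sum_comm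
      · exact sum_comm
    have : ∑ s, om a s * (quad (ys s) (u : ι → F) v + lin (ys s) g) = ∑ s : σ, (0 : F) :=
      sum_congr rfl fun s _ => by
        rw [e s, sum_eq_zero fun j _ => by rw [hg j, mul_zero], mul_zero]
    simp only [mul_add, sum_add_distrib, S.sum_lin, add_zero, sum_const_zero] at this
    rw [relForm_apply]
    exact this

/-- The rational points of the common kernel. -/
def kpts (K : Subfield F) (ys : σ → Ser F ι) : Set (linKer ys) := {v | ∀ i, (v : ι → F) i ∈ K}

omit [DecidableEq ι] [CharZero F] [Fintype σ] in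
lemma kpts_points : RationalChoice.KPoints K (kpts K ys) :=
  ⟨fun _ => K.zero_mem, fun hu hv i => K.add_mem (hu i) (hv i),
    fun hk hv i => K.mul_mem hk (hv i)⟩

lemma System.span_kpts (S : System K ys zs om) : Submodule.span F (kpts K ys) = ⊤ := by
  classical
  refine Submodule.map_injective_of_injective (linKer ys).subtype_injective ?_
  rw [Submodule.map_span, Submodule.map_subtype_top]
  let A : Matrix τ ι K := Matrix.of fun j i => ⟨(zs j).coeff [i], S.rational j [i]⟩
  have hker : linKer ys = LinearMap.ker (A.map K.subtype).mulVecLin := by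
    ext v
    simp [S.linKer_eq, funext_iff, Matrix.mulVec, dotProduct, lin_apply, A, Matrix.map_apply,
      Subfield.coe_subtype]
  refine le_antisymm (Submodule.span_le.2 ?_) ?_
  · rintro _ ⟨v, -, rfl⟩
    exact v.2
  · conv_lhs => rw [hker, ← RationalChoice.span_rational_ker K A]
    refine Submodule.span_mono fun v hv => ?_
    exact ⟨⟨v, hker ▸ LinearMap.mem_ker.2 hv.2⟩, hv.1, rfl⟩

lemma System.isotropic_rational (S : System K ys zs om) (u : linKer ys) (hu : u ∈ kpts K ys) :
    Submodule.span F {v | v ∈ kpts K ys ∧ ∀ a, relForm ys (om a) u v = 0} =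
      ⨅ a, LinearMap.ker (relForm ys (om a) u) := by
  classical
  refine le_antisymm (Submodule.span_le.2 fun v hv => (Submodule.mem_iInf _).2
    fun a => LinearMap.mem_ker.2 (hv.2 a)) fun v hv => ?_
  have hv' : ∀ a, relForm ys (om a) u v = 0 := fun a =>
    LinearMap.mem_ker.1 ((Submodule.mem_iInf _).1 hv a)
  let A : Matrix (τ ⊕ τ) (ι ⊕ ι) K := Matrix.fromBlocks
    (Matrix.of fun j i => ⟨(zs j).coeff [i], S.rational j [i]⟩) 0
    (Matrix.of fun j i => ⟨∑ k, (zs j).coeff [k, i] * (u : ι → F) k,
      sum_mem fun k _ => K.mul_mem (S.rational j _) (hu k)⟩)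
    (Matrix.of fun j i => ⟨(zs j).coeff [i], S.rational j [i]⟩)
  have hmul : ∀ x : ι ⊕ ι → F, ∀ j,
      (A.map K.subtype).mulVec x (.inl j) = lin (zs j) (x ∘ Sum.inl) ∧
      (A.map K.subtype).mulVec x (.inr j) =
        quad (zs j) (u : ι → F) (x ∘ Sum.inl) + lin (zs j) (x ∘ Sum.inr) := by
    intro x j
    refine ⟨?_, ?_⟩
    · simp [A, Matrix.mulVec, dotProduct, Fintype.sum_sum_type, lin_apply]
    · simp only [A, Matrix.mulVec, dotProduct, Fintype.sum_sum_type, lin_apply, quad_apply,
        Matrix.map_apply, Matrix.fromBlocks_apply₂₁, Matrix.fromBlocks_apply₂₂,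
        Subfield.coe_subtype, Matrix.of_apply, sum_mul, Function.comp_apply]
      congr 1
      rw [sum_comm]
      exact sum_congr rfl fun i _ => sum_congr rfl fun k _ => by ring
  obtain ⟨g, hg⟩ := (S.isotropic_iff u v).1 hv'
  have hx : Sum.elim (v : ι → F) g ∈ LinearMap.ker (A.map K.subtype).mulVecLin := by
    refine LinearMap.mem_ker.2 (funext fun r => ?_)
    rcases r with j | j
    · rw [Matrix.mulVecLin_apply, (hmul _ j).1, Sum.elim_comp_inl]
      exact (S.linKer_eq _).1 v.2 j
    · rw [Matrix.mulVecLin_apply, (hmul _ j).2, Sum.elim_comp_inl, Sum.elim_comp_inr]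
      exact hg j
  rw [← RationalChoice.span_rational_ker K A] at hx
  have hproj : (v : ι → F) ∈ (Submodule.span F
      {x : ι ⊕ ι → F | (∀ c, x c ∈ K) ∧ (A.map K.subtype).mulVec x = 0}).map
      (LinearMap.funLeft F F Sum.inl) := ⟨_, hx, by funext i; rfl⟩
  rw [Submodule.map_span] at hproj
  have hle : Submodule.span F (LinearMap.funLeft F F Sum.inl ''
      {x : ι ⊕ ι → F | (∀ c, x c ∈ K) ∧ (A.map K.subtype).mulVec x = 0}) ≤
      (Submodule.span F {v | v ∈ kpts K ys ∧ ∀ a, relForm ys (om a) u v = 0}).map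
        (linKer ys).subtype := by
    rw [Submodule.map_span]
    refine Submodule.span_mono ?_
    rintro _ ⟨x, ⟨hxK, hx0⟩, rfl⟩
    have hmem : x ∘ Sum.inl ∈ linKer ys := (S.linKer_eq _).2 fun j => by
      rw [← (hmul x j).1, hx0]; rfl
    refine ⟨⟨x ∘ Sum.inl, hmem⟩, ⟨fun i => hxK _, (S.isotropic_iff u _).2
      ⟨x ∘ Sum.inr, fun j => ?_⟩⟩, rfl⟩
    rw [← (hmul x j).2, hx0]; rfl
  obtain ⟨w, hw, hwv⟩ := hle hproj
  obtain rfl : w = v := Subtype.ext hwv
  exact hw

omit [CharZero F] in
lemma substS_congr (h h' : ι → Ser F κ) (h0 : ∀ i, (h i).coeff [] = 0) {n : ℕ} (hn : 1 ≤ n)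
    (heq : ∀ i W, W.length ≤ n → (h' i).coeff W = (h i).coeff W) (y : Ser F ι) {W : List κ}
    (hW : W.length ≤ n) : (substS h' y).coeff W = (substS h y).coeff W := by
  have e : h' = h + (h' - h) := (add_sub_cancel h h').symm
  have hz : ∀ V : List κ, V.length ≤ n → vec (h' - h) V = 0 := fun V hV => funext fun i => by
    simp [vec, Ser.coeff_sub, heq i V hV]
  rw [e, substS_change h (h' - h) h0 (D := n + 1) (by omega)
    (fun i V hV => congrFun (hz V (by omega)) i) y (by omega), hz W hW,
    hz (W.drop 1) (by simp [List.length_drop]; omega),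
    hz (W.take (W.length - 1)) (by simp [List.length_take]; omega)]
  simp

/-- A partial solution. -/
structure Approx (K : Subfield F) (ys : σ → Ser F ι) (u : Fin 2 → linKer ys) (D : ℕ)
    (h : ι → Ser F (Fin 2)) : Prop where
  rational : ∀ i W, (h i).coeff W ∈ K
  zero : ∀ i, (h i).coeff [] = 0
  first : ∀ b, vec h [b] = u b
  vanish : ∀ s, Ser.LowVanish (D + 1) (substS h (ys s))

theorem System.step (S : System K ys zs om) (u : Fin 2 → linKer ys)
    (hsurj : ∀ c : Fin 2 → α → F, ∃ v : linKer ys, ∀ b a, relForm ys (om a) (u b) v = c b a)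
    {D : ℕ} (hD : 2 ≤ D) {h : ι → Ser F (Fin 2)} (hh : Approx K ys u D h) :
    ∃ h', Approx K ys u (D + 1) h' ∧
      ∀ i W, W.length < D → (h' i).coeff W = (h i).coeff W := by
  classical
  let f : List (Fin 2) → α → F := fun W a =>
    if W.length = D + 1 then ∑ s, om a s * (substS h (ys s)).coeff W else 0
  obtain ⟨X, -, hX⟩ := RationalChoice.exists_commutator_head F (D + 1) (by omega) f
    (fun W hW => funext fun a => if_neg hW) (fun W hW => funext fun a => by
      have := S.null (om a) (S.rel a) 2 (D + 1) h hh.zero hh.vanish W hW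
      rw [Finset.sum_apply]
      simpa [f, hW] using this)
  choose Δ hΔ using fun t : List (Fin 2) => hsurj fun b a => -X b t a
  let δ₁ : ι → Ser F (Fin 2) :=
    fun i => ⟨fun W => if W.length = D then (Δ W : ι → F) i else 0⟩
  have hδ₁ : ∀ i, Ser.LowVanish D (δ₁ i) := fun i W hW => if_neg (by omega)
  have hvec₁ : ∀ W : List (Fin 2), W.length = D → vec δ₁ W = Δ W := fun W hW =>
    funext fun i => if_pos hW
  have hvec₁' : ∀ W : List (Fin 2), W.length ≠ D → vec δ₁ W = 0 := fun W hW =>
    funext fun i => if_neg hW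
  have hlow₁ : ∀ s, Ser.LowVanish (D + 1) (substS (h + δ₁) (ys s)) := by
    intro s W hW
    rw [substS_change h δ₁ hh.zero hD hδ₁ (ys s) (by omega), hh.vanish s W hW,
      hvec₁' (W.drop 1) (by simp [List.length_drop]; omega),
      hvec₁' (W.take (W.length - 1)) (by simp [List.length_take]; omega)]
    rcases eq_or_ne W.length D with hl | hl
    · simp [hvec₁ W hl, mem_linKer.1 (Δ W).2 s]
    · simp [hvec₁' W hl]
  have hobs : ∀ W : List (Fin 2), W.length = D + 1 → ∀ a,
      ∑ s, om a s * (substS (h + δ₁) (ys s)).coeff W = 0 := by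
    intro W hW a
    have hne : W ≠ [] := fun e => by simp [e] at hW
    have e1 : W.take 1 = [W.head hne] := by
      cases W with
      | nil => simp at hW
      | cons b t => simp
    have e3 : W.take (W.length - 1) = W.dropLast := (List.dropLast_eq_take ..).symm
    have e4 : W.drop (W.length - 1) = [W.getLast hne] := List.drop_length_sub_one hne
    have key : ∀ s, (substS (h + δ₁) (ys s)).coeff W = (substS h (ys s)).coeff W +
        quad (ys s) (u (W.head hne) : ι → F) (Δ W.tail) +
        quad (ys s) (Δ W.dropLast : ι → F) (u (W.getLast hne)) := by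
      intro s
      rw [substS_change h δ₁ hh.zero hD hδ₁ (ys s) hW.le, hvec₁' W (by omega), e1, e3, e4,
        hh.first, hh.first, hvec₁ (W.drop 1) (by simp [List.length_drop]; omega),
        hvec₁ W.dropLast (by simp [hW]), map_zero, add_zero, List.drop_one]
    simp only [key, mul_add, sum_add_distrib, ← relForm_apply]
    rw [S.skew a (Δ W.dropLast), hΔ, hΔ]
    have := congrFun (hX W hne) a
    simp only [f, if_pos hW, Pi.sub_apply] at this
    rw [this]
    ring
  have hg : ∀ W : List (Fin 2), W.length = D + 1 → ∃ g : ι → F, ∀ s,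
      lin (ys s) g = -(substS (h + δ₁) (ys s)).coeff W := fun W hW =>
    S.exists_lin _ fun a => by simp [hobs W hW a]
  choose g hg using hg
  let δ₂ : ι → Ser F (Fin 2) :=
    fun i => ⟨fun W => if hW : W.length = D + 1 then g W hW i else 0⟩
  have hδ₂ : ∀ i, Ser.LowVanish (D + 1) (δ₂ i) := fun i W hW => dif_neg (by omega)
  have h10 : ∀ i, ((h + δ₁) i).coeff [] = 0 := fun i => by
    rw [Pi.add_apply, Ser.coeff_add, hh.zero, hδ₁ i [] (by simp; omega), add_zero]
  have hlow₂ : ∀ s, Ser.LowVanish (D + 2) (substS (h + δ₁ + δ₂) (ys s)) := by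
    intro s W hW
    have hz : ∀ V : List (Fin 2), V.length ≤ D → vec δ₂ V = 0 := fun V hV =>
      funext fun i => hδ₂ i V (by omega)
    rw [substS_change (h + δ₁) δ₂ h10 (D := D + 1) (by omega) hδ₂ (ys s) (by omega),
      hz (W.drop 1) (by simp [List.length_drop]; omega),
      hz (W.take (W.length - 1)) (by simp [List.length_take]; omega)]
    rcases eq_or_ne W.length (D + 1) with hl | hl
    · have : vec δ₂ W = g W hl := funext fun i => dif_pos hl
      simp [this, hg W hl s]
    · simp [hz W (by omega), hlow₁ s W (by omega)]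
  -- back to rational coefficients
  let h₀ : ι → Ser F (Fin 2) := fun i => ⟨fun W => if W.length < D then (h i).coeff W else 0⟩
  let δ : ι → Ser F (Fin 2) := fun i => h i - h₀ i + δ₁ i + δ₂ i
  have hsum : h₀ + δ = h + δ₁ + δ₂ := funext fun i => by
    show h₀ i + (h i - h₀ i + δ₁ i + δ₂ i) = h i + δ₁ i + δ₂ i
    abel
  have hδD : ∀ i, Ser.LowVanish D (δ i) := fun i W hW => by
    simp [δ, h₀, hW, hδ₁ i W hW, hδ₂ i W (by omega)]
  have h₀K : ∀ i W, (h₀ i).coeff W ∈ K := fun i W => by
    show (if W.length < D then (h i).coeff W else 0) ∈ K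
    split_ifs
    · exact hh.rational i W
    · exact K.zero_mem
  have h₀0 : ∀ i, (h₀ i).coeff [] = 0 := fun i => by simp [h₀, hh.zero]
  have hzv : ∀ j, Ser.LowVanish (D + 1 + 1) (substS (h₀ + δ) (zs j)) := by
    refine fun j => hsum ▸ S.vanish 2 _ _ (fun i => ?_) hlow₂ j
    rw [Pi.add_apply, Ser.coeff_add, h10, hδ₂ i [] (by simp), add_zero]
  obtain ⟨δ', hK', hδ', hv'⟩ :=
    rationalise K zs S.rational h₀ δ h₀K h₀0 hD le_rfl hδD hzv
  refine ⟨h₀ + δ', ⟨fun i W => ?_, fun i => ?_, fun b => ?_, fun s W hW => ?_⟩, fun i W hW => ?_⟩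
  · exact K.add_mem (h₀K i W) (hK' i W)
  · rw [Pi.add_apply, Ser.coeff_add, h₀0, hδ' i [] (by simp; omega), add_zero]
  · funext i
    simp [vec, h₀, show 1 < D by omega, hδ' i [b] (by simp; omega), ← hh.first]
  · exact S.subst_of_zs _ W (fun j => hv' j W hW) s
  · simp [h₀, hW, hδ' i W hW]

/-- The system has a rational solution whose linear part is injective modulo `G`. -/
theorem System.solve (S : System K ys zs om)
    (hrank : ∀ c : α → F, c ≠ 0 →
      3 * Fintype.card α ≤ finrank F (LinearMap.range (∑ a, c a • relForm ys (om a))))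
    (G : Submodule F (ι → F)) (hG : finrank F G + Fintype.card α + 1 < finrank F (linKer ys)) :
    ∃ h : ι → Ser F (Fin 2), (∀ i W, (h i).coeff W ∈ K) ∧ (∀ i, (h i).coeff [] = 0) ∧
      (∀ c d : F, c • vec h [0] + d • vec h [1] ∈ G → c = 0 ∧ d = 0) ∧
      ∀ s, substS h (ys s) = 0 := by
  classical
  have hG' : finrank F (G.comap (linKer ys).subtype) + Fintype.card α + 1 <
      finrank F (linKer ys) := by
    refine lt_of_le_of_lt ?_ hG
    gcongr
    rw [← Submodule.finrank_map_subtype_eq]
    exact Submodule.finrank_mono (Submodule.map_comap_le _ _)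
  obtain ⟨u₁, u₂, hu₁, hu₂, hiso, hoff, hsur⟩ := RationalChoice.exists_pair K (kpts K ys)
    kpts_points S.span_kpts (fun a => relForm ys (om a)) hrank _ hG'
    fun u hu => S.isotropic_rational u hu
  let u : Fin 2 → linKer ys := ![u₁, u₂]
  have hsurj : ∀ c : Fin 2 → α → F,
      ∃ v : linKer ys, ∀ b a, relForm ys (om a) (u b) v = c b a := fun c => by
    obtain ⟨v, hv⟩ := hsur (Sum.elim (c 0) (c 1))
    refine ⟨v, fun b a => ?_⟩
    fin_cases b
    · simpa [u] using congrFun hv (.inl a)
    · simpa [u] using congrFun hv (.inr a)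
  have huK : ∀ b i, (u b : ι → F) i ∈ K := fun b i => by
    fin_cases b
    · exact hu₁ i
    · exact hu₂ i
  -- the degree-two approximation
  obtain ⟨hF, hF0, hF1, hF2⟩ := S.exists_degree_two u fun a p q => by
    fin_cases p <;> fin_cases q <;> simp [u, S.diag, hiso a, S.skew a u₂ u₁]
  let b₀ : ι → Ser F (Fin 2) := fun i => ⟨fun W => if W.length < 2 then (hF i).coeff W else 0⟩
  have hb₀K : ∀ i W, (b₀ i).coeff W ∈ K := fun i W => by
    match W with
    | [] => simp [b₀, hF0]
    | [b] => simpa [b₀, ← congrFun (hF1 b) i, vec] using huK b i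
    | _ :: _ :: _ => simp [b₀]
  have hb₀0 : ∀ i, (b₀ i).coeff [] = 0 := fun i => by simp [b₀, hF0]
  obtain ⟨δ', hK', hδ', hv'⟩ := rationalise K zs S.rational b₀ (hF - b₀) hb₀K hb₀0
    (le_refl 2) (M := 2) (by omega) (fun i W hW => by simp [b₀, show W.length ≤ 1 by omega]) (fun j => by
      rw [add_sub_cancel]
      exact S.vanish 2 3 hF hF0 hF2 j)
  have hbase : Approx K ys u 2 (b₀ + δ') :=
    ⟨fun i W => K.add_mem (hb₀K i W) (hK' i W),
      fun i => by rw [Pi.add_apply, Ser.coeff_add, hb₀0, hδ' i [] (by simp), add_zero],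
      fun b => funext fun i => by simp [vec, b₀, hδ' i [b] (by simp), ← congrFun (hF1 b) i],
      fun s W hW => S.subst_of_zs _ W (fun j => hv' j W hW) s⟩
  choose next hnext hagree using fun (n : ℕ) (h : {h // Approx K ys u (n + 2) h}) =>
    S.step u hsurj (by omega : 2 ≤ n + 2) h.2
  let seq : ∀ n, {h // Approx K ys u (n + 2) h} :=
    fun n => Nat.rec ⟨_, hbase⟩ (fun m h => ⟨next m h, hnext m h⟩) n
  have hstab : ∀ n m, n ≤ m → ∀ i (W : List (Fin 2)), W.length < n + 2 →
      ((seq m).1 i).coeff W = ((seq n).1 i).coeff W := by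
    intro n m hnm
    induction m, hnm using Nat.le_induction with
    | base => exact fun i W _ => rfl
    | succ m hm ih =>
      intro i W hW
      rw [← ih i W hW]
      exact hagree m (seq m) i W (by omega)
  let hlim : ι → Ser F (Fin 2) := fun i => ⟨fun W => ((seq W.length).1 i).coeff W⟩
  have hlimeq : ∀ n i (W : List (Fin 2)), W.length ≤ n →
      (hlim i).coeff W = ((seq n).1 i).coeff W := fun n i W hW =>
    (hstab W.length n hW i W (by omega)).symm
  refine ⟨hlim, fun i W => (seq W.length).2.rational i W, fun i => (seq 0).2.zero i, ?_, ?_⟩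
  · intro c d hcd
    have h1 : ∀ b, vec hlim [b] = u b := fun b => (seq 1).2.first b
    rw [h1, h1] at hcd
    exact hoff c d (by simpa [Submodule.mem_comap, u] using hcd)
  · intro s
    ext W
    rw [substS_congr (seq (W.length + 1)).1 hlim (seq _).2.zero (n := W.length + 1) (by omega)
      (fun i V hV => hlimeq _ i V hV) (ys s) (by omega)]
    exact (seq (W.length + 1)).2.vanish s W (by omega)

end Main

end Vale.Agent.P199.Solve
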