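import Vale.Agent.P199.Frame
import Vale.Agent.P199.Solve

/-!
From a frame to the system solved by `Solve.System.solve`: the normalised traces of representative
blocks control all blocks, and the coordinates of the series in the basis of the division algebra
are the rational system.
-/

namespace Vale.Agent.P199.Kill

open Finset Series

section Matrix

variable {F : Type*} [Field F] {ι β κ : Type*} [Fintype β] [DecidableEq β] [Fintype ι]
  [DecidableEq ι]

lemma substM_coeff (h : ι → Ser F κ) (X : Ser (Matrix β β F) ι) (W : List κ) :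
    (substM h X).coeff W = ∑ k ∈ range (W.length + 1), ∑ w ∈ words ι k,
      ((w.map h).prod).coeff W • X.coeff w := by
  show ∑ k ∈ range (W.length + 1), ∑ w ∈ words ι k,
    X.coeff w * ((w.map fun i => Ser.map (Matrix.scalar β) (h i)).prod).coeff W = _
  refine sum_congr rfl fun k _ => sum_congr rfl fun w _ => ?_
  rw [show (w.map fun i => Ser.map (Matrix.scalar β) (h i)) =
      (w.map h).map (Ser.map (Matrix.scalar β)) by simp [List.map_map, Function.comp_def],
    ← map_list_prod, Ser.coeff_map]
  ext x y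
  simp [Matrix.scalar_apply, mul_comm]

lemma substM_coeff_decomp (h : ι → Ser F κ) (X : Ser (Matrix β β F) ι) (W : List κ) :
    (substM h X).coeff W =
      (substM h (zser X)).coeff W + Matrix.scalar β ((substS h (yser X)).coeff W) := by
  rw [substM_coeff, substM_coeff, Solve.substS_coeff, map_sum, ← sum_add_distrib]
  refine sum_congr rfl fun k _ => ?_
  rw [map_sum, ← sum_add_distrib]
  refine sum_congr rfl fun w _ => ?_
  simp only [zser, Ser.coeff_sub, Ser.coeff_map, smul_sub]
  ext x y
  rcases eq_or_ne x y with rfl | hxy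
  · simp [Matrix.scalar_apply]; ring
  · simp [Matrix.scalar_apply, hxy]

/-- Under SELF the normalised trace controls the whole block. -/
lemma substM_lowVanish {d k : ℕ} {X : Ser (Matrix β β F) ι} (hX : SelfDom X)
    {h : ι → Ser F (Fin d)} (h0 : ∀ i, (h i).coeff [] = 0)
    (hy : Ser.LowVanish k (substS h (yser X))) : Ser.LowVanish k (substM h X) := fun W hW => by
  rw [substM_coeff_decomp, hy W hW, map_zero, add_zero]
  exact hX d k h h0 hy W (by omega)

end Matrix

variable (S : Frame) {σ : Type*} (rep : σ → S.ρ)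

/-- Representatives control every block. -/
theorem substM_lowVanish_all (hself : ∀ r, SelfDom (S.X r))
    (hclass : ∀ r, ∃ s, ClassDom (yser (S.X (rep s))) (yser (S.X r)))
    {d k : ℕ} {h : S.ι → Ser S.F (Fin d)} (h0 : ∀ i, (h i).coeff [] = 0)
    (hy : ∀ s, Ser.LowVanish k (substS h (yser (S.X (rep s))))) (r : S.ρ) :
    Ser.LowVanish k (substM h (S.X r)) := by
  obtain ⟨s, hs⟩ := hclass r
  exact substM_lowVanish (hself r) h0 (hs d k h h0 (hy s))

/-- The coordinates of the series in the basis of the division algebra. -/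
noncomputable def coord (j : (S.β × S.ρ) × (S.β × S.ρ)) : Ser S.F S.ι :=
  ⟨fun w => Classical.choose (S.alg.exists_coord _ (S.X_mem w)) j⟩

lemma coord_mem (j : (S.β × S.ρ) × (S.β × S.ρ)) (w : List S.ι) :
    (coord S j).coeff w ∈ S.alg.K :=
  (Classical.choose_spec (S.alg.exists_coord _ (S.X_mem w))).1 j

lemma coord_spec (w : List S.ι) :
    Matrix.blockDiagonal (fun r => (S.X r).coeff w) = ∑ j, (coord S j).coeff w • S.alg.b j :=
  (Classical.choose_spec (S.alg.exists_coord _ (S.X_mem w))).2

lemma coord_lowVanish {d k : ℕ} {h : S.ι → Ser S.F (Fin d)}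
    (hX : ∀ r, Ser.LowVanish k (substM h (S.X r))) (j : (S.β × S.ρ) × (S.β × S.ρ)) :
    Ser.LowVanish k (substS h (coord S j)) := by
  intro W hW
  refine Fintype.linearIndependent_iff.1 S.alg.b_indep
    (fun j => (substS h (coord S j)).coeff W) ?_ j
  have e : ∑ j, (substS h (coord S j)).coeff W • S.alg.b j =
      ∑ k ∈ range (W.length + 1), ∑ w ∈ words S.ι k,
        ((w.map h).prod).coeff W • Matrix.blockDiagonal (fun r => (S.X r).coeff w) := by
    simp only [coord_spec, Solve.substS_coeff, sum_smul, smul_sum, smul_smul]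
    rw [sum_comm]
    refine sum_congr rfl fun k _ => ?_
    rw [sum_comm]
    exact sum_congr rfl fun w _ => sum_congr rfl fun j _ => by rw [mul_comm]
  rw [e]
  ext ⟨x, r⟩ ⟨y, r'⟩
  have hr := congrFun (congrFun (hX r W hW) x) y
  rw [substM_coeff] at hr
  simp only [Matrix.sum_apply, Matrix.smul_apply, Matrix.blockDiagonal_apply, Matrix.zero_apply]
    at hr ⊢
  by_cases hrr : r = r'
  · simpa [hrr] using hr
  · simp [hrr]

/-- The system of the representatives, with the coordinates as rational series. -/
theorem system [Fintype σ] {α : Type*} [Fintype α] (hself : ∀ r, SelfDom (S.X r))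
    (hclass : ∀ r, ∃ s, ClassDom (yser (S.X (rep s))) (yser (S.X r)))
    (om : α → σ → S.F) (hnull : NullRel fun s => yser (S.X (rep s)))
    (hrel : ∀ a i, ∑ s, om a s * lf (S.X (rep s)) i = 0)
    (hspan : ∀ ω : σ → S.F, (∀ i, ∑ s, ω s * lf (S.X (rep s)) i = 0) →
      ∃ c : α → S.F, ω = ∑ a, c a • om a) :
    Solve.System S.alg.K (fun s => yser (S.X (rep s))) (coord S) om where
  const s := by simp [yser, S.X_nil]
  rational := coord_mem S
  span_coeff := by
    refine ⟨fun s j => (Fintype.card S.β : S.F)⁻¹ *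
      ∑ x, S.alg.b j (x, rep s) (x, rep s), fun s w => ?_⟩
    have e : ∀ x, (S.X (rep s)).coeff w x x =
        ∑ j, (coord S j).coeff w * S.alg.b j (x, rep s) (x, rep s) := fun x => by
      have := congrFun (congrFun (coord_spec S w) (x, rep s)) (x, rep s)
      simpa [Matrix.blockDiagonal_apply, Matrix.sum_apply] using this
    show (Fintype.card S.β : S.F)⁻¹ * ∑ x, (S.X (rep s)).coeff w x x = _
    simp only [e, mul_sum, sum_mul]
    rw [sum_comm]
    exact sum_congr rfl fun j _ => sum_congr rfl fun x _ => by ring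
  vanish _ _ _ h0 hy := coord_lowVanish S (substM_lowVanish_all S rep hself hclass h0 hy)
  null := hnull
  rel := hrel
  rel_span := hspan

/-- A rational two-variable substitution killing every block, injective modulo `G` in degree
one. -/
theorem exists_kill [Fintype σ] {α : Type*} [Fintype α] (hself : ∀ r, SelfDom (S.X r))
    (hclass : ∀ r, ∃ s, ClassDom (yser (S.X (rep s))) (yser (S.X r)))
    (om : α → σ → S.F) (hnull : NullRel fun s => yser (S.X (rep s)))
    (hrel : ∀ a i, ∑ s, om a s * lf (S.X (rep s)) i = 0)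
    (hspan : ∀ ω : σ → S.F, (∀ i, ∑ s, ω s * lf (S.X (rep s)) i = 0) →
      ∃ c : α → S.F, ω = ∑ a, c a • om a)
    (hrank : ∀ c : α → S.F, c ≠ 0 → 3 * Fintype.card α ≤ Module.finrank S.F
      (LinearMap.range (∑ a, c a • Solve.relForm (fun s => yser (S.X (rep s))) (om a))))
    (G : Submodule S.F (S.ι → S.F))
    (hG : Module.finrank S.F G + Fintype.card α + 1 <
      Module.finrank S.F (Solve.linKer fun s => yser (S.X (rep s)))) :
    ∃ h : S.ι → Ser S.F (Fin 2), (∀ i W, (h i).coeff W ∈ S.alg.K) ∧ (∀ i, (h i).coeff [] = 0) ∧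
      (∀ c d : S.F, c • Solve.vec h [0] + d • Solve.vec h [1] ∈ G → c = 0 ∧ d = 0) ∧
      (∀ r, substM h (S.X r) = 0) ∧ ∀ r, substS h (yser (S.X r)) = 0 := by
  obtain ⟨h, hK, h0, hG', hy⟩ :=
    (system S rep hself hclass om hnull hrel hspan).solve hrank G hG
  have hv : ∀ s k, Ser.LowVanish k (substS h (yser (S.X (rep s)))) := fun s k W _ => by
    rw [hy s]; rfl
  refine ⟨h, hK, h0, hG', fun r => Ser.ext (funext fun W => ?_), fun r => Ser.ext (funext fun W => ?_)⟩
  · exact substM_lowVanish_all S rep hself hclass h0 (fun s => hv s _) r W (Nat.lt_succ_self _)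
  · obtain ⟨s, hs⟩ := hclass r
    exact hs 2 _ h h0 (hv s _) W (Nat.lt_succ_self _)

end Vale.Agent.P199.Kill
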