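import Vale.Agent.P199.Select
import Vale.Agent.P199.Kill

/-!
# P199: a frame with a rational substitution killing everything
-/

namespace Vale.Agent.P199

open Finset Series

/-- What the quadratic rank estimate supplies at an inflation of a best frame. -/
def RankHyp (P : Frame → Prop) (S : Frame) (R : S.Reps) : Prop :=
  ∃ N : ℕ, ∀ q ≥ N, ∀ Q : MvPolynomial (S.ι × Fin q × Fin q) S.F, Q ≠ 0 →
    ∃ (S' : Frame) (d : InflData S S' q) (R' : S'.Reps) (om : Fin S'.defect → R'.Cls → S'.F),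
      Best P S' ∧ d.evalPoint Q ≠ 0 ∧ S'.defect = S.defect ∧
      (∀ a i, ∑ s, om a s * lf (S'.X (R'.rep s)) i = 0) ∧
      (∀ ω : R'.Cls → S'.F, (∀ i, ∑ s, ω s * lf (S'.X (R'.rep s)) i = 0) →
        ∃ c : Fin S'.defect → S'.F, ω = ∑ a, c a • om a) ∧
      (∀ c : Fin S'.defect → S'.F, c ≠ 0 → 3 * S'.defect ≤ Module.finrank S'.F
        (LinearMap.range (∑ a, c a • Solve.relForm (fun s => yser (S'.X (R'.rep s))) (om a)))) ∧
      Fintype.card S'.ι ≤
        Module.finrank S'.F (Solve.linKer fun s => yser (S'.X (R'.rep s))) +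
          Fintype.card R.Cls * q

theorem InflData.card_ι {S S' : Frame} {q : ℕ} (d : InflData S S' q) :
    Fintype.card S'.ι = Fintype.card S.ι * (q * q) := by
  rw [← finrank_span_eq_card d.e_indep, d.e_span, finrank_top, Module.finrank_pi_fintype]
  simp [Module.finrank_matrix]

/-- In an inflatable class some frame has a rational two-variable substitution killing all its
blocks, whose linear part avoids a small subspace. -/
theorem exists_killed {P : Frame → Prop} (hP : Inflatable P)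
    (hne : ∃ T, P T ∧ ∃ r, T.X r ≠ 0) (G : ∀ T, P T → Submodule T.F (T.ι → T.F))
    (hG : ∀ T (hT : P T), 2 * Module.finrank T.F (G T hT) ≤ Fintype.card T.ι)
    (hB : ∀ S, Best P S → ∀ R : S.Reps, RankHyp P S R) :
    ∃ (T : Frame) (hT : P T) (h : T.ι → Ser T.F (Fin 2)),
      (∀ i W, (h i).coeff W ∈ T.alg.K) ∧ (∀ i, (h i).coeff [] = 0) ∧
      (∀ c d : T.F, c • Solve.vec h [0] + d • Solve.vec h [1] ∈ G T hT → c = 0 ∧ d = 0) ∧
      (∀ r, substM h (T.X r) = 0) := by
  classical
  obtain ⟨T₀, hT₀, hr⟩ := hne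
  obtain ⟨S, hS⟩ := exists_best hP (exists_pos hP hT₀ hr)
  obtain ⟨R⟩ := Frame.exists_reps (hS.toMinMu.h0 hP)
  obtain ⟨N, hN⟩ := hB S hS R
  let q := N + 2 * (Fintype.card R.Cls + S.defect + 2)
  obtain ⟨S', d, R', om, hS', -, hdef, hrel, hspan, hrank, hker⟩ :=
    hN q (Nat.le_add_right _ _) 1 one_ne_zero
  have hd : 1 ≤ Fintype.card S.ι := by
    obtain ⟨r⟩ := S.nonemptyρ
    obtain ⟨i, -⟩ := Function.ne_iff.mp (hS.toMinMu.h0 hP r)
    exact Fintype.card_pos_iff.mpr ⟨i⟩
  have hGbound : Module.finrank S'.F (G S' hS'.mem) + Fintype.card (Fin S'.defect) + 1 <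
      Module.finrank S'.F (Solve.linKer fun s => yser (S'.X (R'.rep s))) := by
    rw [Fintype.card_fin, hdef]
    have h1 := hG S' hS'.mem
    have h2 := d.card_ι
    have h3 : 2 * (Fintype.card R.Cls * q) + 2 * S.defect + 2 < Fintype.card S.ι * (q * q) := by
      have hq : 2 * (Fintype.card R.Cls + S.defect + 2) ≤ q := Nat.le_add_left _ _
      calc 2 * (Fintype.card R.Cls * q) + 2 * S.defect + 2
          < (2 * (Fintype.card R.Cls + S.defect + 2)) * q := by nlinarith
        _ ≤ q * q := Nat.mul_le_mul_right q hq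
        _ ≤ Fintype.card S.ι * (q * q) := Nat.le_mul_of_pos_left _ hd
    omega
  obtain ⟨h, hK, h0, hindep, hkill, -⟩ := Kill.exists_kill S' R'.rep (hS'.toMinMu.selfDom' hP)
    (fun r => ⟨R'.cls r, hS'.toMinCl.classDom' hP (R'.rel_cls r)⟩) om (hS'.nullRel' hP R') hrel
    hspan (by simpa using hrank) (G S' hS'.mem) hGbound
  exact ⟨S', hS'.mem, h, hK, h0, hindep, hkill⟩

end Vale.Agent.P199
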