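import Vale.Agent.P199.BRankLead
import Vale.Agent.P199.Solve
import Vale.Agent.P199.OpenPairs
import Vale.Agent.P199.StepCore

/-!
# P199: the hypotheses of SOLVE at a good inflation

The relations of the new forms lift the relations of the old ones, and every combination of
their quadratic forms has large rank on the common kernel of the linear parts.
-/

namespace Vale.Agent.P199.BRank

open Finset Module Series

section Linear

variable {F L : Type*} [Field F] [Field L] {σ J : Type*} [Fintype σ] [Fintype J]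

/-- Independent rows have a right inverse. -/
lemma exists_rightInv [DecidableEq σ] [DecidableEq J] (v : σ → J → F)
    (h : LinearIndependent F v) : ∃ w : Matrix J σ F, Matrix.of v * w = 1 := by
  have hinj : Function.Injective (Matrix.mulVecLin (Matrix.of v).transpose) := by
    rw [Matrix.coe_mulVecLin, Matrix.mulVec_injective_iff]
    exact h
  obtain ⟨g, hg⟩ := LinearMap.exists_leftInverse_of_injective _ (LinearMap.ker_eq_bot.mpr hinj)
  refine ⟨(LinearMap.toMatrix' g).transpose, ?_⟩
  have h' : LinearMap.toMatrix' g * (Matrix.of v).transpose = 1 := by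
    rw [← LinearMap.toMatrix'_toLin' (Matrix.of v).transpose, Matrix.toLin'_apply',
      ← LinearMap.toMatrix'_comp, hg, LinearMap.toMatrix'_id]
  rw [← Matrix.transpose_transpose (Matrix.of v), ← Matrix.transpose_mul, h', Matrix.transpose_one]

lemma map_vecMul {R T : Type*} [CommRing R] [CommRing T] {α β : Type*} [Fintype α] (f : R →+* T)
    (y : α → R) (M : Matrix α β R) :
    (fun i => f (Matrix.vecMul y M i)) = Matrix.vecMul (fun j => f (y j)) (M.map f) :=
  funext fun i => RingHom.map_vecMul f M y i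

/-- If the rank is that of the constant terms, relations of the constant terms lift. -/
theorem exists_lift {κ : PowerSeries F →+* L} (hκ : Function.Injective κ)
    (v : σ → J → PowerSeries F)
    (h : finrank L (Submodule.span L (Set.range fun s i => κ (v s i))) ≤
      finrank F (Submodule.span F (Set.range fun s i => PowerSeries.constantCoeff (v s i))))
    (w : σ → F) (hw : ∀ i, ∑ s, w s * PowerSeries.constantCoeff (v s i) = 0) :
    ∃ ω : σ → PowerSeries F, (∀ i, ∑ s, ω s * v s i = 0) ∧
      ∀ s, PowerSeries.constantCoeff (ω s) = w s := by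
  classical
  obtain ⟨b, hbσ, hspan, hli⟩ := exists_linearIndependent F
    (Set.range fun s i => PowerSeries.constantCoeff (v s i))
  have : Fintype b := ((Set.finite_range _).subset hbσ).fintype
  choose g hg using fun x : b => hbσ x.2
  have hli0 : LinearIndependent F fun (x : b) i => PowerSeries.constantCoeff (v (g x) i) := by
    rw [show (fun (x : b) i => PowerSeries.constantCoeff (v (g x) i)) = Subtype.val from funext hg]
    exact hli
  have hliL : LinearIndependent L fun (x : b) i => κ (v (g x) i) :=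
    SelectLin.linearIndependent_lift κ _ hli0
  have hle : Submodule.span L (Set.range fun (x : b) i => κ (v (g x) i)) ≤
      Submodule.span L (Set.range fun s i => κ (v s i)) := by
    refine Submodule.span_mono ?_
    rintro _ ⟨x, rfl⟩
    exact ⟨g x, rfl⟩
  have heq := Submodule.eq_of_le_of_finrank_le hle (by
    rw [finrank_span_eq_card hliL]
    refine h.trans (le_of_eq ?_)
    rw [← hspan, finrank_span_set_eq_card hli, Set.toFinset_card])
  obtain ⟨w0, hw0⟩ := exists_rightInv _ hli0
  let V : Matrix b J (PowerSeries F) := Matrix.of fun x i => v (g x) i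
  let W : Matrix J b (PowerSeries F) := w0.map PowerSeries.C
  have hu : IsUnit (V * W).det := by
    rw [PowerSeries.isUnit_iff_constantCoeff, RingHom.map_det]
    have : (PowerSeries.constantCoeff (R := F)).mapMatrix (V * W) = 1 := by
      rw [← hw0]
      ext s t
      simp [V, W, Matrix.mul_apply, map_sum]
    rw [this, Matrix.det_one]
    exact isUnit_one
  have hγ : ∀ s, ∃ γ : b → PowerSeries F, Matrix.vecMul γ V = v s := by
    intro s
    have hmem : (fun i => κ (v s i)) ∈
        Submodule.span L (Set.range fun (x : b) i => κ (v (g x) i)) :=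
      heq ▸ Submodule.subset_span ⟨s, rfl⟩
    obtain ⟨c, hc⟩ := (Submodule.mem_span_range_iff_exists_fun L).1 hmem
    have hc' : Matrix.vecMul c (V.map κ) = fun i => κ (v s i) := by
      rw [← hc]
      funext i
      simp [Matrix.vecMul, dotProduct, V]
    refine ⟨Matrix.vecMul (Matrix.vecMul (v s) W) (V * W)⁻¹, funext fun i => hκ ?_⟩
    refine (congrFun (map_vecMul κ _ V) i).trans ?_
    rw [map_vecMul κ (Matrix.vecMul (v s) W) (V * W)⁻¹, map_vecMul κ (v s) W, ← hc', Matrix.vecMul_vecMul (v := c), ← Matrix.map_mul,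
      Matrix.vecMul_vecMul (v := c), ← Matrix.map_mul, Matrix.mul_nonsing_inv _ hu,
      Matrix.map_one _ (map_zero κ) (map_one κ), Matrix.vecMul_one, hc']
  choose γ hγ using hγ
  refine ⟨fun s => PowerSeries.C (w s) -
    ∑ x ∈ {x : b | g x = s}, ∑ t, PowerSeries.C (w t) * γ t x, fun i => ?_, fun s => ?_⟩
  · have hv : ∀ t, v t i = ∑ x, γ t x * v (g x) i := fun t => (congrFun (hγ t) i).symm
    simp only [sub_mul, sum_sub_distrib, sum_mul]
    rw [sub_eq_zero]
    calc ∑ t, PowerSeries.C (w t) * v t i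
        = ∑ x, ∑ t, PowerSeries.C (w t) * γ t x * v (g x) i := by
          rw [sum_comm]
          refine sum_congr rfl fun t _ => ?_
          conv_lhs => rw [hv t, mul_sum]
          exact sum_congr rfl fun x _ => by ring
      _ = _ := by
          rw [← sum_fiberwise univ g]
          refine sum_congr rfl fun s _ => sum_congr rfl fun x hx => ?_
          rw [(mem_filter.1 hx).2]
  · rw [map_sub, map_sum, PowerSeries.constantCoeff_C, sub_eq_self]
    refine sum_eq_zero fun x _ => ?_
    simp only [map_sum, map_mul, PowerSeries.constantCoeff_C]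
    refine Fintype.linearIndependent_iff.1 hli0
      (fun x => ∑ t, w t * PowerSeries.constantCoeff (γ t x)) ?_ x
    funext i
    simp only [Finset.sum_apply, Pi.smul_apply, smul_eq_mul, sum_mul, Pi.zero_apply]
    rw [sum_comm, ← hw i]
    refine sum_congr rfl fun t _ => ?_
    conv_rhs => rw [← congrFun (hγ t) i]
    simp [Matrix.vecMul, dotProduct, V, map_sum, mul_sum, mul_assoc]

/-- Restriction of a bilinear form to a subspace. -/
theorem finrank_range_compl₁₂ {V : Type*} [AddCommGroup V] [Module F V] [FiniteDimensional F V]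
    (f : V →ₗ[F] Dual F V) (W : Submodule F V) :
    finrank F (LinearMap.range f) + 2 * finrank F W ≤
      finrank F (LinearMap.range (f.compl₁₂ W.subtype W.subtype)) + 2 * finrank F V := by
  obtain ⟨W', hW'⟩ := W.exists_isCompl
  have h1 : finrank F (LinearMap.range f) ≤ finrank F (W.map f) + finrank F W' := by
    rw [LinearMap.range_eq_map, ← hW'.sup_eq_top, Submodule.map_sup]
    refine (Submodule.finrank_add_le_finrank_add_finrank _ _).trans ?_
    exact Nat.add_le_add_left (Submodule.finrank_map_le f W') _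
  have h2 := Submodule.finrank_add_eq_of_isCompl hW'
  let ρ : Dual F V →ₗ[F] Dual F W := W.subtype.dualMap
  have hrange : LinearMap.range (f.compl₁₂ W.subtype W.subtype) = (W.map f).map ρ := by
    rw [← Submodule.map_comp]
    ext z
    simp only [LinearMap.mem_range, Submodule.mem_map, Subtype.exists]
    constructor
    · rintro ⟨u, hu, rfl⟩; exact ⟨u, hu, rfl⟩
    · rintro ⟨u, hu, rfl⟩; exact ⟨u, hu, rfl⟩
  have h3 := LinearMap.finrank_range_add_finrank_ker (K := F) (V := W.map f)
    (ρ.domRestrict (W.map f))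
  rw [LinearMap.range_domRestrict] at h3
  have h4 : finrank F (LinearMap.ker (ρ.domRestrict (W.map f))) ≤ finrank F (LinearMap.ker ρ) := by
    rw [← Submodule.finrank_map_subtype_eq]
    refine Submodule.finrank_mono ?_
    rintro _ ⟨z, hz, rfl⟩
    exact hz
  have h5 : finrank F (LinearMap.ker ρ) + finrank F W = finrank F V := by
    rw [show LinearMap.ker ρ = W.dualAnnihilator by
      rw [LinearMap.ker_dualMap_eq_dualAnnihilator_range, Submodule.range_subtype]]
    have := Subspace.finrank_add_finrank_dualAnnihilator_eq W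
    omega
  have key : finrank F (LinearMap.range (f.compl₁₂ W.subtype W.subtype)) +
      finrank F (LinearMap.ker (ρ.domRestrict (W.map f))) = finrank F (W.map f) := by
    rw [hrange]
    exact h3
  omega

end Linear

lemma psi_sum {F : Type*} [Field F] {ι Cls J : Type*} [Fintype ι] [Fintype Cls] [Fintype J]
    {q : ℕ} (l : Cls → ι → F) (c : ι → Matrix (Fin q) (Fin q) F) (lam : Cls → Fin q → F)
    (C : Cls) (k : Fin q) (α : J → F) (U : J → ι → Matrix (Fin q) (Fin q) F)
    (V : ι → Matrix (Fin q) (Fin q) F) :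
    psi l c lam C k (∑ j, α j • U j) V = ∑ j, α j * psi l c lam C k (U j) V := by
  have hM : Kernels.M l C (∑ j, α j • U j) = ∑ j, α j • Kernels.M l C (U j) := by
    simp only [Kernels.M, Finset.sum_apply, Pi.smul_apply, smul_sum, smul_smul, mul_comm (α _)]
    exact sum_comm
  simp only [psi, hM, mul_sum, sum_mul, Matrix.mul_smul, Matrix.smul_mul, Matrix.trace_sum,
    Matrix.trace_smul, smul_eq_mul, sum_div]
  rw [sum_comm]
  exact sum_congr rfl fun j _ => sum_congr rfl fun k' _ => by ring

variable {S S' : Frame} {q : ℕ}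

theorem linKer_bound {σ : Type*} [Fintype σ] {F : Type*} [Field F] {ι : Type*} [Fintype ι]
    [DecidableEq ι] (ys : σ → Ser F ι) :
    Fintype.card ι ≤ finrank F (Solve.linKer ys) + Fintype.card σ := by
  have h : Solve.linKer ys = LinearMap.ker (LinearMap.pi fun s => Solve.lin (ys s)) := by
    ext v
    simp [Solve.mem_linKer, funext_iff]
  have h1 := LinearMap.finrank_range_add_finrank_ker (LinearMap.pi fun s => Solve.lin (ys s))
  have h2 := (Submodule.finrank_le (LinearMap.range (LinearMap.pi fun s => Solve.lin (ys s))))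
  rw [finrank_pi] at h1 h2
  rw [h]
  omega

variable {d : InflData S S' q} {φ : S.ρ × Fin q ≃ S'.ρ} {lam : S.ρ → Fin q → d.F₀}
  {x : S.ρ × Fin q → PowerSeries d.F₀} {L : S.ρ × Fin q → S'.ι → PowerSeries d.F₀}
  (R : S.Reps) (R' : S'.Reps) (e : R.Cls × Fin q ≃ R'.Cls)
  (hrep : ∀ Ck, R'.rep (e Ck) = φ (R.rep Ck.1, Ck.2))

include hrep in
/-- The relations of the new forms are spanned by lifts of the relations of the old ones. -/
theorem exists_relations (hq : 0 < q) (hforms : d.Forms φ lam x L) {m : ℕ}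
    (hrk : finrank S'.F (Submodule.span S'.F
      (Set.range fun Ck : R.Cls × Fin q => S'.l (φ (R.rep Ck.1, Ck.2)))) =
        Fintype.card R.Cls * q - m)
    (hpiv : Fintype.card R.Cls * q - m ≤ finrank d.F₀ (Submodule.span d.F₀
      (Set.range fun Ck : R.Cls × Fin q => d.v0 lam (R.rep Ck.1, Ck.2))))
    (om₀ : Fin m → R.Cls → S.F) (hom₀ : LinearIndependent S.F om₀)
    (hrel₀ : ∀ a i, ∑ C, om₀ a C * S.l (R.rep C) i = 0) :
    ∃ ω : Fin m → R.Cls × Fin q → PowerSeries d.F₀,
      (∀ a s, PowerSeries.constantCoeff (ω a s) = d.f (om₀ a s.1)) ∧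
      (∀ a i, ∑ s, d.κ (ω a (e.symm s)) * lf (S'.X (R'.rep s)) i = 0) ∧
      ∀ w : R'.Cls → S'.F, (∀ i, ∑ s, w s * lf (S'.X (R'.rep s)) i = 0) →
        ∃ c : Fin m → S'.F, w = ∑ a, c a • fun s => d.κ (ω a (e.symm s)) := by
  classical
  obtain ⟨hlam, -, -, hl, -, -⟩ := id hforms
  have hL0 := InflData.constantCoeff_L hforms
  have hmM : m ≤ Fintype.card R.Cls := by
    simpa using hom₀.fintype_card_le_finrank
  have hcard : Fintype.card R'.Cls = Fintype.card R.Cls * q := by
    rw [← Fintype.card_congr e, Fintype.card_prod, Fintype.card_fin]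
  let v : R.Cls × Fin q → S'.ι → PowerSeries d.F₀ := fun Ck => L (R.rep Ck.1, Ck.2)
  have hlf : ∀ Ck i, lf (S'.X (R'.rep (e Ck))) i = d.κ (v Ck i) := fun Ck i => by
    rw [hrep]
    exact hl (R.rep Ck.1, Ck.2) i
  have e1 : (fun (Ck : R.Cls × Fin q) (i : S'.ι) => PowerSeries.constantCoeff (v Ck i)) =
      fun Ck => d.v0 lam (R.rep Ck.1, Ck.2) := funext fun _ => funext fun _ => hL0 _ _
  have e2 : (fun (Ck : R.Cls × Fin q) (i : S'.ι) => d.κ (v Ck i)) =
      fun Ck => S'.l (φ (R.rep Ck.1, Ck.2)) := funext fun _ => funext fun _ => (hl _ _).symm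
  have hspanv : finrank S'.F (Submodule.span S'.F (Set.range fun Ck i => d.κ (v Ck i))) =
      Fintype.card R.Cls * q - m := by rw [e2, hrk]
  -- lifts of the relations
  have hlift : ∀ a, ∃ ω : R.Cls × Fin q → PowerSeries d.F₀, (∀ i, ∑ s, ω s * v s i = 0) ∧
      ∀ s, PowerSeries.constantCoeff (ω s) = d.f (om₀ a s.1) := by
    intro a
    refine exists_lift d.κ_injective v ?_ _ fun i => ?_
    · rw [hspanv, e1]
      exact hpiv
    · have hsum : ∀ j, ∑ C, d.f (om₀ a C) * d.f (S.l (R.rep C) j) = 0 := fun j => by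
        simp only [← map_mul, ← map_sum, hrel₀ a j, map_zero]
      have hproj : ∀ C, ∑ k, d.P0 lam (R.rep C, k) = 1 := fun C => by
        simp only [InflData.P0, SelectLin.proj, ← map_sum]
        rw [Lagrange.sum_basis ((hlam _).1.injOn) (univ_nonempty_iff.2 (Fin.pos_iff_nonempty.1 hq)),
          map_one]
      simp only [v, hL0, InflData.v0, SelectLin.leadVec, SelectLin.pairing, Fintype.sum_prod_type]
      calc ∑ C, ∑ k, d.f (om₀ a C) * Matrix.trace
            (d.P0 lam (R.rep C, k) * ∑ j, d.f (S.l (R.rep C) j) • d.e i j)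
          = ∑ C, ∑ j, d.f (om₀ a C) * d.f (S.l (R.rep C) j) * Matrix.trace (d.e i j) := by
            refine sum_congr rfl fun C _ => ?_
            rw [← mul_sum, ← Matrix.trace_sum, ← sum_mul, hproj, one_mul, Matrix.trace_sum, mul_sum]
            exact sum_congr rfl fun j _ => by rw [Matrix.trace_smul, smul_eq_mul, mul_assoc]
        _ = 0 := by
            rw [sum_comm]
            exact sum_eq_zero fun j _ => by rw [← sum_mul, hsum, zero_mul]
  choose ω hω hω0 using hlift
  let om : Fin m → R'.Cls → S'.F := fun a s => d.κ (ω a (e.symm s))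
  have hrel : ∀ a i, ∑ s, om a s * lf (S'.X (R'.rep s)) i = 0 := by
    intro a i
    rw [← e.sum_comp]
    simp only [om, Equiv.symm_apply_apply, hlf, ← map_mul, ← map_sum, hω, map_zero]
  have hindep : LinearIndependent S'.F om := by
    refine SelectLin.linearIndependent_lift d.κ (fun a s => ω a (e.symm s)) ?_
    simp only [hω0]
    have h1 := SelectLin.linearIndependent_map_field d.f om₀ hom₀
    rw [Fintype.linearIndependent_iff] at h1 ⊢
    intro c hc
    refine h1 c (funext fun C => ?_)
    simpa [Finset.sum_apply] using congrFun hc (e (C, ⟨0, hq⟩))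
  refine ⟨ω, hω0, hrel, fun w hw => ?_⟩
  -- the relations are exactly the lifted ones
  let T := Fintype.linearCombination S'.F (fun s => fun i => lf (S'.X (R'.rep s)) i)
  have hker : ∀ u : R'.Cls → S'.F,
      u ∈ LinearMap.ker T ↔ ∀ i, ∑ s, u s * lf (S'.X (R'.rep s)) i = 0 := fun u => by
    simp [T, Fintype.linearCombination_apply, funext_iff]
  have hT := LinearMap.finrank_range_add_finrank_ker T
  rw [Fintype.range_linearCombination, finrank_pi, hcard] at hT
  have hsp : Submodule.span S'.F (Set.range fun s => fun i => lf (S'.X (R'.rep s)) i) =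
      Submodule.span S'.F (Set.range fun Ck i => d.κ (v Ck i)) := by
    rw [← e.surjective.range_comp]
    simp only [Function.comp_def, hlf]
  rw [hsp, hspanv] at hT
  have hle : Submodule.span S'.F (Set.range om) ≤ LinearMap.ker T := by
    rw [Submodule.span_le]
    rintro _ ⟨a, rfl⟩
    exact (hker _).2 (hrel a)
  have := Submodule.eq_of_le_of_finrank_le hle (by
    rw [finrank_span_eq_card hindep, Fintype.card_fin]
    have : m ≤ Fintype.card R.Cls * q := hmM.trans (Nat.le_mul_of_pos_right _ hq)
    omega)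
  have hmem : w ∈ Submodule.span S'.F (Set.range om) := this ▸ (hker w).2 hw
  obtain ⟨c, hc⟩ := (Submodule.mem_span_range_iff_exists_fun S'.F).1 hmem
  exact ⟨c, hc.symm⟩

include hrep in
/-- Every combination of the forms of lifted relations has large rank on the common kernel. -/
theorem rank_bound (hlin : ∀ r i, (S.X r).coeff [i] = S.l r i • (1 : Matrix S.β S.β S.F))
    (hq : 0 < q) (hquad : d.Quad) (hmu : S'.mu = S.mu) (hforms : d.Forms φ lam x L) {m : ℕ}
    (om₀ : Fin m → R.Cls → S.F) (ω : Fin m → R.Cls × Fin q → PowerSeries d.F₀)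
    (hω0 : ∀ a s, PowerSeries.constantCoeff (ω a s) = d.f (om₀ a s.1)) {B : ℕ}
    (hB : 2 * Fintype.card R.Cls + 3 * m ≤ B)
    (U : Fin (B * q) → S.ι → Matrix (Fin q) (Fin q) d.F₀)
    (hU : LinearIndependent d.F₀ fun (z : Fin m × Fin (B * q)) (i : S'.ι) =>
      PsiP (fun C i => d.f (S.l (R.rep C) i)) d.c (fun C => lam (R.rep C))
        (fun C => d.f (om₀ z.1 C)) (U z.2) (d.e i))
    (c : Fin m → S'.F) (hc : c ≠ 0) :
    3 * m ≤ finrank S'.F (LinearMap.range (∑ a, c a •
      Solve.relForm (fun s => yser (S'.X (R'.rep s))) fun s => d.κ (ω a (e.symm s)))) := by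
  classical
  obtain ⟨hlam, hxc, hroot, -, -, -⟩ := hforms
  have hcard : Fintype.card R'.Cls = Fintype.card R.Cls * q := by
    rw [← Fintype.card_congr e, Fintype.card_prod, Fintype.card_fin]
  let om : Fin m → R'.Cls → S'.F := fun a s => d.κ (ω a (e.symm s))
  -- the coordinates of the test vectors
  have hα : ∀ r, ∃ α : S'.ι → d.F₀, ∑ i, α i • d.e i = U r := fun r =>
    (Submodule.mem_span_range_iff_exists_fun d.F₀).1 (d.e_span ▸ Submodule.mem_top)
  choose α hα using hα
  have hW := fun (Ck : R.Cls × Fin q) l l' => quad_lead hlin d hquad hmu φ lam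
    (fun r => (hlam r).1) x hxc hroot (R.rep Ck.1, Ck.2) l l'
  choose W hWeq hW0 using hW
  let vecs : Fin m × Fin (B * q) → S'.ι → PowerSeries d.F₀ := fun z i =>
    ∑ l, PowerSeries.C (α z.2 l) * ∑ Ck, ω z.1 Ck * W Ck l i
  have hvecs : LinearIndependent S'.F fun z i => d.κ (vecs z i) := by
    refine SelectLin.linearIndependent_lift d.κ vecs ?_
    convert hU using 1
    funext z i
    simp only [vecs, map_sum, map_mul, PowerSeries.constantCoeff_C, hω0, hW0]
    rw [psiP_eq, ← hα z.2]
    simp only [psi_sum, mul_sum, Fintype.sum_prod_type]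
    rw [sum_comm]
    refine sum_congr rfl fun C _ => ?_
    rw [sum_comm]
    refine sum_congr rfl fun k _ => sum_congr rfl fun l _ => ?_
    show α z.2 l * (d.f (om₀ z.1 C) * psi (fun C i => d.f (S.l (R.rep C) i)) d.c
      (fun C => lam (R.rep C)) C k (d.e l) (d.e i)) = _
    ring
  let ys := fun s => yser (S'.X (R'.rep s))
  let Q : (S'.ι → S'.F) →ₗ[S'.F] Dual S'.F (S'.ι → S'.F) :=
    ∑ a, c a • ∑ s, om a s • Solve.quad (ys s)
  have hQ : ∀ r i, d.κ PowerSeries.X * Q (fun l => d.κ (PowerSeries.C (α r l))) (Pi.single i 1) =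
      ∑ a, c a * d.κ (vecs (a, r) i) := by
    intro r i
    simp only [Q, LinearMap.sum_apply, LinearMap.smul_apply, smul_eq_mul, Solve.quad_apply,
      Pi.single_apply, mul_ite, mul_one, mul_zero, sum_ite_eq', mem_univ, if_true, mul_sum]
    refine sum_congr rfl fun a _ => ?_
    simp only [vecs, map_sum, map_mul, mul_sum]
    rw [← e.sum_comp, sum_comm]
    refine sum_congr rfl fun l _ => sum_congr rfl fun Ck _ => ?_
    simp only [om, Equiv.symm_apply_apply, ys, hrep]
    linear_combination (c a * d.κ (ω a Ck) * d.κ (PowerSeries.C (α r l))) * hWeq Ck l i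
  obtain ⟨a₀, ha₀⟩ := Function.ne_iff.1 hc
  have hQindep : LinearIndependent S'.F
      fun r => Q (fun l => d.κ (PowerSeries.C (α r l))) := by
    rw [Fintype.linearIndependent_iff]
    intro g hg
    have h0 := Fintype.linearIndependent_iff.1 hvecs (fun z => c z.1 * g z.2) (funext fun i => by
      have := congrArg (fun D : Dual S'.F (S'.ι → S'.F) =>
        d.κ PowerSeries.X * D (Pi.single i 1)) hg
      simp only [LinearMap.sum_apply, LinearMap.smul_apply, smul_eq_mul, mul_sum,
        LinearMap.zero_apply, mul_zero] at this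
      rw [Pi.zero_apply, ← this, Finset.sum_apply, Fintype.sum_prod_type, sum_comm]
      refine sum_congr rfl fun r _ => ?_
      rw [mul_left_comm, hQ, mul_sum]
      exact sum_congr rfl fun a _ => by simp only [Pi.smul_apply, smul_eq_mul]; ring)
    exact fun r => (mul_eq_zero.1 (h0 (a₀, r))).resolve_left ha₀
  have hBq : B * q ≤ finrank S'.F (LinearMap.range Q) := by
    rw [← Fintype.card_fin (B * q), ← finrank_span_eq_card hQindep]
    refine Submodule.finrank_mono (Submodule.span_le.2 ?_)
    rintro _ ⟨r, rfl⟩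
    exact ⟨_, rfl⟩
  have hres : ∑ a, c a • Solve.relForm ys (om a) =
      Q.compl₁₂ (Solve.linKer ys).subtype (Solve.linKer ys).subtype := by
    refine LinearMap.ext fun u => LinearMap.ext fun v => ?_
    simp [Q, Solve.relForm_apply, LinearMap.sum_apply]
  have h1 := finrank_range_compl₁₂ Q (Solve.linKer ys)
  have h2 := linKer_bound ys
  rw [finrank_pi, ← hres] at h1
  rw [hcard] at h2
  have h3 : 2 * (Fintype.card R.Cls * q) + 3 * m ≤ B * q := by
    calc 2 * (Fintype.card R.Cls * q) + 3 * m ≤ 2 * (Fintype.card R.Cls * q) + 3 * m * q :=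
          Nat.add_le_add_left (Nat.le_mul_of_pos_right _ hq) _
      _ = (2 * Fintype.card R.Cls + 3 * m) * q := by ring
      _ ≤ B * q := Nat.mul_le_mul_right q hB
  show 3 * m ≤ finrank S'.F (LinearMap.range (∑ a, c a • Solve.relForm ys (om a)))
  obtain ⟨N, hN, hN'⟩ : ∃ N, finrank S'.F
      (LinearMap.range (∑ a, c a • Solve.relForm ys (om a))) = N ∧
      finrank S'.F (LinearMap.range Q) + 2 * finrank S'.F (Solve.linKer ys) ≤
        N + 2 * Fintype.card S'.ι := ⟨_, rfl, h1⟩
  rw [hN]
  omega

theorem exists_om₀ {P : Frame → Prop} (hP : Inflatable P) {S : Frame} (hS : Best P S)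
    (R : S.Reps) :
    ∃ om₀ : Fin S.defect → R.Cls → S.F, LinearIndependent S.F om₀ ∧
      ∀ a i, ∑ C, om₀ a C * S.l (R.rep C) i = 0 := by
  classical
  have h00 := hS.toMinMu.h0 hP
  let T := Fintype.linearCombination S.F (fun C => S.l (R.rep C))
  have hT := LinearMap.finrank_range_add_finrank_ker T
  rw [Fintype.range_linearCombination, finrank_pi, ← R.span_eq h00] at hT
  have hdim : finrank S.F (LinearMap.ker T) = S.defect := by
    rw [Frame.defect, R.numCls_eq h00 (Frame.rel_card _ hS.pos)]
    omega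
  let b := finBasisOfFinrankEq S.F (LinearMap.ker T) hdim
  refine ⟨fun a => (b a : R.Cls → S.F),
    b.linearIndependent.map' (LinearMap.ker T).subtype (Submodule.ker_subtype _), fun a i => ?_⟩
  have h := congrFun (LinearMap.mem_ker.1 (b a).2) i
  simp only [T, Fintype.linearCombination_apply, Finset.sum_apply, Pi.smul_apply, smul_eq_mul,
    Pi.zero_apply] at h
  exact h

/-- The quadratic rank estimate at inflations of a best frame. -/
theorem _root_.Vale.Agent.P199.rankHyp {P : Frame → Prop} (hP : Inflatable P) {S : Frame}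
    (hS : Best P S) (R : S.Reps) : RankHyp P S R := by
  classical
  have h00 := hS.toMinMu.h0 hP
  have hcard := Frame.rel_card _ hS.pos
  obtain ⟨om₀, hom₀, hrel₀⟩ := exists_om₀ hP hS R
  obtain ⟨N₁, hN₁⟩ := hS.exists_infl hP R
  obtain ⟨N₂, hN₂⟩ := OpenPoly.open_pivot (fun C => S.l (R.rep C)) (fun C => h00 _)
    (fun C C' h => R.linearIndependent_pair h) ((R.sqs_iff h00 hcard).mp hS.sqs)
  obtain ⟨N₃, hN₃⟩ := OpenPairs.open_pairs (fun C => S.l (R.rep C)) (fun C => h00 _)
    (fun C C' h => R.linearIndependent_pair h) om₀ hom₀ (2 * Fintype.card R.Cls + 3 * S.defect)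
  refine ⟨N₁ + N₂ + N₃ + 1, fun q hq Q hQ => ?_⟩
  obtain ⟨Q₂, hQ₂, hQ₂'⟩ := hN₂ q (by omega)
  obtain ⟨Q₃, hQ₃, hQ₃'⟩ := hN₃ q (by omega)
  obtain ⟨S', d, φ, lam, x, L, R', e, hS', hev, hquad, hF, hrep, hrk, hdef, -⟩ :=
    hN₁ q (by omega) (Q * (Q₂ * Q₃)) (mul_ne_zero hQ (mul_ne_zero hQ₂ hQ₃))
  obtain ⟨he, he'⟩ := d.evalPoint_mul hev
  obtain ⟨he2, he3⟩ := d.evalPoint_mul he'
  have hmu : S'.mu = S.mu :=
    le_antisymm (hS'.mu_le S hS.mem hS.pos) (hS.mu_le S' hS'.mem hS'.pos)
  have hlamR := fun C => hF.1 (R.rep C)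
  have hpiv : Fintype.card R.Cls * q - S.defect ≤ finrank d.F₀ (Submodule.span d.F₀
      (Set.range fun Ck : R.Cls × Fin q => d.v0 lam (R.rep Ck.1, Ck.2))) := by
    have h1 := hQ₂' d.F₀ d.f d.c (fun C => lam (R.rep C)) he2 hlamR S'.ι d.e d.e_span
    rw [Frame.defect, R.numCls_eq h00 hcard, R.span_eq h00]
    exact h1
  obtain ⟨U, hU⟩ := hQ₃' d.F₀ d.f d.c (fun C => lam (R.rep C)) he3 hlamR S'.ι d.e d.e_span
  have hq0 : 0 < q := by omega
  obtain ⟨ω, hω0, hrel, hspan⟩ := exists_relations R R' e hrep hq0 hF hrk hpiv om₀ hom₀ hrel₀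
  have hrank := rank_bound R R' e hrep (hS.toMinMu.lin hP) hq0 hquad hmu hF om₀ ω hω0 le_rfl U hU
  refine ⟨S', d, R', fun a s => d.κ (ω (Fin.cast hdef a) (e.symm s)), hS', he, hdef,
    fun a i => hrel _ i, fun w hw => ?_, fun c hc => ?_, ?_⟩
  · obtain ⟨c, hcw⟩ := hspan w hw
    refine ⟨fun a => c (Fin.cast hdef a), hcw.trans ?_⟩
    exact (Equiv.sum_comp (finCongr hdef) fun a => c a • fun s => d.κ (ω a (e.symm s))).symm
  · have h := hrank (fun a => c (Fin.cast hdef.symm a)) fun h => hc <| funext fun a => by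
      simpa using congrFun h (Fin.cast hdef a)
    rw [← Equiv.sum_comp (finCongr hdef)] at h
    exact (le_of_eq (congrArg (3 * ·) hdef)).trans h
  · have h := linKer_bound fun s => yser (S'.X (R'.rep s))
    rwa [← Fintype.card_congr e, Fintype.card_prod, Fintype.card_fin] at h

end Vale.Agent.P199.BRank
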