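import Vale.Agent.P199.Basic

/-!
# P199: division algebras inside matrices, frames, inflation data
-/

namespace Vale.Agent.P199

open Finset Series

/-- A division algebra over `K`, given inside the matrices over an algebraically closed field as
the `K`-span of a basis of all matrices. -/
structure DivAlg (n : Type) [Fintype n] [DecidableEq n] (F : Type) [Field F] where
  K : Subfield F
  D : Subring (Matrix n n F)
  scalar_mem : ∀ x ∈ K, Matrix.scalar n x ∈ D
  b : n × n → Matrix n n F
  b_mem : ∀ i, b i ∈ D
  b_indep : LinearIndependent F b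
  exists_coord : ∀ x ∈ D, ∃ c : n × n → F, (∀ i, c i ∈ K) ∧ x = ∑ i, c i • b i
  no_zero_div : ∀ x ∈ D, ∀ y ∈ D, x * y = 0 → x = 0 ∨ y = 0
  roots : ∀ q : ℕ, q ≠ 0 → ∃ z ∈ K, IsPrimitiveRoot z q

/-- A series over a division algebra, already gauged: its constant is diagonal with eigenvalues
`root`, each of multiplicity `card β`, and everything is block diagonal. -/
structure Frame where
  F : Type
  [fieldF : Field F]
  [closedF : IsAlgClosed F]
  [charF : CharZero F]
  ρ : Type
  [fintypeρ : Fintype ρ]
  [decρ : DecidableEq ρ]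
  [nonemptyρ : Nonempty ρ]
  β : Type
  [fintypeβ : Fintype β]
  [decβ : DecidableEq β]
  [nonemptyβ : Nonempty β]
  ι : Type
  [fintypeι : Fintype ι]
  [decι : DecidableEq ι]
  alg : DivAlg (β × ρ) F
  root : ρ → F
  root_injective : Function.Injective root
  root_mem : Matrix.blockDiagonal (fun r => Matrix.scalar β (root r)) ∈ alg.D
  X : ρ → Ser (Matrix β β F) ι
  X_nil : ∀ r, (X r).coeff [] = 0
  X_mem : ∀ w, Matrix.blockDiagonal (fun r => (X r).coeff w) ∈ alg.D

attribute [instance] Frame.fieldF Frame.closedF Frame.charF Frame.fintypeρ Frame.decρ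
  Frame.nonemptyρ Frame.fintypeβ Frame.decβ Frame.nonemptyβ Frame.fintypeι Frame.decι

namespace Frame

variable (S : Frame)

/-- Multiplicity of the eigenvalues of the constant term. -/
def mu : ℕ := Fintype.card S.β

/-- The linear form of an eigenvalue. -/
def l (r : S.ρ) : S.ι → S.F := lf (S.X r)

/-- Some linear form is nonzero. -/
def Pos : Prop := ∃ r, S.l r ≠ 0

/-- Proportional linear forms. -/
def Rel (r r' : S.ρ) : Prop := ∀ i j, S.l r i * S.l r' j = S.l r j * S.l r' i

/-- The whole series. -/
def ser : Ser (Matrix (S.β × S.ρ) (S.β × S.ρ) S.F) S.ι :=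
  Ser.C (Matrix.blockDiagonal fun r => Matrix.scalar S.β (S.root r)) +
    ⟨fun w => Matrix.blockDiagonal fun r => (S.X r).coeff w⟩

end Frame

section Infl

open PowerSeries

variable {A : Type*} [CommRing A] {ι q : Type*}

/-- `τ • v` for a constant tuple of matrices. -/
noncomputable def tauPoint (v : ι → Matrix q q A) (i : ι) : Matrix q q (PowerSeries A) :=
  fun x y => PowerSeries.X * PowerSeries.C (v i x y)

variable [Fintype ι] [DecidableEq ι] [Fintype q] [DecidableEq q]

/-- Three-step point: its upper right block is the ordered second derivative along `V`, `V'`. -/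
def tripPoint (H V V' : ι → Matrix q q (PowerSeries A)) (i : ι) :
    Matrix ((q ⊕ q) ⊕ q) ((q ⊕ q) ⊕ q) (PowerSeries A) :=
  Matrix.fromBlocks (dblPoint H V i) (Matrix.of fun x y => Sum.elim (fun _ => 0) (V' i · y) x)
    0 (H i)

/-- The ordered second derivative. -/
noncomputable def dev2 {β : Type*} [Fintype β] [DecidableEq β]
    (H V V' : ι → Matrix q q (PowerSeries A)) (a : Ser (Matrix β β A) ι) :
    Matrix (β × q) (β × q) (PowerSeries A) :=
  fun x y => ev (tripPoint H V V') a (x.1, Sum.inl (Sum.inl x.2)) (y.1, Sum.inr y.2)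

end Infl

/-- What the selection uses about the inflation of `S` by `q` at the point `τ • c`: the roots and
linear forms of the new frame. -/
structure InflData (S S' : Frame) (q : ℕ) where
  F₀ : Type
  [fieldF₀ : Field F₀]
  [closedF₀ : IsAlgClosed F₀]
  [charF₀ : CharZero F₀]
  f : S.F →+* F₀
  κ : PowerSeries F₀ →+* S'.F
  κ_injective : Function.Injective κ
  c : S.ι → Matrix (Fin q) (Fin q) F₀
  e : S'.ι → S.ι → Matrix (Fin q) (Fin q) F₀
  e_indep : LinearIndependent F₀ e
  e_span : Submodule.span F₀ (Set.range e) = ⊤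
  charpoly_eq :
    ∏ r, ((Matrix.scalar (S.β × Fin q) (PowerSeries.C (f (S.root r))) +
        ev (tauPoint c) (Ser.map f.mapMatrix (S.X r))).map κ).charpoly =
      ∏ r', (Polynomial.X - Polynomial.C (S'.root r')) ^ S'.mu
  trace_eq : ∀ (g : Polynomial S'.F) (l : S'.ι),
    κ PowerSeries.X * ∑ r', Polynomial.eval (S'.root r') g * (S'.mu : S'.F) * S'.l r' l =
      ∑ r, Matrix.trace (Polynomial.aeval
        ((Matrix.scalar (S.β × Fin q) (PowerSeries.C (f (S.root r))) +
          ev (tauPoint c) (Ser.map f.mapMatrix (S.X r))).map κ) g *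
        (dev (tauPoint c) (tauPoint (e l)) (Ser.map f.mapMatrix (S.X r))).map κ)

attribute [instance] InflData.fieldF₀ InflData.closedF₀ InflData.charF₀

namespace InflData

variable {S S' : Frame} {q : ℕ} (d : InflData S S' q)

/-- The series of a block with coefficients in `F₀`. -/
noncomputable def XF (r : S.ρ) : Ser (Matrix S.β S.β d.F₀) S.ι :=
  Series.Ser.map d.f.mapMatrix (S.X r)

/-- The block matrix `root + X` at the point. -/
noncomputable def blk (r : S.ρ) : Matrix (S.β × Fin q) (S.β × Fin q) S'.F :=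
  (Matrix.scalar (S.β × Fin q) (PowerSeries.C (d.f (S.root r))) +
    ev (tauPoint d.c) (d.XF r)).map d.κ

/-- The evaluation of a polynomial at the point. -/
noncomputable def evalPoint (P : MvPolynomial (S.ι × Fin q × Fin q) S.F) : d.F₀ :=
  MvPolynomial.eval₂ d.f (fun x => d.c x.1 x.2.1 x.2.2) P

/-- The quadratic part of the new normalised traces. -/
def Quad : Prop :=
  ∀ (r' : S'.ρ) (l l' : S'.ι),
    d.κ PowerSeries.X ^ 2 * (S'.mu : S'.F) * (yser (S'.X r')).coeff [l, l'] =
      ∑ r, (Matrix.trace (Polynomial.aeval (d.blk r) (Lagrange.basis Finset.univ S'.root r') *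
          (dev2 (tauPoint d.c) (tauPoint (d.e l)) (tauPoint (d.e l')) (d.XF r)).map d.κ) +
        ∑ s ∈ Finset.univ.erase r', (S'.root r' - S'.root s)⁻¹ * Matrix.trace
          (Polynomial.aeval (d.blk r) (Lagrange.basis Finset.univ S'.root r') *
            (dev (tauPoint d.c) (tauPoint (d.e l)) (d.XF r)).map d.κ *
            Polynomial.aeval (d.blk r) (Lagrange.basis Finset.univ S'.root s) *
            (dev (tauPoint d.c) (tauPoint (d.e l')) (d.XF r)).map d.κ))

end InflData

/-- `p` is a `μ`-th power of a monic polynomial of degree `q`. -/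
def IsPow {R : Type*} [CommRing R] (μ q : ℕ) (p : Polynomial R) : Prop :=
  ∃ h : Polynomial R, h.Monic ∧ h.natDegree = q ∧ p = h ^ μ

end Vale.Agent.P199
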