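import Vale.Agent.P199.Eval
import Vale.Agent.P199.Frame

/-!
P199: the ordered second derivative `dev2`.
-/

namespace Vale.Agent.P199

open Finset Series
open scoped Kronecker

section Second

variable {A : Type*} [CommRing A] {ι p β : Type*} [Fintype ι] [DecidableEq ι] [Fintype β]
  [DecidableEq β] [Fintype p] [DecidableEq p] {H V V' W : ι → Matrix p p (PowerSeries A)}

omit [Fintype ι] [DecidableEq ι] in
/-- The ordered second derivative of the product along a word. -/
noncomputable def d2prod (H V V' : ι → Matrix p p (PowerSeries A)) :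
    List ι → Matrix p p (PowerSeries A)
  | [] => 0
  | i :: w => H i * d2prod H V V' w + V i * dprod H V' w

/-- The general upper triangular point with three steps. -/
def tri3 (H V V' W : ι → Matrix p p (PowerSeries A)) (i : ι) :
    Matrix ((p ⊕ p) ⊕ p) ((p ⊕ p) ⊕ p) (PowerSeries A) :=
  Matrix.fromBlocks (dblPoint H V i) (Matrix.fromRows (W i) (V' i)) 0 (H i)

omit [Fintype ι] [DecidableEq ι] [Fintype p] [DecidableEq p] in
theorem tripPoint_eq [Fintype ι] [DecidableEq ι] [Fintype p] [DecidableEq p]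
    (H V V' : ι → Matrix p p (PowerSeries A)) : tripPoint H V V' = tri3 H V V' 0 := by
  funext i
  ext x y
  rcases x with (x | x) | x <;> rcases y with (y | y) | y <;> simp [tripPoint, tri3]

omit [Fintype ι] [DecidableEq ι] in
theorem prod_tri3 (H V V' W : ι → Matrix p p (PowerSeries A)) : ∀ w : List ι,
    (w.map (tri3 H V V' W)).prod =
      Matrix.fromBlocks (w.map (dblPoint H V)).prod
        (Matrix.fromRows (d2prod H V V' w + dprod H W w) (dprod H V' w)) 0 (w.map H).prod
  | [] => by
    simp [d2prod, dprod, Matrix.fromBlocks_one,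
      show Matrix.fromRows (0 : Matrix p p (PowerSeries A)) (0 : Matrix p p (PowerSeries A)) = 0
        from Matrix.fromRows_zero]
  | i :: w => by
    rw [List.map_cons, List.prod_cons, prod_tri3 H V V' W w, tri3, Matrix.fromBlocks_multiply,
      dblPoint, Matrix.fromBlocks_mul_fromRows, Matrix.fromRows_mul]
    simp only [List.map_cons, List.prod_cons, dblPoint, Matrix.mul_zero, Matrix.zero_mul, add_zero,
      zero_add]
    congr 1
    · ext x y
      rcases x with x | x <;> simp
    · rw [Matrix.fromRows_mul]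
      ext x y
      rcases x with x | x
      · simp [d2prod, dprod, Matrix.mul_add]
        abel
      · simp [dprod]

omit [Fintype ι] [DecidableEq ι] [Fintype p] [DecidableEq p] in
theorem van_tri3 {e : ℕ} (hH : ∀ i, Van e (H i)) (hV : ∀ i, Van e (V i))
    (hV' : ∀ i, Van e (V' i)) (hW : ∀ i, Van e (W i)) (i : ι) : Van e (tri3 H V V' W i) := by
  intro k hk
  refine Matrix.ext fun x y => ?_
  rcases x with (x | x) | x <;> rcases y with (y | y) | y
  · exact congrFun₂ (hH i k hk) x y
  · exact congrFun₂ (hV i k hk) x y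
  · exact congrFun₂ (hW i k hk) x y
  · simp [tri3, dblPoint]
  · exact congrFun₂ (hH i k hk) x y
  · exact congrFun₂ (hV' i k hk) x y
  · simp [tri3]
  · simp [tri3]
  · exact congrFun₂ (hH i k hk) x y

theorem smallAt_tripPoint (hH : SmallAt H) (hV : SmallAt V) (hV' : SmallAt V') :
    SmallAt (tripPoint H V V') := by
  rw [tripPoint_eq]
  exact smallAt_iff.2 (van_tri3 (smallAt_iff.1 hH) (smallAt_iff.1 hV) (smallAt_iff.1 hV')
    fun _ => Van.zero 1)

/-- The coefficient formula for `dev2`. -/
theorem cm_dev2 (H V V' : ι → Matrix p p (PowerSeries A)) (a : Ser (Matrix β β A) ι) (k : ℕ) :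
    cm k (dev2 H V V' a) =
      ∑ l ∈ range (k + 1), ∑ w ∈ words ι l, a.coeff w ⊗ₖ cm k (d2prod H V V' w) := by
  refine Matrix.ext fun x y => ?_
  have h := congrFun₂ (cm_ev (tripPoint H V V') a k)
    (x.1, Sum.inl (Sum.inl x.2)) (y.1, Sum.inr y.2)
  have h0 : ∀ w, dprod H (0 : ι → Matrix p p (PowerSeries A)) w = 0 := by
    intro w
    induction w with
    | nil => rfl
    | cons i w ih => simp [dprod, ih]
  simp only [Matrix.sum_apply, cm_apply, Matrix.kroneckerMap_apply, tripPoint_eq, prod_tri3, h0,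
    add_zero, Matrix.fromBlocks_apply₁₂, Matrix.fromRows_apply_inl] at h ⊢
  rw [← h, dev2, tripPoint_eq]

/-- The blocks of the evaluation at a three-step point. -/
theorem ev_tri3 (H V V' W : ι → Matrix p p (PowerSeries A)) (a : Ser (Matrix β β A) ι)
    (x y : β × p) :
    ev (tri3 H V V' W) a (x.1, .inl (.inl x.2)) (y.1, .inl (.inl y.2)) = ev H a x y ∧
    ev (tri3 H V V' W) a (x.1, .inl (.inl x.2)) (y.1, .inl (.inr y.2)) = dev H V a x y ∧
    ev (tri3 H V V' W) a (x.1, .inl (.inl x.2)) (y.1, .inr y.2) =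
      dev2 H V V' a x y + dev H W a x y ∧
    ev (tri3 H V V' W) a (x.1, .inl (.inr x.2)) (y.1, .inl (.inl y.2)) = 0 ∧
    ev (tri3 H V V' W) a (x.1, .inl (.inr x.2)) (y.1, .inl (.inr y.2)) = ev H a x y ∧
    ev (tri3 H V V' W) a (x.1, .inl (.inr x.2)) (y.1, .inr y.2) = dev H V' a x y ∧
    ev (tri3 H V V' W) a (x.1, .inr x.2) (y.1, .inl (.inl y.2)) = 0 ∧
    ev (tri3 H V V' W) a (x.1, .inr x.2) (y.1, .inl (.inr y.2)) = 0 ∧
    ev (tri3 H V V' W) a (x.1, .inr x.2) (y.1, .inr y.2) = ev H a x y := by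
  have key := fun (s t : (p ⊕ p) ⊕ p) (k : ℕ) =>
    congrFun₂ (cm_ev (tri3 H V V' W) a k) (x.1, s) (y.1, t)
  have he := fun k : ℕ => congrFun₂ (cm_ev H a k) x y
  have hv := fun k : ℕ => congrFun₂ (cm_dev H V a k) x y
  have hv' := fun k : ℕ => congrFun₂ (cm_dev H V' a k) x y
  have hw := fun k : ℕ => congrFun₂ (cm_dev H W a k) x y
  have h2 := fun k : ℕ => congrFun₂ (cm_dev2 H V V' a k) x y
  simp only [Matrix.sum_apply, cm_apply, Matrix.kroneckerMap_apply, prod_tri3,
    prod_dblPoint] at key he hv hv' hw h2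
  refine ⟨?_, ?_, ?_, ?_, ?_, ?_, ?_, ?_, ?_⟩ <;> refine PowerSeries.ext fun k => ?_ <;>
    simp [key, he, hv, hv', hw, h2, mul_add, sum_add_distrib]

theorem dev2_add (hH : SmallAt H) (hV : SmallAt V) (hV' : SmallAt V')
    (a b : Ser (Matrix β β A) ι) :
    dev2 H V V' (a + b) = dev2 H V V' a + dev2 H V V' b := by
  refine Matrix.ext fun x y => ?_
  simp [dev2, ev_add (smallAt_tripPoint hH hV hV')]

theorem dev2_sub (hH : SmallAt H) (hV : SmallAt V) (hV' : SmallAt V')
    (a b : Ser (Matrix β β A) ι) :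
    dev2 H V V' (a - b) = dev2 H V V' a - dev2 H V V' b := by
  refine Matrix.ext fun x y => ?_
  simp [dev2, ev_sub (smallAt_tripPoint hH hV hV')]

theorem dev2_C (H V V' : ι → Matrix p p (PowerSeries A)) (M : Matrix β β A) :
    dev2 H V V' (Ser.C M) = 0 := by
  refine Matrix.ext fun x y => ?_
  simp [dev2, ev_C]

theorem dev2_X (hH : SmallAt H) (hV : SmallAt V) (hV' : SmallAt V') (i : ι) :
    dev2 H V V' (Ser.X i : Ser (Matrix β β A) ι) = 0 := by
  refine Matrix.ext fun x y => ?_
  simp [dev2, ev_X (smallAt_tripPoint hH hV hV'), tripPoint]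

/-- Leibniz for the ordered second derivative. -/
theorem dev2_mul (hH : SmallAt H) (hV : SmallAt V) (hV' : SmallAt V')
    (a b : Ser (Matrix β β A) ι) :
    dev2 H V V' (a * b) =
      ev H a * dev2 H V V' b + dev H V a * dev H V' b + dev2 H V V' a * ev H b := by
  refine Matrix.ext fun x y => ?_
  have hW : ∀ c : Ser (Matrix β β A) ι, dev H (0 : ι → Matrix p p (PowerSeries A)) c = 0 := by
    intro c
    have := dev_smul_dir hH (V := 0) (fun _ _ _ => map_zero _) (0 : PowerSeries A) c
    simpa using this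
  have h := congrFun₂ (ev_mul (smallAt_tripPoint hH hV hV') a b)
    (x.1, .inl (.inl x.2)) (y.1, .inr y.2)
  show ev (tripPoint H V V') (a * b) _ _ = _
  rw [h, Matrix.mul_apply, tripPoint_eq, Fintype.sum_prod_type]
  simp only [Fintype.sum_sum_type, sum_add_distrib, Matrix.add_apply, Matrix.mul_apply,
    Fintype.sum_prod_type]
  have e := fun c (z w : β × p) => ev_tri3 H V V' 0 c z w
  simp only [hW, Matrix.zero_apply, add_zero] at e
  refine congrArg₂ (· + ·) (congrArg₂ (· + ·) ?_ ?_) ?_
  all_goals refine sum_congr rfl fun z _ => sum_congr rfl fun z' _ => ?_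
  · rw [(e a x (z, z')).1, (e b (z, z') y).2.2.1]
  · rw [(e a x (z, z')).2.1, (e b (z, z') y).2.2.2.2.2.1]
  · rw [(e a x (z, z')).2.2.1, (e b (z, z') y).2.2.2.2.2.2.2.2]

theorem dev2_van {a : Ser (Matrix β β A) ι} {e n : ℕ} (hH : ∀ i, Van e (H i))
    (hV : ∀ i, Van e (V i)) (hV' : ∀ i, Van e (V' i)) (ha : Ser.LowVanish n a) :
    Van (e * n) (dev2 H V V' a) := by
  have h := ev_van (β := β) (van_tri3 hH hV hV' (W := 0) fun _ => Van.zero e) ha
  intro k hk
  refine Matrix.ext fun x y => ?_
  simpa [dev2, tripPoint_eq] using congrFun₂ (h k hk) (x.1, .inl (.inl x.2)) (y.1, .inr y.2)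

/-- The second derivative of `evS`. -/
noncomputable def devS2 (H V V' : ι → Matrix p p (PowerSeries A)) (y : Ser A ι) :
    Matrix p p (PowerSeries A) :=
  fun x x' => evS (tripPoint H V V') y (.inl (.inl x)) (.inr x')

theorem evS_tripPoint (H V V' : ι → Matrix p p (PowerSeries A)) (y : Ser A ι) :
    evS (tripPoint H V V') y =
      Matrix.fromBlocks (evS (dblPoint H V) y) (Matrix.fromRows (devS2 H V V' y) (devS H V' y)) 0
        (evS H y) := by
  refine Matrix.ext fun x x' => ?_
  have e := fun a b : p => ev_tri3 H V V' 0 (scalar1 y) ((), a) ((), b)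
  have h0 : dev H (0 : ι → Matrix p p (PowerSeries A)) (scalar1 y) = 0 := by
    refine Matrix.ext fun a b => PowerSeries.ext fun k => ?_
    have h := congrFun₂ (cm_dev H (0 : ι → Matrix p p (PowerSeries A)) (scalar1 y) k) a b
    have hd : ∀ w, dprod H (0 : ι → Matrix p p (PowerSeries A)) w = 0 := by
      intro w
      induction w with
      | nil => rfl
      | cons i w ih => simp [dprod, ih]
    simpa [hd, cm] using h
  rw [evS_dblPoint, tripPoint_eq]
  rcases x with (x | x) | x <;> rcases x' with (x' | x') | x'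
  · exact (e x x').1
  · exact (e x x').2.1
  · exact ((e x x').2.2.1).trans (by rw [h0, Matrix.zero_apply, add_zero]; rfl)
  · exact (e x x').2.2.2.1
  · exact (e x x').2.2.2.2.1
  · exact (e x x').2.2.2.2.2.1
  · exact (e x x').2.2.2.2.2.2.1
  · exact (e x x').2.2.2.2.2.2.2.1
  · exact (e x x').2.2.2.2.2.2.2.2

theorem dev2_map_scalar (H V V' : ι → Matrix p p (PowerSeries A)) (y : Ser A ι) :
    dev2 H V V' (Ser.map (Matrix.scalar β) y) =
      (1 : Matrix β β (PowerSeries A)) ⊗ₖ devS2 H V V' y := by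
  refine Matrix.ext fun x x' => ?_
  simp [dev2, ev_map_scalar, devS2]

omit [Fintype ι] [DecidableEq ι] [Fintype p] [DecidableEq p] in
theorem van_tauPoint (v : ι → Matrix p p A) (i : ι) : Van 1 (tauPoint v i) := by
  intro k hk
  obtain rfl : k = 0 := by omega
  refine Matrix.ext fun x y => ?_
  simp [tauPoint]

omit [Fintype ι] [DecidableEq ι] [Fintype p] [DecidableEq p] in
theorem smallAt_tauPoint (v : ι → Matrix p p A) : SmallAt (tauPoint v) :=
  smallAt_iff.2 (van_tauPoint v)

end Second

section Chain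

variable {F : Type*} [Field F] {ι κ p β : Type*} [Fintype ι] [DecidableEq ι] [Fintype κ]
  [DecidableEq κ] [Fintype β] [DecidableEq β] [Fintype p] [DecidableEq p]
  {H V V' : κ → Matrix p p (PowerSeries F)} {h : ι → Ser F κ}

/-- Chain rule of second order. -/
theorem dev2_substM (hH : SmallAt H) (hV : SmallAt V) (hV' : SmallAt V')
    (hh : ∀ i, (h i).coeff [] = 0) (X : Ser (Matrix β β F) ι) :
    dev2 H V V' (substM h X) =
      dev2 (fun i => evS H (h i)) (fun i => devS H V (h i)) (fun i => devS H V' (h i)) X +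
        dev (fun i => evS H (h i)) (fun i => devS2 H V V' (h i)) X := by
  have e : (fun i => evS (tripPoint H V V') (h i)) =
      tri3 (fun i => evS H (h i)) (fun i => devS H V (h i)) (fun i => devS H V' (h i))
        (fun i => devS2 H V V' (h i)) := by
    funext i
    rw [evS_tripPoint, evS_dblPoint]
    rfl
  refine Matrix.ext fun x y => ?_
  show ev (tripPoint H V V') (substM h X) _ _ = _
  rw [ev_substM (smallAt_tripPoint hH hV hV') hh, e, Matrix.add_apply]
  exact (ev_tri3 _ _ _ _ X x y).2.2.1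

end Chain

end Vale.Agent.P199
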