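import Mathlib

/-!
# P199: linear algebra of linear forms evaluated at matrix tuples (blueprint v3)

`l C` is a linear form and `M l C Y = ∑ i, l C i • Y i`.

* `pivot`: under `SQ` there is a point at which the only relations are the constant ones.
* `sq_acquire`: a point whose eigen-classes satisfy `SQ`.
* `pairs`: many jointly independent functionals `Psi (om a) (u r) ·`.
-/

namespace Vale.Agent.P199.Kernels

open Finset Polynomial

variable {F Cls ι : Type*} [Field F] [Fintype Cls] [Fintype ι]

/-- The value of the form `C` at a tuple of matrices. -/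
def M {n : Type*} (l : Cls → ι → F) (C : Cls) (Y : ι → Matrix n n F) : Matrix n n F :=
  ∑ i, l C i • Y i

/-- The squares of the forms are independent. -/
def SQ (l : Cls → ι → F) : Prop :=
  LinearIndependent F fun C => fun p : ι × ι => l C p.1 * l C p.2

/-- The unnormalised projector to the eigenvalue `lam C k`. -/
noncomputable def Lag {q : ℕ} (l : Cls → ι → F) (C : Cls) (k : Fin q)
    (Y : ι → Matrix (Fin q) (Fin q) F) (lam : Cls → Fin q → F) : Matrix (Fin q) (Fin q) F :=
  aeval (M l C Y) (∏ k' ∈ univ.erase k, (X - Polynomial.C (lam C k')))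

/-- The second order form at the diagonal point `t`. -/
def Psi {q : ℕ} (l : Cls → ι → F) (t : ι → Fin q → F) (w : Cls → F)
    (U V : ι → Matrix (Fin q) (Fin q) F) : F :=
  ∑ C, w C * ∑ k, ∑ k' ∈ univ.erase k,
    M l C U k k' * M l C V k' k / ((∑ i, l C i * t i k) - ∑ i, l C i * t i k')

/-- Finitely many nonzero forms have a common non-zero. -/
theorem exists_forall_dot_ne_zero [Infinite F] {κ : Type*} (s : Finset κ)
    (a : κ → ι → F) (ha : ∀ k ∈ s, a k ≠ 0) :
    ∃ x : ι → F, ∀ k ∈ s, ∑ i, a k i * x i ≠ 0 := by
  classical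
  induction s using Finset.induction with
  | empty => exact ⟨0, by simp⟩
  | insert k s _ ih =>
    obtain ⟨x, hx⟩ := ih fun j hj => ha j (mem_insert_of_mem hj)
    obtain ⟨l, hl⟩ := Function.ne_iff.mp (ha k (mem_insert_self k s))
    obtain ⟨t, ht⟩ := Infinite.exists_notMem_finset
      ((insert k s).image fun j => -(∑ i, a j i * x i) / a j l)
    refine ⟨x + t • (Pi.single l 1 : ι → F), fun j hj => ?_⟩
    have hsum : ∑ i, a j i * (x + t • (Pi.single l 1 : ι → F)) i =
        (∑ i, a j i * x i) + t * a j l := by
      simp [mul_add, sum_add_distrib, Pi.single_apply, mul_comm]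
    rw [hsum]
    intro h0
    by_cases hjl : a j l = 0
    · rw [hjl, mul_zero, add_zero] at h0
      rcases mem_insert.mp hj with rfl | hj'
      · exact hl hjl
      · exact hx j hj' h0
    · exact ht (mem_image.mpr ⟨j, hj, by
        rw [div_eq_iff hjl]
        linear_combination -h0⟩)

/-- Two projections `u, v` under which all forms are nonzero and have distinct slopes. -/
theorem exists_slopes [Infinite F] (l : Cls → ι → F) (h0 : ∀ C, l C ≠ 0)
    (hpair : ∀ C D, C ≠ D → LinearIndependent F ![l C, l D]) :
    ∃ u v : ι → F, (∀ C, ∑ i, l C i * u i ≠ 0) ∧ (∀ C, ∑ i, l C i * v i ≠ 0) ∧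
      Function.Injective fun C => (∑ i, l C i * v i) / ∑ i, l C i * u i := by
  classical
  obtain ⟨u, hu⟩ := exists_forall_dot_ne_zero univ l fun C _ => h0 C
  let a : Cls → F := fun C => ∑ i, l C i * u i
  have ha : ∀ C, a C ≠ 0 := fun C => hu C (mem_univ C)
  let g : Cls × Cls → ι → F := fun x =>
    if x.1 = x.2 then l x.1 else a x.2 • l x.1 - a x.1 • l x.2
  obtain ⟨v, hv⟩ := exists_forall_dot_ne_zero univ g fun x _ => by
    simp only [g]
    split_ifs with h
    · exact h0 x.1
    · intro h'
      refine ha x.2 ((LinearIndependent.pair_iff.mp (hpair x.1 x.2 h) (a x.2) (-a x.1) ?_).1)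
      rw [neg_smul, ← sub_eq_add_neg, h']
  refine ⟨u, v, fun C => ha C, fun C => by simpa [g] using hv (C, C) (mem_univ _), ?_⟩
  intro C D hCD
  by_contra hne
  refine hv (C, D) (mem_univ _) ?_
  have h1 : (∑ i, l C i * v i) * a D = (∑ i, l D i * v i) * a C :=
    (div_eq_div_iff (ha C) (ha D)).mp hCD
  simp only [g, if_neg hne, Pi.sub_apply, Pi.smul_apply, smul_eq_mul, sub_mul, sum_sub_distrib,
    mul_assoc, ← mul_sum]
  linear_combination h1

/-- Vanishing power sums at distinct nodes. -/
theorem eq_zero_of_power_sums {κ : Type*} [Fintype κ] {ξ : κ → F} (hξ : Function.Injective ξ)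
    (c : κ → F) (h : ∀ e < Fintype.card κ, ∑ k, c k * ξ k ^ e = 0) : c = 0 := by
  let σ := Fintype.equivFin κ
  have hv : (fun i => c (σ.symm i)) = 0 := by
    refine Matrix.eq_zero_of_forall_pow_sum_mul_pow_eq_zero (hξ.comp σ.symm.injective) ?_
    intro e
    rw [← h e.val e.2]
    exact Fintype.sum_equiv σ.symm _ _ fun i => rfl
  funext k
  simpa using congrFun hv (σ k)

/-- `a D + ∑ b s S ^ s`. -/
def tri (q : ℕ) (a : F) (b : ℕ → F) : Matrix (Fin q) (Fin q) F :=
  Matrix.of fun i k =>
    if k.val = i.val then a * (i.val : F) else if i.val < k.val then b (k.val - i.val) else 0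

/-- The `n`-th diagonal of `tri q a b ^ e`, as a polynomial in the row index. -/
noncomputable def triPoly (a : F) (b : ℕ → F) : ℕ → ℕ → F[X]
  | 0, n => if n = 0 then 1 else 0
  | e + 1, n => Polynomial.C a * ((X + Polynomial.C (n : F)) * triPoly a b e n) +
      ∑ s ∈ range n, Polynomial.C (b (n - s)) * triPoly a b e s

theorem tri_pow_apply (q : ℕ) (a : F) (b : ℕ → F) : ∀ (e : ℕ) (i k : Fin q),
    (tri q a b ^ e) i k =
      if i.val ≤ k.val then (triPoly a b e (k.val - i.val)).eval (i.val : F) else 0 := by
  intro e
  induction e with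
  | zero =>
    intro i k
    rw [pow_zero, Matrix.one_apply]
    rcases lt_trichotomy i.val k.val with h | h | h
    · rw [if_neg (fun hh => by subst hh; omega), if_pos h.le, triPoly, if_neg (by omega), eval_zero]
    · obtain rfl := Fin.ext h
      simp [triPoly]
    · rw [if_neg (fun hh => by subst hh; omega), if_neg (by omega)]
  | succ e ih =>
    intro i k
    rw [pow_succ, Matrix.mul_apply]
    simp only [ih]
    by_cases hik : i.val ≤ k.val
    · rw [if_pos hik, ← sum_filter_add_sum_filter_not univ (fun m : Fin q => m = k)]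
      rw [triPoly, eval_add, eval_mul, eval_mul, eval_C, eval_add, eval_X, eval_C, eval_finsetSum]
      congr 1
      · rw [filter_eq' univ k, if_pos (mem_univ k), sum_singleton, if_pos hik]
        simp [tri, Nat.cast_sub hik]
        ring
      · let σ : Fin q → ℕ := fun m => m.val - i.val
        rw [← sum_filter_add_sum_filter_not (univ.filter fun m : Fin q => ¬m = k)
          (fun m : Fin q => i.val ≤ m.val ∧ m.val < k.val)]
        refine (congrArg₂ (· + ·) ?_ (sum_eq_zero ?_)).trans (add_zero _)
        · refine sum_bij' (fun m _ => σ m)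
            (fun s hs => (⟨i.val + s, by have := k.2; have := mem_range.mp hs; omega⟩ : Fin q))
            ?_ ?_ ?_ ?_ ?_
          · intro m hm
            simp only [mem_filter] at hm
            exact mem_range.mpr (by simp only [σ]; omega)
          · intro s hs
            have := mem_range.mp hs
            simp only [mem_filter, mem_univ, true_and, Fin.ext_iff]
            omega
          · intro m hm
            simp only [mem_filter] at hm
            exact Fin.ext (by simp only [σ]; omega)
          · intro s _
            simp [σ]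
          · intro m hm
            simp only [mem_filter, mem_univ, true_and] at hm
            rw [if_pos hm.2.1]
            simp only [σ, tri, Matrix.of_apply, eval_mul, eval_C]
            rw [if_neg (by omega), if_pos hm.2.2,
              show k.val - i.val - (m.val - i.val) = k.val - m.val by omega]
            ring
        · intro m hm
          simp only [mem_filter, mem_univ, true_and, Fin.ext_iff] at hm
          split_ifs with him
          · rw [show tri q a b m k = 0 from ?_, mul_zero]
            simp only [tri, Matrix.of_apply]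
            rw [if_neg (by omega), if_neg (by omega)]
          · exact zero_mul _
    · rw [if_neg hik]
      refine sum_eq_zero fun m _ => ?_
      split_ifs with him
      · rw [show tri q a b m k = 0 from ?_, mul_zero]
        simp only [tri, Matrix.of_apply]
        rw [if_neg (by omega), if_neg (by omega)]
      · exact zero_mul _

theorem triPoly_zero (a : F) (b : ℕ → F) : ∀ e, triPoly a b e 0 = (Polynomial.C a * X) ^ e
  | 0 => by simp [triPoly]
  | e + 1 => by
    rw [triPoly, triPoly_zero a b e, pow_succ]
    simp
    ring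

/-- On a diagonal reached only by single steps. -/
theorem triPoly_spec (a : F) (b : ℕ → F) :
    ∀ (e n : ℕ), (∀ s, 2 ≤ s → s ≤ n → b s = 0) → ∀ m, (e < n + m → (triPoly a b e n).coeff m = 0) ∧
      (e = n + m → (triPoly a b e n).coeff m = (e.choose n : F) * a ^ m * b 1 ^ n) := by
  intro e
  induction e with
  | zero =>
    intro n _ m
    refine ⟨fun h => ?_, fun h => ?_⟩
    · rcases n.eq_zero_or_pos with rfl | hn
      · simp only [triPoly, if_true, coeff_one]
        exact if_neg (by omega)
      · simp [triPoly, hn.ne']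
    · obtain ⟨rfl, rfl⟩ : n = 0 ∧ m = 0 := by omega
      simp [triPoly]
  | succ e ih =>
    intro n hb m
    have hsum : ∑ s ∈ range n, (Polynomial.C (b (n - s)) * triPoly a b e s).coeff m =
        if n = 0 then 0 else b 1 * (triPoly a b e (n - 1)).coeff m := by
      split_ifs with hn
      · subst hn; simp
      rw [sum_eq_single (n - 1)]
      · rw [coeff_C_mul, show n - (n - 1) = 1 by omega]
      · intro s hs hs'
        have := mem_range.mp hs
        rw [coeff_C_mul, hb (n - s) (by omega) (Nat.sub_le n s), zero_mul]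
      · exact fun h => absurd (mem_range.mpr (by omega)) h
    have hX : (Polynomial.C a * ((X + Polynomial.C (n : F)) * triPoly a b e n)).coeff m =
        a * ((if m = 0 then 0 else (triPoly a b e n).coeff (m - 1)) +
          n * (triPoly a b e n).coeff m) := by
      rw [coeff_C_mul, add_mul, coeff_add, coeff_C_mul]
      congr 2
      cases m with
      | zero => simp
      | succ m => simp
    rw [triPoly, coeff_add, finsetSum_coeff, hsum, hX]
    refine ⟨fun h => ?_, fun h => ?_⟩
    · rw [(ih n hb m).1 (by omega), mul_zero, add_zero]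
      split_ifs with h1 h2 h2
      · simp
      · rw [(ih (n - 1) (fun s h3 h4 => hb s h3 (by omega)) m).1 (by omega)]
        simp
      · rw [(ih n hb (m - 1)).1 (by omega)]
        simp
      · rw [(ih n hb (m - 1)).1 (by omega),
          (ih (n - 1) (fun s h3 h4 => hb s h3 (by omega)) m).1 (by omega)]
        simp
    · rw [(ih n hb m).1 (by omega), mul_zero, add_zero]
      rcases n.eq_zero_or_pos with rfl | hn
      · rw [if_pos rfl, add_zero, if_neg (by omega), (ih 0 hb (m - 1)).2 (by omega)]
        obtain ⟨m, rfl⟩ := Nat.exists_eq_add_one.mpr (show 0 < m by omega)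
        simp [pow_succ, mul_comm]
      · obtain ⟨n, rfl⟩ := Nat.exists_eq_add_one.mpr hn
        rw [if_neg (Nat.succ_ne_zero n), Nat.add_sub_cancel,
          (ih n (fun s h3 h4 => hb s h3 (by omega)) m).2 (by omega)]
        rcases m.eq_zero_or_pos with rfl | hm
        · obtain rfl : e = n := by omega
          simp [pow_succ, mul_comm]
        · obtain ⟨m, rfl⟩ := Nat.exists_eq_add_one.mpr hm
          rw [if_neg (Nat.succ_ne_zero m), Nat.add_sub_cancel, (ih (n + 1) hb m).2 (by omega),
            Nat.choose_succ_succ']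
          push_cast
          ring

/-- The top coefficient off the diagonal is linear in `b`. -/
theorem triPoly_spec_linear (a : F) (b : ℕ → F) :
    ∀ (e n : ℕ), 1 ≤ n → ∀ m, (e < 1 + m → (triPoly a b e n).coeff m = 0) ∧
      (e = 1 + m → (triPoly a b e n).coeff m = (e : F) * a ^ m * b n) := by
  intro e
  induction e with
  | zero =>
    intro n hn m
    simp [triPoly, show n ≠ 0 by omega]
  | succ e ih =>
    intro n hn m
    have hsum : e ≤ m → ∑ s ∈ range n, (Polynomial.C (b (n - s)) * triPoly a b e s).coeff m =
        if e = m then b n * a ^ e else 0 := by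
      intro hem
      rw [sum_eq_single 0]
      · rw [coeff_C_mul, triPoly_zero, Nat.sub_zero, mul_pow, ← Polynomial.C_pow, coeff_C_mul,
          coeff_X_pow, mul_ite, mul_ite, mul_one, mul_zero, mul_zero]
        exact if_congr eq_comm rfl rfl
      · intro s _ hs
        rw [coeff_C_mul, (ih s (Nat.one_le_iff_ne_zero.mpr hs) m).1 (by omega), mul_zero]
      · exact fun h => absurd (mem_range.mpr hn) h
    have hX : (Polynomial.C a * ((X + Polynomial.C (n : F)) * triPoly a b e n)).coeff m =
        a * ((if m = 0 then 0 else (triPoly a b e n).coeff (m - 1)) +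
          n * (triPoly a b e n).coeff m) := by
      rw [coeff_C_mul, add_mul, coeff_add, coeff_C_mul]
      congr 2
      cases m with
      | zero => simp
      | succ m => simp
    refine ⟨fun h => ?_, fun h => ?_⟩
    · rw [triPoly, coeff_add, finsetSum_coeff, hsum (by omega), hX, (ih n hn m).1 (by omega),
        if_neg (show ¬e = m by omega), if_neg (show ¬m = 0 by omega),
        (ih n hn (m - 1)).1 (by omega)]
      simp
    · obtain rfl : e = m := by omega
      rw [triPoly, coeff_add, finsetSum_coeff, hsum le_rfl, hX, (ih n hn e).1 (by omega), if_pos rfl]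
      rcases e.eq_zero_or_pos with rfl | he
      · simp
      · obtain ⟨e', rfl⟩ := Nat.exists_eq_add_one.mpr he
        rw [if_neg (Nat.succ_ne_zero e'), Nat.add_sub_cancel, (ih n hn e').2 (by omega)]
        push_cast
        ring

theorem charpoly_tri (q : ℕ) (a : F) (b : ℕ → F) :
    (tri q a b).charpoly = ∏ k : Fin q, (X - Polynomial.C (a * (k.val : F))) := by
  rw [Matrix.charpoly_of_upperTriangular]
  · exact prod_congr rfl fun k _ => by simp [tri]
  · intro i k hik
    have : k.val < i.val := hik
    simp only [tri, Matrix.of_apply]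
    rw [if_neg (by omega), if_neg (by omega)]

/-- A polynomial expression on the `n`-th diagonal of `tri`. -/
theorem aeval_tri_apply (q : ℕ) (a : F) (b : ℕ → F) {J : ℕ} (f : F[X]) (hf : f.natDegree ≤ J)
    (i k : Fin q) (n : ℕ) (h : k.val = i.val + n) :
    aeval (tri q a b) f i k =
      (∑ j ∈ range (J + 1), Polynomial.C (f.coeff j) * triPoly a b j n).eval (i.val : F) := by
  rw [aeval_eq_sum_range' (Nat.lt_succ_of_le hf), Matrix.sum_apply, eval_finsetSum]
  refine sum_congr rfl fun j _ => ?_
  rw [Matrix.smul_apply, tri_pow_apply, if_pos (by omega),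
    show k.val - i.val = n by omega, eval_mul, eval_C, smul_eq_mul]

/-- (K1) Under `SQ` there is a point at which every relation is constant. -/
theorem pivot [CharZero F] (l : Cls → ι → F) (h0 : ∀ C, l C ≠ 0)
    (hpair : ∀ C D, C ≠ D → LinearIndependent F ![l C, l D]) (hSQ : SQ l) :
    ∃ N : ℕ, ∀ q ≥ N, ∃ (Y : ι → Matrix (Fin q) (Fin q) F) (lam : Cls → Fin q → F),
      (∀ C, Function.Injective (lam C) ∧
        (M l C Y).charpoly = ∏ k, (X - Polynomial.C (lam C k))) ∧
      ∀ f : Cls → F[X], (∀ C, (f C).natDegree < q) →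
        (∀ i, ∑ C, l C i • aeval (M l C Y) (f C) = 0) → ∀ C, (f C).natDegree = 0 := by
  classical
  obtain ⟨u, v, hu, -, hinj⟩ := exists_slopes l h0 hpair
  let R := Fintype.card Cls + 2
  let pos : ι → ℕ := fun i => R + (Fintype.equivFin ι i).val
  have hpos : Function.Injective pos := fun i j h =>
    (Fintype.equivFin ι).injective (Fin.ext (Nat.add_left_cancel h))
  refine ⟨R + Fintype.card ι + Fintype.card Cls, fun q hq => ?_⟩
  let w : ι → ℕ → F := fun i s =>
    (if s = 1 then v i else 0) + (if s = pos i then 1 else 0)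
  let Y : ι → Matrix (Fin q) (Fin q) F := fun i => tri q (u i) (w i)
  let a : Cls → F := fun C => ∑ i, l C i * u i
  let b : Cls → ℕ → F := fun C s => ∑ i, l C i * w i s
  have ha : ∀ C, a C ≠ 0 := hu
  have hM : ∀ C, M l C Y = tri q (a C) (b C) := by
    intro C
    ext i k
    simp only [M, Y, a, b, tri, Matrix.sum_apply, Matrix.smul_apply, Matrix.of_apply, smul_eq_mul]
    split_ifs
    · simp [sum_mul, mul_assoc]
    · rfl
    · simp
  have hb1 : ∀ C, b C 1 = ∑ i, l C i * v i := by
    intro C
    refine sum_congr rfl fun i _ => ?_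
    simp [w, show (1 : ℕ) ≠ pos i by simp only [pos, R]; omega]
  have hbsmall : ∀ C s, 2 ≤ s → s < R → b C s = 0 := by
    intro C s h2 hs
    refine sum_eq_zero fun i _ => ?_
    simp [w, show s ≠ 1 by omega, show s ≠ pos i by simp only [pos]; omega]
  have hbpos : ∀ C r, b C (pos r) = l C r := by
    intro C r
    simp only [b, w, show pos r ≠ 1 by simp only [pos, R]; omega, if_false, zero_add]
    simp [hpos.eq_iff]
  refine ⟨Y, fun C k => a C * (k.val : F), fun C => ⟨?_, by rw [hM, charpoly_tri]⟩, ?_⟩
  · intro k k' h
    exact Fin.ext (Nat.cast_injective (mul_left_cancel₀ (ha C) h))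
  intro f hf hrel C₀
  have : Nonempty Cls := ⟨C₀⟩
  obtain ⟨C₁, -, hmax⟩ := exists_max_image univ (fun C => (f C).natDegree) univ_nonempty
  obtain ⟨J, hJ⟩ : ∃ J, J = (f C₁).natDegree := ⟨_, rfl⟩
  have hle : ∀ C, (f C).natDegree ≤ J := fun C => hJ ▸ hmax C (mem_univ C)
  have hJq : J < q := hJ ▸ hf C₁
  -- the relation on the `n`-th diagonal, at its top degree `m`
  have hdiag : ∀ (n m : ℕ) (i : ι), n + m < q →
      (∀ C, ∀ j ≤ J, ∀ m', m < m' → (triPoly (a C) (b C) j n).coeff m' = 0) →
      ∑ C, l C i * ∑ j ∈ range (J + 1), (f C).coeff j * (triPoly (a C) (b C) j n).coeff m = 0 := by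
    intro n m i hnm hhigh
    let P : F[X] := ∑ C, Polynomial.C (l C i) *
      ∑ j ∈ range (J + 1), Polynomial.C ((f C).coeff j) * triPoly (a C) (b C) j n
    have hdeg : P.natDegree ≤ m := by
      rw [natDegree_le_iff_coeff_eq_zero]
      intro m' hm'
      simp only [P, finsetSum_coeff, coeff_C_mul]
      refine sum_eq_zero fun C _ => ?_
      rw [sum_eq_zero (fun j hj => by
        rw [hhigh C j (Nat.lt_succ_iff.mp (mem_range.mp hj)) m' hm', mul_zero]), mul_zero]
    have heval : ∀ r : Fin (m + 1), P.eval ((r.val : ℕ) : F) = 0 := by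
      intro r
      have hr := r.2
      have h' := congrFun (congrFun (hrel i) ⟨r.val, by omega⟩) ⟨r.val + n, by omega⟩
      rw [Matrix.sum_apply, Matrix.zero_apply] at h'
      rw [← h']
      simp only [P, eval_finsetSum]
      refine sum_congr rfl fun C _ => ?_
      rw [Matrix.smul_apply, hM, aeval_tri_apply q (a C) (b C) (f C) (hle C) _ _ n rfl, smul_eq_mul,
        eval_mul, eval_C]
    have hP : P = 0 := by
      refine eq_zero_of_natDegree_lt_card_of_eval_eq_zero P
        (f := fun r : Fin (m + 1) => ((r.val : ℕ) : F)) ?_ heval ?_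
      · exact fun r r' h => Fin.ext (Nat.cast_injective h)
      · rw [Fintype.card_fin]
        omega
    simpa [P, finsetSum_coeff, coeff_C_mul] using congrArg (fun r : F[X] => r.coeff m) hP
  have htop : (∀ C, (f C).coeff J = 0) → J = 0 := by
    intro h
    by_contra hne
    have h1 := h C₁
    rw [hJ, ← leadingCoeff, leadingCoeff_eq_zero] at h1
    rw [h1, natDegree_zero] at hJ
    exact hne hJ
  -- the degree is small
  have hsmall : J = 0 ∨ J + 2 ≤ Fintype.card Cls := by
    by_contra hcon
    push Not at hcon
    refine hcon.1 (htop fun C => ?_)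
    obtain ⟨i, hi⟩ := Function.ne_iff.mp (h0 C)
    have hz := eq_zero_of_power_sums hinj (fun D => l D i * (f D).coeff J * a D ^ J) fun e he => ?_
    · exact (mul_eq_zero.mp ((mul_eq_zero.mp (congrFun hz C)).resolve_right
        (pow_ne_zero _ (ha C)))).resolve_left hi
    have heJ : e ≤ J := by omega
    have hbz : ∀ D s, 2 ≤ s → s ≤ e → b D s = 0 := fun D s h2 hs =>
      hbsmall D s h2 (by simp only [R]; omega)
    have h := hdiag e (J - e) i (by omega) fun D j hj m' hm' =>
      (triPoly_spec (a D) (b D) j e (hbz D) m').1 (by omega)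
    have hne : (J.choose e : F) ≠ 0 := Nat.cast_ne_zero.mpr (Nat.choose_pos heJ).ne'
    refine ((mul_eq_zero (a := (J.choose e : F))).mp ?_).resolve_left hne
    rw [← h, mul_sum]
    refine sum_congr rfl fun D _ => ?_
    rw [sum_range_succ, sum_eq_zero (s := range J) (fun j hj => by
      rw [(triPoly_spec (a D) (b D) j e (hbz D) (J - e)).1 (by have := mem_range.mp hj; omega),
        mul_zero]), zero_add, (triPoly_spec (a D) (b D) J e (hbz D) (J - e)).2 (by omega), hb1]
    have hsplit : a D ^ J = a D ^ (J - e) * a D ^ e := by rw [← pow_add, Nat.sub_add_cancel heJ]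
    have hu' : (∑ x, l D x * u x) = a D := rfl
    rw [hu', div_pow, hsplit]
    field_simp [ha D]
  suffices J = 0 by have := hle C₀; omega
  by_contra hJ0
  refine hJ0 (htop fun C => ?_)
  obtain ⟨J', rfl⟩ := Nat.exists_eq_add_one.mpr (Nat.pos_of_ne_zero hJ0)
  have hz := Fintype.linearIndependent_iff.mp hSQ
    (fun D => (f D).coeff (J' + 1) * ((J' + 1 : ℕ) : F) * a D ^ J') (funext fun p => ?_) C
  · exact (mul_eq_zero.mp ((mul_eq_zero.mp hz).resolve_right (pow_ne_zero _ (ha C)))).resolve_right
      (Nat.cast_ne_zero.mpr (Nat.succ_ne_zero _))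
  · have hp := (Fintype.equivFin ι p.2).2
    have h := hdiag (pos p.2) J' p.1 (by simp only [pos, R] at *; omega) fun D j hj m' hm' =>
      (triPoly_spec_linear (a D) (b D) j (pos p.2) (by simp only [pos, R]; omega) m').1 (by omega)
    simp only [Finset.sum_apply, Pi.smul_apply, smul_eq_mul, Pi.zero_apply]
    rw [← h]
    refine sum_congr rfl fun D _ => ?_
    rw [sum_range_succ, sum_eq_zero (fun j hj => by
      rw [(triPoly_spec_linear (a D) (b D) j (pos p.2) (by simp only [pos, R]; omega) J').1
        (by have := mem_range.mp hj; omega), mul_zero]), zero_add,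
      (triPoly_spec_linear (a D) (b D) (J' + 1) (pos p.2) (by simp only [pos, R]; omega) J').2
        (by omega), hbpos]
    ring

/-- (K2) A point whose eigen-classes satisfy `SQ`. -/
theorem sq_acquire [CharZero F] (l : Cls → ι → F) (h0 : ∀ C, l C ≠ 0)
    (hpair : ∀ C D, C ≠ D → LinearIndependent F ![l C, l D]) (q : ℕ)
    (hq : 2 * Fintype.card Cls ≤ q) :
    ∃ (Y : ι → Matrix (Fin q) (Fin q) F) (lam : Cls → Fin q → F),
      (∀ C, Function.Injective (lam C) ∧
        (M l C Y).charpoly = ∏ k, (X - Polynomial.C (lam C k))) ∧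
      LinearIndependent F fun Ck : Cls × Fin q =>
        fun p : ι × Fin q × Fin q × ι × Fin q × Fin q =>
          l Ck.1 p.1 * l Ck.1 p.2.2.2.1 * Lag l Ck.1 Ck.2 Y lam p.2.1 p.2.2.1 *
            Lag l Ck.1 Ck.2 Y lam p.2.2.2.2.1 p.2.2.2.2.2 := by
  classical
  obtain ⟨u, v, hu, -, hinj⟩ := exists_slopes l h0 hpair
  let a : Cls → F := fun C => ∑ i, l C i * u i
  have ha : ∀ C, a C ≠ 0 := hu
  let Y : ι → Matrix (Fin q) (Fin q) F := fun i => tri q (u i) fun s => if s = 1 then v i else 0
  let lam : Cls → Fin q → F := fun C k => a C * (k.val : F)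
  let bv : Cls → F := fun C => ∑ i, l C i * v i
  let b : Cls → ℕ → F := fun C s => if s = 1 then bv C else 0
  have hM : ∀ C, M l C Y = tri q (a C) (b C) := by
    intro C
    ext i k
    simp only [M, Y, a, b, bv, tri, Matrix.sum_apply, Matrix.smul_apply, Matrix.of_apply,
      smul_eq_mul]
    split_ifs <;> simp [sum_mul, mul_assoc]
  have hlam : ∀ C, Function.Injective (lam C) := fun C k k' h =>
    Fin.ext (Nat.cast_injective (mul_left_cancel₀ (ha C) h))
  have hchar : ∀ C, (M l C Y).charpoly = ∏ k, (X - Polynomial.C (lam C k)) := fun C => by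
    rw [hM, charpoly_tri]
  let L : Cls → Fin q → Matrix (Fin q) (Fin q) F := fun C k => Lag l C k Y lam
  let κ : Cls → Fin q → F := fun C k => ∏ k' ∈ univ.erase k, (lam C k - lam C k')
  have hκ : ∀ C k, κ C k ≠ 0 := fun C k => prod_ne_zero_iff.mpr fun k' hk' =>
    sub_ne_zero.mpr fun h => (mem_erase.mp hk').1 (hlam C h.symm)
  -- diagonal and triangularity
  have hdiag : ∀ C k j, L C k j j = if j = k then κ C k else 0 := by
    intro C k j
    simp only [L, Lag]
    rw [hM, aeval_tri_apply q (a C) (b C) _ le_rfl j j 0 (by omega)]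
    have hev : (∑ x ∈ range ((∏ k' ∈ univ.erase k, (X - Polynomial.C (lam C k'))).natDegree + 1),
        Polynomial.C ((∏ k' ∈ univ.erase k, (X - Polynomial.C (lam C k'))).coeff x) *
          triPoly (a C) (b C) x 0).eval (j.val : F) =
        (∏ k' ∈ univ.erase k, (X - Polynomial.C (lam C k'))).eval (lam C j) := by
      rw [eval_finsetSum, eval_eq_sum_range (x := lam C j)]
      refine sum_congr rfl fun x _ => ?_
      simp [triPoly_zero, lam]
    rw [hev, eval_prod]
    simp only [eval_sub, eval_X, eval_C]
    split_ifs with hjk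
    · rw [hjk]
    · exact prod_eq_zero (mem_erase.mpr ⟨hjk, mem_univ j⟩) (sub_self _)
  -- `Lag` is annihilated by `M - lam` on both sides
  have hann : ∀ C k, L C k * (tri q (a C) (b C) - lam C k • 1) = 0 ∧
      (tri q (a C) (b C) - lam C k • 1) * L C k = 0 := by
    intro C k
    have hCH := Matrix.aeval_self_charpoly (M l C Y)
    rw [hchar C, ← mul_prod_erase univ _ (mem_univ k), hM] at hCH
    constructor
    · rw [mul_comm, map_mul] at hCH
      simpa [L, Lag, hM, Algebra.algebraMap_eq_smul_one] using hCH
    · rw [map_mul] at hCH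
      simpa [L, Lag, hM, Algebra.algebraMap_eq_smul_one] using hCH
  have htri : ∀ C (j m : Fin q), (tri q (a C) (b C)) j m =
      if m.val = j.val then a C * (j.val : F) else if m.val = j.val + 1 then bv C else 0 := by
    intro C j m
    simp only [tri, b, Matrix.of_apply]
    split_ifs <;> first | rfl | omega
  have hright : ∀ C (k : Fin q) (e : ℕ) (he : k.val + e < q),
      L C k k ⟨k.val + e, he⟩ * (e.factorial : F) * a C ^ e = κ C k * (-bv C) ^ e := by
    intro C k e
    induction e with
    | zero =>
      intro he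
      have h := hdiag C k k
      rw [if_pos rfl] at h
      simpa using h
    | succ e ih =>
      intro he
      have h := congrFun (congrFun (hann C k).1 k) ⟨k.val + (e + 1), he⟩
      rw [Matrix.mul_apply, ← sum_subset (subset_univ
        {(⟨k.val + (e + 1), he⟩ : Fin q), ⟨k.val + e, by omega⟩}) (fun m _ hm => by
          simp only [mem_insert, mem_singleton, Fin.ext_iff, not_or] at hm
          rw [Matrix.sub_apply, Matrix.smul_apply, Matrix.one_apply,
            if_neg (fun hh => hm.1 (congrArg Fin.val hh)), htri, if_neg (by simp only; omega),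
            if_neg (by simp only; omega)]
          simp), sum_pair (by simp [Fin.ext_iff])] at h
      simp only [Matrix.sub_apply, Matrix.smul_apply, Matrix.one_apply, htri, Fin.ext_iff,
        smul_eq_mul, if_true, Matrix.zero_apply, lam, mul_one] at h
      rw [if_neg (show ¬k.val + (e + 1) = k.val + e by omega), if_neg (show ¬k.val + e = k.val + (e + 1) by omega),
        if_pos (show k.val + (e + 1) = k.val + e + 1 by omega)] at h
      rw [Nat.factorial_succ, pow_succ (-bv C), pow_succ (a C)]
      push_cast at h ⊢
      linear_combination ((e.factorial : F) * a C ^ e) * h - bv C * ih (by omega)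
  have hleft : ∀ C (k j : Fin q) (e : ℕ), j.val + e = k.val →
      L C k j k * (e.factorial : F) * a C ^ e = κ C k * bv C ^ e := by
    intro C k j e
    induction e generalizing j with
    | zero =>
      intro he
      obtain rfl : j = k := Fin.ext (by omega)
      have h := hdiag C j j
      rw [if_pos rfl] at h
      simpa using h
    | succ e ih =>
      intro he
      have hlt : j.val + 1 < q := by have := k.2; omega
      have h := congrFun (congrFun (hann C k).2 j) k
      rw [Matrix.mul_apply, ← sum_subset (subset_univ {j, (⟨j.val + 1, hlt⟩ : Fin q)})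
        (fun m _ hm => by
          simp only [mem_insert, mem_singleton, Fin.ext_iff, not_or] at hm
          rw [Matrix.sub_apply, Matrix.smul_apply, Matrix.one_apply,
            if_neg (fun hh => hm.1 (congrArg Fin.val hh).symm), htri, if_neg hm.1, if_neg hm.2]
          simp), sum_pair (by simp [Fin.ext_iff])] at h
      simp only [Matrix.sub_apply, Matrix.smul_apply, Matrix.one_apply, htri, Fin.ext_iff,
        smul_eq_mul, if_true, Matrix.zero_apply, lam, mul_one] at h
      rw [if_neg (show ¬j.val + 1 = j.val by omega), if_neg (show ¬j.val = j.val + 1 by omega),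
        show (k.val : F) = (j.val : F) + ((e : F) + 1) by rw [← he]; push_cast; ring] at h
      rw [Nat.factorial_succ, pow_succ (bv C), pow_succ (a C)]
      push_cast at h ⊢
      linear_combination -((e.factorial : F) * a C ^ e) * h +
        bv C * ih ⟨j.val + 1, hlt⟩ (by simp only; omega)
  refine ⟨Y, lam, fun C => ⟨hlam C, hchar C⟩, ?_⟩
  rw [Fintype.linearIndependent_iff]
  intro c hc ⟨C₀, k⟩
  obtain ⟨i, hi⟩ := Function.ne_iff.mp (h0 C₀)
  -- reduce to one eigenvalue
  have hk : ∀ (x y : Fin q) (i : ι),
      ∑ C, c (C, k) * l C i * l C i * κ C k * L C k x y = 0 := by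
    intro x y i
    have h := congrFun hc (i, k, k, i, x, y)
    simp only [Finset.sum_apply, Pi.smul_apply, smul_eq_mul, Pi.zero_apply,
      Fintype.sum_prod_type] at h
    rw [← h]
    refine sum_congr rfl fun C _ => ?_
    rw [sum_eq_single k]
    · rw [show Lag l C k Y lam k k = κ C k by simpa [L] using hdiag C k k]
      simp only [L]
      ring
    · intro b _ hb
      rw [show Lag l C b Y lam k k = 0 by simpa [L, hb.symm] using hdiag C b k]
      ring
    · simp
  have hsq : ∀ (s : F), s ≠ 0 → (∀ e, e < Fintype.card Cls →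
      ∑ C, c (C, k) * l C i * l C i * κ C k * κ C k * (s * (bv C / a C)) ^ e = 0) →
      c (C₀, k) = 0 := by
    intro s hs hsum
    have hz := eq_zero_of_power_sums (ξ := fun C => s * (bv C / a C))
      (fun C D h => hinj (mul_left_cancel₀ hs h))
      (fun C => c (C, k) * l C i * l C i * κ C k * κ C k) hsum
    have hC := congrFun hz C₀
    simp [hκ C₀ k] at hC
    exact hC.resolve_right hi
  by_cases hside : k.val + Fintype.card Cls ≤ q
  · refine hsq (-1) (by norm_num) fun e he => ?_
    have he' : k.val + e < q := by omega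
    have hfac : (e.factorial : F) ≠ 0 := Nat.cast_ne_zero.mpr e.factorial_ne_zero
    rw [← mul_zero (e.factorial : F), ← hk k ⟨k.val + e, he'⟩ i, mul_sum]
    refine sum_congr rfl fun C _ => ?_
    have h1 := hright C k e he'
    have h2 : (-1 * (bv C / a C)) ^ e = (-bv C) ^ e / a C ^ e := by
      rw [← div_pow]; ring
    rw [h2, mul_div_assoc', div_eq_iff (pow_ne_zero _ (ha C))]
    linear_combination -(c (C, k) * l C i * l C i * κ C k) * h1
  · refine hsq 1 one_ne_zero fun e he => ?_
    have hfac : (e.factorial : F) ≠ 0 := Nat.cast_ne_zero.mpr e.factorial_ne_zero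
    have hj : k.val - e < q := by have := k.2; omega
    rw [← mul_zero (e.factorial : F), ← hk ⟨k.val - e, hj⟩ k i, mul_sum]
    refine sum_congr rfl fun C _ => ?_
    have h1 := hleft C k ⟨k.val - e, hj⟩ e (by simp only; omega)
    rw [one_mul, div_pow, mul_div_assoc', div_eq_iff (pow_ne_zero _ (ha C))]
    linear_combination -(c (C, k) * l C i * l C i * κ C k) * h1

/-- (K3) Many jointly independent functionals. -/
theorem pairs [CharZero F] (l : Cls → ι → F) (h0 : ∀ C, l C ≠ 0)
    (hpair : ∀ C D, C ≠ D → LinearIndependent F ![l C, l D]) {m : ℕ} (om : Fin m → Cls → F)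
    (hom : LinearIndependent F om) (B : ℕ) :
    ∃ N : ℕ, ∀ q ≥ N, ∃ (t : ι → Fin q → F) (u : Fin (B * q) → ι → Matrix (Fin q) (Fin q) F),
      (∀ C, Function.Injective fun k => ∑ i, l C i * t i k) ∧
      LinearIndependent F fun x : Fin m × Fin (B * q) => fun V => Psi l t (om x.1) (u x.2) V := by
  classical
  obtain ⟨p, p', hp, hp', hinj⟩ := exists_slopes l h0 hpair
  let a : Cls → F := fun C => ∑ i, l C i * p i
  let b : Cls → F := fun C => ∑ i, l C i * p' i
  let n := Fintype.card Cls
  refine ⟨6 * n * B + 2, fun q hq => ?_⟩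
  obtain ⟨h, hh⟩ : ∃ h, h = q / 2 := ⟨_, rfl⟩
  have hh0 : 0 < h := by omega
  have hroom : n * (3 * B) ≤ h := by
    have : 6 * n * B = 2 * (n * (3 * B)) := by ring
    omega
  -- scale avoiding the finitely many bad sums
  obtain ⟨s, hs⟩ := Infinite.exists_notMem_finset
    (insert (0 : F) ((univ ×ˢ range (2 * q)).image fun x : Cls × ℕ => -a x.1 / (b x.1 * x.2)))
  have hs0 : s ≠ 0 := fun h => hs (by simp [h])
  let den : Cls → ℕ → F := fun C η => a C + s * η * b C
  have hden : ∀ C η, η < 2 * q → den C η ≠ 0 := by
    intro C η hη h0'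
    rcases Nat.eq_zero_or_pos η with rfl | hηpos
    · exact hp C (by simpa [den] using h0')
    · refine hs (mem_insert_of_mem (mem_image.mpr ⟨(C, η), by simp [hη], ?_⟩))
      simp only [den] at h0'
      rw [div_eq_iff (mul_ne_zero (hp' C) (Nat.cast_ne_zero.mpr hηpos.ne'))]
      linear_combination -h0'
  let t : ι → Fin q → F := fun i k => s * k.val * p i + (s * k.val) ^ 2 * p' i
  have ht : ∀ C k, ∑ i, l C i * t i k = s * (k.val : F) * a C + (s * k.val) ^ 2 * b C := by
    intro C k
    simp only [t, a, b, mul_sum, ← sum_add_distrib]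
    exact sum_congr rfl fun i _ => by ring
  have hdiff : ∀ C (k k' : Fin q), (∑ i, l C i * t i k) - ∑ i, l C i * t i k' =
      s * ((k.val : F) - k'.val) * den C (k.val + k'.val) := by
    intro C k k'
    rw [ht, ht]
    simp only [den]
    push_cast
    ring
  -- the far end of edge `j` of group `r`
  let far : Fin (B * q) → Fin n → Fin q := fun r j => ⟨h + (n * (r.val / h) + j.val), by
    have hr : r.val / h < 3 * B := by
      rw [Nat.div_lt_iff_lt_mul hh0]
      have := r.2
      have : B * q ≤ 3 * B * h := by
        calc B * q ≤ B * (3 * h) := Nat.mul_le_mul_left _ (by omega)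
          _ = 3 * B * h := by ring
      omega
    have h1 : n * (r.val / h + 1) ≤ n * (3 * B) := Nat.mul_le_mul_left _ hr
    have := j.2
    rw [Nat.mul_add, Nat.mul_one] at h1
    omega⟩
  let near : Fin (B * q) → Fin q := fun r => ⟨r.val % h, by have := Nat.mod_lt r.val hh0; omega⟩
  let u : Fin (B * q) → ι → Matrix (Fin q) (Fin q) F := fun r i =>
    p i • ∑ j : Fin n, Matrix.single (near r) (far r j) 1
  have hne : ∀ r j, near r ≠ far r j := fun r j hh' => by
    have := congrArg Fin.val hh'
    simp only [near, far] at this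
    have := Nat.mod_lt r.val hh0
    omega
  have hedge : ∀ r r' j j', near r = near r' → far r j = far r' j' → r = r' ∧ j = j' := by
    intro r r' j j' h1 h2
    have e1 : r.val % h = r'.val % h := congrArg Fin.val h1
    have e2 : n * (r.val / h) + j.val = n * (r'.val / h) + j'.val := by
      have := congrArg Fin.val h2
      simp only [far] at this
      omega
    have hn : 0 < n := j.pos
    have e3 : r.val / h = r'.val / h := by
      have := congrArg (· / n) e2
      simpa [Nat.mul_add_div hn, Nat.div_eq_of_lt j.2, Nat.div_eq_of_lt j'.2] using this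
    refine ⟨Fin.ext ?_, Fin.ext ?_⟩
    · rw [← Nat.div_add_mod r.val h, ← Nat.div_add_mod r'.val h, e1, e3]
    · rw [e3] at e2
      omega
  -- value on a matrix unit
  have hval : ∀ (w : Cls → F) r r' (j : Fin n) i,
      Psi l t w (u r') (Pi.single i (Matrix.single (far r j) (near r) 1)) =
        if r' = r then ∑ C, w C * (a C * l C i /
          (s * ((r.val % h : ℕ) - (far r j).val) * den C (r.val % h + (far r j).val))) else 0 := by
    intro w r r' j i
    have hV : ∀ C x y, M l C (Pi.single i (Matrix.single (far r j) (near r) (1 : F))) x y =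
        if x = far r j ∧ y = near r then l C i else 0 := by
      intro C x y
      simp only [M, Matrix.sum_apply, Matrix.smul_apply, smul_eq_mul]
      rw [sum_eq_single i (fun z _ hz => by simp [hz]) (by simp), Pi.single_eq_same,
        Matrix.single_apply, mul_ite, mul_one, mul_zero]
      exact if_congr ⟨fun hh => ⟨hh.1.symm, hh.2.symm⟩, fun hh => ⟨hh.1.symm, hh.2.symm⟩⟩ rfl rfl
    have hU : ∀ C, M l C (u r') (near r) (far r j) = if r' = r then a C else 0 := by
      intro C
      simp only [M, u, Matrix.sum_apply, Matrix.smul_apply, smul_eq_mul, Matrix.single_apply]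
      split_ifs with hr
      · subst hr
        rw [show (∑ j' : Fin n, if near r' = near r' ∧ far r' j' = far r' j then (1 : F) else 0) = 1
          from by
            rw [sum_eq_single j (fun z _ hz => if_neg fun hh => hz (hedge _ _ _ _ rfl hh.2).2)
              (by simp)]
            simp]
        simp [a]
      · rw [show (∑ j' : Fin n, if near r' = near r ∧ far r' j' = far r j then (1 : F) else 0) = 0
          from sum_eq_zero fun z _ => if_neg fun hh => hr (hedge _ _ _ _ hh.1 hh.2).1]
        simp
    simp only [Psi, hV]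
    have hinner : ∀ C, (∑ k, ∑ k' ∈ univ.erase k, M l C (u r') k k' *
        (if k' = far r j ∧ k = near r then l C i else 0) /
          ((∑ i, l C i * t i k) - ∑ i, l C i * t i k')) =
        M l C (u r') (near r) (far r j) * l C i /
          (s * ((r.val % h : ℕ) - (far r j).val) * den C (r.val % h + (far r j).val)) := by
      intro C
      rw [sum_eq_single (near r) (fun z _ hz => sum_eq_zero fun z' _ => by simp [hz]) (by simp),
        sum_eq_single (far r j) (fun z _ hz => by simp [hz])
          (fun hh => absurd (mem_erase.mpr ⟨(hne r j).symm, mem_univ _⟩) hh),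
        if_pos ⟨rfl, rfl⟩, hdiff]
    simp only [hinner, hU]
    split_ifs with hr <;> simp
  refine ⟨t, u, fun C k k' hkk' => ?_, ?_⟩
  · have h1 := hdiff C k k'
    rw [show (∑ i, l C i * t i k) = ∑ i, l C i * t i k' from hkk', sub_self] at h1
    have h2 := (mul_eq_zero.mp h1.symm).resolve_right
      (hden C _ (by have := k.2; have := k'.2; omega))
    exact Fin.ext (Nat.cast_injective (sub_eq_zero.mp ((mul_eq_zero.mp h2).resolve_left hs0)))
  rw [Fintype.linearIndependent_iff]
  intro c hc ⟨a₀, r⟩
  -- the combined weight of the group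
  let w : Cls → F := fun C => ∑ x, c (x, r) * om x C
  suffices hw : ∀ C, w C = 0 by
    exact Fintype.linearIndependent_iff.mp hom (fun x => c (x, r))
      (funext fun C => by simpa [w, Finset.sum_apply] using hw C) a₀
  intro C₀
  obtain ⟨i, hi⟩ := Function.ne_iff.mp (h0 C₀)
  have hgroup : ∀ j : Fin n, ∑ C, w C * a C * l C i / den C (r.val % h + (far r j).val) = 0 := by
    intro j
    have hcast : ((r.val % h : ℕ) : F) - ((far r j).val : F) ≠ 0 := by
      rw [sub_ne_zero, Ne, Nat.cast_inj]
      exact fun hh => hne r j (Fin.ext hh)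
    have h1 := congrFun hc (Pi.single i (Matrix.single (far r j) (near r) 1))
    simp only [Finset.sum_apply, Pi.smul_apply, smul_eq_mul, Pi.zero_apply, hval, mul_ite, mul_zero,
      Fintype.sum_prod_type, sum_ite_eq', mem_univ, if_true] at h1
    refine ((mul_eq_zero (a := (s * ((r.val % h : ℕ) - (far r j).val : F))⁻¹)).mp ?_).resolve_left
      (inv_ne_zero (mul_ne_zero hs0 hcast))
    rw [← h1, mul_sum]
    simp only [mul_sum]
    rw [sum_comm]
    refine sum_congr rfl fun C _ => ?_
    simp only [w, sum_mul, sum_div, mul_sum]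
    refine sum_congr rfl fun x _ => ?_
    field_simp
  -- partial fractions
  let num : Cls → F := fun C => w C * a C * l C i
  let η : Fin n → F := fun j => s * ((r.val % h + (far r j).val : ℕ) : F)
  have hη : Function.Injective η := by
    intro j j' hjj
    have := Nat.cast_injective (mul_left_cancel₀ hs0 hjj)
    simp only [far] at this
    exact Fin.ext (by omega)
  let P : F[X] := ∑ C, Polynomial.C (num C) *
    ∏ D ∈ univ.erase C, (Polynomial.C (a D) + X * Polynomial.C (b D))
  have hlin : ∀ D, (Polynomial.C (a D) + X * Polynomial.C (b D)).natDegree ≤ 1 := fun D => by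
    compute_degree
  have hP : P = 0 := by
    refine eq_zero_of_natDegree_lt_card_of_eval_eq_zero P hη ?_ ?_
    · intro j
      have hne' : ∀ D, den D (r.val % h + (far r j).val) ≠ 0 := fun D =>
        hden D _ (by have := (far r j).2; have := Nat.mod_lt r.val hh0; omega)
      have hev : ∀ D, (Polynomial.C (a D) + X * Polynomial.C (b D)).eval (η j) =
          den D (r.val % h + (far r j).val) := fun D => by simp [η, den]; ring
      simp only [P, eval_finsetSum, eval_mul, eval_C, eval_prod, hev]
      have h1 : ∀ C, num C * ∏ D ∈ univ.erase C, den D (r.val % h + (far r j).val) =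
          (num C / den C (r.val % h + (far r j).val)) * ∏ D, den D (r.val % h + (far r j).val) := by
        intro C
        rw [← mul_prod_erase univ _ (mem_univ C)]
        field_simp [hne' C]
      rw [sum_congr rfl fun C _ => h1 C, ← sum_mul, hgroup j, zero_mul]
    · rw [Fintype.card_fin]
      have hn : 0 < n := Fintype.card_pos_iff.mpr ⟨C₀⟩
      refine lt_of_le_of_lt (natDegree_sum_le_of_forall_le (n := n - 1) _ _ fun C _ =>
        (natDegree_C_mul_le _ _).trans ((natDegree_prod_le _ _).trans ?_)) (by omega)
      refine (sum_le_card_nsmul _ _ 1 fun D _ => hlin D).trans ?_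
      simp [n]
  have hroot := congrArg (fun Q : F[X] => Q.eval (-a C₀ / b C₀)) hP
  simp only [P, eval_finsetSum, eval_mul, eval_C, eval_prod, eval_add, eval_X, eval_zero] at hroot
  have hbC : ∀ D, b D ≠ 0 := hp'
  rw [sum_eq_single C₀ (fun C _ hC => by
    rw [prod_eq_zero (mem_erase.mpr ⟨hC.symm, mem_univ C₀⟩) (by field_simp [hbC C₀]; ring),
      mul_zero]) (by simp)] at hroot
  have hprod : ∏ D ∈ univ.erase C₀, (a D + -a C₀ / b C₀ * b D) ≠ 0 := by
    refine prod_ne_zero_iff.mpr fun D hD h' => (mem_erase.mp hD).1 (hinj ?_)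
    have haD : a D ≠ 0 := hp D
    have haC : a C₀ ≠ 0 := hp C₀
    show b D / a D = b C₀ / a C₀
    field_simp [hbC C₀] at h'
    rw [div_eq_div_iff haD haC]
    linear_combination -h'
  exact (mul_eq_zero.mp ((mul_eq_zero.mp ((mul_eq_zero.mp hroot).resolve_right hprod)).resolve_right
    hi)).resolve_right (hp C₀)

end Vale.Agent.P199.Kernels
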