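import Vale.Agent.P199.Frame
import Vale.Agent.P199.Kernels
import Mathlib

/-!
# P199: roots and linear forms of an inflation

For a frame with scalar linear parts the blocks at the point `τ c` have the roots
`root r + τ x (r, k)`, and the new linear forms are integral with a known constant term.
-/

namespace Vale.Agent.P199.InflForms

open Finset Polynomial
open scoped Kronecker

section General

variable {A : Type*} [CommRing A] {ι β p : Type*} [Fintype ι] [DecidableEq ι] [Fintype β]
  [DecidableEq β] [Fintype p] [DecidableEq p]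

theorem words_zero : words ι 0 = {[]} := by
  ext w
  simp [words, eq_comm]

theorem words_one : words ι 1 = univ.image fun i : ι => [i] := by
  ext w
  simp only [words, mem_image, mem_univ, true_and]
  constructor
  · rintro ⟨f, rfl⟩
    exact ⟨f 0, by simp⟩
  · rintro ⟨i, rfl⟩
    exact ⟨fun _ => i, by simp⟩

/-- The terms of order `0` and `1` of an evaluation at `τ v`. -/
theorem ev_tau (a : Ser (Matrix β β A) ι) (h0 : a.coeff [] = 0) (v : ι → Matrix p p A)
    (x y : β × p) :
    PowerSeries.constantCoeff (ev (tauPoint v) a x y) = 0 ∧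
      PowerSeries.coeff 1 (ev (tauPoint v) a x y) = (∑ i, a.coeff [i] ⊗ₖ v i) x y := by
  refine ⟨?_, ?_⟩
  · rw [← PowerSeries.coeff_zero_eq_constantCoeff_apply]
    simp [ev, toPS, subst, words_zero, h0]
  · simp only [ev, toPS, Matrix.of_apply, PowerSeries.coeff_mk, subst, List.replicate_one,
      List.length_singleton]
    rw [sum_range_succ, sum_range_one, words_zero, sum_singleton, h0, map_zero, zero_mul,
      zero_add, words_one, sum_image (fun i _ j _ h => by simpa using h), Matrix.sum_apply,
      Matrix.sum_apply]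
    refine sum_congr rfl fun i _ => ?_
    rw [List.map_singleton, List.prod_singleton]
    have hv : ((ofH (β := β) (tauPoint v) i).coeff [()]) = (1 : Matrix β β A) ⊗ₖ v i := by
      show (1 : Matrix β β A) ⊗ₖ (tauPoint v i).map (PowerSeries.coeff 1) = _
      congr 1
      ext s t
      simp [tauPoint]
    have hk : kronOne (p := p) (a.coeff [i]) = a.coeff [i] ⊗ₖ (1 : Matrix p p A) := rfl
    rw [hv, hk, ← Matrix.mul_kronecker_mul, mul_one, one_mul]

theorem dblPoint_tau (c e : ι → Matrix p p A) :
    dblPoint (tauPoint c) (tauPoint e) = tauPoint fun i => Matrix.fromBlocks (c i) (e i) 0 (c i) := by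
  funext i
  ext (x | x) (y | y) <;> simp [dblPoint, tauPoint]

/-- The terms of order `0` and `1` of a derivative at `τ c` along `τ e`. -/
theorem dev_tau (a : Ser (Matrix β β A) ι) (h0 : a.coeff [] = 0) (c e : ι → Matrix p p A)
    (x y : β × p) :
    PowerSeries.constantCoeff (dev (tauPoint c) (tauPoint e) a x y) = 0 ∧
      PowerSeries.coeff 1 (dev (tauPoint c) (tauPoint e) a x y) =
        (∑ i, a.coeff [i] ⊗ₖ e i) x y := by
  have h := ev_tau a h0 (fun i => Matrix.fromBlocks (c i) (e i) 0 (c i))
    (x.1, Sum.inl x.2) (y.1, Sum.inr y.2)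
  rw [← dblPoint_tau] at h
  refine ⟨h.1, ?_⟩
  show PowerSeries.coeff 1 (ev (dblPoint (tauPoint c) (tauPoint e)) a (x.1, Sum.inl x.2)
    (y.1, Sum.inr y.2)) = _
  rw [h.2]
  simp [Matrix.sum_apply]

/-- A matrix without constant term, divided by `τ`. -/
noncomputable def shiftPS {m : Type*} (M : Matrix m m (PowerSeries A)) :
    Matrix m m (PowerSeries A) :=
  Matrix.of fun x y => PowerSeries.mk fun n => PowerSeries.coeff (n + 1) (M x y)

theorem eq_smul_shiftPS {m : Type*} (M : Matrix m m (PowerSeries A))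
    (h : ∀ x y, PowerSeries.constantCoeff (M x y) = 0) :
    M = (PowerSeries.X : PowerSeries A) • shiftPS M := by
  ext1 x y
  rw [Matrix.smul_apply, smul_eq_mul, shiftPS, Matrix.of_apply]
  conv_lhs => rw [PowerSeries.eq_X_mul_shift_add_const (M x y), h, map_zero, add_zero]

theorem shiftPS_map {m : Type*} (M : Matrix m m (PowerSeries A)) :
    (shiftPS M).map PowerSeries.constantCoeff = M.map (PowerSeries.coeff 1) := by
  ext x y
  simp [shiftPS, ← PowerSeries.coeff_zero_eq_constantCoeff_apply]

/-- `M ↦ 1 ⊗ M`. -/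
def oneKron : Matrix p p A →ₐ[A] Matrix (β × p) (β × p) A :=
  AlgHom.ofLinearMap
    { toFun := fun M => (1 : Matrix β β A) ⊗ₖ M
      map_add' := fun M N => Matrix.kronecker_add _ M N
      map_smul' := fun c M => Matrix.kronecker_smul c _ M }
    Matrix.one_kronecker_one
    fun M N => by
      show (1 : Matrix β β A) ⊗ₖ (M * N) = (1 ⊗ₖ M) * (1 ⊗ₖ N)
      rw [← Matrix.mul_kronecker_mul, one_mul]

theorem charpoly_one_kronecker (M : Matrix p p A) :
    ((1 : Matrix β β A) ⊗ₖ M).charpoly = M.charpoly ^ Fintype.card β := by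
  have h : Matrix.charmatrix ((1 : Matrix β β A) ⊗ₖ M) =
      (1 : Matrix β β A[X]) ⊗ₖ Matrix.charmatrix M := by
    ext ⟨b, x⟩ ⟨b', y⟩
    by_cases hb : b = b'
    · subst hb
      by_cases hxy : x = y
      · subst hxy; simp
      · simp [hxy, Matrix.charmatrix_apply_ne]
    · simp [hb, Matrix.charmatrix_apply_ne]
  rw [Matrix.charpoly, h, Matrix.det_kronecker]
  simp [Matrix.charpoly]

theorem charpoly_smul_comp {m : Type*} [Fintype m] [DecidableEq m] (c : A) (B : Matrix m m A) :
    (c • B).charpoly.comp (C c * X) = C (c ^ Fintype.card m) * B.charpoly := by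
  rw [Matrix.charpoly, ← Polynomial.coe_compRingHom_apply, RingHom.map_det]
  have h : (compRingHom (C c * X)).mapMatrix (Matrix.charmatrix (c • B)) =
      C c • Matrix.charmatrix B := by
    ext1 x y
    by_cases hxy : x = y
    · subst hxy
      simp [mul_sub]
    · simp [hxy, Matrix.charmatrix_apply_ne]
  rw [h, Matrix.det_smul, Matrix.charpoly, map_pow]

end General

theorem comp_C_mul_X_injective {R : Type*} [CommRing R] [IsDomain R] {c : R} (hc : c ≠ 0) :
    Function.Injective fun P : R[X] => P.comp (C c * X) := by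
  intro P Q h
  ext n
  have := congrArg (fun f : R[X] => f.coeff n) h
  simp only [comp_C_mul_X_coeff] at this
  exact mul_right_cancel₀ (pow_ne_zero _ hc) this

/-- Degree and top coefficient of the sum in `x ^ μ - y ^ μ`. -/
theorem geom_top {R : Type*} [CommRing R] (μ q : ℕ) {x y : R[X]} (hx : x.Monic)
    (hxd : x.natDegree = q) (hy : y.Monic) (hyd : y.natDegree = q) :
    (∑ i ∈ range μ, x ^ i * y ^ (μ - 1 - i)).natDegree ≤ q * (μ - 1) ∧
      (∑ i ∈ range μ, x ^ i * y ^ (μ - 1 - i)).coeff (q * (μ - 1)) = (μ : R) := by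
  have hterm : ∀ i ∈ range μ, (x ^ i * y ^ (μ - 1 - i)).natDegree ≤ q * (μ - 1) ∧
      (x ^ i * y ^ (μ - 1 - i)).coeff (q * (μ - 1)) = 1 := by
    intro i hi
    have hq : q * (μ - 1) = q * i + q * (μ - 1 - i) := by
      rw [← Nat.mul_add]
      congr 1
      have := mem_range.mp hi
      omega
    have h1 : (x ^ i).natDegree ≤ q * i := by
      rw [mul_comm]
      exact natDegree_pow_le.trans (by rw [hxd])
    have h2 : (y ^ (μ - 1 - i)).natDegree ≤ q * (μ - 1 - i) := by
      rw [mul_comm]
      exact natDegree_pow_le.trans (by rw [hyd])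
    refine ⟨natDegree_mul_le.trans (hq ▸ Nat.add_le_add h1 h2), ?_⟩
    rw [hq, coeff_mul_add_eq_of_natDegree_le h1 h2]
    nontriviality R
    rw [show q * i = (x ^ i).natDegree by rw [hx.natDegree_pow, hxd, mul_comm],
      show q * (μ - 1 - i) = (y ^ (μ - 1 - i)).natDegree by rw [hy.natDegree_pow, hyd, mul_comm],
      (hx.pow i).coeff_natDegree, (hy.pow _).coeff_natDegree, one_mul]
  refine ⟨natDegree_sum_le_of_forall_le _ _ fun i hi => (hterm i hi).1, ?_⟩
  rw [finsetSum_coeff, sum_congr rfl fun i hi => (hterm i hi).2]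
  simp

/-- Monic roots of a power are unique. -/
theorem monic_pow_inj {R : Type*} [CommRing R] [IsDomain R] {μ q : ℕ} (hμ : (μ : R) ≠ 0)
    {x y : R[X]} (hx : x.Monic) (hxd : x.natDegree = q) (hy : y.Monic) (hyd : y.natDegree = q)
    (h : x ^ μ = y ^ μ) : x = y := by
  have h1 := geom_sum₂_mul x y μ
  rw [h, sub_self] at h1
  refine sub_eq_zero.mp ((mul_eq_zero.mp h1).resolve_left fun h0 => hμ ?_)
  rw [← (geom_top μ q hx hxd hy hyd).2, h0, coeff_zero]

/-- A monic root of a liftable power is liftable. -/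
theorem pow_lift {R K : Type*} [CommRing R] [Field K] (φ : R →+* K) {μ q : ℕ}
    (hμ : IsUnit (μ : R)) {G : K[X]} (hG : G.Monic) (hGd : G.natDegree = q)
    (h : G ^ μ ∈ lifts φ) : G ∈ lifts φ := by
  rw [lifts_iff_coeff_lifts]
  suffices ∀ j ≤ q, G.coeff (q - j) ∈ Set.range φ by
    intro n
    rcases le_or_gt n q with hn | hn
    · simpa [Nat.sub_sub_self hn] using this (q - n) (Nat.sub_le q n)
    · exact ⟨0, by rw [map_zero, coeff_eq_zero_of_natDegree_lt (hGd ▸ hn)]⟩
  intro j
  induction j using Nat.strong_induction_on with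
  | _ j ih =>
    intro hj
    rcases Nat.eq_zero_or_pos j with rfl | hjpos
    · exact ⟨1, by rw [map_one, Nat.sub_zero, ← hGd, hG.coeff_natDegree]⟩
    obtain ⟨k, hk⟩ : ∃ k, k = q - j := ⟨_, rfl⟩
    rw [← hk]
    set E : K[X] := ∑ i ∈ range (k + 1), monomial i (G.coeff i) with hE
    have hEc : ∀ n, E.coeff n = if n ≤ k then G.coeff n else 0 := fun n => by
      simp [hE, finsetSum_coeff, coeff_monomial]
    have hEd : E.natDegree ≤ k := natDegree_le_iff_coeff_eq_zero.mpr fun n hn => by
      rw [hEc, if_neg (by omega)]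
    have hTd : (G - E).natDegree ≤ q :=
      (natDegree_sub_le _ _).trans (max_le hGd.le (hEd.trans (by omega)))
    have hTc : (G - E).coeff q = 1 := by
      rw [coeff_sub, hEc, if_neg (by omega), sub_zero, ← hGd, hG.coeff_natDegree]
    have hTd' : (G - E).natDegree = q :=
      le_antisymm hTd (le_natDegree_of_ne_zero (by rw [hTc]; exact one_ne_zero))
    have hTm : (G - E).Monic := by
      rw [Monic, leadingCoeff, hTd', hTc]
    have hTl : G - E ∈ lifts φ := by
      rw [lifts_iff_coeff_lifts]
      intro n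
      rw [coeff_sub, hEc]
      rcases le_or_gt n k with hn | hn
      · exact ⟨0, by rw [if_pos hn, sub_self, map_zero]⟩
      · rw [if_neg (by omega), sub_zero]
        rcases le_or_gt n q with hn' | hn'
        · simpa [Nat.sub_sub_self hn'] using ih (q - n) (by omega) (Nat.sub_le q n)
        · exact ⟨0, by rw [map_zero, coeff_eq_zero_of_natDegree_lt (hGd ▸ hn')]⟩
    have h1 := geom_sum₂_mul G (G - E) μ
    rw [sub_sub_cancel] at h1
    obtain ⟨hdeg, htop⟩ := geom_top μ q hG hGd hTm hTd'
    have hc := congrArg (fun f : K[X] => f.coeff (q * (μ - 1) + k)) h1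
    rw [coeff_mul_add_eq_of_natDegree_le hdeg hEd, htop, hEc, if_pos le_rfl] at hc
    obtain ⟨r, hr⟩ : ∃ r, φ r = (G ^ μ - (G - E) ^ μ).coeff (q * (μ - 1) + k) := by
      obtain ⟨r₁, hr₁⟩ := (lifts_iff_coeff_lifts _).mp h (q * (μ - 1) + k)
      obtain ⟨r₂, hr₂⟩ := (lifts_iff_coeff_lifts _).mp (pow_mem hTl μ) (q * (μ - 1) + k)
      exact ⟨r₁ - r₂, by rw [map_sub, hr₁, hr₂, coeff_sub]⟩
    obtain ⟨u, hu⟩ := hμ
    refine ⟨(↑u⁻¹ : R) * r, ?_⟩
    rw [map_mul, hr, ← hc, ← mul_assoc, ← map_natCast φ μ, ← hu, ← map_mul, Units.inv_mul, map_one,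
      one_mul]

/-- A simple root of the reduction lifts. -/
theorem hensel {F : Type*} [Field F] (g : (PowerSeries F)[X]) (lam : F)
    (h0 : PowerSeries.constantCoeff (g.eval (PowerSeries.C lam)) = 0)
    (h1 : PowerSeries.constantCoeff (g.derivative.eval (PowerSeries.C lam)) ≠ 0) :
    ∃ x : PowerSeries F, g.eval x = 0 ∧ PowerSeries.constantCoeff x = lam := by
  set d := PowerSeries.constantCoeff (g.derivative.eval (PowerSeries.C lam)) with hd
  let u : PowerSeries F := PowerSeries.C d⁻¹
  let s : ℕ → PowerSeries F := fun n =>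
    Nat.rec (PowerSeries.C lam) (fun _ y => y - u * g.eval y) n
  have hs : ∀ n, PowerSeries.X ^ (n + 1) ∣ g.eval (s n) ∧
      PowerSeries.constantCoeff (s n) = lam := by
    intro n
    induction n with
    | zero =>
      refine ⟨?_, PowerSeries.constantCoeff_C lam⟩
      rw [pow_one, PowerSeries.X_dvd_iff]
      exact h0
    | succ n ih =>
      obtain ⟨⟨w, hw⟩, hlam⟩ := ih
      have hstep : s (n + 1) = s n + -(u * g.eval (s n)) := sub_eq_add_neg _ _
      have hconst : PowerSeries.constantCoeff (g.eval (s n)) = 0 := by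
        rw [hw, map_mul, map_pow, PowerSeries.constantCoeff_X, zero_pow (Nat.succ_ne_zero n),
          zero_mul]
      refine ⟨?_, by rw [hstep, map_add, map_neg, map_mul, hconst, mul_zero, neg_zero, add_zero,
        hlam]⟩
      obtain ⟨z, hz⟩ := g.binomExpansion (s n) (-(u * g.eval (s n)))
      have hfd : (1 : PowerSeries F) - g.derivative.eval (s n) * u ∈ Ideal.span {PowerSeries.X} := by
        rw [Ideal.mem_span_singleton, PowerSeries.X_dvd_iff]
        obtain ⟨t, ht⟩ := sub_dvd_eval_sub (s n) (PowerSeries.C lam) g.derivative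
        have h2 := congrArg PowerSeries.constantCoeff ht
        simp only [map_sub, map_mul, hlam, PowerSeries.constantCoeff_C, sub_self, zero_mul,
          sub_eq_zero, ← hd] at h2
        simp [u, h2, mul_inv_cancel₀ h1]
      obtain ⟨t, ht⟩ := Ideal.mem_span_singleton'.mp hfd
      rw [hstep, hz, hw]
      refine ⟨w * t + z * u ^ 2 * (PowerSeries.X ^ n * w * w), ?_⟩
      linear_combination (-(PowerSeries.X ^ (n + 1) * w)) * ht
  have hmono : ∀ n j, PowerSeries.X ^ (n + 1) ∣ s (n + j) - s n := by
    intro n j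
    induction j with
    | zero => simp
    | succ j ih =>
      have h2 : PowerSeries.X ^ (n + 1) ∣ u * g.eval (s (n + j)) :=
        ((pow_dvd_pow _ (by omega)).trans (hs (n + j)).1).mul_left u
      have h3 : s (n + (j + 1)) - s n = (s (n + j) - s n) - u * g.eval (s (n + j)) := by
        show s (n + j) - u * g.eval (s (n + j)) - s n = _
        ring
      rw [h3]
      exact dvd_sub ih h2
  let x : PowerSeries F := PowerSeries.mk fun n => PowerSeries.coeff n (s n)
  have hx : ∀ n, PowerSeries.X ^ (n + 1) ∣ x - s n := by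
    intro n
    rw [PowerSeries.X_pow_dvd_iff]
    intro m hm
    obtain ⟨j, rfl⟩ := Nat.exists_eq_add_of_le (Nat.lt_succ_iff.mp hm)
    have := PowerSeries.X_pow_dvd_iff.mp (hmono m j) m (Nat.lt_succ_self m)
    rw [map_sub, sub_eq_zero] at this
    simp [x, this]
  refine ⟨x, ?_, ?_⟩
  · ext n
    have h2 : PowerSeries.X ^ (n + 1) ∣ g.eval x := by
      have h3 := dvd_add ((hx n).trans (sub_dvd_eval_sub x (s n) g)) (hs n).1
      rwa [sub_add_cancel] at h3
    rw [map_zero]
    exact PowerSeries.X_pow_dvd_iff.mp h2 n (Nat.lt_succ_self n)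
  · rw [← PowerSeries.coeff_zero_eq_constantCoeff_apply, PowerSeries.coeff_mk,
      PowerSeries.coeff_zero_eq_constantCoeff_apply, (hs 0).2]

/-- The roots of a block `A = τ B` whose characteristic polynomial is a `μ`-th power. -/
theorem block_roots {F K : Type*} [Field F] [CharZero F] [Field K] (φ : PowerSeries F →+* K)
    (hφ : Function.Injective φ) {m : Type*} [Fintype m] [DecidableEq m] {μ q : ℕ} (hμ : μ ≠ 0)
    (A : Matrix m m (PowerSeries F)) (hA : ∀ x y, PowerSeries.constantCoeff (A x y) = 0)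
    (hm : Fintype.card m = μ * q) (lam : Fin q → F) (hlam : Function.Injective lam)
    (hB : ((shiftPS A).map PowerSeries.constantCoeff).charpoly = (∏ k, (X - C (lam k))) ^ μ)
    (hpow : IsPow μ q (A.charpoly.map φ)) :
    ∃ x : Fin q → PowerSeries F, (∀ k, PowerSeries.constantCoeff (x k) = lam k) ∧
      A.charpoly = (∏ k, (X - C (PowerSeries.X * x k))) ^ μ := by
  obtain ⟨h, hmon, hdeg, hpw⟩ := hpow
  have hτ : φ PowerSeries.X ≠ 0 := fun h => PowerSeries.X_ne_zero (hφ (h.trans (map_zero φ).symm))
  have hμR : IsUnit (μ : PowerSeries F) := by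
    rw [PowerSeries.isUnit_iff_constantCoeff, map_natCast]
    exact (Nat.cast_ne_zero.mpr hμ : (μ : F) ≠ 0).isUnit
  set B := shiftPS A with hBdef
  have hAB : A.charpoly.comp (C PowerSeries.X * X) =
      C (PowerSeries.X ^ (μ * q) : PowerSeries F) * B.charpoly := by
    conv_lhs => rw [eq_smul_shiftPS A hA]
    rw [charpoly_smul_comp, hm]
  -- the rescaled root over `K`
  set τ := φ PowerSeries.X with hτdef
  set G : K[X] := C (τ ^ q)⁻¹ * h.comp (C τ * X) with hGdef
  have hGd : G.natDegree ≤ q := by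
    refine (natDegree_C_mul_le _ _).trans (natDegree_comp_le.trans ?_)
    rw [natDegree_C_mul_X _ hτ, mul_one, hdeg]
  have hGq : G.coeff q = 1 := by
    rw [hGdef, coeff_C_mul, comp_C_mul_X_coeff, ← hdeg, hmon.coeff_natDegree, one_mul,
      inv_mul_cancel₀ (pow_ne_zero _ hτ)]
  have hGd' : G.natDegree = q :=
    le_antisymm hGd (le_natDegree_of_ne_zero (by rw [hGq]; exact one_ne_zero))
  have hGm : G.Monic := by rw [Monic, leadingCoeff, hGd', hGq]
  have hGpow : G ^ μ = B.charpoly.map φ := by
    have h1 := congrArg (Polynomial.map φ) hAB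
    rw [Polynomial.map_comp, hpw, Polynomial.map_mul, Polynomial.map_mul, map_C, map_C, map_X,
      pow_comp, map_pow] at h1
    rw [hGdef, mul_pow, ← map_pow, h1, ← mul_assoc, ← map_mul, inv_pow, ← pow_mul, ← hτdef,
      mul_comm q μ, inv_mul_cancel₀ (pow_ne_zero _ hτ), map_one, one_mul]
  have hlift : G ∈ lifts φ := pow_lift φ hμR hGm hGd'
    (hGpow ▸ ⟨B.charpoly, rfl⟩)
  obtain ⟨g, hgmap, hgd', hgm⟩ := lifts_and_natDegree_eq_and_monic hlift hGm
  have hgd : g.natDegree = q := hgd'.trans hGd'
  have hgpow : g ^ μ = B.charpoly :=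
    Polynomial.map_injective φ hφ (by rw [Polynomial.map_pow, hgmap, hGpow])
  -- the reduction
  set P0 : F[X] := ∏ k, (X - C (lam k)) with hP0
  have hP0m : P0.Monic := monic_prod_of_monic _ _ fun k _ => monic_X_sub_C _
  have hP0d : P0.natDegree = q := by
    rw [hP0, natDegree_prod_of_monic _ _ fun k _ => monic_X_sub_C _]
    simp
  have hgbar : g.map PowerSeries.constantCoeff = P0 := by
    refine monic_pow_inj (μ := μ) (Nat.cast_ne_zero.mpr hμ) (hgm.map _)
      (by rw [hgm.natDegree_map, hgd]) hP0m hP0d ?_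
    rw [← Polynomial.map_pow, hgpow, ← Matrix.charpoly_map, hB]
  have hroot : ∀ k, ∃ x : PowerSeries F, g.eval x = 0 ∧ PowerSeries.constantCoeff x = lam k := by
    intro k
    have hev : ∀ f : (PowerSeries F)[X], PowerSeries.constantCoeff (f.eval (PowerSeries.C (lam k))) =
        (f.map PowerSeries.constantCoeff).eval (lam k) := fun f => by
      rw [eval_map, ← eval₂_hom, PowerSeries.constantCoeff_C]
    refine hensel g (lam k) ?_ ?_
    · rw [hev, hgbar, hP0, eval_prod]
      exact prod_eq_zero (mem_univ k) (by simp)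
    · rw [hev, ← derivative_map, hgbar, hP0, derivative_prod_finset, eval_finsetSum,
        sum_eq_single k]
      · rw [derivative_X_sub_C, mul_one, eval_prod]
        refine prod_ne_zero_iff.mpr fun j hj => ?_
        simpa [sub_ne_zero] using fun e => (mem_erase.mp hj).1 (hlam e).symm
      · intro j _ hjk
        rw [eval_mul, eval_prod, prod_eq_zero (mem_erase.mpr ⟨Ne.symm hjk, mem_univ k⟩) (by simp),
          zero_mul]
      · simp
  choose x hx hxc using hroot
  refine ⟨x, hxc, ?_⟩
  have hxinj : Function.Injective x := fun a b e => hlam (by rw [← hxc a, ← hxc b, e])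
  have hg : g = ∏ k, (X - C (x k)) := by
    refine sub_eq_zero.mp ?_
    rcases Nat.eq_zero_or_pos q with rfl | hqpos
    · rw [(hgm.natDegree_eq_zero).mp hgd]
      simp
    refine eq_zero_of_natDegree_lt_card_of_eval_eq_zero _ hxinj
      (fun k => by
        rw [eval_sub, hx k, eval_prod, prod_eq_zero (mem_univ k) (by simp), sub_zero]) ?_
    rw [Fintype.card_fin]
    have hpm : (∏ k, (X - C (x k))).Monic := monic_prod_of_monic _ _ fun k _ => monic_X_sub_C _
    have hpd : (∏ k, (X - C (x k))).natDegree = q := by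
      rw [natDegree_prod_of_monic _ _ fun k _ => monic_X_sub_C _]
      simp
    by_cases hz : g - ∏ k, (X - C (x k)) = 0
    · rw [hz, natDegree_zero]; exact hqpos
    rw [natDegree_lt_iff_degree_lt hz]
    refine (degree_sub_lt ?_ hgm.ne_zero ?_).trans_le ?_
    · rw [degree_eq_natDegree hgm.ne_zero, degree_eq_natDegree hpm.ne_zero, hgd, hpd]
    · rw [hgm, hpm]
    · rw [degree_eq_natDegree hgm.ne_zero, hgd]
  refine comp_C_mul_X_injective (c := (PowerSeries.X : PowerSeries F)) PowerSeries.X_ne_zero ?_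
  show A.charpoly.comp _ = _
  rw [hAB, ← hgpow, hg]
  simp only [pow_comp, Polynomial.prod_comp, Polynomial.sub_comp, X_comp, C_comp]
  have hfac : ∀ k, C (PowerSeries.X : PowerSeries F) * X - C (PowerSeries.X * x k) =
      C (PowerSeries.X : PowerSeries F) * (X - C (x k)) := fun k => by
    rw [map_mul]; ring
  simp only [hfac, prod_mul_distrib, prod_const, card_univ, Fintype.card_fin, mul_pow, ← pow_mul,
    map_pow, mul_comm q μ]

/-- Hankel matrix of the traces of powers. -/
def hankel {R : Type*} [CommRing R] (q : ℕ) (M : Matrix (Fin q) (Fin q) R) :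
    Matrix (Fin q) (Fin q) R :=
  Matrix.of fun i j => (M ^ (i.val + j.val)).trace

/-- A regular Hankel matrix gives distinct eigenvalues. -/
theorem exists_lam {F : Type*} [Field F] [IsAlgClosed F] {q : ℕ} (M : Matrix (Fin q) (Fin q) F)
    (h : (hankel q M).det ≠ 0) :
    ∃ lam : Fin q → F, Function.Injective lam ∧ M.charpoly = ∏ k, (X - C (lam k)) := by
  classical
  have hsplit : M.charpoly.Splits := IsAlgClosed.splits _
  have hcard : M.charpoly.roots.card = q := by
    rw [← hsplit.natDegree_eq_card_roots, Matrix.charpoly_natDegree_eq_dim, Fintype.card_fin]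
  have hnd : M.charpoly.roots.Nodup := by
    rw [Multiset.nodup_iff_count_le_one]
    intro a
    by_contra hcount
    have hd : (X - C a) ^ 2 ∣ M.charpoly := by
      refine (pow_dvd_pow _ ?_).trans (pow_rootMultiplicity_dvd M.charpoly a)
      rw [← count_roots]
      omega
    obtain ⟨w, hw⟩ := hd
    set p := (X - C a) * w with hp
    have hmon := M.charpoly_monic
    have hp0 : p ≠ 0 := fun h0 => hmon.ne_zero (by
      rw [hw, pow_two, mul_assoc, ← hp, h0, mul_zero])
    have hpd : p.natDegree + 1 = q := by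
      have h1 : M.charpoly.natDegree = q := by
        rw [Matrix.charpoly_natDegree_eq_dim, Fintype.card_fin]
      rw [hw, pow_two, mul_assoc, ← hp, natDegree_mul (X_sub_C_ne_zero a) hp0, natDegree_X_sub_C]
        at h1
      omega
    have hN : aeval M p * aeval M p = 0 := by
      rw [← map_mul, show p * p = M.charpoly * w by rw [hw, hp]; ring, map_mul,
        Matrix.aeval_self_charpoly, zero_mul]
    refine h (Matrix.exists_mulVec_eq_zero_iff.mp ⟨fun i => p.coeff i.val, ?_, ?_⟩)
    · intro h0
      refine hp0 (Polynomial.ext fun n => ?_)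
      rcases Nat.lt_or_ge n q with hn | hn
      · simpa using congrFun h0 ⟨n, hn⟩
      · exact coeff_eq_zero_of_natDegree_lt (by omega)
    · funext j
      have hnil : IsNilpotent (aeval M p * M ^ j.val) := by
        refine ⟨2, ?_⟩
        rw [(Commute.all p (X ^ j.val)).map (aeval M) |> fun hc => (by simpa using hc :
          Commute (aeval M p) (M ^ j.val)) |>.mul_pow, pow_two, hN, zero_mul]
      have htr := (Matrix.isNilpotent_trace_of_isNilpotent hnil).eq_zero
      rw [aeval_eq_sum_range' (show p.natDegree < q by omega), sum_mul, Matrix.trace_sum,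
        ← Fin.sum_univ_eq_sum_range (fun i => (p.coeff i • M ^ i * M ^ j.val).trace) q] at htr
      rw [Pi.zero_apply, ← htr, Matrix.mulVec, dotProduct]
      refine sum_congr rfl fun i _ => ?_
      rw [smul_mul_assoc, ← pow_add, Matrix.trace_smul, smul_eq_mul, hankel, Matrix.of_apply,
        add_comm j.val, mul_comm]
  obtain ⟨e⟩ : Nonempty (Fin q ≃ M.charpoly.roots.toFinset) := ⟨(Fintype.equivFinOfCardEq (by
    rw [Fintype.card_coe, Multiset.toFinset_card_of_nodup hnd, hcard])).symm⟩
  refine ⟨fun k => (e k).1, fun a b hab => e.injective (Subtype.ext hab), ?_⟩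
  rw [e.prod_comp (fun r => X - C r.1), prod_coe_sort _ fun r => X - C r]
  conv_lhs => rw [hsplit.eq_prod_roots_of_monic M.charpoly_monic]
  rw [Finset.prod_eq_multiset_prod, Multiset.toFinset_val, Multiset.dedup_eq_self.mpr hnd]

section Main

variable (S : Frame) (q : ℕ)

/-- The generic leading block. -/
noncomputable def genBlock (r : S.ρ) :
    Matrix (Fin q) (Fin q) (MvPolynomial (S.ι × Fin q × Fin q) S.F) :=
  Matrix.of fun x y => ∑ i, MvPolynomial.C (S.l r i) * MvPolynomial.X (i, x, y)

/-- The open condition: distinct eigenvalues of all leading blocks. -/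
noncomputable def openPoly : MvPolynomial (S.ι × Fin q × Fin q) S.F :=
  ∏ r, (hankel q (genBlock S q r)).det

theorem map_hankel {R R' : Type*} [CommRing R] [CommRing R'] (f : R →+* R')
    (M : Matrix (Fin q) (Fin q) R) : (hankel q M).map f = hankel q (M.map f) := by
  ext i j
  simp only [hankel, Matrix.map_apply, Matrix.of_apply, Matrix.trace, map_sum, Matrix.diag_apply]
  refine sum_congr rfl fun k _ => ?_
  exact congrFun (congrFun (map_pow f.mapMatrix M (i.val + j.val)) k) k

theorem openPoly_ne_zero (h0 : ∀ r, S.l r ≠ 0) : openPoly S q ≠ 0 := by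
  refine prod_ne_zero_iff.mpr fun r _ h => ?_
  obtain ⟨i, hi⟩ := Function.ne_iff.mp (h0 r)
  let f : MvPolynomial (S.ι × Fin q × Fin q) S.F →+* S.F :=
    MvPolynomial.eval fun x => if x.1 = i ∧ x.2.1 = x.2.2 then (x.2.1.val : S.F) / S.l r i else 0
  have hM : (genBlock S q r).map f = Matrix.diagonal fun k : Fin q => (k.val : S.F) := by
    ext x y
    simp only [genBlock, f, Matrix.map_apply, Matrix.of_apply, map_sum, map_mul, MvPolynomial.eval_C,
      MvPolynomial.eval_X]
    rw [sum_eq_single i]
    · rcases eq_or_ne x y with rfl | hxy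
      · simp [mul_div_cancel₀ _ hi]
      · simp [hxy, Matrix.diagonal_apply_ne _ hxy]
    · intro j _ hj
      simp [hj]
    · simp
  have hdet := congrArg f h
  rw [map_zero, RingHom.map_det, RingHom.mapMatrix_apply, map_hankel, hM] at hdet
  have hV : hankel q (Matrix.diagonal fun k : Fin q => (k.val : S.F)) =
      (Matrix.vandermonde fun k : Fin q => (k.val : S.F)).transpose *
        Matrix.vandermonde fun k : Fin q => (k.val : S.F) := by
    ext a b
    simp [hankel, Matrix.diagonal_pow, Matrix.trace_diagonal, Matrix.mul_apply,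
      Matrix.vandermonde_apply, pow_add]
  rw [hV, Matrix.det_mul, Matrix.det_transpose, mul_self_eq_zero, Matrix.det_vandermonde_eq_zero_iff]
    at hdet
  obtain ⟨a, b, hab, hne⟩ := hdet
  exact hne (Fin.ext (Nat.cast_injective hab))

/-- The roots and linear forms of an inflation, for a frame with scalar linear parts. -/
theorem exists_forms (hlin : ∀ r i, (S.X r).coeff [i] = S.l r i • (1 : Matrix S.β S.β S.F))
    (h0 : ∀ r, S.l r ≠ 0) :
    ∃ P : MvPolynomial (S.ι × Fin q × Fin q) S.F, P ≠ 0 ∧ ∀ (S' : Frame) (d : InflData S S' q),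
      d.evalPoint P ≠ 0 → S'.mu = S.mu →
      (∀ r, IsPow S.mu q ((ev (tauPoint d.c) (d.XF r)).charpoly.map d.κ)) →
      ∃ (φ : S.ρ × Fin q ≃ S'.ρ) (lam : S.ρ → Fin q → d.F₀)
        (x : S.ρ × Fin q → PowerSeries d.F₀) (L : S.ρ × Fin q → S'.ι → PowerSeries d.F₀),
        (∀ r, Function.Injective (lam r) ∧
          (Kernels.M (fun r i => d.f (S.l r i)) r d.c).charpoly = ∏ k, (X - C (lam r k))) ∧
        (∀ p, PowerSeries.constantCoeff (x p) = lam p.1 p.2) ∧
        (∀ p, S'.root (φ p) =
          d.κ (PowerSeries.C (d.f (S.root p.1)) + PowerSeries.X * x p)) ∧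
        (∀ p i, S'.l (φ p) i = d.κ (L p i)) ∧
        (∀ p i, PowerSeries.constantCoeff (L p i) = Matrix.trace
          (aeval (Kernels.M (fun r i => d.f (S.l r i)) p.1 d.c)
              (Lagrange.basis univ (lam p.1) p.2) *
            Kernels.M (fun r i => d.f (S.l r i)) p.1 (d.e i))) ∧
        (∀ r (g : (PowerSeries d.F₀)[X]) i,
          row (d.XF r) g (tauPoint d.c) (tauPoint (d.e i)) =
            PowerSeries.X * (S.mu : PowerSeries d.F₀) *
              ∑ k, g.eval (PowerSeries.X * x (r, k)) * L (r, k) i) := by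
  refine ⟨openPoly S q, openPoly_ne_zero S q h0, fun S' d hP hmu hpow => ?_⟩
  classical
  let l₀ : S.ρ → S.ι → d.F₀ := fun r i => d.f (S.l r i)
  let A : S.ρ → Matrix (S.β × Fin q) (S.β × Fin q) (PowerSeries d.F₀) := fun r =>
    ev (tauPoint d.c) (d.XF r)
  let D : S.ρ → S'.ι → Matrix (S.β × Fin q) (S.β × Fin q) (PowerSeries d.F₀) := fun r i =>
    dev (tauPoint d.c) (tauPoint (d.e i)) (d.XF r)
  have hμ : S.mu ≠ 0 := Fintype.card_ne_zero
  have hXnil : ∀ r, (d.XF r).coeff [] = 0 := fun r => by
    simp [InflData.XF, S.X_nil r]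
  have hXlin : ∀ r (v : S.ι → Matrix (Fin q) (Fin q) d.F₀),
      (∑ i, (d.XF r).coeff [i] ⊗ₖ v i) = (1 : Matrix S.β S.β d.F₀) ⊗ₖ Kernels.M l₀ r v := by
    intro r v
    ext ⟨b, x⟩ ⟨b', y⟩
    simp only [Matrix.sum_apply, Kernels.M, Matrix.kronecker_apply, l₀, InflData.XF,
      Series.Ser.coeff_map, RingHom.mapMatrix_apply, Matrix.map_apply, hlin, Matrix.smul_apply,
      smul_eq_mul, Finset.mul_sum]
    refine sum_congr rfl fun i _ => ?_
    rcases eq_or_ne b b' with rfl | hb <;> simp [*, mul_comm, mul_left_comm]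
  have hA0 : ∀ r x y, PowerSeries.constantCoeff (A r x y) = 0 := fun r x y =>
    (ev_tau _ (hXnil r) _ x y).1
  have hD0 : ∀ r i x y, PowerSeries.constantCoeff (D r i x y) = 0 := fun r i x y =>
    (dev_tau _ (hXnil r) _ _ x y).1
  have hA1 : ∀ r, (shiftPS (A r)).map PowerSeries.constantCoeff =
      (1 : Matrix S.β S.β d.F₀) ⊗ₖ Kernels.M l₀ r d.c := fun r => by
    rw [shiftPS_map, ← hXlin]
    ext1 x y
    exact (ev_tau _ (hXnil r) _ x y).2
  have hD1 : ∀ r i, (shiftPS (D r i)).map PowerSeries.constantCoeff =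
      (1 : Matrix S.β S.β d.F₀) ⊗ₖ Kernels.M l₀ r (d.e i) := fun r i => by
    rw [shiftPS_map, ← hXlin]
    ext1 x y
    exact (dev_tau _ (hXnil r) _ _ x y).2
  -- eigenvalues of the leading blocks
  have hlam : ∀ r, ∃ lam : Fin q → d.F₀, Function.Injective lam ∧
      (Kernels.M l₀ r d.c).charpoly = ∏ k, (X - C (lam k)) := by
    intro r
    refine exists_lam _ fun hdet => hP ?_
    let f : MvPolynomial (S.ι × Fin q × Fin q) S.F →+* d.F₀ :=
      MvPolynomial.eval₂Hom d.f fun x => d.c x.1 x.2.1 x.2.2
    show f (openPoly S q) = 0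
    rw [openPoly, map_prod]
    refine prod_eq_zero (mem_univ r) ?_
    rw [RingHom.map_det, RingHom.mapMatrix_apply, map_hankel, show (genBlock S q r).map f =
      Kernels.M l₀ r d.c by
        ext x y
        simp [genBlock, f, Kernels.M, l₀, Matrix.sum_apply]]
    exact hdet
  choose lam hlam_inj hlam_char using hlam
  -- roots of the blocks
  have hblock : ∀ r, ∃ x : Fin q → PowerSeries d.F₀,
      (∀ k, PowerSeries.constantCoeff (x k) = lam r k) ∧
      (A r).charpoly = (∏ k, (X - C (PowerSeries.X * x k))) ^ S.mu := by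
    intro r
    refine block_roots d.κ d.κ_injective hμ (A r) (hA0 r) ?_ (lam r) (hlam_inj r) ?_ (hpow r)
    · rw [Fintype.card_prod, Fintype.card_fin]; rfl
    · rw [hA1, charpoly_one_kronecker, hlam_char]; rfl
  choose x hxc hxA using hblock
  let a : S.ρ → PowerSeries d.F₀ := fun r => PowerSeries.C (d.f (S.root r))
  let α : S.ρ × Fin q → PowerSeries d.F₀ := fun p => a p.1 + PowerSeries.X * x p.1 p.2
  have hαc : ∀ p, PowerSeries.constantCoeff (α p) = d.f (S.root p.1) := fun p => by simp [α, a]
  have hαinj : Function.Injective α := by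
    intro p p' h
    have hr : p.1 = p'.1 := S.root_injective (d.f.injective (by rw [← hαc, ← hαc, h]))
    obtain ⟨r, k⟩ := p
    obtain ⟨r', k'⟩ := p'
    obtain rfl : r = r' := hr
    have h1 := mul_left_cancel₀ PowerSeries.X_ne_zero (add_left_cancel h)
    rw [hlam_inj r (a₁ := k) (a₂ := k') (by rw [← hxc r k, ← hxc r k', h1])]
  let P : S.ρ → S'.F[X] := fun r => ∏ k, (X - C (d.κ (α (r, k)))) ^ S.mu
  have hblkdef : ∀ r, d.blk r =
      (Matrix.scalar (S.β × Fin q) (a r) + A r).map d.κ := fun r => rfl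
  have hblk : ∀ r, (d.blk r).charpoly = P r := by
    intro r
    rw [hblkdef, Matrix.charpoly_map,
      show Matrix.scalar (S.β × Fin q) (a r) + A r = A r - Matrix.scalar (S.β × Fin q) (-a r) by
        rw [map_neg, sub_neg_eq_add, add_comm],
      Matrix.charpoly_sub_scalar, hxA, pow_comp, Polynomial.prod_comp, Polynomial.map_pow,
      Polynomial.map_prod, ← prod_pow]
    refine prod_congr rfl fun k _ => ?_
    congr 1
    simp [α]
    ring
  -- the bijection of the roots
  have hprod : ∏ p : S.ρ × Fin q, (X - C (d.κ (α p))) ^ S.mu =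
      ∏ r', (X - C (S'.root r')) ^ S.mu := by
    rw [Fintype.prod_prod_type]
    calc ∏ r, P r = ∏ r, (d.blk r).charpoly := by simp only [hblk]
      _ = _ := d.charpoly_eq.trans (by rw [hmu])
  have hroots : (univ : Finset (S.ρ × Fin q)).image (fun p => d.κ (α p)) =
      univ.image S'.root := by
    ext z
    have h1 := congrArg (Polynomial.eval z) hprod
    simp only [eval_prod, eval_pow, eval_sub, eval_X, eval_C] at h1
    simp only [mem_image, mem_univ, true_and]
    constructor
    · rintro ⟨p, rfl⟩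
      rw [prod_eq_zero (mem_univ p) (by rw [sub_self, zero_pow hμ])] at h1
      obtain ⟨r', -, hr'⟩ := prod_eq_zero_iff.mp h1.symm
      exact ⟨r', (sub_eq_zero.mp ((pow_eq_zero_iff hμ).mp hr')).symm⟩
    · rintro ⟨r', rfl⟩
      rw [prod_eq_zero (mem_univ r') (by rw [sub_self, zero_pow hμ]) (f := fun s =>
        (S'.root r' - S'.root s) ^ S.mu)] at h1
      obtain ⟨p, -, hp⟩ := prod_eq_zero_iff.mp h1
      exact ⟨p, (sub_eq_zero.mp ((pow_eq_zero_iff hμ).mp hp)).symm⟩
  have hφex : ∀ p, ∃ r', S'.root r' = d.κ (α p) := fun p => by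
    have := hroots ▸ mem_image_of_mem (fun p => d.κ (α p)) (mem_univ p)
    simpa using this
  choose φ₀ hφ₀ using hφex
  have hφbij : Function.Bijective φ₀ := by
    refine ⟨fun p p' h => hαinj (d.κ_injective (by rw [← hφ₀, ← hφ₀, h])), fun r' => ?_⟩
    have := hroots.symm ▸ mem_image_of_mem S'.root (mem_univ r')
    obtain ⟨p, -, hp⟩ := mem_image.mp this
    exact ⟨p, S'.root_injective ((hφ₀ p).trans hp)⟩
  let φ := Equiv.ofBijective φ₀ hφbij
  have hφ : ∀ p, S'.root (φ p) = d.κ (α p) := hφ₀
  -- the trace identity in one block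
  have hkey : ∀ r (g : (PowerSeries d.F₀)[X]) i,
      d.κ (row (d.XF r) g (tauPoint d.c) (tauPoint (d.e i))) =
        d.κ PowerSeries.X * (S.mu : S'.F) *
          ∑ k, d.κ (g.eval (PowerSeries.X * x r k)) * S'.l (φ (r, k)) i := by
    intro r g i
    have hcop : IsCoprime (∏ s ∈ univ.erase r, P s) (P r) := by
      refine IsCoprime.prod_left fun s hs => IsCoprime.prod_left fun k _ =>
        IsCoprime.prod_right fun k' _ => IsCoprime.pow ?_
      refine isCoprime_X_sub_C_of_isUnit_sub (sub_ne_zero.mpr fun h => ?_).isUnit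
      exact (mem_erase.mp hs).1 (congrArg Prod.fst (hαinj (d.κ_injective h)))
    obtain ⟨V, U, hUV⟩ := hcop
    set E := V * ∏ s ∈ univ.erase r, P s with hE
    have hself : ∀ s k, (P s).eval (d.κ (α (s, k))) = 0 := fun s k => by
      rw [eval_prod, prod_eq_zero (mem_univ k)]
      simp [zero_pow hμ]
    have hEeval : ∀ p : S.ρ × Fin q, E.eval (d.κ (α p)) = if p.1 = r then 1 else 0 := by
      intro p
      split_ifs with h
      · subst h
        have := congrArg (Polynomial.eval (d.κ (α p))) hUV
        simpa [hE, hself p.1 p.2] using this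
      · rw [hE, eval_mul, eval_prod, prod_eq_zero (mem_erase.mpr ⟨h, mem_univ _⟩) (hself p.1 p.2),
          mul_zero]
    have hEblk : ∀ s, aeval (d.blk s) E = if s = r then 1 else 0 := by
      intro s
      have hCH : aeval (d.blk s) (P s) = 0 := hblk s ▸ Matrix.aeval_self_charpoly _
      split_ifs with h
      · subst h
        have := congrArg (aeval (d.blk s)) hUV
        simpa [hE, hCH] using this
      · rw [hE, map_mul, ← mul_prod_erase _ _ (mem_erase.mpr ⟨h, mem_univ s⟩), map_mul, hCH,
          zero_mul, mul_zero]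
    set g' : S'.F[X] := (g.map d.κ).comp (X - C (d.κ (a r))) with hg'
    have htr := d.trace_eq (E * g') i
    rw [hmu] at htr
    have hR : ∑ s, Matrix.trace (aeval (d.blk s) (E * g') * (D s i).map d.κ) =
        d.κ (row (d.XF r) g (tauPoint d.c) (tauPoint (d.e i))) := by
      rw [sum_eq_single r]
      · rw [map_mul, hEblk, if_pos rfl, one_mul, hg', aeval_comp]
        have hsh : aeval (d.blk r) (X - C (d.κ (a r))) = (A r).map d.κ := by
          rw [map_sub, aeval_X, aeval_C, hblkdef]
          ext b b'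
          rcases eq_or_ne b b' with rfl | hb <;>
            simp [Matrix.scalar_apply, Matrix.algebraMap_matrix_apply, *]
        rw [hsh, row]
        have hmap : aeval ((A r).map d.κ) (g.map d.κ) = (aeval (A r) g).map d.κ := by
          rw [← RingHom.mapMatrix_apply, ← RingHom.mapMatrix_apply]
          exact (map_aeval_eq_aeval_map (by ext; simp [Matrix.algebraMap_matrix_apply]; split_ifs <;> simp) g
            (A r)).symm
        rw [hmap, ← Matrix.map_mul]
        simp only [Matrix.trace, Matrix.diag_apply, Matrix.map_apply, map_sum]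
        rfl
      · intro s _ hs
        rw [map_mul, hEblk, if_neg hs, zero_mul, zero_mul, Matrix.trace_zero]
      · simp
    rw [← hR]
    refine htr.symm.trans ?_
    rw [mul_assoc (d.κ PowerSeries.X)]
    congr 1
    rw [← φ.sum_comp, Fintype.sum_prod_type, sum_eq_single r, mul_sum]
    · refine sum_congr rfl fun k _ => ?_
      rw [hφ, eval_mul, hEeval, if_pos rfl, hg', eval_comp, eval_sub, eval_X, eval_C, ← map_sub,
        eval_map, eval₂_hom]
      simp [α]
      ring
    · intro s _ hs
      refine sum_eq_zero fun k _ => ?_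
      rw [hφ, eval_mul, hEeval, if_neg (fun h : (s, k).1 = r => hs h)]
      simp
    · simp
  -- the forms
  let u : S.ρ × Fin q → PowerSeries d.F₀ := fun p =>
    ∏ k' ∈ univ.erase p.2, (x p.1 p.2 - x p.1 k')
  have hu : ∀ p, PowerSeries.constantCoeff (u p) =
      ∏ k' ∈ univ.erase p.2, (lam p.1 p.2 - lam p.1 k') := fun p => by simp [u, hxc]
  have hu0 : ∀ p, PowerSeries.constantCoeff (u p) ≠ 0 := fun p => by
    rw [hu]
    exact prod_ne_zero_iff.mpr fun k' hk' =>
      sub_ne_zero.mpr fun h => (mem_erase.mp hk').1 (hlam_inj _ h.symm)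
  let T : S.ρ × Fin q → S'.ι → PowerSeries d.F₀ := fun p i =>
    Matrix.trace (aeval (shiftPS (A p.1)) (∏ k' ∈ univ.erase p.2, (X - C (x p.1 k'))) *
      shiftPS (D p.1 i))
  let w : S.ρ × Fin q → PowerSeries d.F₀ := fun p =>
    PowerSeries.C ((S.mu : d.F₀)⁻¹) * (u p)⁻¹
  let L : S.ρ × Fin q → S'.ι → PowerSeries d.F₀ := fun p i => w p * T p i
  have hw : ∀ p, w p * ((S.mu : PowerSeries d.F₀) * u p) = 1 := fun p => by
    rw [show w p * ((S.mu : PowerSeries d.F₀) * u p) =
      (PowerSeries.C ((S.mu : d.F₀)⁻¹) * (S.mu : PowerSeries d.F₀)) * ((u p)⁻¹ * u p) by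
        simp only [w]; ring,
      PowerSeries.inv_mul_cancel _ (hu0 p), mul_one, ← map_natCast (PowerSeries.C (R := d.F₀)),
      ← map_mul, inv_mul_cancel₀ (Nat.cast_ne_zero.mpr hμ), map_one]
  have hl : ∀ p i, S'.l (φ p) i = d.κ (L p i) := by
    rintro ⟨r, k⟩ i
    let n := (univ.erase k).card
    set g : (PowerSeries d.F₀)[X] := ∏ k' ∈ univ.erase k, (X - C (PowerSeries.X * x r k')) with hgd
    have hcompg : g.comp (C PowerSeries.X * X) = C (PowerSeries.X ^ n : PowerSeries d.F₀) *
        ∏ k' ∈ univ.erase k, (X - C (x r k')) := by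
      rw [hgd, Polynomial.prod_comp, map_pow]
      simp only [n, ← prod_const, ← prod_mul_distrib]
      refine prod_congr rfl fun k' _ => ?_
      simp [map_mul, mul_sub]
    have hrow : row (d.XF r) g (tauPoint d.c) (tauPoint (d.e i)) =
        PowerSeries.X ^ (n + 1) * T (r, k) i := by
      show Matrix.trace (aeval (A r) g * D r i) = _
      have h1 : aeval (A r) g = (PowerSeries.X ^ n : PowerSeries d.F₀) •
          aeval (shiftPS (A r)) (∏ k' ∈ univ.erase k, (X - C (x r k'))) := by
        conv_lhs => rw [eq_smul_shiftPS (A r) (hA0 r)]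
        rw [Algebra.smul_def, Algebra.smul_def, ← aeval_C (shiftPS (A r)),
          ← aeval_C (shiftPS (A r)) (PowerSeries.X ^ n), ← map_mul (aeval (shiftPS (A r))),
          ← hcompg]
        conv_lhs => enter [1, 1, 2]; rw [← aeval_X (R := PowerSeries d.F₀) (shiftPS (A r))]
        rw [← map_mul, ← aeval_comp]
      rw [h1]
      conv_lhs => rw [eq_smul_shiftPS (D r i) (hD0 r i)]
      rw [smul_mul_assoc, mul_smul_comm, smul_smul, Matrix.trace_smul, smul_eq_mul, pow_succ]
    have h2 := hkey r g i
    rw [hrow, sum_eq_single k] at h2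
    · have h3 : g.eval (PowerSeries.X * x r k) = PowerSeries.X ^ n * u (r, k) := by
        simp only [hgd, eval_prod, eval_sub, eval_X, eval_C, u, n, ← mul_sub, prod_mul_distrib,
          prod_const]
      rw [h3] at h2
      have h4 : d.κ (T (r, k) i) = d.κ ((S.mu : PowerSeries d.F₀) * u (r, k)) *
          S'.l (φ (r, k)) i := by
        refine mul_left_cancel₀ (a := d.κ PowerSeries.X ^ (n + 1)) (pow_ne_zero _ fun h =>
          PowerSeries.X_ne_zero (d.κ_injective (h.trans (map_zero d.κ).symm))) ?_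
        rw [← map_pow, ← map_mul, h2]
        simp only [map_mul, map_pow, map_natCast]
        ring
      rw [map_mul, h4, ← mul_assoc, ← map_mul, hw, map_one, one_mul]
    · intro j _ hj
      rw [show g.eval (PowerSeries.X * x r j) = 0 from by
        rw [hgd, eval_prod, prod_eq_zero (mem_erase.mpr ⟨hj, mem_univ j⟩)]; simp, map_zero,
        zero_mul]
    · simp
  refine ⟨φ, lam, fun p => x p.1 p.2, L, fun r => ⟨hlam_inj r, hlam_char r⟩, fun p => hxc _ _,
    hφ, hl, ?_, ?_⟩
  · rintro ⟨r, k⟩ i
    have hT : PowerSeries.constantCoeff (T (r, k) i) = (S.mu : d.F₀) * Matrix.trace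
        (aeval (Kernels.M l₀ r d.c) (∏ k' ∈ univ.erase k, (X - C (lam r k'))) *
          Kernels.M l₀ r (d.e i)) := by
      simp only [T]
      rw [show ∀ M : Matrix (S.β × Fin q) (S.β × Fin q) (PowerSeries d.F₀),
        PowerSeries.constantCoeff M.trace = (M.map PowerSeries.constantCoeff).trace from fun M => by
          simp [Matrix.trace]]
      rw [Matrix.map_mul, hD1]
      have h5 : (aeval (shiftPS (A r)) (∏ k' ∈ univ.erase k, (X - C (x r k')))).map
          PowerSeries.constantCoeff =
          oneKron (aeval (Kernels.M l₀ r d.c) (∏ k' ∈ univ.erase k, (X - C (lam r k')))) := by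
        rw [← RingHom.mapMatrix_apply, map_aeval_eq_aeval_map (φ := PowerSeries.constantCoeff)
          (by ext; simp [Matrix.algebraMap_matrix_apply]; split_ifs <;> simp), ← aeval_algHom_apply,
          RingHom.mapMatrix_apply, hA1, Polynomial.map_prod]
        congr 1
        exact prod_congr rfl fun k' _ => by simp [hxc]
      rw [h5]
      show Matrix.trace (((1 : Matrix S.β S.β d.F₀) ⊗ₖ _) * _) = _
      rw [← Matrix.mul_kronecker_mul, one_mul, Matrix.trace_kronecker, Matrix.trace_one]
      rfl
    have hbasis : Lagrange.basis univ (lam r) k =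
        C (∏ k' ∈ univ.erase k, (lam r k - lam r k'))⁻¹ *
          ∏ k' ∈ univ.erase k, (X - C (lam r k')) := by
      rw [Lagrange.basis]
      simp only [Lagrange.basisDivisor]
      rw [prod_mul_distrib, ← map_prod, prod_inv_distrib]
    simp only [L, w, map_mul, PowerSeries.constantCoeff_C, PowerSeries.constantCoeff_inv, hu, hT,
      hbasis, aeval_C, ← Algebra.smul_def, smul_mul_assoc, Matrix.trace_smul, smul_eq_mul]
    field_simp
    rfl
  · intro r g i
    refine d.κ_injective ?_
    rw [hkey r g i]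
    simp only [map_mul, map_sum, map_natCast, hl]

end Main

end Vale.Agent.P199.InflForms
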