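import Vale.Agent.P199.SelectDefs
import Vale.Agent.P199.InflForms
import Vale.Agent.P199.Eval2

/-!
# P199: the leading term of the quadratic part of an inflation

`τ` times a quadratic coefficient of a new normalised trace is integral, and its constant term is
one summand of `PsiP`.
-/

namespace Vale.Agent.P199.BRank

open Finset Polynomial Series
open scoped Kronecker

/-- One summand of `PsiP`. -/
noncomputable def psi {F : Type*} [Field F] {ι Cls : Type*} [Fintype ι] [Fintype Cls] {q : ℕ}
    (l : Cls → ι → F) (c : ι → Matrix (Fin q) (Fin q) F) (lam : Cls → Fin q → F) (C : Cls)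
    (k : Fin q) (U V : ι → Matrix (Fin q) (Fin q) F) : F :=
  ∑ k' ∈ univ.erase k,
    Matrix.trace (SelectLin.proj (Kernels.M l C c) (lam C) k * Kernels.M l C U *
      SelectLin.proj (Kernels.M l C c) (lam C) k' * Kernels.M l C V) / (lam C k - lam C k')

lemma psiP_eq {F : Type} [Field F] {ι Cls : Type} [Fintype ι] [Fintype Cls] {q : ℕ}
    (l : Cls → ι → F) (c : ι → Matrix (Fin q) (Fin q) F) (lam : Cls → Fin q → F) (w : Cls → F)
    (U V : ι → Matrix (Fin q) (Fin q) F) :
    PsiP l c lam w U V = ∑ C, ∑ k, w C * psi l c lam C k U V :=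
  sum_congr rfl fun C _ => mul_sum _ _ _

section Lag

variable {F K : Type*} [Field F] [Field K] {ρ ρ' : Type*} [Fintype ρ] [DecidableEq ρ]
  [Fintype ρ'] [DecidableEq ρ'] {q : ℕ} {n : Type*} [Fintype n] [DecidableEq n]

/-- The new root `a + τ x`. -/
noncomputable def newRoot (a : ρ → F) (x : ρ × Fin q → PowerSeries F) (p : ρ × Fin q) :
    PowerSeries F :=
  PowerSeries.C (a p.1) + PowerSeries.X * x p

lemma newRoot_injective {a : ρ → F} (ha : Function.Injective a)
    {x : ρ × Fin q → PowerSeries F} {lam : ρ → Fin q → F}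
    (hlam : ∀ r, Function.Injective (lam r))
    (hxc : ∀ p, PowerSeries.constantCoeff (x p) = lam p.1 p.2) :
    Function.Injective (newRoot a x) := by
  rintro ⟨r, k⟩ ⟨r', k'⟩ h
  obtain rfl : r = r' := ha (by simpa [newRoot] using congrArg PowerSeries.constantCoeff h)
  have h1 := congrArg PowerSeries.constantCoeff
    (mul_left_cancel₀ PowerSeries.X_ne_zero (add_left_cancel h))
  rw [hxc, hxc] at h1
  rw [show k = k' from hlam r h1]

lemma map_aeval {R S : Type*} [CommRing R] [CommRing S] (φ : R →+* S) (M : Matrix n n R)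
    (P : R[X]) : (aeval M P).map φ = aeval (M.map φ) (P.map φ) := by
  rw [← RingHom.mapMatrix_apply, ← RingHom.mapMatrix_apply]
  exact map_aeval_eq_aeval_map
    (by ext; simp [Matrix.algebraMap_matrix_apply]; split_ifs <;> simp) P M

/-- The Lagrange polynomial of a new root at an old block is integral, with constant term the
projector in its own block and zero in the others. -/
theorem exists_lag {κ : PowerSeries F →+* K} (hκ : Function.Injective κ) {a : ρ → F}
    (ha : Function.Injective a) {x : ρ × Fin q → PowerSeries F} {lam : ρ → Fin q → F}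
    (hlam : ∀ r, Function.Injective (lam r))
    (hxc : ∀ p, PowerSeries.constantCoeff (x p) = lam p.1 p.2) {root : ρ' → K}
    (φ : ρ × Fin q ≃ ρ') (hroot : ∀ p, root (φ p) = κ (newRoot a x p))
    (B : Matrix n n (PowerSeries F)) (r : ρ) (p : ρ × Fin q) :
    ∃ Λ : Matrix n n (PowerSeries F),
      aeval ((Matrix.scalar n (PowerSeries.C (a r)) + (PowerSeries.X : PowerSeries F) • B).map κ)
          (Lagrange.basis univ root (φ p)) = Λ.map κ ∧
      Λ.map PowerSeries.constantCoeff = if p.1 = r then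
        aeval (B.map PowerSeries.constantCoeff) (Lagrange.basis univ (lam r) p.2) else 0 := by
  classical
  obtain ⟨r₀, k⟩ := p
  set τ : PowerSeries F := PowerSeries.X with hτ
  set α := newRoot a x with hα
  have hcard : ∀ r, #{p' ∈ (univ : Finset (ρ × Fin q)).erase (r₀, k) | p'.1 = r} =
      (q - 1) + if r₀ = r then 0 else 1 := by
    intro r
    have hq : 1 ≤ q := k.pos
    split_ifs with h
    · subst h
      have : ({p' ∈ (univ : Finset (ρ × Fin q)).erase (r₀, k) | p'.1 = r₀}) =
          (univ.erase k).map ⟨fun j => (r₀, j), fun _ _ h => (Prod.ext_iff.1 h).2⟩ := by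
        ext p'
        constructor
        · intro h
          obtain ⟨hne, he⟩ := mem_filter.1 h
          exact mem_map.2 ⟨p'.2, mem_erase.2 ⟨fun e => (mem_erase.1 hne).1 (Prod.ext he e),
            mem_univ _⟩, Prod.ext he.symm rfl⟩
        · intro h
          obtain ⟨j, hj, rfl⟩ := mem_map.1 h
          exact mem_filter.2 ⟨mem_erase.2 ⟨fun e => (mem_erase.1 hj).1 (congrArg Prod.snd e),
            mem_univ _⟩, rfl⟩
      rw [this, card_map, card_erase_of_mem (mem_univ k), card_univ, Fintype.card_fin, add_zero]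
    · have : ({p' ∈ (univ : Finset (ρ × Fin q)).erase (r₀, k) | p'.1 = r}) =
          (univ : Finset (Fin q)).map ⟨fun j => (r, j), fun _ _ h => (Prod.ext_iff.1 h).2⟩ := by
        ext p'
        constructor
        · intro hp
          exact mem_map.2 ⟨p'.2, mem_univ _, Prod.ext (mem_filter.1 hp).2.symm rfl⟩
        · intro hp
          obtain ⟨j, -, rfl⟩ := mem_map.1 hp
          exact mem_filter.2 ⟨mem_erase.2 ⟨fun e => h (congrArg Prod.fst e).symm,
            mem_univ _⟩, rfl⟩
      rw [this, card_map, card_univ, Fintype.card_fin]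
      omega
  -- the scaled numerator in the block of `r`
  let N : Polynomial (PowerSeries F) :=
    ∏ p' ∈ (univ : Finset (ρ × Fin q)).erase (r₀, k), (X - C (α p'))
  let H : ρ → Polynomial (PowerSeries F) := fun r =>
    (∏ p' ∈ {p' ∈ (univ : Finset (ρ × Fin q)).erase (r₀, k) | p'.1 = r}, (X - C (x p'))) *
      ∏ p' ∈ {p' ∈ (univ : Finset (ρ × Fin q)).erase (r₀, k) | ¬p'.1 = r},
        (C (PowerSeries.C (a r) - α p') + C τ * X)
  have hN : ∀ r, N.comp (C (PowerSeries.C (a r)) + C τ * X) =
      C (τ ^ (q - 1)) * (C (τ ^ (if r₀ = r then 0 else 1)) * H r) := by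
    intro r
    rw [← mul_assoc, ← map_mul, ← pow_add, ← hcard r]
    simp only [N, H, Polynomial.prod_comp]
    rw [← prod_filter_mul_prod_filter_not _ (fun p' => p'.1 = r), ← mul_assoc]
    congr 1
    · rw [map_pow, ← prod_const, ← prod_mul_distrib]
      refine prod_congr rfl fun p' hp' => ?_
      have hp1 : p'.1 = r := (mem_filter.1 hp').2
      simp only [sub_comp, X_comp, C_comp, add_comp, mul_comp, hα, newRoot, hp1, map_add, map_mul,
        ← hτ]
      ring
    · refine prod_congr rfl fun p' _ => ?_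
      simp only [sub_comp, X_comp, C_comp, map_sub]
      ring
  set u : PowerSeries F := (H r₀).eval (x (r₀, k)) with hu
  have hδ : N.eval (α (r₀, k)) = τ ^ (q - 1) * u := by
    have h := congrArg (Polynomial.eval (x (r₀, k))) (hN r₀)
    rw [eval_comp, if_pos rfl, pow_zero, map_one, one_mul, eval_mul, eval_C] at h
    rw [← h]
    congr 1
    simp [hα, newRoot, hτ]
  set w0 : F := ∏ p' ∈ {p' ∈ (univ : Finset (ρ × Fin q)).erase (r₀, k) | ¬p'.1 = r₀},
      (a r₀ - a p'.1) with hw0
  have hHc : (H r₀).map PowerSeries.constantCoeff =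
      C w0 * ∏ k' ∈ univ.erase k, (X - C (lam r₀ k')) := by
    simp only [H, Polynomial.map_mul, Polynomial.map_prod, hw0, map_prod]
    rw [mul_comm]
    congr 1
    · refine prod_congr rfl fun p' _ => ?_
      simp [hα, newRoot, hτ]
    · refine prod_bij' (fun p' _ => p'.2) (fun j _ => (r₀, j)) ?_ ?_ ?_ ?_ ?_
      · rintro ⟨s, j⟩ h
        simp only [mem_filter, mem_erase, mem_univ, and_true, ne_eq, Prod.mk.injEq] at h ⊢
        exact fun e => h.1 ⟨h.2, e⟩
      · intro j h
        simpa [Prod.ext_iff] using h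
      · rintro ⟨s, j⟩ h
        rw [mem_filter] at h
        simp [← h.2]
      · intros; rfl
      · rintro ⟨s, j⟩ h
        rw [mem_filter] at h
        obtain rfl : s = r₀ := h.2
        simp [hxc]
  have hw00 : w0 ≠ 0 := prod_ne_zero_iff.2 fun p' hp' =>
    sub_ne_zero.2 fun h => (mem_filter.1 hp').2 (ha h).symm
  have hD0 : ∏ k' ∈ univ.erase k, (lam r₀ k - lam r₀ k') ≠ 0 := prod_ne_zero_iff.2 fun j hj =>
    sub_ne_zero.2 fun h => (mem_erase.1 hj).1 (hlam r₀ h).symm
  have hu0 : PowerSeries.constantCoeff u = w0 * ∏ k' ∈ univ.erase k, (lam r₀ k - lam r₀ k') := by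
    rw [hu, ← eval₂_hom, ← eval_map, hHc, hxc]
    simp [eval_prod]
  have hu0' : PowerSeries.constantCoeff u ≠ 0 := hu0 ▸ mul_ne_zero hw00 hD0
  refine ⟨aeval B (C u⁻¹ * (C (τ ^ (if r₀ = r then 0 else 1)) * H r)), ?_, ?_⟩
  · have hne : κ (τ ^ (q - 1)) ≠ 0 := fun h =>
      pow_ne_zero _ PowerSeries.X_ne_zero (hκ (h.trans (map_zero κ).symm))
    have hbasis : Lagrange.basis univ root (φ (r₀, k)) =
        C (κ (N.eval (α (r₀, k))))⁻¹ * N.map κ := by
      rw [Lagrange.basis]
      simp only [Lagrange.basisDivisor, N, eval_prod, map_prod, Polynomial.map_prod,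
        ← prod_inv_distrib, ← prod_mul_distrib]
      refine (prod_bij' (fun p' _ => φ p') (fun s _ => φ.symm s) ?_ ?_ ?_ ?_ ?_).symm
      · intro p' h; simpa using fun e => (mem_erase.1 h).1 (φ.injective e)
      · intro s h
        refine mem_erase.2 ⟨fun e => (mem_erase.1 h).1 ?_, mem_univ _⟩
        rw [← e, Equiv.apply_symm_apply]
      · intro p' _; simp
      · intro s _; simp
      · intro p' _; simp [hroot]
    have hA : aeval (Matrix.scalar n (PowerSeries.C (a r)) + τ • B) N =
        τ ^ (q - 1) • aeval B (C (τ ^ (if r₀ = r then 0 else 1)) * H r) := by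
      rw [Algebra.smul_def (τ ^ (q - 1)), ← aeval_C B (τ ^ (q - 1)), ← map_mul, ← hN r, aeval_comp]
      congr 2
      rw [map_add, map_mul, aeval_C, aeval_C, aeval_X, Algebra.smul_def,
        Algebra.algebraMap_eq_smul_one]
      congr 1
    rw [hbasis, map_mul, ← map_aeval, hA, map_mul (aeval B) (C u⁻¹)]
    generalize aeval B (C (τ ^ (if r₀ = r then 0 else 1)) * H r) = M
    rw [aeval_C, aeval_C, ← Algebra.smul_def, ← Algebra.smul_def]
    ext i j
    simp only [Matrix.smul_apply, Matrix.map_apply, smul_eq_mul, map_mul]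
    have hinv : κ u⁻¹ * κ u = 1 := by
      rw [← map_mul, PowerSeries.inv_mul_cancel _ hu0', map_one]
    rw [hδ, map_mul, mul_inv, eq_inv_of_mul_eq_one_left hinv]
    field_simp
  · rw [map_aeval, Polynomial.map_mul, Polynomial.map_mul, Polynomial.map_C, Polynomial.map_C,
      PowerSeries.constantCoeff_inv, hu0]
    show aeval _ _ = if r₀ = r then _ else _
    split_ifs with h
    · subst h
      congr 1
      rw [pow_zero, map_one, map_one, one_mul, hHc, Lagrange.basis]
      simp only [Lagrange.basisDivisor]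
      rw [prod_mul_distrib, ← map_prod, prod_inv_distrib, ← mul_assoc, ← map_mul]
      congr 2
      field_simp
    · rw [pow_one, PowerSeries.constantCoeff_X, map_zero, zero_mul, mul_zero, map_zero]

end Lag

variable {S S' : Frame} {q : ℕ}

/-- `τ` times a quadratic coefficient of a new trace, to leading order. -/
theorem quad_lead (hlin : ∀ r i, (S.X r).coeff [i] = S.l r i • (1 : Matrix S.β S.β S.F))
    (d : InflData S S' q) (hquad : d.Quad) (hmu : S'.mu = S.mu) (φ : S.ρ × Fin q ≃ S'.ρ)
    (lam : S.ρ → Fin q → d.F₀) (hlam : ∀ r, Function.Injective (lam r))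
    (x : S.ρ × Fin q → PowerSeries d.F₀)
    (hxc : ∀ p, PowerSeries.constantCoeff (x p) = lam p.1 p.2)
    (hroot : ∀ p, S'.root (φ p) = d.κ (PowerSeries.C (d.f (S.root p.1)) + PowerSeries.X * x p))
    (p : S.ρ × Fin q) (l l' : S'.ι) :
    ∃ W : PowerSeries d.F₀, d.κ PowerSeries.X * (yser (S'.X (φ p))).coeff [l, l'] = d.κ W ∧
      PowerSeries.constantCoeff W =
        psi (fun r i => d.f (S.l r i)) d.c lam p.1 p.2 (d.e l) (d.e l') := by
  classical
  let a : S.ρ → d.F₀ := fun r => d.f (S.root r)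
  have ha : Function.Injective a := d.f.injective.comp S.root_injective
  let l₀ : S.ρ → S.ι → d.F₀ := fun r i => d.f (S.l r i)
  have hnil : ∀ r, (d.XF r).coeff [] = 0 := fun r => by simp [InflData.XF, S.X_nil r]
  have hXlin : ∀ r (v : S.ι → Matrix (Fin q) (Fin q) d.F₀),
      (∑ i, (d.XF r).coeff [i] ⊗ₖ v i) = (1 : Matrix S.β S.β d.F₀) ⊗ₖ Kernels.M l₀ r v := by
    intro r v
    ext ⟨b, i⟩ ⟨b', j⟩
    simp only [Matrix.sum_apply, Kernels.M, Matrix.kronecker_apply, l₀, InflData.XF,
      Series.Ser.coeff_map, RingHom.mapMatrix_apply, Matrix.map_apply, hlin, Matrix.smul_apply,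
      smul_eq_mul, Finset.mul_sum]
    refine sum_congr rfl fun i _ => ?_
    rcases eq_or_ne b b' with rfl | hb <;> simp [*, mul_comm, mul_left_comm]
  let B := fun r => InflForms.shiftPS (ev (tauPoint d.c) (d.XF r))
  let E := fun r m => InflForms.shiftPS (dev (tauPoint d.c) (tauPoint (d.e m)) (d.XF r))
  have hev : ∀ r, ev (tauPoint d.c) (d.XF r) = (PowerSeries.X : PowerSeries d.F₀) • B r :=
    fun r => InflForms.eq_smul_shiftPS _ fun i j => (InflForms.ev_tau _ (hnil r) _ i j).1
  have hdev : ∀ r m, dev (tauPoint d.c) (tauPoint (d.e m)) (d.XF r) =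
      (PowerSeries.X : PowerSeries d.F₀) • E r m :=
    fun r m => InflForms.eq_smul_shiftPS _ fun i j => (InflForms.dev_tau _ (hnil r) _ _ i j).1
  have hB0 : ∀ r, (B r).map PowerSeries.constantCoeff =
      (1 : Matrix S.β S.β d.F₀) ⊗ₖ Kernels.M l₀ r d.c := fun r => by
    rw [InflForms.shiftPS_map, ← hXlin]
    exact Matrix.ext fun i j => (InflForms.ev_tau _ (hnil r) _ i j).2
  have hE0 : ∀ r m, (E r m).map PowerSeries.constantCoeff =
      (1 : Matrix S.β S.β d.F₀) ⊗ₖ Kernels.M l₀ r (d.e m) := fun r m => by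
    rw [InflForms.shiftPS_map, ← hXlin]
    exact Matrix.ext fun i j => (InflForms.dev_tau _ (hnil r) _ _ i j).2
  have hdev2 : ∀ r, ∃ G : Matrix (S.β × Fin q) (S.β × Fin q) (PowerSeries d.F₀),
      dev2 (tauPoint d.c) (tauPoint (d.e l)) (tauPoint (d.e l')) (d.XF r) =
        (PowerSeries.X : PowerSeries d.F₀) ^ 2 • G := by
    intro r
    have hdiv : ∀ i j, (PowerSeries.X : PowerSeries d.F₀) ^ 2 ∣
        dev2 (tauPoint d.c) (tauPoint (d.e l)) (tauPoint (d.e l')) (d.XF r) i j := by
      intro i j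
      refine PowerSeries.X_pow_dvd_iff.2 fun m hm => ?_
      rw [← cm_apply, cm_dev2, Matrix.sum_apply]
      refine sum_eq_zero fun n hn => ?_
      rw [Matrix.sum_apply]
      refine sum_eq_zero fun w hw => ?_
      rw [mem_range] at hn
      match w, mem_words.1 hw with
      | [], _ => simp [hnil r]
      | [i], _ => simp [d2prod, dprod]
      | _ :: _ :: _, h => simp at h; omega
    choose G hG using hdiv
    exact ⟨G, Matrix.ext fun i j => hG i j⟩
  choose G hG using hdev2
  have hlag := fun r p => exists_lag d.κ_injective ha hlam hxc φ hroot (B r) r p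
  choose Λ hΛ hΛ0 using hlag
  have hblk : ∀ r, d.blk r = (Matrix.scalar (S.β × Fin q) (PowerSeries.C (a r)) +
      (PowerSeries.X : PowerSeries d.F₀) • B r).map d.κ := fun r => by rw [← hev]; rfl
  -- `τ / (α p - α p')`
  have hcoef : ∀ p', p' ≠ p → ∃ c : PowerSeries d.F₀,
      d.κ PowerSeries.X * (S'.root (φ p) - S'.root (φ p'))⁻¹ = d.κ c ∧
      PowerSeries.constantCoeff c = if p'.1 = p.1 then (lam p.1 p.2 - lam p.1 p'.2)⁻¹ else 0 := by
    intro p' hne
    rw [hroot, hroot, ← map_sub]
    have hinv : ∀ y : PowerSeries d.F₀, PowerSeries.constantCoeff y ≠ 0 →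
        (d.κ y)⁻¹ = d.κ y⁻¹ := fun y hy => by
      refine (eq_inv_of_mul_eq_one_left ?_).symm
      rw [← map_mul, PowerSeries.inv_mul_cancel _ hy, map_one]
    split_ifs with h
    · have hx : PowerSeries.constantCoeff (x p - x p') = lam p.1 p.2 - lam p.1 p'.2 := by
        rw [map_sub, hxc, hxc, h]
      have hx0 : PowerSeries.constantCoeff (x p - x p') ≠ 0 := hx ▸ sub_ne_zero.2 fun e =>
        hne (Prod.ext h (hlam _ e).symm)
      refine ⟨(x p - x p')⁻¹, ?_, by rw [PowerSeries.constantCoeff_inv, hx]⟩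
      rw [show PowerSeries.C (d.f (S.root p.1)) + PowerSeries.X * x p -
        (PowerSeries.C (d.f (S.root p'.1)) + PowerSeries.X * x p') =
          PowerSeries.X * (x p - x p') by rw [h]; ring, map_mul, mul_inv, ← mul_assoc,
        mul_inv_cancel₀, one_mul, hinv _ hx0]
      exact fun e => PowerSeries.X_ne_zero (d.κ_injective (e.trans (map_zero _).symm))
    · have hy : PowerSeries.constantCoeff (PowerSeries.C (d.f (S.root p.1)) + PowerSeries.X * x p -
          (PowerSeries.C (d.f (S.root p'.1)) + PowerSeries.X * x p')) ≠ 0 := by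
        simpa using sub_ne_zero.2 fun e => h (ha e).symm
      exact ⟨PowerSeries.X * _, by rw [map_mul, hinv _ hy], by simp⟩
  choose! cf hcf hcf0 using hcoef
  refine ⟨PowerSeries.C ((S.mu : d.F₀)⁻¹) * ∑ r, (PowerSeries.X * Matrix.trace (Λ r p * G r) +
    ∑ p' ∈ univ.erase p, cf p' * Matrix.trace (Λ r p * E r l * Λ r p' * E r l')), ?_, ?_⟩
  · have hμ : (S.mu : S'.F) ≠ 0 := Nat.cast_ne_zero.2 Fintype.card_ne_zero
    have hμ' : (S.mu : d.F₀) ≠ 0 := Nat.cast_ne_zero.2 Fintype.card_ne_zero
    have hτ : d.κ PowerSeries.X ≠ 0 :=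
      fun e => PowerSeries.X_ne_zero (d.κ_injective (e.trans (map_zero _).symm))
    have htr : ∀ M : Matrix (S.β × Fin q) (S.β × Fin q) (PowerSeries d.F₀),
        Matrix.trace (M.map d.κ) = d.κ (Matrix.trace M) := fun M => by simp [Matrix.trace]
    have h := hquad (φ p) l l'
    rw [hmu] at h
    have hsum : ∀ r, ∑ s ∈ univ.erase (φ p), (S'.root (φ p) - S'.root s)⁻¹ * Matrix.trace
        (aeval (d.blk r) (Lagrange.basis univ S'.root (φ p)) *
          (dev (tauPoint d.c) (tauPoint (d.e l)) (d.XF r)).map d.κ *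
          aeval (d.blk r) (Lagrange.basis univ S'.root s) *
          (dev (tauPoint d.c) (tauPoint (d.e l')) (d.XF r)).map d.κ) =
        ∑ p' ∈ univ.erase p, d.κ PowerSeries.X * d.κ (cf p') *
          d.κ (Matrix.trace (Λ r p * E r l * Λ r p' * E r l')) := by
      intro r
      refine (sum_bij' (fun p' _ => φ p') (fun s _ => φ.symm s) ?_ ?_ ?_ ?_ ?_).symm
      · intro p' hp; simpa using fun e => (mem_erase.1 hp).1 (φ.injective e)
      · intro s hs
        refine mem_erase.2 ⟨fun e => (mem_erase.1 hs).1 ?_, mem_univ _⟩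
        rw [← e, Equiv.apply_symm_apply]
      · intro p' _; simp
      · intro s _; simp
      · intro p' hp
        rw [hblk, hΛ, hΛ, hdev, hdev, ← Matrix.map_mul, ← Matrix.map_mul, ← Matrix.map_mul, htr,
          ← hcf p' (mem_erase.1 hp).1]
        simp only [mul_smul_comm, smul_mul_assoc, Matrix.trace_smul, smul_eq_mul, map_mul]
        ring
    simp only [hsum] at h
    have h1 : ∀ r, Matrix.trace (aeval (d.blk r) (Lagrange.basis univ S'.root (φ p)) *
        (dev2 (tauPoint d.c) (tauPoint (d.e l)) (tauPoint (d.e l')) (d.XF r)).map d.κ) =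
        d.κ PowerSeries.X ^ 2 * d.κ (Matrix.trace (Λ r p * G r)) := fun r => by
      rw [hblk, hΛ, hG, ← Matrix.map_mul, htr, mul_smul_comm, Matrix.trace_smul, smul_eq_mul,
        map_mul, map_pow]
    simp only [h1] at h
    refine mul_left_cancel₀ (mul_ne_zero hτ hμ) ?_
    refine Eq.trans ?_ (Eq.trans h ?_)
    · ring
    · rw [map_mul, map_sum, mul_sum, mul_sum]
      refine sum_congr rfl fun r _ => ?_
      rw [map_add, map_sum, map_mul, mul_add, mul_add, mul_sum, mul_sum,
        ← map_natCast (f := (d.κ.comp PowerSeries.C)) S.mu]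
      have e : d.κ (PowerSeries.C (S.mu : d.F₀)) * d.κ (PowerSeries.C ((S.mu : d.F₀)⁻¹)) = 1 := by
        rw [← map_mul, ← map_mul, mul_inv_cancel₀ hμ', map_one, map_one]
      simp only [RingHom.comp_apply]
      congr 1
      · linear_combination -(d.κ PowerSeries.X ^ 2 * d.κ (Matrix.trace (Λ r p * G r))) * e
      · refine sum_congr rfl fun p' _ => ?_
        rw [map_mul]
        linear_combination -(d.κ PowerSeries.X * d.κ (cf p') *
          d.κ (Matrix.trace (Λ r p * E r l * Λ r p' * E r l'))) * e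
  · have hμ' : (S.mu : d.F₀) ≠ 0 := Nat.cast_ne_zero.2 Fintype.card_ne_zero
    have hcc : ∀ M : Matrix (S.β × Fin q) (S.β × Fin q) (PowerSeries d.F₀),
        PowerSeries.constantCoeff (Matrix.trace M) =
          Matrix.trace (M.map PowerSeries.constantCoeff) := fun M => by simp [Matrix.trace]
    simp only [map_mul, map_sum, map_add, PowerSeries.constantCoeff_C, PowerSeries.constantCoeff_X,
      zero_mul, zero_add, hcc, Matrix.map_mul, hΛ0, hE0]
    rw [sum_eq_single p.1 (fun r _ hr => sum_eq_zero fun p' _ => by simp [Ne.symm hr])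
      (fun h => absurd (mem_univ _) h)]
    have hterm : ∀ p' ∈ univ.erase p, PowerSeries.constantCoeff (cf p') * Matrix.trace
        ((if p.1 = p.1 then aeval ((B p.1).map PowerSeries.constantCoeff)
            (Lagrange.basis univ (lam p.1) p.2) else 0) *
          ((1 : Matrix S.β S.β d.F₀) ⊗ₖ Kernels.M l₀ p.1 (d.e l)) *
          (if p'.1 = p.1 then aeval ((B p.1).map PowerSeries.constantCoeff)
            (Lagrange.basis univ (lam p.1) p'.2) else 0) *
          ((1 : Matrix S.β S.β d.F₀) ⊗ₖ Kernels.M l₀ p.1 (d.e l'))) =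
        if p'.1 = p.1 then (S.mu : d.F₀) * (Matrix.trace
          (SelectLin.proj (Kernels.M l₀ p.1 d.c) (lam p.1) p.2 * Kernels.M l₀ p.1 (d.e l) *
            SelectLin.proj (Kernels.M l₀ p.1 d.c) (lam p.1) p'.2 * Kernels.M l₀ p.1 (d.e l')) /
          (lam p.1 p.2 - lam p.1 p'.2)) else 0 := by
      intro p' hp'
      rw [hcf0 p' (mem_erase.1 hp').1, if_pos rfl]
      split_ifs with h
      · have hb : ∀ P : d.F₀[X], aeval ((B p.1).map PowerSeries.constantCoeff) P =
            (1 : Matrix S.β S.β d.F₀) ⊗ₖ aeval (Kernels.M l₀ p.1 d.c) P := fun P => by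
          rw [hB0]
          exact aeval_algHom_apply (InflForms.oneKron (β := S.β)) _ P
        rw [hb, hb, ← Matrix.mul_kronecker_mul, ← Matrix.mul_kronecker_mul,
          ← Matrix.mul_kronecker_mul, one_mul, one_mul, one_mul, Matrix.trace_kronecker,
          Matrix.trace_one, SelectLin.proj, SelectLin.proj, div_eq_mul_inv]
        simp only [Frame.mu]
        ring
      · simp
    rw [sum_congr rfl hterm, ← sum_filter, psi, mul_sum]
    refine sum_bij' (fun p' _ => p'.2) (fun j _ => (p.1, j)) ?_ ?_ ?_ ?_ ?_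
    · rintro ⟨s, j⟩ h
      simp only [mem_filter, mem_erase, mem_univ, and_true] at h ⊢
      exact fun e => h.1 (Prod.ext h.2 e)
    · intro j h
      simpa [Prod.ext_iff] using h
    · rintro ⟨s, j⟩ h
      rw [mem_filter] at h
      simp [← h.2]
    · intros; rfl
    · intro p' _
      rw [← mul_assoc, inv_mul_cancel₀ hμ', one_mul]

end Vale.Agent.P199.BRank
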