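import Mathlib
import Vale.Agent.P199.Assemble

/-!
P199: noncommutative power series `Ser A s` in central variables `s` with coefficients in a ring
`A`, the domain property, substitution into graded targets, dense maps and `Big`.
-/

open Finset

namespace Vale.Agent.P199.Series

/-- Noncommutative power series in the variables `s` with coefficients in `A`. -/
@[ext]
structure Ser (A : Type*) (s : Type*) where
  /-- The coefficient of a word. -/
  coeff : List s → A

variable {A : Type*} [Ring A] {s : Type*}

/-- Cauchy product of coefficient functions. -/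
def conv : (List s → A) → (List s → A) → List s → A
  | f, g, [] => f [] * g []
  | f, g, a :: w => f [] * g (a :: w) + conv (fun u => f (a :: u)) g w

theorem conv_add_left (f f' g : List s → A) (w : List s) :
    conv (f + f') g w = conv f g w + conv f' g w := by
  induction w generalizing f f' with
  | nil => simp [conv, add_mul]
  | cons a w ih =>
    simp only [conv, Pi.add_apply, add_mul]
    rw [show (fun u => f (a :: u) + f' (a :: u)) = (fun u => f (a :: u)) + (fun u => f' (a :: u))
      from rfl, ih]
    abel

theorem conv_add_right (f g g' : List s → A) (w : List s) :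
    conv f (g + g') w = conv f g w + conv f g' w := by
  induction w generalizing f with
  | nil => simp [conv, mul_add]
  | cons a w ih =>
    simp only [conv, Pi.add_apply, mul_add]
    rw [ih]
    abel

theorem conv_zero_left (g : List s → A) (w : List s) : conv 0 g w = 0 := by
  induction w with
  | nil => simp [conv]
  | cons a w ih =>
    simp only [conv, Pi.zero_apply, zero_mul, zero_add]
    exact ih

theorem conv_zero_right (f : List s → A) (w : List s) : conv f 0 w = 0 := by
  induction w generalizing f with
  | nil => simp [conv]
  | cons a w ih => simp [conv, ih]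

theorem conv_smul_left (c : A) (f g : List s → A) (w : List s) :
    conv (fun u => c * f u) g w = c * conv f g w := by
  induction w generalizing f with
  | nil => simp [conv, mul_assoc]
  | cons a w ih => simp [conv, ih, mul_add, mul_assoc]

theorem conv_assoc (f g h : List s → A) (w : List s) :
    conv (conv f g) h w = conv f (conv g h) w := by
  induction w generalizing f g with
  | nil => simp [conv, mul_assoc]
  | cons a w ih =>
    simp only [conv]
    rw [show (fun u => f [] * g (a :: u) + conv (fun v => f (a :: v)) g u) =
      (fun u => f [] * g (a :: u)) + conv (fun v => f (a :: v)) g from rfl,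
      conv_add_left, conv_smul_left, ih]
    simp only [mul_add, mul_assoc, add_assoc]

/-- The coefficients of a constant. -/
def const (c : A) : List s → A
  | [] => c
  | _ :: _ => 0

theorem conv_const_left (c : A) (g : List s → A) (w : List s) :
    conv (const c) g w = c * g w := by
  cases w with
  | nil => rfl
  | cons a w =>
    simp only [conv, const]
    rw [show (fun _ : List s => (0 : A)) = 0 from rfl, conv_zero_left, add_zero]

theorem conv_const_right (c : A) (f : List s → A) (w : List s) :
    conv f (const c) w = f w * c := by
  induction w generalizing f with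
  | nil => rfl
  | cons a w ih => simp [conv, const, ih]

namespace Ser

instance : Zero (Ser A s) := ⟨⟨0⟩⟩
instance : Add (Ser A s) := ⟨fun f g => ⟨f.coeff + g.coeff⟩⟩
instance : Neg (Ser A s) := ⟨fun f => ⟨-f.coeff⟩⟩
instance : Sub (Ser A s) := ⟨fun f g => ⟨f.coeff - g.coeff⟩⟩
instance : One (Ser A s) := ⟨⟨const 1⟩⟩
instance : Mul (Ser A s) := ⟨fun f g => ⟨conv f.coeff g.coeff⟩⟩

@[simp] theorem coeff_zero (w : List s) : (0 : Ser A s).coeff w = 0 := rfl
@[simp] theorem coeff_add (f g : Ser A s) (w : List s) :
    (f + g).coeff w = f.coeff w + g.coeff w := rfl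
@[simp] theorem coeff_neg (f : Ser A s) (w : List s) : (-f).coeff w = -f.coeff w := rfl
@[simp] theorem coeff_sub (f g : Ser A s) (w : List s) :
    (f - g).coeff w = f.coeff w - g.coeff w := rfl
theorem coeff_mul (f g : Ser A s) (w : List s) : (f * g).coeff w = conv f.coeff g.coeff w := rfl
theorem coeff_one (w : List s) : (1 : Ser A s).coeff w = const 1 w := rfl

instance : AddCommGroup (Ser A s) where
  add_assoc f g h := by ext w; simp [add_assoc]
  zero_add f := by ext w; simp
  add_zero f := by ext w; simp
  add_comm f g := by ext w; simp [add_comm]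
  neg_add_cancel f := by ext w; simp
  sub_eq_add_neg f g := by ext w; simp [sub_eq_add_neg]
  nsmul := nsmulRec
  zsmul := zsmulRec

instance : Ring (Ser A s) where
  __ := (inferInstance : AddCommGroup (Ser A s))
  mul_assoc f g h := by ext w; exact conv_assoc _ _ _ w
  one_mul f := by ext w; exact (conv_const_left _ _ w).trans (one_mul _)
  mul_one f := by ext w; exact (conv_const_right _ _ w).trans (mul_one _)
  left_distrib f g h := by ext w; exact conv_add_right _ _ _ w
  right_distrib f g h := by ext w; exact conv_add_left _ _ _ w
  zero_mul f := by ext w; exact conv_zero_left _ w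
  mul_zero f := by ext w; exact conv_zero_right _ w

/-- The coefficient as an additive map. -/
def coeffHom (w : List s) : Ser A s →+ A where
  toFun f := f.coeff w
  map_zero' := rfl
  map_add' _ _ := rfl

@[simp] theorem coeff_sum {ι : Type*} (S : Finset ι) (f : ι → Ser A s) (w : List s) :
    (∑ i ∈ S, f i).coeff w = ∑ i ∈ S, (f i).coeff w :=
  map_sum (coeffHom w) f S

/-- Constants. -/
def C : A →+* Ser A s where
  toFun c := ⟨const c⟩
  map_one' := rfl
  map_mul' c d := by
    ext w
    rw [coeff_mul, conv_const_left]
    cases w <;> simp [const]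
  map_zero' := by ext w; cases w <;> rfl
  map_add' c d := by ext w; cases w <;> simp [const]

@[simp] theorem coeff_C_nil (c : A) : (C c : Ser A s).coeff [] = c := rfl
@[simp] theorem coeff_C_cons (c : A) (a : s) (w : List s) :
    (C c : Ser A s).coeff (a :: w) = 0 := rfl

theorem coeff_C_mul (c : A) (f : Ser A s) (w : List s) : (C c * f).coeff w = c * f.coeff w :=
  conv_const_left _ _ w

theorem coeff_mul_C (f : Ser A s) (c : A) (w : List s) : (f * C c).coeff w = f.coeff w * c :=
  conv_const_right _ _ w

theorem C_commute {c : A} (hc : ∀ d, c * d = d * c) (f : Ser A s) : C c * f = f * C c := by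
  ext w
  rw [coeff_C_mul, coeff_mul_C, hc]

theorem C_injective : Function.Injective (C : A → Ser A s) := fun c d h => by
  simpa using congrArg (fun f => Ser.coeff f []) h

/-- A variable. -/
def X [DecidableEq s] (a : s) : Ser A s := ⟨fun w => if w = [a] then 1 else 0⟩

theorem X_coeff [DecidableEq s] (a : s) (w : List s) :
    (X a : Ser A s).coeff w = if w = [a] then 1 else 0 := rfl

/-- Removing a first letter. -/
def tail (a : s) (f : Ser A s) : Ser A s := ⟨fun w => f.coeff (a :: w)⟩

omit [Ring A] in
@[simp] theorem coeff_tail (a : s) (f : Ser A s) (w : List s) :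
    (tail a f).coeff w = f.coeff (a :: w) := rfl

theorem coeff_mul_cons (f g : Ser A s) (a : s) (w : List s) :
    (f * g).coeff (a :: w) = f.coeff [] * g.coeff (a :: w) + (tail a f * g).coeff w := rfl

@[simp] theorem coeff_mul_nil (f g : Ser A s) :
    (f * g).coeff [] = f.coeff [] * g.coeff [] := rfl

theorem tail_mul (a : s) (f g : Ser A s) :
    tail a (f * g) = C (f.coeff []) * tail a g + tail a f * g := by
  ext w
  rw [coeff_tail, coeff_mul_cons, coeff_add, coeff_C_mul, coeff_tail]

theorem coeff_X_mul [DecidableEq s] (a b : s) (f : Ser A s) (w : List s) :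
    (X a * f).coeff (b :: w) = if b = a then f.coeff w else 0 := by
  rw [coeff_mul_cons, X_coeff]
  simp only [reduceCtorEq, if_false, zero_mul, zero_add]
  by_cases h : b = a
  · have e : tail b (X a : Ser A s) = 1 := by
      ext u; cases u <;> simp [X_coeff, coeff_one, const, h]
    rw [e, one_mul, if_pos h]
  · have e : tail b (X a : Ser A s) = 0 := by ext u; simp [X_coeff, h]
    rw [e, zero_mul, if_neg h, coeff_zero]

theorem X_commute_C [DecidableEq s] (a : s) (c : A) : X a * C c = C c * (X a : Ser A s) := by
  ext w
  rw [coeff_C_mul, coeff_mul_C, X_coeff]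
  split_ifs <;> simp

theorem coeff_prod_X [DecidableEq s] (v w : List s) :
    ((v.map X).prod : Ser A s).coeff w = if w = v then 1 else 0 := by
  induction v generalizing w with
  | nil => cases w <;> simp [coeff_one, const]
  | cons a v ih =>
    cases w with
    | nil => simp [X_coeff]
    | cons b w =>
      rw [List.map_cons, List.prod_cons, coeff_X_mul, ih]
      by_cases hb : b = a <;> simp [hb]

/-- Two series agree on words of length less than `k`. -/
def Agree (k : ℕ) (f g : Ser A s) : Prop := ∀ w : List s, w.length < k → f.coeff w = g.coeff w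

theorem coeff_mul_congr {f f' g g' : Ser A s} (w : List s)
    (hf : ∀ u : List s, u.length ≤ w.length → f.coeff u = f'.coeff u)
    (hg : ∀ u : List s, u.length ≤ w.length → g.coeff u = g'.coeff u) :
    (f * g).coeff w = (f' * g').coeff w := by
  induction w generalizing f f' with
  | nil => rw [coeff_mul_nil, coeff_mul_nil, hf [] le_rfl, hg [] le_rfl]
  | cons a w ih =>
    rw [coeff_mul_cons, coeff_mul_cons, hf [] (Nat.zero_le _), hg _ le_rfl]
    congr 1
    refine ih (fun u hu => ?_) fun u hu => hg u (by simp only [List.length_cons]; omega)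
    exact hf _ (by simp only [List.length_cons]; omega)

theorem coeff_mul_append {f g : Ser A s} (u v : List s)
    (hf : ∀ w : List s, w.length < u.length → f.coeff w = 0)
    (hg : ∀ w : List s, w.length < v.length → g.coeff w = 0) :
    (f * g).coeff (u ++ v) = f.coeff u * g.coeff v := by
  induction u generalizing f with
  | nil =>
    cases v with
    | nil => rfl
    | cons b v =>
      rw [List.nil_append, coeff_mul_cons]
      have : (tail b f * g).coeff v = (tail b f * 0).coeff v :=
        coeff_mul_congr v (fun _ _ => rfl) fun w hw => hg w (by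
          simp only [List.length_cons]; omega)
      rw [this, mul_zero, coeff_zero, add_zero]
  | cons a u ih =>
    rw [List.cons_append, coeff_mul_cons, hf [] (by simp), zero_mul, zero_add,
      ih (fun w hw => hf (a :: w) (by simp only [List.length_cons]; omega))]
    rfl

instance [Nontrivial A] : Nontrivial (Ser A s) :=
  C_injective.nontrivial

instance [NoZeroDivisors A] : NoZeroDivisors (Ser A s) where
  eq_zero_or_eq_zero_of_mul_eq_zero {f g} h := by
    classical
    by_contra hne
    push Not at hne
    have key : ∀ f : Ser A s, f ≠ 0 → ∃ u, f.coeff u ≠ 0 ∧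
        ∀ w : List s, w.length < u.length → f.coeff w = 0 := by
      intro f hf
      have hex : ∃ n, ∃ u : List s, u.length = n ∧ f.coeff u ≠ 0 := by
        by_contra hall
        push Not at hall
        exact hf (Ser.ext (funext fun u => hall _ u rfl))
      obtain ⟨u, hu, hfu⟩ := Nat.find_spec hex
      refine ⟨u, hfu, fun w hw => ?_⟩
      by_contra hfw
      exact Nat.find_min hex (hu ▸ hw) ⟨w, rfl, hfw⟩
    obtain ⟨u, hu, hu'⟩ := key f hne.1
    obtain ⟨v, hv, hv'⟩ := key g hne.2
    have := coeff_mul_append u v hu' hv'
    rw [h, coeff_zero] at this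
    exact (mul_ne_zero hu hv) this.symm

instance [IsDomain A] : IsDomain (Ser A s) := NoZeroDivisors.to_isDomain _

/-- Applying a homomorphism to the coefficients. -/
def map {B : Type*} [Ring B] (φ : A →+* B) : Ser A s →+* Ser B s where
  toFun f := ⟨fun w => φ (f.coeff w)⟩
  map_one' := by ext w; cases w <;> simp [coeff_one, const]
  map_mul' f g := by
    ext w
    show φ (conv f.coeff g.coeff w) = conv _ _ w
    generalize f.coeff = p
    generalize g.coeff = q
    induction w generalizing p with
    | nil => simp [conv]
    | cons a w ih =>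
      simp only [conv, map_add, map_mul]
      rw [ih]
  map_zero' := by ext w; simp
  map_add' f g := by ext w; simp

@[simp] theorem coeff_map {B : Type*} [Ring B] (φ : A →+* B) (f : Ser A s) (w : List s) :
    (map φ f).coeff w = φ (f.coeff w) := rfl

/-- The series as a `K`-algebra, for a coefficient algebra over `K`. -/
instance {K : Type*} [CommRing K] [Algebra K A] : Algebra K (Ser A s) :=
  (C.comp (algebraMap K A)).toAlgebra' fun c f => C_commute (fun d => Algebra.commutes c d) f

end Ser

open Ser

/-- A ring whose elements are coefficient families, multiplication respecting a degree. -/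
structure Grading (R : Type*) [Ring R] (ι : Type*) (B : Type*) [AddCommGroup B] where
  /-- The coefficients. -/
  coe : R ≃+ (ι → B)
  /-- The degree. -/
  deg : ι → ℕ
  mul_congr : ∀ x x' y y' i, (∀ j, deg j ≤ deg i → coe x j = coe x' j) →
    (∀ j, deg j ≤ deg i → coe y j = coe y' j) → coe (x * y) i = coe (x' * y') i

namespace Grading

variable {R : Type*} [Ring R] {ι : Type*} {B : Type*} [AddCommGroup B] (G : Grading R ι B)

/-- Agreement below a degree. -/
def Agree (k : ℕ) (x y : R) : Prop := ∀ i, G.deg i < k → G.coe x i = G.coe y i

/-- Left multiplication by `u` raises degrees. -/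
def Pos (u : R) : Prop :=
  ∀ x x' i, (∀ j, G.deg j < G.deg i → G.coe x j = G.coe x' j) → G.coe (u * x) i = G.coe (u * x') i

variable {G}

theorem Agree.refl {k : ℕ} (x : R) : G.Agree k x x := fun _ _ => rfl

theorem Agree.trans {k : ℕ} {x y z : R} (h : G.Agree k x y) (h' : G.Agree k y z) :
    G.Agree k x z := fun i hi => (h i hi).trans (h' i hi)

theorem Agree.symm {k : ℕ} {x y : R} (h : G.Agree k x y) : G.Agree k y x :=
  fun i hi => (h i hi).symm

theorem Agree.add {k : ℕ} {x y x' y' : R} (h : G.Agree k x y) (h' : G.Agree k x' y') :
    G.Agree k (x + x') (y + y') := fun i hi => by simp [h i hi, h' i hi]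

theorem Agree.sum {k : ℕ} {α : Type*} (S : Finset α) {x y : α → R}
    (h : ∀ a ∈ S, G.Agree k (x a) (y a)) : G.Agree k (∑ a ∈ S, x a) (∑ a ∈ S, y a) :=
  fun i hi => by simp only [map_sum, Finset.sum_apply]; exact Finset.sum_congr rfl fun a ha => h a ha i hi

theorem Agree.mul {k : ℕ} {x y x' y' : R} (h : G.Agree k x y) (h' : G.Agree k x' y') :
    G.Agree k (x * x') (y * y') := fun i hi =>
  G.mul_congr _ _ _ _ i (fun j hj => h j (hj.trans_lt hi)) fun j hj => h' j (hj.trans_lt hi)

theorem Pos.agree {u : R} (hu : G.Pos u) {k : ℕ} {x y : R} (h : G.Agree k x y) :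
    G.Agree (k + 1) (u * x) (u * y) := fun i hi =>
  hu x y i fun j hj => h j (by omega)

variable (G)
theorem eq_of_agree {x y : R} (h : ∀ n, G.Agree n x y) : x = y :=
  G.coe.injective (funext fun i => h _ i (Nat.lt_succ_self _))

variable [Fintype s] (φ : A →+* R) (U : s → R)

/-- Approximations to the substitution. -/
def approx : ℕ → Ser A s → R
  | 0, _ => 0
  | n + 1, f => φ (f.coeff []) + ∑ a, U a * approx n (Ser.tail a f)

theorem approx_add (n : ℕ) (f g : Ser A s) :
    approx φ U n (f + g) = approx φ U n f + approx φ U n g := by
  induction n generalizing f g with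
  | zero => simp [approx]
  | succ n ih =>
    have : ∀ a, Ser.tail a (f + g) = Ser.tail a f + Ser.tail a g := fun a => rfl
    simp only [approx, coeff_add, map_add, this, ih, mul_add, Finset.sum_add_distrib]
    abel

variable (hU : ∀ a, G.Pos (U a))
include hU

theorem approx_stable {n m : ℕ} (h : n ≤ m) (f : Ser A s) :
    G.Agree n (approx φ U n f) (approx φ U m f) := by
  induction n generalizing m f with
  | zero => intro i hi; omega
  | succ n ih =>
    obtain ⟨m, rfl⟩ : ∃ m', m = m' + 1 := ⟨m - 1, by omega⟩
    exact (Agree.refl _).add (Agree.sum _ fun a _ => (hU a).agree (ih (by omega) _))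

theorem approx_mul (hcomm : ∀ a c, U a * φ c = φ c * U a) (n : ℕ) (f g : Ser A s) :
    G.Agree n (approx φ U n (f * g)) (approx φ U n f * approx φ U n g) := by
  induction n generalizing f g with
  | zero => intro i hi; omega
  | succ n ih =>
    have hC : ∀ (c : A) (h : Ser A s),
        G.Agree n (approx φ U n (C c * h)) (φ c * approx φ U n h) := by
      intro c h
      refine (ih (C c) h).trans ?_
      cases n with
      | zero => intro i hi; omega
      | succ n =>
        refine Agree.mul ?_ (Agree.refl _)
        have ht : ∀ a, Ser.tail a (C c : Ser A s) = 0 := fun a => by ext w; simp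
        have h0 : ∀ n, approx φ U n (0 : Ser A s) = 0 := fun n => by
          have := approx_add φ U n (0 : Ser A s) 0
          rw [add_zero] at this
          simpa using this
        simp only [approx, ht, h0, mul_zero, Finset.sum_const_zero, add_zero, coeff_C_nil]
        exact Agree.refl _
    have key : ∀ a, G.Agree (n + 1) (U a * approx φ U n (Ser.tail a (f * g)))
        (φ (f.coeff []) * (U a * approx φ U n (Ser.tail a g)) +
          U a * approx φ U n (Ser.tail a f) * approx φ U (n + 1) g) := by
      intro a
      rw [tail_mul, approx_add, mul_add, ← mul_assoc (φ _), ← hcomm, mul_assoc, mul_assoc]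
      refine Agree.add ((hU a).agree (hC _ _)) ((hU a).agree ((ih _ _).trans ?_))
      exact Agree.mul (Agree.refl _) (G.approx_stable φ U hU (Nat.le_succ n) g)
    have step : G.Agree (n + 1) (approx φ U (n + 1) (f * g))
        (φ (f.coeff []) * φ (g.coeff []) + ∑ a, (φ (f.coeff []) * (U a * approx φ U n (Ser.tail a g))
          + U a * approx φ U n (Ser.tail a f) * approx φ U (n + 1) g)) := by
      show G.Agree (n + 1) (φ ((f * g).coeff []) + _) _
      rw [coeff_mul_nil, map_mul]
      exact (Agree.refl _).add (Agree.sum _ fun a _ => key a)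
    refine step.trans ?_
    rw [Finset.sum_add_distrib, ← Finset.mul_sum, ← Finset.sum_mul, ← add_assoc, ← mul_add]
    show G.Agree (n + 1) (φ (f.coeff []) * approx φ U (n + 1) g + _)
      ((φ (f.coeff []) + _) * _)
    rw [add_mul]
    exact Agree.refl _

variable (hcomm : ∀ a c, U a * φ c = φ c * U a)
include hcomm

/-- Substitution of positive elements commuting with the coefficients for the variables. -/
def subst : Ser A s →+* R where
  toFun f := G.coe.symm fun i => G.coe (approx φ U (G.deg i + 1) f) i
  map_one' := by
    apply G.coe.injective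
    funext i
    have h0 : ∀ n, approx φ U n (0 : Ser A s) = 0 := fun n => by
      have := approx_add φ U n (0 : Ser A s) 0
      rw [add_zero] at this
      simpa using this
    have ht : ∀ a, Ser.tail a (1 : Ser A s) = 0 := fun a => by ext w; simp [coeff_one, const]
    simp [approx, ht, h0, coeff_one, const]
  map_mul' f g := by
    apply G.coe.injective
    funext i
    rw [AddEquiv.apply_symm_apply]
    refine (G.approx_mul φ U hU hcomm _ f g i (Nat.lt_succ_self _)).trans ?_
    refine G.mul_congr _ _ _ _ i (fun j hj => ?_) fun j hj => ?_ <;>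
    · rw [AddEquiv.apply_symm_apply]
      exact (G.approx_stable φ U hU (by omega) _ j (by omega)).symm
  map_zero' := by
    apply G.coe.injective
    funext i
    have := approx_add φ U (G.deg i + 1) (0 : Ser A s) 0
    rw [add_zero] at this
    simp only [AddEquiv.apply_symm_apply]
    rw [show approx φ U (G.deg i + 1) (0 : Ser A s) = 0 by simpa using this]
  map_add' f g := by
    apply G.coe.injective
    funext i
    simp [approx_add]

theorem subst_agree (n : ℕ) (f : Ser A s) :
    G.Agree n (G.subst φ U hU hcomm f) (approx φ U n f) := fun i hi => by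
  show G.coe (G.coe.symm _) i = _
  rw [AddEquiv.apply_symm_apply]
  exact G.approx_stable φ U hU (by omega) f i (Nat.lt_succ_self _)

theorem subst_C (c : A) : G.subst φ U hU hcomm (C c) = φ c := by
  refine G.eq_of_agree fun n => ?_
  suffices h : G.Agree (n + 1) _ _ from fun i hi => h i (by omega)
  refine (G.subst_agree φ U hU hcomm (n + 1) _).trans ?_
  have ht : ∀ a, Ser.tail a (C c : Ser A s) = 0 := fun a => by ext w; simp
  have h0 : approx φ U n (0 : Ser A s) = 0 := by
    have := approx_add φ U n (0 : Ser A s) 0
    rw [add_zero] at this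
    simpa using this
  simp only [approx, ht, h0, mul_zero, Finset.sum_const_zero, add_zero, coeff_C_nil]
  exact Agree.refl _

theorem subst_X [DecidableEq s] (a : s) : G.subst φ U hU hcomm (X a) = U a := by
  refine G.eq_of_agree fun n => ?_
  suffices h : G.Agree (n + 2) _ _ from fun i hi => h i (by omega)
  refine (G.subst_agree φ U hU hcomm (n + 2) _).trans ?_
  have h0 : approx φ U (n + 1) (0 : Ser A s) = 0 := by
    have := approx_add φ U (n + 1) (0 : Ser A s) 0
    rw [add_zero] at this
    simpa using this
  have ht : ∀ b, Ser.tail b (X a : Ser A s) = if b = a then 1 else 0 := by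
    intro b
    ext w
    by_cases hb : b = a <;> cases w <;> simp [X_coeff, hb, coeff_one, const]
  have h1 : approx φ U (n + 1) (1 : Ser A s) = 1 := by
    have ht' : ∀ a, Ser.tail a (1 : Ser A s) = 0 := fun a => by ext w; simp [coeff_one, const]
    have h0' : approx φ U n (0 : Ser A s) = 0 := by
      have := approx_add φ U n (0 : Ser A s) 0
      rw [add_zero] at this
      simpa using this
    simp [approx, ht', h0', coeff_one, const]
  show G.Agree _ (φ _ + _) _
  have hX : ∀ b, U b * approx φ U (n + 1) (if b = a then (1 : Ser A s) else 0) =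
      if b = a then U b else 0 := by
    intro b; by_cases hb : b = a <;> simp [hb, h0, h1]
  simp only [X_coeff, reduceCtorEq, if_false, map_zero, zero_add, ht, hX, Finset.sum_ite_eq',
    Finset.mem_univ, if_true]
  exact Agree.refl _

end Grading

/-- The grading of a series ring by length. -/
def lengthGrading (B : Type*) [Ring B] (t : Type*) : Grading (Ser B t) (List t) B where
  coe :=
    { toFun := Ser.coeff
      invFun := fun f => ⟨f⟩
      map_add' := fun _ _ => rfl }
  deg := List.length
  mul_congr _ _ _ _ i hx hy := Ser.coeff_mul_congr i hx hy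

theorem pos_of_coeff_nil {B : Type*} [Ring B] {t : Type*} {u : Ser B t} (hu : u.coeff [] = 0) :
    (lengthGrading B t).Pos u := by
  intro x x' i hx
  show (u * x).coeff i = (u * x').coeff i
  cases i with
  | nil => simp [hu]
  | cons a w =>
    rw [coeff_mul_cons, coeff_mul_cons, hu, zero_mul, zero_mul]
    congr 1
    exact coeff_mul_congr w (fun _ _ => rfl) fun v hv => hx v (by
      show v.length < (a :: w).length
      simp only [List.length_cons]
      omega)

namespace Ser

theorem Agree.mul {k : ℕ} {f f' g g' : Ser A s} (hf : Agree k f f') (hg : Agree k g g') :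
    Agree k (f * g) (f' * g') := fun w hw =>
  coeff_mul_congr w (fun u hu => hf u (hu.trans_lt hw)) fun u hu => hg u (hu.trans_lt hw)

/-- A subring is dense if it meets every truncation class. -/
def Dense (S : Subring (Ser A s)) : Prop := ∀ (k : ℕ) (f : Ser A s), ∃ a ∈ S, Agree k a f

theorem dense_of_gen [Fintype s] [DecidableEq s] (S : Subring (Ser A s))
    (hC : ∀ c : A, C c ∈ S) (hX : ∀ a, X a ∈ S) : Dense S := by
  intro k
  induction k with
  | zero => exact fun f => ⟨0, S.zero_mem, fun w hw => absurd hw (Nat.not_lt_zero _)⟩
  | succ k ih =>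
    intro f
    choose g hg hga using fun a => ih (tail a f)
    refine ⟨C (f.coeff []) + ∑ a, X a * g a,
      S.add_mem (hC _) (S.sum_mem fun a _ => S.mul_mem (hX a) (hg a)), fun w hw => ?_⟩
    cases w with
    | nil => simp [X_coeff]
    | cons b w =>
      simp only [coeff_add, coeff_C_cons, zero_add, coeff_sum, coeff_X_mul]
      rw [Finset.sum_ite_eq, if_pos (Finset.mem_univ b)]
      exact hga b w (by simpa using hw)

/-- Density is inherited along a continuous homomorphism whose image, together with a subring
inside the target, generates a dense subring. -/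
theorem Dense.comp {B : Type*} [Ring B] {t : Type*} {S : Subring (Ser A s)} (hS : Dense S)
    (Φ : Ser A s →+* Ser B t) (hΦ : ∀ k, ∃ k', ∀ f g, Agree k' f g → Agree k (Φ f) (Φ g))
    (T : Subring (Ser B t)) (hST : ∀ a ∈ S, Φ a ∈ T)
    (hT : Dense (T ⊔ Φ.range)) : Dense T := by
  intro k
  let Tk : Subring (Ser B t) :=
    { carrier := {f | ∃ a ∈ T, Agree k a f}
      mul_mem' := by
        rintro f g ⟨a, ha, hf⟩ ⟨b, hb, hg⟩
        exact ⟨a * b, T.mul_mem ha hb, hf.mul hg⟩
      one_mem' := ⟨1, T.one_mem, fun _ _ => rfl⟩
      add_mem' := by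
        rintro f g ⟨a, ha, hf⟩ ⟨b, hb, hg⟩
        exact ⟨a + b, T.add_mem ha hb, fun w hw => by simp [hf w hw, hg w hw]⟩
      zero_mem' := ⟨0, T.zero_mem, fun _ _ => rfl⟩
      neg_mem' := by
        rintro f ⟨a, ha, hf⟩
        exact ⟨-a, T.neg_mem ha, fun w hw => by simp [hf w hw]⟩ }
  have hle : T ⊔ Φ.range ≤ Tk := by
    refine sup_le (fun a ha => ⟨a, ha, fun _ _ => rfl⟩) ?_
    rintro _ ⟨f, rfl⟩
    obtain ⟨k', hk'⟩ := hΦ k
    obtain ⟨a, ha, haf⟩ := hS k' f
    exact ⟨Φ a, hST a ha, hk' _ _ haf⟩
  intro f
  obtain ⟨g, hg, hgf⟩ := hT k f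
  obtain ⟨a, ha, hag⟩ := hle hg
  exact ⟨a, ha, fun w hw => (hag w hw).trans (hgf w hw)⟩

end Ser

/-- A stage whose ring is a series ring over an algebra `A` over its central field. -/
def stageOf (K : Type) [Field K] (A : Type) [Ring A] [IsDomain A] [Algebra K A] (s : Type)
    (x y : Ser A s) (k : Subfield K) (hk : Countable k) : Assemble.Stage where
  K := K
  R := Ser A s
  ι := algebraMap K (Ser A s)
  central c r := Algebra.commutes c r
  x := x
  y := y
  k := k
  countable_k := hk

/-- A dense set is not in the span of a finite family. -/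
theorem exists_not_span_of_dense (K : Type) [Field K] (A : Type) [Ring A] [Nontrivial A] [Algebra K A]
    (s : Type) [Nonempty s] (S : Subring (Ser A s)) (h : Ser.Dense S) (n : ℕ)
    (b : Fin n → Ser A s) :
    ∃ a ∈ S, ∀ c : Fin n → K, a ≠ ∑ i, algebraMap K (Ser A s) (c i) * b i := by
  classical
  by_contra hall
  push Not at hall
  let a₀ : s := Classical.arbitrary s
  -- test on the powers of one variable
  choose e he hea using fun j : Fin (n + 1) =>
    h (n + 1) ((List.replicate j.val a₀).map X).prod
  choose c hc using fun j => hall (e j) (he j)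
  have hdep : ¬ LinearIndependent K c := fun hli => by
    have := hli.fintype_card_le_finrank
    change Fintype.card (Fin (n + 1)) ≤ Module.finrank K (Fin n → K) at this
    rw [Module.finrank_fin_fun, Fintype.card_fin] at this
    omega
  obtain ⟨g, hg, j₀, hj₀⟩ := Fintype.not_linearIndependent_iff.1 hdep
  have hsum : ∑ j, algebraMap K (Ser A s) (g j) * e j = 0 := by
    calc ∑ j, algebraMap K (Ser A s) (g j) * e j
        = ∑ i, algebraMap K (Ser A s) (∑ j, g j * c j i) * b i := by
          simp only [map_sum, map_mul, Finset.sum_mul]
          rw [Finset.sum_comm]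
          refine Finset.sum_congr rfl fun j _ => ?_
          rw [hc j, Finset.mul_sum]
          refine Finset.sum_congr rfl fun i _ => ?_
          rw [mul_assoc]
      _ = 0 := by
          refine Finset.sum_eq_zero fun i _ => ?_
          have := congrFun hg i
          simp only [Finset.sum_apply, Pi.smul_apply, smul_eq_mul, Pi.zero_apply] at this
          change algebraMap K (Ser A s) (∑ j, g j * c j i) * b i = (0 : Ser A s)
          rw [this]
          simp
  have := congrArg (fun f => Ser.coeff f (List.replicate j₀.val a₀)) hsum
  simp only [coeff_sum, coeff_zero] at this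
  rw [Finset.sum_eq_single j₀] at this
  · change (Ser.C (algebraMap K A (g j₀)) * e j₀).coeff _ = 0 at this
    rw [coeff_C_mul, hea j₀ _ (by simp [j₀.isLt]), coeff_prod_X, if_pos rfl, mul_one] at this
    exact hj₀ ((algebraMap K A).injective (this.trans (map_zero _).symm))
  · intro j _ hj
    change (Ser.C (algebraMap K A (g j)) * e j).coeff _ = 0
    rw [coeff_C_mul, hea j _ (by simp [j₀.isLt]), coeff_prod_X, if_neg, mul_zero]
    intro hcon
    exact hj (Fin.ext (by simpa using (congrArg List.length hcon).symm))
  · simp

/-- A dense stage is not finite over its central field. -/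
theorem big_of_dense (K : Type) [Field K] (A : Type) [Ring A] [IsDomain A] [Algebra K A]
    (s : Type) [Nonempty s] (x y : Ser A s) (k : Subfield K) (hk : Countable k)
    (h : Ser.Dense (stageOf K A s x y k hk).full) : (stageOf K A s x y k hk).Big :=
  fun n b => exists_not_span_of_dense K A s _ h n b

/-- The starting stage: two free variables with complex coefficients. -/
noncomputable def startStage : Assemble.Stage :=
  stageOf ℂ ℂ (Fin 2) (X 0) (X 1) (algebraMap ℚ ℂ).fieldRange
    (Set.countable_coe_iff.2 (by rw [RingHom.coe_fieldRange]; exact Set.countable_range _))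

theorem startStage_dense : Ser.Dense (s := Fin 2) (A := ℂ) startStage.full := by
  refine Ser.dense_of_gen _ (fun c => Subring.subset_closure (Or.inl ⟨c, ?_⟩)) fun a => ?_
  · show algebraMap ℂ (Ser ℂ (Fin 2)) c = C c
    rfl
  · fin_cases a
    · exact Subring.subset_closure (Or.inr (Or.inl rfl))
    · exact Subring.subset_closure (Or.inr (Or.inr rfl))

end Vale.Agent.P199.Series
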