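import Mathlib
import Vale.Agent.P199.Series

/-!
# P199: shared definitions

Noncommutative power series, evaluation at matrices over power series, stages.
-/

namespace Vale.Agent.P199

open Finset
export Series (Ser)
open Series

/-- `a = O(D)`: all coefficients of degree less than `D` vanish. -/
def Series.Ser.LowVanish {A ι : Type*} [Ring A] (D : ℕ) (a : Ser A ι) : Prop :=
  ∀ w, w.length < D → a.coeff w = 0

/-- All words of a given length. -/
def words (ι : Type*) [Fintype ι] [DecidableEq ι] (k : ℕ) : Finset (List ι) :=
  (Finset.univ : Finset (Fin k → ι)).image List.ofFn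

section Subst

variable {A B ι κ : Type*} [Ring A] [Ring B]

/-- Substitution of series without constant term. The coefficient at `W` only involves words of
length at most `W.length`. -/
def subst [Fintype ι] [DecidableEq ι] (j : A →+* B) (v : ι → Ser B κ) (a : Ser A ι) : Ser B κ :=
  ⟨fun W => ∑ k ∈ range (W.length + 1), ∑ w ∈ words ι k,
    j (a.coeff w) * ((w.map v).prod).coeff W⟩

end Subst

section Eval

open scoped Kronecker
open PowerSeries

variable {A : Type*} [CommRing A] {ι m p β : Type*}

/-- All entries vanish at `τ = 0`. -/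
def SmallAt (H : ι → Matrix p p (PowerSeries A)) : Prop :=
  ∀ i x y, constantCoeff (H i x y) = 0

/-- One-variable series with matrix coefficients as matrices of power series. -/
noncomputable def toPS (a : Ser (Matrix m m A) Unit) : Matrix m m (PowerSeries A) :=
  Matrix.of fun x y => PowerSeries.mk fun k => a.coeff (List.replicate k ()) x y

variable [Fintype ι] [DecidableEq ι] [Fintype β] [DecidableEq β] [Fintype p] [DecidableEq p]

/-- `M ↦ M ⊗ 1`. -/
def kronOne : Matrix β β A →+* Matrix (β × p) (β × p) A where
  toFun M := M ⊗ₖ (1 : Matrix p p A)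
  map_one' := Matrix.one_kronecker_one
  map_mul' x y := by rw [← Matrix.mul_kronecker_mul, one_mul]
  map_zero' := Matrix.zero_kronecker _
  map_add' x y := Matrix.add_kronecker x y _

/-- The substitution belonging to a tuple of matrices over power series. -/
noncomputable def ofH (H : ι → Matrix p p (PowerSeries A)) (i : ι) :
    Ser (Matrix (β × p) (β × p) A) Unit :=
  ⟨fun W => (1 : Matrix β β A) ⊗ₖ (H i).map (PowerSeries.coeff W.length)⟩

/-- Evaluation at `H`, meaningful when `SmallAt H`. -/
noncomputable def ev (H : ι → Matrix p p (PowerSeries A)) (a : Ser (Matrix β β A) ι) :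
    Matrix (β × p) (β × p) (PowerSeries A) :=
  toPS (subst kronOne (ofH H) a)

/-- Scalar series as `1 × 1` matrix series. -/
def scalar1 (a : Ser A ι) : Ser (Matrix Unit Unit A) ι := Ser.map (Matrix.scalar Unit) a

/-- Evaluation of a scalar series. -/
noncomputable def evS (H : ι → Matrix p p (PowerSeries A)) (a : Ser A ι) :
    Matrix p p (PowerSeries A) :=
  fun x y => ev H (scalar1 a) ((), x) ((), y)

/-- Doubled point: its upper right block is the derivative along `V`. -/
def dblPoint (H V : ι → Matrix p p (PowerSeries A)) (i : ι) :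
    Matrix (p ⊕ p) (p ⊕ p) (PowerSeries A) :=
  Matrix.fromBlocks (H i) (V i) 0 (H i)

/-- Derivative of the evaluation at `H` along `V` (both small). -/
noncomputable def dev (H V : ι → Matrix p p (PowerSeries A)) (a : Ser (Matrix β β A) ι) :
    Matrix (β × p) (β × p) (PowerSeries A) :=
  fun x y => ev (dblPoint H V) a (x.1, Sum.inl x.2) (y.1, Sum.inr y.2)

/-- The trace row of a polynomial. -/
noncomputable def row (a : Ser (Matrix β β A) ι) (f : Polynomial (PowerSeries A))
    (H V : ι → Matrix p p (PowerSeries A)) : PowerSeries A :=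
  Matrix.trace (Polynomial.aeval (ev H a) f * dev H V a)

/-- Every `R + 1` combinations of trace rows are dependent, at every point of size `q`. -/
def RankLe {σ : Type*} [Fintype σ] (Xs : σ → Ser (Matrix β β A) ι) (q R : ℕ) : Prop :=
  ∀ (H : ι → Matrix (Fin q) (Fin q) (PowerSeries A)), SmallAt H →
    ∀ (f : Fin (R + 1) → σ → Polynomial (PowerSeries A))
      (V : Fin (R + 1) → ι → Matrix (Fin q) (Fin q) (PowerSeries A)), (∀ b, SmallAt (V b)) →
      Matrix.det (Matrix.of fun a b => ∑ s, row (Xs s) (f a s) H (V b)) = 0

/-- At every point of every size the characteristic polynomial is a `card β`-th power. -/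
def PW (X : Ser (Matrix β β A) ι) : Prop :=
  ∀ (q : ℕ) (H : ι → Matrix (Fin q) (Fin q) (PowerSeries A)), SmallAt H →
    ∃ h : Polynomial (PowerSeries A), h.Monic ∧ h.natDegree = q ∧
      (ev H X).charpoly = h ^ Fintype.card β

end Eval

section Forms

variable {F : Type*} [Field F] {ι β : Type*} [Fintype β] [DecidableEq β]

/-- Normalised trace of a matrix series. -/
def yser (X : Ser (Matrix β β F) ι) : Ser F ι :=
  ⟨fun w => (Fintype.card β : F)⁻¹ * Matrix.trace (X.coeff w)⟩

/-- Linear part of the normalised trace. -/
def lf (X : Ser (Matrix β β F) ι) (i : ι) : F := (yser X).coeff [i]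

/-- The traceless part. -/
def zser (X : Ser (Matrix β β F) ι) : Ser (Matrix β β F) ι :=
  X - Ser.map (Matrix.scalar β) (yser X)

/-- Squares of the linear forms are independent. -/
def SQ {σ : Type*} (l : σ → ι → F) : Prop :=
  LinearIndependent F fun s => fun p : ι × ι => l s p.1 * l s p.2

variable [Fintype ι] [DecidableEq ι]

/-- Substitution of scalar series into a matrix series. -/
def substM {κ : Type*} (h : ι → Ser F κ) (X : Ser (Matrix β β F) ι) : Ser (Matrix β β F) κ :=
  subst (RingHom.id _) (fun i => Ser.map (Matrix.scalar β) (h i)) X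

/-- Substitution of scalar series into a scalar series. -/
def substS {κ : Type*} (h : ι → Ser F κ) (y : Ser F ι) : Ser F κ := subst (RingHom.id _) h y

/-- SELF: where the normalised trace vanishes to order `k`, the traceless part does to `k + 1`. -/
def SelfDom (X : Ser (Matrix β β F) ι) : Prop :=
  ∀ (d k : ℕ) (h : ι → Ser F (Fin d)), (∀ i, (h i).coeff [] = 0) →
    Ser.LowVanish k (substS h (yser X)) → Ser.LowVanish (k + 1) (substM h (zser X))

/-- CLASS: the first series controls the second one. -/
def ClassDom (y₁ y₂ : Ser F ι) : Prop :=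
  ∀ (d k : ℕ) (h : ι → Ser F (Fin d)), (∀ i, (h i).coeff [] = 0) →
    Ser.LowVanish k (substS h y₁) → Ser.LowVanish k (substS h y₂)

/-- NULL: where all the series vanish below degree `k`, a related combination has degree-`k`
part with all rotation sums zero. -/
def NullRel {σ : Type*} [Fintype σ] (ys : σ → Ser F ι) : Prop :=
  ∀ (ω : σ → F), (∀ i, ∑ s, ω s * (ys s).coeff [i] = 0) →
    ∀ (d k : ℕ) (h : ι → Ser F (Fin d)), (∀ i, (h i).coeff [] = 0) →
      (∀ s, Ser.LowVanish k (substS h (ys s))) →
      ∀ w : List (Fin d), w.length = k →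
        ∑ r ∈ range k, ∑ s, ω s * (substS h (ys s)).coeff (w.rotate r) = 0

/-- Block algebra over a subfield in which every nonzero element is invertible. -/
structure BlockAlg (β : Type*) [Fintype β] [DecidableEq β] (F : Type*) [Field F] where
  L : Subfield F
  C : Subring (Matrix β β F)
  scalar_mem : ∀ x ∈ L, Matrix.scalar β x ∈ C
  trace_mem : ∀ x ∈ C, Matrix.trace x ∈ L
  unit_of_ne : ∀ x ∈ C, x ≠ 0 → IsUnit x

end Forms

end Vale.Agent.P199
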