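import Mathlib

/-!
P199: subspaces of a finite-dimensional space over Laurent series are closed for the valuation.
-/

open HahnSeries

namespace Vale.Agent.P199.Closed

variable {F : Type*} [Field F] {M : Type*} [Fintype M]

/-- A vector which is approximated to every order by a subspace belongs to it. -/
theorem mem_of_forall_approx (U : Submodule (LaurentSeries F) (M → LaurentSeries F))
    (v : M → LaurentSeries F)
    (h : ∀ N : ℤ, ∃ u ∈ U, ∀ i, (N : WithTop ℤ) ≤ (v i - u i).orderTop) : v ∈ U := by
  classical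
  by_contra hv
  obtain ⟨f, hfv, hfU⟩ := Submodule.exists_dual_map_eq_bot_of_notMem hv inferInstance
  let lam : M → LaurentSeries F := fun i => f (Pi.single i 1)
  have hlam : ∀ x : M → LaurentSeries F, f x = ∑ i, x i * lam i := by
    intro x
    conv_lhs => rw [pi_eq_sum_univ' x]
    simp [lam, smul_eq_mul]
  -- a lower bound for the orders of the functional
  obtain ⟨c, hc⟩ : ∃ c : ℤ, ∀ i, (c : WithTop ℤ) ≤ (lam i).orderTop := by
    have : ∀ i, ∃ c : ℤ, ∀ d ≤ c, (d : WithTop ℤ) ≤ (lam i).orderTop := by
      intro i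
      rcases eq_or_ne (lam i).orderTop ⊤ with e | e
      · exact ⟨0, fun d _ => by rw [e]; exact le_top⟩
      · obtain ⟨a, ha⟩ := WithTop.ne_top_iff_exists.1 e
        exact ⟨a, fun d hd => by rw [← ha]; exact_mod_cast hd⟩
    choose c hc using this
    refine ⟨-∑ i, |c i|, fun i => hc i _ ?_⟩
    have h1 := Finset.single_le_sum (f := fun j => |c j|) (fun j _ => abs_nonneg _)
      (Finset.mem_univ i)
    have h2 := neg_abs_le (c i)
    linarith
  refine hfv (orderTop_eq_top.1 ?_)
  by_contra hne
  obtain ⟨a, ha⟩ := WithTop.ne_top_iff_exists.1 hne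
  obtain ⟨u, hu, hclose⟩ := h (a + 1 - c)
  have hfu : f u = 0 := (Submodule.eq_bot_iff _).1 hfU _ (Submodule.mem_map_of_mem hu)
  have key : ((a + 1 : ℤ) : WithTop ℤ) ≤ (f v).orderTop := by
    rw [← sub_zero (f v), ← hfu, ← map_sub, hlam]
    refine Finset.sum_induction _ (fun x : LaurentSeries F => ((a + 1 : ℤ) : WithTop ℤ) ≤ HahnSeries.orderTop x)
      (fun x y hx hy => (le_min hx hy).trans min_orderTop_le_orderTop_add)
      (by simp) fun i _ => ?_
    refine le_trans ?_ orderTop_add_le_mul
    have := add_le_add (hclose i) (hc i)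
    rwa [← WithTop.coe_add, sub_add_cancel] at this
  rw [← ha] at key
  have := WithTop.coe_le_coe.1 key
  omega

end Vale.Agent.P199.Closed
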