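import Mathlib

/-!
# P199: cyclically null homogeneous noncommutative polynomials

A form of degree `D` is a function on words `Fin D → α`; multiplication is concatenation.
-/

namespace Vale.Agent.P199.CyclicWord

open Finset Fin.NatCast

variable {α K : Type*} [Field K]

/-- Rotate a word by `i`. -/
def rot {D : ℕ} (i : Fin D) (u : Fin D → α) : Fin D → α := fun k => u (k + i)

/-- Every cyclic class has coefficient sum zero. -/
def Null {D : ℕ} (f : (Fin D → α) → K) : Prop := ∀ u, ∑ i : Fin D, f (rot i u) = 0

theorem rot_zero {D : ℕ} (u : Fin (D + 1) → α) : rot 0 u = u := by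
  funext k
  simp [rot]

theorem prod_cycle {n : Type*} [Fintype n] [DecidableEq n] [DecidableEq α] {m : ℕ} [NeZero m]
    (ι : Fin m ↪ n) (u : Fin m → α) (Y : α → Matrix n n K)
    (hY : ∀ a r c, Y a r c = ∑ k : Fin m, if r = ι k ∧ c = ι (k + 1) ∧ u k = a then 1 else 0)
    (l : List α) (hl : l ≠ []) (r c : n) :
    (l.map Y).prod r c = ∑ k : Fin m,
      if r = ι k ∧ c = ι (k + ((l.length : ℕ) : Fin m)) ∧
        ∀ j (h : j < l.length), u (k + ((j : ℕ) : Fin m)) = l[j] then 1 else 0 := by
  induction l generalizing r with
  | nil => exact absurd rfl hl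
  | cons a t ih =>
    rw [List.map_cons, List.prod_cons]
    rcases eq_or_ne t [] with rfl | ht
    · simp [hY]
    rw [Matrix.mul_apply]
    simp only [hY, sum_mul, ite_mul, one_mul, zero_mul]
    rw [sum_comm]
    refine sum_congr rfl fun k _ => ?_
    rw [sum_eq_single (ι (k + 1)) (fun b _ hb => if_neg fun h => hb h.2.1) (by simp)]
    simp only [true_and, ih ht (ι (k + 1))]
    rw [sum_eq_single (k + 1) (fun b _ hb => if_neg fun h => hb (ι.injective h.1.symm)) (by simp)]
    rw [← ite_and]
    refine if_congr ?_ rfl rfl
    simp only [true_and, List.length_cons, Nat.cast_succ]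
    have hadd : ∀ x : Fin m, k + (x + 1) = k + 1 + x := fun x => by abel
    constructor
    · rintro ⟨⟨h1, h2⟩, h3, h4⟩
      refine ⟨h1, by rw [h3, hadd], fun j hj => ?_⟩
      cases j with
      | zero => simpa using h2
      | succ j => simpa [hadd] using h4 j (by simpa using hj)
    · rintro ⟨h1, h2, h3⟩
      refine ⟨⟨h1, by simpa using h3 0 (by simp)⟩, by rw [h2, hadd], fun j hj => ?_⟩
      have := h3 (j + 1) (by omega)
      simp only [List.getElem_cons_succ, Nat.cast_succ] at this
      rwa [hadd] at this

/-- Vanishing of the trace on matrices of a size at least the degree forces nullity. -/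
theorem null_of_trace [Fintype α] [DecidableEq α] {n : Type*} [Fintype n] [DecidableEq n] {D : ℕ}
    (hn : D ≤ Fintype.card n) (f : (Fin D → α) → K)
    (h : ∀ Y : α → Matrix n n K, ∑ w, f w * ((List.ofFn w).map Y).prod.trace = 0) :
    Null f := by
  intro u
  rcases Nat.eq_zero_or_pos D with rfl | hD
  · simp
  have : NeZero D := ⟨hD.ne'⟩
  obtain ⟨ι⟩ : Nonempty (Fin D ↪ n) :=
    Function.Embedding.nonempty_of_card_le (by simpa using hn)
  let Y : α → Matrix n n K := fun a r c =>
    ∑ k : Fin D, if r = ι k ∧ c = ι (k + 1) ∧ u k = a then 1 else 0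
  have htr : ∀ w : Fin D → α, ((List.ofFn w).map Y).prod.trace =
      ∑ k : Fin D, if rot k u = w then 1 else 0 := by
    intro w
    have hne : List.ofFn w ≠ [] := by simp [List.ofFn_eq_nil_iff, hD.ne']
    simp only [Matrix.trace, Matrix.diag_apply,
      prod_cycle ι u Y (fun _ _ _ => rfl) (List.ofFn w) hne]
    rw [sum_comm]
    refine sum_congr rfl fun k _ => ?_
    rw [sum_eq_single (ι k)]
    · simp only [List.length_ofFn, Fin.natCast_self, add_zero, true_and, List.getElem_ofFn]
      refine if_congr ⟨fun h => funext fun j => ?_, fun h j hj => ?_⟩ rfl rfl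
      · simpa [rot, add_comm] using h j.val j.2
      · rw [← h]
        simp only [rot, add_comm k]
        congr 2
        apply Fin.ext
        simp [Fin.val_natCast, Nat.mod_eq_of_lt hj]
    · intro b _ hb
      rw [if_neg fun h => hb h.1]
    · simp
  have := h Y
  simp only [htr, mul_sum, mul_ite, mul_one, mul_zero] at this
  rw [sum_comm] at this
  simpa using this

/-- A null form is a sum of commutators with the variables. -/
theorem exists_commutator [CharZero K] {D : ℕ} (f : (Fin (D + 1) → α) → K) (hf : Null f) :
    ∃ g : α → (Fin D → α) → K,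
      ∀ u, f u = g (u 0) (Fin.tail u) - g (u (Fin.last D)) (Fin.init u) := by
  let H : (Fin (D + 1) → α) → K := fun u =>
    ((D : K) + 1)⁻¹ * ∑ i : Fin (D + 1), ∑ j ∈ univ.filter (· < i), f (rot j u)
  have hH : ∀ u, H u - H (rot 1 u) = f u := by
    intro u
    have hstep : ∀ i : Fin (D + 1), ∑ j ∈ univ.filter (· < i), f (rot j u) -
        ∑ j ∈ univ.filter (· < i), f (rot j (rot 1 u)) = f u - f (rot i u) := by
      intro i
      induction i using Fin.induction with
      | zero => simp [rot_zero]
      | succ i ih =>
        have hins : univ.filter (· < i.succ) = insert i.castSucc (univ.filter (· < i.castSucc)) := by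
          ext j
          simp only [mem_insert, mem_filter, mem_univ, true_and, Fin.ext_iff, Fin.lt_def,
            Fin.val_succ, Fin.val_castSucc]
          omega
        rw [hins, sum_insert (by simp), sum_insert (by simp)]
        have h1 : rot i.castSucc (rot 1 u) = rot i.succ u := by
          funext k
          simp [rot, add_assoc, Fin.coeSucc_eq_succ]
        rw [h1]
        linear_combination ih
    simp only [H, ← mul_sub, ← sum_sub_distrib]
    rw [sum_congr rfl fun i _ => (sum_sub_distrib _ _).trans (hstep i), sum_sub_distrib, hf u,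
      sub_zero, sum_const, card_univ, Fintype.card_fin, nsmul_eq_mul, Nat.cast_succ, ← mul_assoc,
      inv_mul_cancel₀ (Nat.cast_add_one_ne_zero D), one_mul]
  refine ⟨fun a v => -H (Fin.snoc v a), fun u => ?_⟩
  simp only [Fin.snoc_init_self, sub_neg_eq_add]
  have hrot : rot 1 u = Fin.snoc (Fin.tail u) (u 0) := by
    funext k
    refine Fin.lastCases ?_ (fun k => ?_) k
    · simp [rot]
    · simp [rot, Fin.tail, Fin.coeSucc_eq_succ]
  rw [← hrot]
  linear_combination -(hH u)

/-- If `a ^ i * R` is null with `i` at least the degree of `R` then `R` is in `[a, F]`. -/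
theorem exists_commutator_pow [CharZero K] [DecidableEq α] (a : α) {D i : ℕ} (hi : D + 1 ≤ i)
    (R : (Fin (D + 1) → α) → K)
    (hR : Null fun W : Fin (i + (D + 1)) → α =>
      if ∀ k : Fin i, W (k.castAdd (D + 1)) = a then R (fun k => W (k.natAdd i)) else 0) :
    ∃ g : (Fin D → α) → K, ∀ w, R w =
      (if w 0 = a then g (Fin.tail w) else 0) -
        (if w (Fin.last D) = a then g (Fin.init w) else 0) := by
  classical
  let S : (Fin (D + 1) → α) → K := fun w =>
    ∑ s : Fin (D + 1), if ∀ k : Fin (D + 1), k < s → w k = a then R (rot s w) else 0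
  -- the all-`a` word has coefficient zero
  have hconst : R (fun _ => a) = 0 := by
    have h := hR (fun _ => a)
    simp only [rot, implies_true, if_true, sum_const, card_univ, Fintype.card_fin,
      nsmul_eq_mul] at h
    exact (mul_eq_zero.mp h).resolve_left (Nat.cast_ne_zero.mpr (by omega))
  -- the sum along the block of `a` vanishes when the last letter is not `a`
  have hend : ∀ w : Fin (D + 1) → α, w (Fin.last D) ≠ a → S w = 0 := by
    intro w hw
    obtain ⟨p, hp, hpmin⟩ : ∃ p : Fin (D + 1), w p ≠ a ∧ ∀ k, k < p → w k = a := by
      have hne : (univ.filter fun k => w k ≠ a).Nonempty := ⟨Fin.last D, by simp [hw]⟩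
      refine ⟨(univ.filter fun k => w k ≠ a).min' hne,
        (mem_filter.mp (min'_mem _ hne)).2, fun k hk => ?_⟩
      by_contra hka
      exact absurd (min'_le _ k (mem_filter.mpr ⟨mem_univ _, hka⟩)) (not_le.mpr hk)
    let W : Fin (i + (D + 1)) → α := Fin.append (fun _ => a) w
    have hWv : ∀ x : Fin (i + (D + 1)),
        (∀ h : i ≤ x.val, W x = w ⟨x.val - i, by have := x.2; omega⟩) ∧ (x.val < i → W x = a) := by
      intro x
      refine Fin.addCases (fun k => ?_) (fun k => ?_) x
      · have := k.2
        exact ⟨fun h => absurd h (by simp only [Fin.val_castAdd]; omega), fun _ => by simp [W]⟩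
      · exact ⟨fun _ => by simp [W], fun h => absurd h (by simp)⟩
    have hwin : ∀ s : Fin (i + (D + 1)),
        (∀ k : Fin i, rot s W (k.castAdd (D + 1)) = a) ↔ s.val ≤ p.val := by
      intro s
      have hs := s.2
      have hpD := p.2
      constructor
      · intro h
        by_contra hgt
        push Not at hgt
        rcases Nat.lt_or_ge (i + p.val) s.val with hbig | hsmall
        · -- the window contains the last letter
          have hk : i + D - s.val < i := by omega
          have h' := h ⟨i + D - s.val, hk⟩
          simp only [rot] at h'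
          rw [(hWv _).1 (by simp only [Fin.val_add, Fin.val_castAdd]; rw [Nat.mod_eq_of_lt (by omega)]; omega)] at h'
          refine hw ?_
          convert h' using 2
          apply Fin.ext
          simp only [Fin.val_last, Fin.val_add, Fin.val_castAdd]
          rw [Nat.mod_eq_of_lt (by omega)]
          omega
        · have hk : i + p.val - s.val < i := by omega
          have h' := h ⟨i + p.val - s.val, hk⟩
          simp only [rot] at h'
          rw [(hWv _).1 (by simp only [Fin.val_add, Fin.val_castAdd]; rw [Nat.mod_eq_of_lt (by omega)]; omega)] at h'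
          refine hp ?_
          convert h' using 2
          apply Fin.ext
          simp only [Fin.val_add, Fin.val_castAdd]
          rw [Nat.mod_eq_of_lt (by omega)]
          omega
      · intro h k
        have := k.2
        simp only [rot]
        have hval : (k.castAdd (D + 1) + s).val = k.val + s.val := by
          simp only [Fin.val_add, Fin.val_castAdd]
          rw [Nat.mod_eq_of_lt (by omega)]
        rcases Nat.lt_or_ge (k.val + s.val) i with hlt | hge
        · exact (hWv _).2 (by omega)
        · rw [(hWv _).1 (by omega)]
          exact hpmin _ (Fin.lt_def.mpr (by simp only; omega))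
    have hsuf : ∀ (s : Fin (i + (D + 1))) (hs : s.val ≤ p.val),
        (fun k => rot s W (k.natAdd i)) = rot (⟨s.val, hs.trans_lt p.2⟩ : Fin (D + 1)) w := by
      intro s hs
      funext k
      have hk := k.2
      have hpD := p.2
      simp only [rot]
      rcases Nat.lt_or_ge (k.val + s.val) (D + 1) with hlt | hge
      · have hval : (k.natAdd i + s).val = i + k.val + s.val := by
          simp only [Fin.val_add, Fin.val_natAdd]
          rw [Nat.mod_eq_of_lt (by omega)]
        rw [(hWv _).1 (by omega)]
        congr 1
        apply Fin.ext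
        simp only [hval, Fin.val_add, Nat.mod_eq_of_lt hlt]
        omega
      · have hval : (k.natAdd i + s).val = k.val + s.val - (D + 1) := by
          simp only [Fin.val_add, Fin.val_natAdd]
          rw [Nat.mod_eq_sub_mod (by omega), Nat.mod_eq_of_lt (by omega)]
          omega
        rw [(hWv _).2 (by omega)]
        refine (hpmin _ ?_).symm
        rw [Fin.lt_def, Fin.val_add]
        simp only
        rw [Nat.mod_eq_sub_mod (by omega), Nat.mod_eq_of_lt (by omega)]
        omega
    have h0 := hR W
    simp only [hwin] at h0
    have hR' : ∑ s ∈ range (i + (D + 1)), (if h : s < i + (D + 1) then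
        (if s ≤ p.val then R (fun k => rot ⟨s, h⟩ W (k.natAdd i)) else 0) else 0) = 0 := by
      rw [← Fin.sum_univ_eq_sum_range (fun s => if h : s < i + (D + 1) then
        (if s ≤ p.val then R (fun k => rot ⟨s, h⟩ W (k.natAdd i)) else 0) else 0) (i + (D + 1))]
      refine Eq.trans ?_ h0
      exact sum_congr rfl fun s _ => dif_pos s.2
    rw [← hR']
    rw [show S w = ∑ s ∈ range (D + 1), (if h : s < D + 1 then
      (if s ≤ p.val then R (rot ⟨s, h⟩ w) else 0) else 0) by
        rw [← Fin.sum_univ_eq_sum_range (fun s => if h : s < D + 1 then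
          (if s ≤ p.val then R (rot ⟨s, h⟩ w) else 0) else 0) (D + 1)]
        refine sum_congr rfl fun s _ => ?_
        rw [dif_pos s.2]
        refine if_congr ⟨fun h => ?_, fun h k hk => hpmin k ?_⟩ rfl rfl
        · by_contra hgt
          exact hp (h p (Fin.lt_def.mpr (by omega)))
        · exact Fin.lt_def.mpr (lt_of_lt_of_le (Fin.lt_def.mp hk) h)]
    refine Eq.trans (sum_congr rfl ?_) (sum_subset (range_subset_range.mpr (by omega)) ?_)
    · intro s hs
      have hs' := mem_range.mp hs
      rw [dif_pos hs', dif_pos (by omega : s < i + (D + 1))]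
      split_ifs with h
      · rw [hsuf ⟨s, by omega⟩ h]
      · rfl
    · intro s hs hs'
      have := mem_range.mp hs
      rw [dif_pos this, if_neg]
      simp only [mem_range] at hs'
      have := p.2
      omega
  have hrec : ∀ w : Fin (D + 1) → α, (∃ k, w k ≠ a) →
      S w = R w + if w 0 = a then S (rot 1 w) else 0 := by
    intro w ⟨k0, hk0⟩
    simp only [S]
    rw [Fin.sum_univ_succ]
    congr 1
    · simp [rot_zero]
    split_ifs with h0
    · conv_rhs => rw [Fin.sum_univ_castSucc]
      rw [if_neg, add_zero]
      · refine sum_congr rfl fun s _ => ?_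
        have hrs : rot s.castSucc (rot 1 w) = rot s.succ w := by
          funext k
          simp [rot, add_assoc, Fin.coeSucc_eq_succ]
        rw [hrs]
        refine if_congr ⟨fun h k hk => ?_, fun h k hk => ?_⟩ rfl rfl
        · have hk' : k.val < s.val := by rwa [Fin.lt_def, Fin.val_castSucc] at hk
          have := s.2
          refine h (k + 1) (Fin.lt_def.mpr ?_)
          rw [Fin.val_add_one_of_lt (Fin.lt_def.mpr (by simp only [Fin.val_last]; omega))]
          simp only [Fin.val_succ]
          omega
        · obtain rfl | ⟨j, rfl⟩ := k.eq_zero_or_eq_succ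
          · exact h0
          · have hj : j.val < s.val := by
              rw [Fin.lt_def, Fin.val_succ, Fin.val_succ] at hk
              omega
            have := h j.castSucc (by rwa [Fin.lt_def, Fin.val_castSucc, Fin.val_castSucc])
            rw [← this]
            simp only [rot]
            rw [Fin.coeSucc_eq_succ]
      · intro h
        apply hk0
        obtain rfl | ⟨j, rfl⟩ := k0.eq_zero_or_eq_succ
        · exact h0
        · have := h j.castSucc (Fin.castSucc_lt_last j)
          rw [← this]
          simp only [rot]
          rw [Fin.coeSucc_eq_succ]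
    · refine sum_eq_zero fun s _ => if_neg fun h => h0 (h 0 ?_)
      exact Fin.succ_pos s
  refine ⟨fun v => -S (Fin.snoc v a), fun w => ?_⟩
  have hrot : ∀ u : Fin (D + 1) → α, rot 1 u = Fin.snoc (Fin.tail u) (u 0) := by
    intro u
    funext k
    refine Fin.lastCases ?_ (fun k => ?_) k
    · simp [rot]
    · simp [rot, Fin.tail, Fin.coeSucc_eq_succ]
  by_cases hall : ∀ k, w k = a
  · obtain rfl : w = fun _ => a := funext hall
    rw [hconst, show Fin.tail (fun _ : Fin (D + 1) => a) = Fin.init (fun _ : Fin (D + 1) => a) from rfl,
      sub_self]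
  push Not at hall
  have h1 : (if w 0 = a then -S (Fin.snoc (Fin.tail w) a) else 0) =
      -(if w 0 = a then S (rot 1 w) else 0) := by
    split_ifs with h
    · rw [hrot, h]
    · exact neg_zero.symm
  have h2 : (if w (Fin.last D) = a then -S (Fin.snoc (Fin.init w) a) else 0) = -S w := by
    split_ifs with h
    · conv_rhs => rw [← Fin.snoc_init_self w, h]
    · rw [hend w h, neg_zero]
  rw [h1, h2, hrec w hall]
  ring

end Vale.Agent.P199.CyclicWord
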