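import Mathlib

/-!
# P199: linear algebra for the selection

Projectors of a matrix with simple spectrum, leading vectors of the new forms, and lifting of
independence from the constant term.
-/

namespace Vale.Agent.P199.SelectLin

open Finset Polynomial

section Proj

variable {F : Type*} [Field F] {n : Type*} [Fintype n] [DecidableEq n] {q : ℕ}
  {A : Matrix n n F} {lam : Fin q → F}

/-- The projector to an eigenvalue. -/
noncomputable def proj (A : Matrix n n F) (lam : Fin q → F) (k : Fin q) : Matrix n n F :=
  aeval A (Lagrange.basis univ lam k)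

theorem aeval_eq_zero_of_eval (hA : A.charpoly = ∏ k, (X - Polynomial.C (lam k)))
    (hl : Function.Injective lam) {p : F[X]} (hp : ∀ k, p.eval (lam k) = 0) : aeval A p = 0 := by
  have hdvd : A.charpoly ∣ p := by
    rw [hA]
    refine Fintype.prod_dvd_of_coprime (pairwise_coprime_X_sub_C hl) fun k => ?_
    exact dvd_iff_isRoot.mpr (hp k)
  obtain ⟨r, rfl⟩ := hdvd
  rw [map_mul, Matrix.aeval_self_charpoly, zero_mul]

theorem proj_mul (hA : A.charpoly = ∏ k, (X - Polynomial.C (lam k)))
    (hl : Function.Injective lam) (j k : Fin q) :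
    proj A lam j * proj A lam k = if j = k then proj A lam j else 0 := by
  have hev : ∀ i l : Fin q, (Lagrange.basis univ lam i).eval (lam l) = if i = l then 1 else 0 := by
    intro i l
    split_ifs with h
    · subst h; exact Lagrange.eval_basis_self (hl.injOn) (mem_univ _)
    · exact Lagrange.eval_basis_of_ne h (mem_univ _)
  split_ifs with h
  · subst h
    rw [proj, ← map_mul, ← sub_eq_zero, ← map_sub]
    refine aeval_eq_zero_of_eval hA hl fun l => ?_
    simp only [eval_sub, eval_mul, hev]
    split_ifs <;> simp
  · rw [proj, proj, ← map_mul]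
    refine aeval_eq_zero_of_eval hA hl fun l => ?_
    simp only [eval_mul, hev]
    split_ifs with h1 h2 <;> simp_all

theorem proj_ne_zero (hA : A.charpoly = ∏ k, (X - Polynomial.C (lam k)))
    (hl : Function.Injective lam) (k : Fin q) : proj A lam k ≠ 0 := by
  have hdet : (Matrix.scalar n (lam k) - A).det = 0 := by
    rw [← Matrix.eval_charpoly, hA, eval_prod]
    exact prod_eq_zero (mem_univ k) (by simp)
  obtain ⟨v, hv0, hv⟩ := Matrix.exists_mulVec_eq_zero_iff.mpr hdet
  have hAv : A.mulVec v = lam k • v := by
    rw [Matrix.sub_mulVec, sub_eq_zero] at hv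
    rw [← hv]
    ext i
    simp [Matrix.scalar_apply, Matrix.mulVec_diagonal]
  have hp : ∀ p : F[X], (aeval A p).mulVec v = p.eval (lam k) • v := by
    intro p
    induction p using Polynomial.induction_on' with
    | add p r hp hr => simp [map_add, Matrix.add_mulVec, hp, hr, eval_add, add_smul]
    | monomial d a =>
      have hpow : ∀ d : ℕ, (A ^ d).mulVec v = lam k ^ d • v := by
        intro d
        induction d with
        | zero => simp
        | succ d ih =>
          rw [pow_succ, ← Matrix.mulVec_mulVec, hAv, Matrix.mulVec_smul, ih, smul_smul, pow_succ,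
            mul_comm]
      simp [aeval_monomial, ← Algebra.smul_def, Matrix.smul_mulVec, hpow, smul_smul]
  intro h
  have := hp (Lagrange.basis univ lam k)
  rw [show aeval A (Lagrange.basis univ lam k) = 0 from h, Matrix.zero_mulVec,
    Lagrange.eval_basis_self (hl.injOn) (mem_univ _), one_smul] at this
  exact hv0 this.symm

end Proj

section Lead

variable {F : Type*} [Field F] {ι J : Type*} [Fintype ι] {q : ℕ}

/-- The value at `V` of the functional given by a form and a matrix. -/
def pairing (l : ι → F) (P : Matrix (Fin q) (Fin q) F) (V : ι → Matrix (Fin q) (Fin q) F) : F :=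
  Matrix.trace (P * ∑ j, l j • V j)

theorem pairing_single [DecidableEq ι] (l : ι → F) (P : Matrix (Fin q) (Fin q) F) (j : ι)
    (a b : Fin q) : pairing l P (Pi.single j (Matrix.single a b 1)) = l j * P b a := by
  rw [pairing, sum_eq_single j]
  · simp [Pi.single_eq_same, Matrix.trace_mul_single, mul_comm]
  · intro i _ hi; simp [hi]
  · simp

/-- The leading vector in the coordinates `e`. -/
def leadVec (e : J → ι → Matrix (Fin q) (Fin q) F) (l : ι → F) (P : Matrix (Fin q) (Fin q) F) :
    J → F := fun i => pairing l P (e i)

theorem pairing_add (l : ι → F) (P : Matrix (Fin q) (Fin q) F)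
    (V W : ι → Matrix (Fin q) (Fin q) F) :
    pairing l P (V + W) = pairing l P V + pairing l P W := by
  simp [pairing, smul_add, sum_add_distrib, mul_add, Matrix.trace_add]

theorem pairing_smul (l : ι → F) (P : Matrix (Fin q) (Fin q) F) (a : F)
    (V : ι → Matrix (Fin q) (Fin q) F) : pairing l P (a • V) = a * pairing l P V := by
  simp only [pairing, Pi.smul_apply, smul_comm _ a, ← smul_sum, Matrix.mul_smul,
    Matrix.trace_smul, smul_eq_mul]

theorem sum_pairing_eq_zero {e : J → ι → Matrix (Fin q) (Fin q) F}
    (he : Submodule.span F (Set.range e) = ⊤) {σ : Type*} [Fintype σ] (l : σ → ι → F)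
    (P : σ → Matrix (Fin q) (Fin q) F) (c : σ → F)
    (h : ∀ i, ∑ s, c s * leadVec e (l s) (P s) i = 0) (j : ι) :
    ∑ s, (c s * l s j) • P s = 0 := by
  classical
  have hall : ∀ V, ∑ s, c s * pairing (l s) (P s) V = 0 := by
    intro V
    have hV : V ∈ Submodule.span F (Set.range e) := by rw [he]; trivial
    induction hV using Submodule.span_induction with
    | mem x hx => obtain ⟨i, rfl⟩ := hx; exact h i
    | zero => simp [pairing]
    | add x y _ _ hx hy => simp [pairing_add, mul_add, sum_add_distrib, hx, hy]
    | smul a x _ hx => simp [pairing_smul, mul_left_comm _ a, ← mul_sum, hx]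
  ext b a
  have := hall (Pi.single j (Matrix.single a b 1))
  simp only [pairing_single] at this
  simpa [Matrix.sum_apply, mul_assoc] using this

/-- Proportional leading vectors have proportional forms and equal idempotents. -/
theorem rel_of_leadVec {e : J → ι → Matrix (Fin q) (Fin q) F}
    (he : Submodule.span F (Set.range e) = ⊤) {l l' : ι → F} {P P' : Matrix (Fin q) (Fin q) F}
    (hl : l ≠ 0) (hP : P ≠ 0) (hPi : P * P = P) (hPi' : P' * P' = P') {a b : F} (hab : a ≠ 0)
    (h : ∀ i, a * leadVec e l P i = b * leadVec e l' P' i) :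
    (∀ i j, l i * l' j = l j * l' i) ∧ P = P' := by
  have key : ∀ j, (a * l j) • P = (b * l' j) • P' := by
    intro j
    have := sum_pairing_eq_zero he (σ := Fin 2) ![l, l'] ![P, P'] ![a, -b]
      (fun i => by simp [Fin.sum_univ_two, h i]) j
    simpa [Fin.sum_univ_two, sub_eq_zero, ← sub_eq_add_neg] using this
  obtain ⟨j₀, hj₀⟩ := Function.ne_iff.mp hl
  have hc : a * l j₀ ≠ 0 := mul_ne_zero hab hj₀
  have hc' : b * l' j₀ ≠ 0 := fun h0 => by
    have := key j₀
    rw [h0, zero_smul, smul_eq_zero] at this
    exact this.elim hc hP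
  have hP' : P = ((a * l j₀)⁻¹ * (b * l' j₀)) • P' := by
    rw [mul_smul, ← key j₀, smul_smul, inv_mul_cancel₀ hc, one_smul]
  have hP'0 : P' ≠ 0 := fun h0 => hP (by rw [hP', h0, smul_zero])
  set t : F := (a * l j₀)⁻¹ * (b * l' j₀) with ht
  have ht1 : t = 1 := by
    have h2 : (t * t) • P' = t • P' := by
      have h3 := hPi
      rw [hP', Matrix.smul_mul, Matrix.mul_smul, hPi', smul_smul] at h3
      exact h3
    have h4 : (t * t - t) • P' = 0 := by rw [sub_smul, h2, sub_self]
    have h5 : t * (t - 1) = 0 := by rw [mul_sub, mul_one]; exact (smul_eq_zero.mp h4).resolve_right hP'0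
    have ht0 : t ≠ 0 := mul_ne_zero (inv_ne_zero hc) hc'
    exact sub_eq_zero.mp ((mul_eq_zero.mp h5).resolve_left ht0)
  have hPP : P = P' := by rw [hP', ht1, one_smul]
  refine ⟨fun i j => ?_, hPP⟩
  have hj : ∀ j, a * l j = b * l' j := fun j => by
    have := key j
    rw [hPP] at this
    have h4 : (a * l j - b * l' j) • P' = 0 := by rw [sub_smul, this, sub_self]
    exact sub_eq_zero.mp ((smul_eq_zero.mp h4).resolve_right hP'0)
  refine mul_left_cancel₀ hab ?_
  calc a * (l i * l' j) = (a * l i) * l' j := by ring
    _ = (b * l' i) * l' j := by rw [hj]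
    _ = (b * l' j) * l' i := by ring
    _ = (a * l j) * l' i := by rw [hj]
    _ = a * (l j * l' i) := by ring

/-- Squares of the leading vectors are independent when the squares of the forms are. -/
theorem sq_leadVec {e : J → ι → Matrix (Fin q) (Fin q) F}
    (he : Submodule.span F (Set.range e) = ⊤) {σ : Type*} [Fintype σ] [DecidableEq σ]
    (l : σ → ι → F) (hsq : LinearIndependent F fun s => fun p : ι × ι => l s p.1 * l s p.2)
    (P : σ → Fin q → Matrix (Fin q) (Fin q) F) (hP0 : ∀ s k, P s k ≠ 0)
    (hP : ∀ s j k, P s j * P s k = if j = k then P s j else 0) :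
    LinearIndependent F fun sk : σ × Fin q => fun p : J × J =>
      leadVec e (l sk.1) (P sk.1 sk.2) p.1 * leadVec e (l sk.1) (P sk.1 sk.2) p.2 := by
  classical
  rw [Fintype.linearIndependent_iff]
  intro c hc
  have h1 : ∀ i' j, ∑ sk : σ × Fin q,
      (c sk * leadVec e (l sk.1) (P sk.1 sk.2) i' * l sk.1 j) • P sk.1 sk.2 = 0 := by
    intro i'
    refine fun j => sum_pairing_eq_zero he (fun sk : σ × Fin q => l sk.1)
      (fun sk => P sk.1 sk.2) (fun sk => c sk * leadVec e (l sk.1) (P sk.1 sk.2) i') (fun i => ?_) j
    have := congrFun hc (i, i')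
    simp only [Finset.sum_apply, Pi.smul_apply, smul_eq_mul, Pi.zero_apply] at this
    rw [← this]
    exact sum_congr rfl fun sk _ => by ring
  have h2 : ∀ j j' a b a' b', ∑ sk : σ × Fin q, c sk * l sk.1 j * l sk.1 j' *
      P sk.1 sk.2 a b * P sk.1 sk.2 a' b' = 0 := by
    intro j j' a b a' b'
    have h := sum_pairing_eq_zero he (fun sk : σ × Fin q => l sk.1) (fun sk => P sk.1 sk.2)
      (fun sk => c sk * l sk.1 j * P sk.1 sk.2 a b) (fun i' => ?_) j'
    · have := congrFun (congrFun h a') b'
      simp only [Matrix.sum_apply, Matrix.smul_apply, smul_eq_mul, Matrix.zero_apply] at this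
      rw [← this]
      exact sum_congr rfl fun sk _ => by ring
    · have := congrFun (congrFun (h1 i' j) a) b
      simp only [Matrix.sum_apply, Matrix.smul_apply, smul_eq_mul, Matrix.zero_apply] at this
      rw [← this]
      exact sum_congr rfl fun sk _ => by ring
  have h3 : ∀ a b a' b' s, ∑ k, c (s, k) * P s k a b * P s k a' b' = 0 := by
    intro a b a' b'
    have := Fintype.linearIndependent_iff.mp hsq
      (fun s => ∑ k, c (s, k) * P s k a b * P s k a' b') ?_
    · exact this
    funext p
    simp only [Finset.sum_apply, Pi.smul_apply, smul_eq_mul, Pi.zero_apply, sum_mul]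
    rw [← h2 p.1 p.2 a b a' b', Fintype.sum_prod_type]
    exact sum_congr rfl fun s _ => sum_congr rfl fun k _ => by ring
  intro sk
  obtain ⟨s, j⟩ := sk
  have h4 : ∑ k, c (s, k) • (P s k * P s k) = 0 := by
    ext a b
    simp only [Matrix.sum_apply, Matrix.smul_apply, Matrix.mul_apply, smul_eq_mul,
      Matrix.zero_apply, mul_sum]
    rw [sum_comm]
    refine sum_eq_zero fun x _ => ?_
    rw [← h3 a x x b s]
    exact sum_congr rfl fun k _ => by ring
  have h5 := congrArg (fun M => P s j * M) h4
  simp only [mul_sum, Matrix.mul_smul, mul_zero] at h5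
  simp only [hP, smul_ite, smul_zero, sum_ite_eq, mem_univ, if_true] at h5
  exact (smul_eq_zero.mp h5).resolve_right (hP0 s j)

end Lead

section Lift

variable {F L : Type*} [Field F] [Field L] {σ J : Type*} [Finite σ] [Finite J]

/-- Independent constant terms give independent vectors. -/
theorem linearIndependent_lift (κ : PowerSeries F →+* L)
    (v : σ → J → PowerSeries F)
    (h : LinearIndependent F fun s i => PowerSeries.constantCoeff (v s i)) :
    LinearIndependent L fun s i => κ (v s i) := by
  classical
  have := Fintype.ofFinite σ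
  have := Fintype.ofFinite J
  let v0 : Matrix σ J F := Matrix.of fun s i => PowerSeries.constantCoeff (v s i)
  obtain ⟨w, hw⟩ : ∃ w : Matrix J σ F, v0 * w = 1 := by
    have hinj : Function.Injective (Matrix.mulVecLin v0.transpose) := by
      rw [Matrix.coe_mulVecLin, Matrix.mulVec_injective_iff]
      exact h
    obtain ⟨g, hg⟩ := LinearMap.exists_leftInverse_of_injective _ (LinearMap.ker_eq_bot.mpr hinj)
    refine ⟨(LinearMap.toMatrix' g).transpose, ?_⟩
    have h' : LinearMap.toMatrix' g * v0.transpose = 1 := by
      rw [← LinearMap.toMatrix'_toLin' v0.transpose, Matrix.toLin'_apply', ← LinearMap.toMatrix'_comp, hg,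
        LinearMap.toMatrix'_id]
    rw [← Matrix.transpose_transpose v0, ← Matrix.transpose_mul, h', Matrix.transpose_one]
  let V : Matrix σ J (PowerSeries F) := Matrix.of v
  let W : Matrix J σ (PowerSeries F) := w.map PowerSeries.C
  have hu : IsUnit (V * W).det := by
    rw [PowerSeries.isUnit_iff_constantCoeff, RingHom.map_det]
    have : (PowerSeries.constantCoeff (R := F)).mapMatrix (V * W) = 1 := by
      rw [← hw]
      ext s t
      simp [V, W, v0, Matrix.mul_apply, map_sum]
    rw [this, Matrix.det_one]
    exact isUnit_one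
  have hu' : IsUnit ((V.map κ) * (W.map κ)).det := by
    rw [← Matrix.map_mul]
    exact (κ.map_det (V * W)) ▸ hu.map κ
  rw [Fintype.linearIndependent_iff]
  intro c hc
  have hcV : Matrix.vecMul c (V.map κ) = 0 := by
    funext i
    have := congrFun hc i
    simpa [Matrix.vecMul, dotProduct, V] using this
  have h0 : Matrix.vecMul c ((V.map κ) * (W.map κ)) = 0 := by
    rw [← Matrix.vecMul_vecMul, hcV, Matrix.zero_vecMul]
  have := Matrix.eq_zero_of_vecMul_eq_zero hu'.ne_zero h0
  exact fun s => congrFun this s

/-- The rank of the constant terms is at most the rank. -/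
theorem finrank_span_lift (κ : PowerSeries F →+* L) (v : σ → J → PowerSeries F) :
    Module.finrank F (Submodule.span F (Set.range fun s i => PowerSeries.constantCoeff (v s i))) ≤
      Module.finrank L (Submodule.span L (Set.range fun s i => κ (v s i))) := by
  classical
  have := Fintype.ofFinite σ
  have := Fintype.ofFinite J
  obtain ⟨b, hbσ, hspan, hli⟩ := exists_linearIndependent F
    (Set.range fun s i => PowerSeries.constantCoeff (v s i))
  have : Fintype b := ((Set.finite_range _).subset hbσ).fintype
  choose g hg using fun x : b => hbσ x.2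
  have h1 : LinearIndependent L fun (x : b) i => κ (v (g x) i) := by
    refine linearIndependent_lift κ (fun x => v (g x)) ?_
    rw [show (fun (x : b) i => PowerSeries.constantCoeff (v (g x) i)) = Subtype.val from funext hg]
    exact hli
  rw [← hspan, finrank_span_set_eq_card hli, Set.toFinset_card,
    ← finrank_span_eq_card h1]
  refine Submodule.finrank_mono (Submodule.span_mono ?_)
  rintro _ ⟨x, rfl⟩
  exact ⟨g x, rfl⟩

omit [Finite σ] [Finite J] in
/-- Independence survives a field extension. -/
theorem linearIndependent_map_field [Fintype σ] [Fintype J] (f : F →+* L) (v : σ → J → F)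
    (h : LinearIndependent F v) : LinearIndependent L fun s i => f (v s i) := by
  classical
  let v0 : Matrix σ J F := Matrix.of v
  have hinj : Function.Injective (Matrix.mulVecLin v0.transpose) := by
    rw [Matrix.coe_mulVecLin, Matrix.mulVec_injective_iff]
    exact h
  obtain ⟨g, hg⟩ := LinearMap.exists_leftInverse_of_injective _ (LinearMap.ker_eq_bot.mpr hinj)
  have hw : v0 * (LinearMap.toMatrix' g).transpose = 1 := by
    have h' : LinearMap.toMatrix' g * v0.transpose = 1 := by
      rw [← LinearMap.toMatrix'_toLin' v0.transpose, Matrix.toLin'_apply',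
        ← LinearMap.toMatrix'_comp, hg, LinearMap.toMatrix'_id]
    rw [← Matrix.transpose_transpose v0, ← Matrix.transpose_mul, h', Matrix.transpose_one]
  have hw' : v0.map f * ((LinearMap.toMatrix' g).transpose.map f) = 1 := by
    rw [← Matrix.map_mul, hw, Matrix.map_one f f.map_zero f.map_one]
  rw [Fintype.linearIndependent_iff]
  intro c hc
  have hcV : Matrix.vecMul c (v0.map f) = 0 := by
    funext i
    have := congrFun hc i
    simpa [Matrix.vecMul, dotProduct, v0] using this
  have h0 := congrArg (fun x => Matrix.vecMul x ((LinearMap.toMatrix' g).transpose.map f)) hcV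
  simp only [Matrix.vecMul_vecMul, hw', Matrix.vecMul_one, Matrix.zero_vecMul] at h0
  exact fun s => congrFun h0 s

omit [Finite σ] in
/-- A product through a space of dimension at most `R` has vanishing determinants beyond `R`. -/
theorem det_mul_eq_zero {τ : Type*} [Fintype τ] {R : ℕ} (A : Matrix (Fin (R + 1)) τ L)
    (B : Matrix τ (Fin (R + 1)) L)
    (hB : Module.finrank L (Submodule.span L (Set.range B)) ≤ R) : (A * B).det = 0 := by
  by_contra h
  have h1 := Matrix.rank_of_isUnit (A * B) ((Matrix.isUnit_iff_isUnit_det _).mpr (isUnit_iff_ne_zero.mpr h))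
  have h2 := Matrix.rank_mul_le_right A B
  rw [Fintype.card_fin] at h1
  have h3 : B.rank = Module.finrank L (Submodule.span L (Set.range B)) :=
    Matrix.rank_eq_finrank_span_row B
  omega

end Lift

end Vale.Agent.P199.SelectLin
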