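import Vale.Agent.P199.Frame
import Vale.Agent.P199.SelectLin

/-!
# P199: classes of a frame, the invariants of the selection
-/

namespace Vale.Agent.P199

open Finset

namespace Frame

variable (S : Frame)

/-- One eigenvalue out of every class of proportional forms. -/
structure Reps where
  Cls : Type
  [fintypeCls : Fintype Cls]
  [decCls : DecidableEq Cls]
  rep : Cls → S.ρ
  cls : S.ρ → Cls
  rel_cls : ∀ r, S.Rel (rep (cls r)) r
  sep : ∀ C C', S.Rel (rep C) (rep C') → C = C'

attribute [instance] Reps.fintypeCls Reps.decCls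

/-- The size of a class (the same for all classes). -/
noncomputable def clSize : ℕ :=
  Nat.card {s // S.Rel (Classical.arbitrary S.ρ) s}

/-- The number of classes. -/
noncomputable def numCls : ℕ := Fintype.card S.ρ / S.clSize

/-- The number of independent relations between the forms of the classes. -/
noncomputable def defect : ℕ :=
  S.numCls - Module.finrank S.F (Submodule.span S.F (Set.range S.l))

/-- The squares of the forms of the classes are independent. -/
def SQS : Prop :=
  Module.finrank S.F (Submodule.span S.F (Set.range fun r => fun p : S.ι × S.ι =>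
    S.l r p.1 * S.l r p.2)) = S.numCls

variable {S}

theorem rel_refl (r : S.ρ) : S.Rel r r := fun i j => by ring

theorem rel_symm {r r' : S.ρ} (h : S.Rel r r') : S.Rel r' r := fun i j => by
  linear_combination (h j i)

theorem exists_smul_of_rel {r r' : S.ρ} (h : S.Rel r r') (hr : S.l r ≠ 0) :
    ∃ a : S.F, S.l r' = a • S.l r := by
  obtain ⟨j, hj⟩ := Function.ne_iff.mp hr
  refine ⟨S.l r' j / S.l r j, funext fun i => ?_⟩
  rw [Pi.smul_apply, smul_eq_mul, div_mul_eq_mul_div, eq_div_iff hj]
  linear_combination (h j i)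

theorem rel_trans {r r' r'' : S.ρ} (hr' : S.l r' ≠ 0) (h : S.Rel r r') (h' : S.Rel r' r'') :
    S.Rel r r'' := by
  obtain ⟨a, ha⟩ := exists_smul_of_rel (rel_symm h) hr'
  obtain ⟨b, hb⟩ := exists_smul_of_rel h' hr'
  intro i j
  simp only [ha, hb, Pi.smul_apply, smul_eq_mul]
  ring

variable (h0 : ∀ r, S.l r ≠ 0)
include h0

theorem exists_reps : Nonempty S.Reps := by
  classical
  let st : Setoid S.ρ := ⟨S.Rel, ⟨rel_refl, fun h => rel_symm h,
    fun {x y z} h h' => rel_trans (h0 y) h h'⟩⟩
  exact ⟨{ Cls := Quotient st, rep := Quotient.out, cls := Quotient.mk st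
           rel_cls := fun r => Quotient.exact (Quotient.out_eq (Quotient.mk st r))
           sep := fun C C' h => by
            rw [← Quotient.out_eq C, ← Quotient.out_eq C']
            exact Quotient.sound h }⟩

variable (R : S.Reps)

theorem Reps.rel_iff (C : R.Cls) (s : S.ρ) : S.Rel (R.rep C) s ↔ R.cls s = C := by
  refine ⟨fun h => (R.sep _ _ (rel_trans (h0 s) h (rel_symm (R.rel_cls s)))).symm, ?_⟩
  rintro rfl
  exact R.rel_cls s

omit h0 in
theorem Reps.linearIndependent_pair {C C' : R.Cls} (hCC : C ≠ C') :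
    LinearIndependent S.F ![S.l (R.rep C), S.l (R.rep C')] := by
  rw [LinearIndependent.pair_iff]
  intro a b hab
  by_contra hne
  refine hCC (R.sep _ _ fun i j => ?_)
  have hi := congrFun hab i
  have hj := congrFun hab j
  simp only [Pi.add_apply, Pi.smul_apply, smul_eq_mul, Pi.zero_apply] at hi hj
  by_cases ha : a = 0
  · have hb : b ≠ 0 := fun hb => hne ⟨ha, hb⟩
    rw [ha, zero_mul, zero_add] at hi hj
    rw [(mul_eq_zero.mp hi).resolve_left hb, (mul_eq_zero.mp hj).resolve_left hb]
    ring
  · refine mul_left_cancel₀ ha ?_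
    linear_combination (S.l (R.rep C') j) * hi - (S.l (R.rep C') i) * hj

theorem Reps.card_eq (hcard : ∀ r r', Nat.card {s // S.Rel r s} = Nat.card {s // S.Rel r' s}) :
    Fintype.card R.Cls * S.clSize = Fintype.card S.ρ := by
  classical
  have hfib : ∀ C : R.Cls, #{s ∈ (univ : Finset S.ρ) | R.cls s = C} = S.clSize := by
    intro C
    rw [Frame.clSize, hcard _ (R.rep C), Nat.card_eq_fintype_card, Fintype.card_subtype]
    congr 1
    ext s
    simp [R.rel_iff h0]
  rw [← card_univ, ← card_univ, card_eq_sum_card_fiberwise (fun s _ => mem_univ (R.cls s)),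
    sum_congr rfl fun C _ => hfib C, sum_const, smul_eq_mul]

omit h0 in
theorem clSize_pos : 0 < S.clSize :=
  Nat.card_pos_iff.mpr ⟨⟨⟨_, rel_refl _⟩⟩, inferInstance⟩

theorem Reps.numCls_eq (hcard : ∀ r r', Nat.card {s // S.Rel r s} = Nat.card {s // S.Rel r' s}) :
    S.numCls = Fintype.card R.Cls := by
  rw [Frame.numCls, ← R.card_eq h0 hcard, Nat.mul_div_cancel _ clSize_pos]

theorem Reps.span_eq :
    Submodule.span S.F (Set.range S.l) = Submodule.span S.F (Set.range fun C => S.l (R.rep C)) := by
  refine le_antisymm (Submodule.span_le.mpr ?_) (Submodule.span_mono ?_)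
  · rintro _ ⟨r, rfl⟩
    obtain ⟨a, ha⟩ := exists_smul_of_rel (R.rel_cls r) (h0 _)
    rw [ha]
    exact Submodule.smul_mem _ a (Submodule.subset_span ⟨_, rfl⟩)
  · rintro _ ⟨C, rfl⟩
    exact ⟨_, rfl⟩

theorem Reps.span_sq_eq :
    Submodule.span S.F (Set.range fun r => fun p : S.ι × S.ι => S.l r p.1 * S.l r p.2) =
      Submodule.span S.F (Set.range fun C => fun p : S.ι × S.ι =>
        S.l (R.rep C) p.1 * S.l (R.rep C) p.2) := by
  refine le_antisymm (Submodule.span_le.mpr ?_) (Submodule.span_mono ?_)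
  · rintro _ ⟨r, rfl⟩
    obtain ⟨a, ha⟩ := exists_smul_of_rel (R.rel_cls r) (h0 _)
    refine (Submodule.mem_span_range_iff_exists_fun S.F).mpr ?_
    refine ⟨Pi.single (R.cls r) (a * a), ?_⟩
    rw [sum_eq_single (R.cls r) (fun C _ hC => by simp [hC]) (fun h => absurd (mem_univ _) h),
      Pi.single_eq_same]
    funext p
    simp only [ha, Pi.smul_apply, smul_eq_mul]
    ring
  · rintro _ ⟨C, rfl⟩
    exact ⟨_, rfl⟩

theorem Reps.sqs_iff (hcard : ∀ r r', Nat.card {s // S.Rel r s} = Nat.card {s // S.Rel r' s}) :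
    S.SQS ↔ SQ (fun C => S.l (R.rep C)) := by
  rw [Frame.SQS, R.span_sq_eq h0, R.numCls_eq h0 hcard, SQ,
    linearIndependent_iff_card_eq_finrank_span, eq_comm, Set.finrank]

end Frame

end Vale.Agent.P199
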