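import Mathlib

/-!
P199: two-sided multiplications of a central division algebra, inner derivations, sub-bimodules
of a free bimodule, and first-order deformations of a generating family.
-/

open Module

namespace Vale.Agent.P199.Deform

variable {K A : Type*} [Field K] [DivisionRing A] [Algebra K A]

/-- Left and right multiplication. -/
def two (a b : A) : A →ₗ[K] A := (LinearMap.mulLeft K a).comp (LinearMap.mulRight K b)

theorem two_apply (a b x : A) : two (K := K) a b x = a * (x * b) := rfl

/-- The span of the two-sided multiplications. -/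
def twoSpan : Submodule K (A →ₗ[K] A) :=
  Submodule.span K (Set.range fun p : A × A => two p.1 p.2)

theorem mulLeft_comp_mem (a : A) {T : A →ₗ[K] A} (hT : T ∈ twoSpan) :
    (LinearMap.mulLeft K a).comp T ∈ (twoSpan : Submodule K (A →ₗ[K] A)) := by
  induction hT using Submodule.span_induction with
  | mem T hT =>
    obtain ⟨⟨p, q⟩, rfl⟩ := hT
    refine Submodule.subset_span ⟨(a * p, q), ?_⟩
    ext x
    simp [two_apply, mul_assoc]
  | zero => simp
  | add T T' _ _ h h' => rw [LinearMap.comp_add]; exact add_mem h h'
  | smul c T _ h => rw [LinearMap.comp_smul]; exact Submodule.smul_mem _ c h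

theorem mulRight_comp_mem (a : A) {T : A →ₗ[K] A} (hT : T ∈ twoSpan) :
    (LinearMap.mulRight K a).comp T ∈ (twoSpan : Submodule K (A →ₗ[K] A)) := by
  induction hT using Submodule.span_induction with
  | mem T hT =>
    obtain ⟨⟨p, q⟩, rfl⟩ := hT
    refine Submodule.subset_span ⟨(p, q * a), ?_⟩
    ext x
    simp [two_apply, mul_assoc]
  | zero => simp
  | add T T' _ _ h h' => rw [LinearMap.comp_add]; exact add_mem h h'
  | smul c T _ h => rw [LinearMap.comp_smul]; exact Submodule.smul_mem _ c h

/-- Artin's lemma: two-sided multiplications separate independent elements. -/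
theorem exists_dual (hcent : ∀ z : A, (∀ a, a * z = z * a) → z ∈ (algebraMap K A).range) :
    ∀ {n : ℕ} (x : Fin n → A), LinearIndependent K x →
      ∃ S : Fin n → (A →ₗ[K] A), ∀ i, S i ∈ twoSpan ∧ ∀ j, S i (x j) = if i = j then 1 else 0 := by
  intro n
  induction n with
  | zero => exact fun x _ => ⟨fun i => i.elim0, fun i => i.elim0⟩
  | succ n ih =>
    intro x hx
    have key : ∀ i : Fin (n + 1), ∃ T ∈ (twoSpan : Submodule K (A →ₗ[K] A)),
        ∀ j, T (x j) = if i = j then 1 else 0 := by
      intro i
      obtain ⟨S, hS⟩ := ih (x ∘ i.succAbove) (hx.comp _ Fin.succAbove_right_injective)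
      let c : Fin n → A := fun l => S l (x i)
      -- a multiplication killing the other elements
      let corr : (A →ₗ[K] A) → (A →ₗ[K] A) := fun T =>
        T - ∑ l, (LinearMap.mulRight K (T (x (i.succAbove l)))).comp (S l)
      have hcorr : ∀ T ∈ twoSpan, corr T ∈ (twoSpan : Submodule K (A →ₗ[K] A)) := fun T hT =>
        sub_mem hT (Submodule.sum_mem _ fun l _ => mulRight_comp_mem _ (hS l).1)
      have hvanish : ∀ T : A →ₗ[K] A, ∀ l, corr T (x (i.succAbove l)) = 0 := by
        intro T l
        simp only [corr, LinearMap.sub_apply, LinearMap.sum_apply, LinearMap.comp_apply,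
          LinearMap.mulRight_apply]
        rw [Finset.sum_eq_single l]
        · have := (hS l).2 l
          simp only [Function.comp_apply, if_true] at this
          rw [this, one_mul, sub_self]
        · intro m _ hm
          have := (hS m).2 l
          simp only [Function.comp_apply, if_neg hm] at this
          rw [this, zero_mul]
        · simp
      by_cases hex : ∃ T ∈ (twoSpan : Submodule K (A →ₗ[K] A)), corr T (x i) ≠ 0
      · obtain ⟨T, hT, hne⟩ := hex
        refine ⟨(LinearMap.mulLeft K (corr T (x i))⁻¹).comp (corr T),
          mulLeft_comp_mem _ (hcorr T hT), fun j => ?_⟩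
        rcases eq_or_ne i j with rfl | hij
        · simp [inv_mul_cancel₀ hne]
        · obtain ⟨l, rfl⟩ := Fin.exists_succAbove_eq hij.symm
          simp [hvanish T l, hij]
      · exfalso
        push Not at hex
        have hval : ∀ T ∈ (twoSpan : Submodule K (A →ₗ[K] A)), T (x i) = ∑ l, c l * T (x (i.succAbove l)) := by
          intro T hT
          have := hex T hT
          simpa [corr, sub_eq_zero, c] using this
        have hL : ∀ a, (LinearMap.mulLeft K a : A →ₗ[K] A) ∈ twoSpan := fun a =>
          Submodule.subset_span ⟨(a, 1), by ext z; simp [two_apply]⟩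
        have hc : ∀ l a, a * c l = c l * a := by
          intro l a
          have := hval _ (mulLeft_comp_mem a (hS l).1)
          simp only [LinearMap.comp_apply, LinearMap.mulLeft_apply] at this
          rw [this, Finset.sum_eq_single l]
          · have := (hS l).2 l
            simp only [Function.comp_apply, if_true] at this
            rw [this, mul_one]
          · intro m _ hm
            have := (hS l).2 m
            simp only [Function.comp_apply, if_neg hm.symm] at this
            simp [this]
          · simp
        choose k hk using fun l => hcent (c l) (hc l)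
        have h1 := hval _ (hL 1)
        simp only [LinearMap.mulLeft_apply, one_mul] at h1
        have hsum : x i = ∑ l, k l • x (i.succAbove l) := by
          rw [h1]
          exact Finset.sum_congr rfl fun l _ => by rw [Algebra.smul_def, hk]
        have := Fintype.linearIndependent_iff.1 hx (fun j => if h : j = i then -1
          else k (Classical.choose (Fin.exists_succAbove_eq h)))
        refine absurd (this ?_ i) (by simp)
        rw [Fin.sum_univ_succAbove _ i, dif_pos rfl, neg_smul, one_smul, hsum, neg_add_eq_zero]
        refine Finset.sum_congr rfl fun l _ => ?_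
        rw [dif_neg (Fin.succAbove_ne i l)]
        congr 2
        exact Fin.succAbove_right_injective
          (Classical.choose_spec (Fin.exists_succAbove_eq (Fin.succAbove_ne i l))).symm
    choose T hT hTx using key
    exact ⟨T, fun i => ⟨hT i, hTx i⟩⟩

variable [FiniteDimensional K A]
  (hcent : ∀ z : A, (∀ a, a * z = z * a) → z ∈ (algebraMap K A).range)
include hcent

/-- Every linear endomorphism is a sum of two-sided multiplications. -/
theorem twoSpan_eq_top : (twoSpan : Submodule K (A →ₗ[K] A)) = ⊤ := by
  refine eq_top_iff.2 fun T _ => ?_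
  let b := finBasis K A
  obtain ⟨S, hS⟩ := exists_dual hcent b b.linearIndependent
  have : T = ∑ i, (LinearMap.mulLeft K (T (b i))).comp (S i) := by
    refine b.ext fun j => ?_
    simp [(hS _).2 j]
  rw [this]
  exact Submodule.sum_mem _ fun i _ => mulLeft_comp_mem _ (hS i).1

/-- Derivations of a central division algebra are inner. -/
theorem derivation_inner (δ : A →ₗ[K] A) (hδ : ∀ x y, δ (x * y) = δ x * y + x * δ y) :
    ∃ w, ∀ x, δ x = x * w - w * x := by
  classical
  -- a basis containing one
  have hone : LinearIndepOn K id ({1} : Set A) := LinearIndepOn.singleton (i := (1 : A)) (v := id) one_ne_zero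
  let e := Basis.extend hone
  have h1 : (1 : A) ∈ hone.extend (Set.subset_univ _) := hone.subset_extend _ rfl
  let p₀ : hone.extend (Set.subset_univ _) := ⟨1, h1⟩
  have he₀ : e p₀ = 1 := Basis.extend_apply_self hone p₀
  have : Fintype (hone.extend (Set.subset_univ ({1} : Set A))) :=
    FiniteDimensional.fintypeBasisIndex e
  let Φ : ((hone.extend (Set.subset_univ ({1} : Set A))) → A) →ₗ[K] (A →ₗ[K] A) :=
    { toFun := fun β => ∑ p, two (e p) (β p)
      map_add' := fun β γ => by
        ext x; simp [two_apply, mul_add, Finset.sum_add_distrib]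
      map_smul' := fun c β => by
        ext x; simp [two_apply, Finset.smul_sum] }
  have hsurj : Function.Surjective Φ := by
    rw [← LinearMap.range_eq_top, eq_top_iff, ← twoSpan_eq_top hcent]
    refine Submodule.span_le.2 ?_
    rintro _ ⟨⟨a, b⟩, rfl⟩
    refine ⟨fun p => e.repr a p • b, ?_⟩
    ext x
    show (∑ p, two (e p) (e.repr a p • b)) x = a * (x * b)
    simp only [LinearMap.sum_apply, two_apply, mul_smul_comm]
    conv_rhs => rw [← e.sum_repr a, Finset.sum_mul]
    exact Finset.sum_congr rfl fun p _ => by rw [smul_mul_assoc]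
  have hinj : Function.Injective Φ := by
    refine (LinearMap.injective_iff_surjective_of_finrank_eq_finrank ?_).2 hsurj
    rw [Module.finrank_pi_fintype, Finset.sum_const, Finset.card_univ, smul_eq_mul,
      Module.finrank_linearMap, finrank_eq_card_basis e]
  obtain ⟨β, hβ⟩ := hsurj δ
  refine ⟨β p₀, fun y => ?_⟩
  have key : Φ (fun p => y * β p - β p * y) = Φ (Pi.single p₀ (δ y)) := by
    ext x
    have e1 := LinearMap.congr_fun hβ (x * y)
    have e2 := LinearMap.congr_fun hβ x
    rw [hδ] at e1
    simp only [Φ, LinearMap.coe_mk, AddHom.coe_mk, LinearMap.sum_apply, two_apply] at e1 e2 ⊢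
    have hR : ∑ p, e p * (x * (Pi.single p₀ (δ y) : _ → A) p) = x * δ y := by
      rw [Finset.sum_eq_single p₀ (fun p _ hp => by simp [Pi.single_eq_of_ne hp]) (by simp),
        he₀, one_mul, Pi.single_eq_same]
    rw [hR]
    calc ∑ p, e p * (x * (y * β p - β p * y))
        = (∑ p, e p * (x * y * β p)) - (∑ p, e p * (x * β p)) * y := by
          rw [Finset.sum_mul, ← Finset.sum_sub_distrib]
          exact Finset.sum_congr rfl fun p _ => by simp only [mul_sub, mul_assoc]
      _ = x * δ y := by rw [e1, e2]; abel
  have := congrFun (hinj key) p₀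
  simpa using this.symm

/-- A sub-bimodule of a free bimodule on which no nonzero central form vanishes is everything. -/
theorem bimodule_eq_top {t : Type*} [Fintype t] (M : Submodule K (t → A))
    (hl : ∀ a, ∀ m ∈ M, (fun j => a * m j) ∈ M) (hr : ∀ a, ∀ m ∈ M, (fun j => m j * a) ∈ M)
    (hform : ∀ lam : t → K, (∀ m ∈ M, ∑ j, lam j • m j = 0) → lam = 0) : M = ⊤ := by
  classical
  have hend : ∀ T : A →ₗ[K] A, ∀ m ∈ M, (fun j => T (m j)) ∈ M := by
    intro T
    have hT : T ∈ (twoSpan : Submodule K (A →ₗ[K] A)) := by rw [twoSpan_eq_top hcent]; trivial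
    induction hT using Submodule.span_induction with
    | mem T hT =>
      obtain ⟨⟨a, b⟩, rfl⟩ := hT
      exact fun m hm => hl a _ (hr b m hm)
    | zero => exact fun m _ => M.zero_mem
    | add T T' _ _ h h' => exact fun m hm => M.add_mem (h m hm) (h' m hm)
    | smul c T _ h => exact fun m hm => M.smul_mem c (h m hm)
  let L : Submodule K (t → K) :=
    { carrier := {l | (fun j => algebraMap K A (l j)) ∈ M}
      zero_mem' := by simp; exact M.zero_mem
      add_mem' := fun {l l'} h h' => by
        have := M.add_mem h h'
        simpa [Pi.add_def] using this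
      smul_mem' := fun c l h => by
        have := M.smul_mem c h
        show (fun j => algebraMap K A ((c • l) j)) ∈ M
        convert this using 1
        funext j
        simp [Algebra.smul_def] }
  let b := finBasis K A
  have hL : L = ⊤ := by
    by_contra hne
    obtain ⟨f, hf, hfL⟩ := Submodule.exists_dual_map_eq_bot_of_lt_top (lt_top_iff_ne_top.2 hne)
      inferInstance
    let lam : t → K := fun j => f (Pi.single j 1)
    have hlam : ∀ l : t → K, f l = ∑ j, l j * lam j := by
      intro l
      conv_lhs => rw [pi_eq_sum_univ' l]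
      simp [lam, smul_eq_mul]
    refine hf (LinearMap.ext fun l => ?_)
    have hl0 : lam = 0 := hform lam fun m hm => by
      refine b.repr.injective (Finsupp.ext fun p => ?_)
      have hmem : (fun j => b.repr (m j) p) ∈ L :=
        hend ((Algebra.linearMap K A).comp (b.coord p)) m hm
      have : f (fun j => b.repr (m j) p) = 0 := by
        have h' := Submodule.mem_map_of_mem (f := f) hmem
        exact (Submodule.eq_bot_iff _).1 hfL _ h'
      rw [hlam] at this
      simpa [mul_comm] using this
    simp [hlam, hl0]
  refine eq_top_iff.2 fun m _ => ?_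
  have hsingle : ∀ (j : t) (a : A), Pi.single j a ∈ M := by
    intro j a
    have h : (Pi.single j 1 : t → K) ∈ L := by rw [hL]; trivial
    have := hl a _ h
    convert this using 1
    funext i
    rcases eq_or_ne i j with rfl | hij <;> simp [*]
  rw [← Finset.univ_sum_single m]
  exact M.sum_mem fun j _ => hsingle j _

/-- First-order deformations: if no nonzero combination of the velocities `V` is inner along the
generators `c`, the deformed generators generate every first-order term. -/
theorem linear_part_top {I t : Type*} [Fintype t] (c : I → A) (V : I → t → A)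
    (hgen : Algebra.adjoin K (Set.range c) = ⊤)
    (hout : ∀ (lam : t → K) (w : A), (∀ i, ∑ j, lam j • V i j = c i * w - w * c i) → lam = 0)
    (S : Submodule K (A × (t → A))) (hone : ((1 : A), (0 : t → A)) ∈ S)
    (hmem : ∀ i, (c i, V i) ∈ S)
    (hmul : ∀ p ∈ S, ∀ q ∈ S, (p.1 * q.1, fun j => p.1 * q.2 j + p.2 j * q.1) ∈ S) : S = ⊤ := by
  classical
  have lift : ∀ a : A, ∃ m, (a, m) ∈ S := by
    intro a
    have ha : a ∈ Algebra.adjoin K (Set.range c) := by rw [hgen]; trivial
    induction ha using Algebra.adjoin_induction with
    | mem a ha => obtain ⟨i, rfl⟩ := ha; exact ⟨V i, hmem i⟩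
    | algebraMap k =>
      exact ⟨0, by simpa [Algebra.algebraMap_eq_smul_one] using S.smul_mem k hone⟩
    | add a b _ _ ha hb =>
      obtain ⟨m, hm⟩ := ha
      obtain ⟨n, hn⟩ := hb
      exact ⟨m + n, S.add_mem hm hn⟩
    | mul a b _ _ ha hb =>
      obtain ⟨m, hm⟩ := ha
      obtain ⟨n, hn⟩ := hb
      exact ⟨_, hmul _ hm _ hn⟩
  let M : Submodule K (t → A) := S.comap (LinearMap.inr K A (t → A))
  have hM : ∀ m, m ∈ M ↔ ((0 : A), m) ∈ S := fun m => Iff.rfl
  have hMl : ∀ a, ∀ m ∈ M, (fun j => a * m j) ∈ M := by
    intro a m hm
    obtain ⟨n, hn⟩ := lift a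
    have := hmul _ hn _ ((hM m).1 hm)
    simpa [hM] using this
  have hMr : ∀ a, ∀ m ∈ M, (fun j => m j * a) ∈ M := by
    intro a m hm
    obtain ⟨n, hn⟩ := lift a
    have := hmul _ ((hM m).1 hm) _ hn
    simpa [hM] using this
  have hMtop : M = ⊤ := by
    refine bimodule_eq_top hcent M hMl hMr fun lam hlam => ?_
    choose n hn using lift
    let ev : (t → A) →ₗ[K] A := ∑ j, lam j • LinearMap.proj j
    have hev : ∀ m, ev m = ∑ j, lam j • m j := fun m => by simp [ev]
    have huniq : ∀ a m, (a, m) ∈ S → ev m = ev (n a) := by
      intro a m hm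
      have := S.sub_mem hm (hn a)
      rw [Prod.mk_sub_mk, sub_self] at this
      have := hlam _ ((hM _).2 this)
      rw [← hev, map_sub, sub_eq_zero] at this
      exact this
    let δ : A →ₗ[K] A :=
      { toFun := fun a => ev (n a)
        map_add' := fun a b => by
          rw [← map_add]
          exact (huniq _ _ (S.add_mem (hn a) (hn b))).symm
        map_smul' := fun k a => by
          rw [RingHom.id_apply, ← map_smul]
          exact (huniq _ _ (S.smul_mem k (hn a))).symm }
    have hδ : ∀ x y, δ (x * y) = δ x * y + x * δ y := by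
      intro x y
      show ev (n (x * y)) = _
      rw [← huniq _ _ (hmul _ (hn x) _ (hn y))]
      simp only [δ, LinearMap.coe_mk, AddHom.coe_mk, hev, smul_add, Finset.sum_add_distrib,
        Finset.sum_mul, Finset.mul_sum, smul_mul_assoc, mul_smul_comm]
      exact add_comm _ _
    obtain ⟨w, hw⟩ := derivation_inner hcent δ hδ
    refine hout lam w fun i => ?_
    rw [← hev, huniq _ _ (hmem i)]
    exact hw (c i)
  refine eq_top_iff.2 fun p _ => ?_
  obtain ⟨m, hm⟩ := lift p.1
  have : (0, p.2 - m) ∈ S := (hM _).1 (by rw [hMtop]; trivial)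
  simpa using S.add_mem hm this

end Vale.Agent.P199.Deform
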