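import Mathlib
import Vale.Agent.P199.Series
import Vale.Agent.P199.Deform

/-!
P199: a subalgebra of a series ring whose first-order part is a non-inner deformation of a
generating family is dense.
-/

namespace Vale.Agent.P199.Density

open Series Series.Ser

variable {K A : Type*} [Field K] [DivisionRing A] [Algebra K A] {t : Type*}

/-- Coefficient of a word in the product of a series vanishing at the empty word with another. -/
theorem coeff_mul_cons_of_nil {f g : Ser A t} (a : t) (w : List t) (hf : f.coeff [] = 0)
    (hg : ∀ u : List t, u.length < w.length → g.coeff u = 0) :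
    (f * g).coeff (a :: w) = f.coeff [a] * g.coeff w :=
  coeff_mul_append [a] w (fun u hu => by
    cases u with
    | nil => exact hf
    | cons b u => simp at hu) hg

/-- If a subring contains every constant and every linear term to first order, it is dense. -/
theorem dense_of_linear [Fintype t] [DecidableEq t] (S : Subring (Ser A t))
    (h : ∀ (a : A) (m : t → A), ∃ f ∈ S, f.coeff [] = a ∧ ∀ j, f.coeff [j] = m j) : Dense S := by
  classical
  -- every word carries an element of `S` with that leading term
  have lead : ∀ (v : List t) (c : A), ∃ f ∈ S,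
      ∀ u : List t, u.length ≤ v.length → f.coeff u = if u = v then c else 0 := by
    intro v
    induction v with
    | nil =>
      intro c
      obtain ⟨f, hf, h0, -⟩ := h c 0
      refine ⟨f, hf, fun u hu => ?_⟩
      obtain rfl : u = [] := by simpa using hu
      rw [if_pos rfl, h0]
    | cons a v ih =>
      intro c
      obtain ⟨g, hg, hgv⟩ := ih c
      obtain ⟨f, hf, hf0, hf1⟩ := h 0 (fun j => if j = a then 1 else 0)
      refine ⟨f * g, S.mul_mem hf hg, fun u hu => ?_⟩
      have hgz : ∀ w : List t, w.length < v.length → g.coeff w = 0 := fun w hw => by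
        rw [hgv w hw.le, if_neg]
        rintro rfl
        exact lt_irrefl _ hw
      cases u with
      | nil => simp [hf0]
      | cons b u =>
        simp only [List.length_cons, Nat.add_le_add_iff_right] at hu
        rw [coeff_mul_cons_of_nil b u hf0 (fun w hw => hgz w (hw.trans_le hu)), hf1, hgv u hu]
        by_cases hb : b = a <;> simp [hb]
  intro k
  induction k with
  | zero => exact fun f => ⟨0, S.zero_mem, fun w hw => absurd hw (Nat.not_lt_zero _)⟩
  | succ k ih =>
    intro f
    obtain ⟨a, ha, haf⟩ := ih f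
    choose p hp hpv using fun v : List.Vector t k => lead v.1 (f.coeff v.1 - a.coeff v.1)
    refine ⟨a + ∑ v, p v, S.add_mem ha (S.sum_mem fun v _ => hp v), fun w hw => ?_⟩
    rw [coeff_add, coeff_sum]
    rcases lt_or_eq_of_le (Nat.lt_succ_iff.1 hw) with hlt | heq
    · rw [Finset.sum_eq_zero fun v _ => ?_, add_zero, haf w hlt]
      rw [hpv v w (v.2.symm ▸ hlt.le), if_neg]
      intro hwv
      rw [hwv, v.2] at hlt
      exact lt_irrefl _ hlt
    · rw [Finset.sum_eq_single (show List.Vector t k from ⟨w, heq⟩) (fun v _ hv => ?_)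
        (fun h => absurd (Finset.mem_univ _) h)]
      · show a.coeff w + (p ⟨w, heq⟩).coeff w = f.coeff w
        rw [hpv ⟨w, heq⟩ w le_rfl]
        show a.coeff w + (if w = w then f.coeff w - a.coeff w else 0) = f.coeff w
        rw [if_pos rfl, add_sub_cancel]
      rw [hpv v w (le_of_eq (heq.trans v.2.symm)), if_neg]
      exact fun hwv => hv (Subtype.ext hwv.symm)

/-- Density from a non-inner deformation of a generating family. -/
theorem dense_of_deform [FiniteDimensional K A] [Fintype t] [DecidableEq t]
    (hcent : ∀ z : A, (∀ a, a * z = z * a) → z ∈ (algebraMap K A).range)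
    {I : Type*} (c : I → A) (V : I → t → A) (hgen : Algebra.adjoin K (Set.range c) = ⊤)
    (hout : ∀ (lam : t → K) (w : A), (∀ i, ∑ j, lam j • V i j = c i * w - w * c i) → lam = 0)
    (S : Subring (Ser A t)) (hK : ∀ k : K, C (algebraMap K A k) ∈ S)
    (a : I → Ser A t) (ha : ∀ i, a i ∈ S) (h0 : ∀ i, (a i).coeff [] = c i)
    (h1 : ∀ i j, (a i).coeff [j] = V i j) : Dense S := by
  let S₂ : Submodule K (A × (t → A)) :=
    { carrier := {p | ∃ f ∈ S, f.coeff [] = p.1 ∧ ∀ j, f.coeff [j] = p.2 j}
      zero_mem' := ⟨0, S.zero_mem, rfl, fun _ => rfl⟩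
      add_mem' := by
        rintro p q ⟨f, hf, hf0, hf1⟩ ⟨g, hg, hg0, hg1⟩
        exact ⟨f + g, S.add_mem hf hg, by simp [hf0, hg0], fun j => by simp [hf1, hg1]⟩
      smul_mem' := by
        rintro k p ⟨f, hf, hf0, hf1⟩
        refine ⟨C (algebraMap K A k) * f, S.mul_mem (hK k) hf, ?_, fun j => ?_⟩
        · rw [coeff_C_mul, hf0, Prod.smul_fst, Algebra.smul_def]
        · rw [coeff_C_mul, hf1, Prod.smul_snd, Pi.smul_apply, Algebra.smul_def] }
  have htop : S₂ = ⊤ := Deform.linear_part_top hcent c V hgen hout S₂
    ⟨1, S.one_mem, by simp [coeff_one, const], fun j => by simp [coeff_one, const]⟩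
    (fun i => ⟨a i, ha i, h0 i, h1 i⟩) (by
      rintro p ⟨f, hf, hf0, hf1⟩ q ⟨g, hg, hg0, hg1⟩
      refine ⟨f * g, S.mul_mem hf hg, by simp [hf0, hg0], fun j => ?_⟩
      rw [coeff_mul_cons, hf0, hg1, coeff_mul_nil, coeff_tail, hf1, hg0])
  refine dense_of_linear S fun b m => ?_
  have : (b, m) ∈ S₂ := by rw [htop]; trivial
  exact this

end Vale.Agent.P199.Density
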