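import Mathlib
import Vale.Agent.P199.Basic
import Vale.Agent.P199.Density
import Vale.Agent.P199.Closed

/-!
P199: dense subalgebras of series rings (on the shared definitions): criteria, consequences,
and transport along continuous homomorphisms, also when the target is over Laurent series.
-/

open Finset

namespace Vale.Agent.P199.DensityBasic

open Series

variable {A : Type*} [Ring A] {ι : Type*}

/-- A set of series is dense if it meets every truncation class. -/
def Dense (S : Set (Ser A ι)) : Prop :=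
  ∀ (k : ℕ) (f : Ser A ι), ∃ a ∈ S, Ser.LowVanish k (a - f)

theorem Dense.mono {S T : Set (Ser A ι)} (hS : Dense S) (h : S ⊆ T) : Dense T := fun k f => by
  obtain ⟨a, ha, haf⟩ := hS k f
  exact ⟨a, h ha, haf⟩

theorem eq_of_sub_lowVanish {k : ℕ} {f g : Ser A ι} (h : Ser.LowVanish k (f - g)) (w : List ι)
    (hw : w.length < k) : f.coeff w = g.coeff w := by
  simpa [sub_eq_zero] using h w hw

theorem coeff_mul_congr' {f f' g g' : Ser A ι} {k : ℕ} (w : List ι) (hw : w.length < k)
    (hf : ∀ u : List ι, u.length < k → f.coeff u = f'.coeff u)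
    (hg : ∀ u : List ι, u.length < k → g.coeff u = g'.coeff u) :
    (f * g).coeff w = (f' * g').coeff w := by
  exact Ser.coeff_mul_congr w (fun u hu => hf u (hu.trans_lt hw)) fun u hu => hg u (hu.trans_lt hw)

theorem algebraMap_eq' {R : Type*} [CommRing R] [Algebra R A] (r : R) :
    algebraMap R (Ser A ι) r = Ser.C (algebraMap R A r) := rfl

/-- The elements agreeing with a subring below degree `k`. -/
def closureUpTo (S : Subring (Ser A ι)) (k : ℕ) : Subring (Ser A ι) where
  carrier := {f | ∃ a ∈ S, Ser.LowVanish k (a - f)}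
  mul_mem' := by
    rintro f g ⟨a, ha, hf⟩ ⟨b, hb, hg⟩
    refine ⟨a * b, S.mul_mem ha hb, fun w hw => ?_⟩
    rw [Ser.coeff_sub, coeff_mul_congr' w hw (fun u hu => eq_of_sub_lowVanish hf u hu)
      (fun u hu => eq_of_sub_lowVanish hg u hu), sub_self]
  one_mem' := ⟨1, S.one_mem, fun w _ => by simp⟩
  add_mem' := by
    rintro f g ⟨a, ha, hf⟩ ⟨b, hb, hg⟩
    refine ⟨a + b, S.add_mem ha hb, fun w hw => ?_⟩
    simp [eq_of_sub_lowVanish hf w hw, eq_of_sub_lowVanish hg w hw]
  zero_mem' := ⟨0, S.zero_mem, fun w _ => by simp⟩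
  neg_mem' := by
    rintro f ⟨a, ha, hf⟩
    refine ⟨-a, S.neg_mem ha, fun w hw => ?_⟩
    simp [eq_of_sub_lowVanish hf w hw]

theorem dense_of_seriesDense {S : Subring (Ser A ι)} (h : Ser.Dense S) :
    Dense (S : Set (Ser A ι)) := fun k f => by
  obtain ⟨a, ha, haf⟩ := h k f
  exact ⟨a, ha, fun w hw => by simp [haf w hw]⟩

/-- Constants and variables generate a dense subring. -/
theorem dense_of_gen [Fintype ι] [DecidableEq ι] (S : Subring (Ser A ι))
    (hC : ∀ c : A, Ser.C c ∈ S) (hX : ∀ a, Ser.X a ∈ S) : Dense (S : Set (Ser A ι)) :=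
  dense_of_seriesDense (Ser.dense_of_gen S hC hX)

/-- Density from a non-inner deformation of a generating family. -/
theorem dense_of_deform {K A : Type*} [Field K] [DivisionRing A] [Algebra K A]
    [FiniteDimensional K A] [Fintype ι] [DecidableEq ι]
    (hcent : ∀ z : A, (∀ a, a * z = z * a) → z ∈ (algebraMap K A).range)
    {I : Type*} (c : I → A) (V : I → ι → A) (hgen : Algebra.adjoin K (Set.range c) = ⊤)
    (hout : ∀ (lam : ι → K) (w : A), (∀ i, ∑ j, lam j • V i j = c i * w - w * c i) → lam = 0)
    (S : Subalgebra K (Ser A ι)) (a : I → Ser A ι) (ha : ∀ i, a i ∈ S)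
    (h0 : ∀ i, (a i).coeff [] = c i) (h1 : ∀ i j, (a i).coeff [j] = V i j) :
    Dense (S : Set (Ser A ι)) :=
  dense_of_seriesDense
    (Density.dense_of_deform hcent c V hgen hout S.toSubring (fun k => S.algebraMap_mem k) a ha h0 h1)

/-- Density is inherited along a homomorphism which is continuous for the degree, if the target
subring together with the image generates a dense subring. -/
theorem dense_of_map {B : Type*} [Ring B] {κ : Type*} {S : Set (Ser A ι)} (hS : Dense S)
    (Φ : Ser A ι →+* Ser B κ)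
    (hΦ : ∀ k, ∃ k', ∀ f, Ser.LowVanish k' f → Ser.LowVanish k (Φ f))
    (T : Subring (Ser B κ)) (hST : ∀ a ∈ S, Φ a ∈ T)
    (hT : Dense ((T ⊔ Φ.range : Subring (Ser B κ)) : Set (Ser B κ))) :
    Dense (T : Set (Ser B κ)) := by
  intro k
  have hle : T ⊔ Φ.range ≤ closureUpTo T k := by
    refine sup_le (fun a ha => ⟨a, ha, fun w _ => by simp⟩) ?_
    rintro _ ⟨f, rfl⟩
    obtain ⟨k', hk'⟩ := hΦ k
    obtain ⟨a, ha, haf⟩ := hS k' f
    exact ⟨Φ a, hST a ha, by rw [← map_sub]; exact hk' _ haf⟩
  intro f
  obtain ⟨g, hg, hgf⟩ := hT k f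
  obtain ⟨a, ha, hag⟩ := hle hg
  refine ⟨a, ha, fun w hw => ?_⟩
  simp [eq_of_sub_lowVanish hag w hw, eq_of_sub_lowVanish hgf w hw]

/-- Density is inherited along a homomorphism into series over a finite-dimensional algebra over
Laurent series, if the coordinates of the images of deep elements have high order. -/
theorem dense_of_map_laurent {F : Type*} [Field F] {B : Type*} [Ring B]
    [Algebra (LaurentSeries F) B] {P : Type*} [Fintype P] (bB : Module.Basis P (LaurentSeries F) B)
    {κ : Type*} [Fintype κ] [DecidableEq κ] {S : Set (Ser A ι)} (hS : Dense S)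
    (Φ : Ser A ι →+* Ser B κ)
    (hΦ : ∀ (k : ℕ) (N : ℤ), ∃ n, ∀ f, Ser.LowVanish n f →
      ∀ w : List κ, w.length < k → ∀ p, (N : WithTop ℤ) ≤ (bB.repr ((Φ f).coeff w) p).orderTop)
    (T : Subalgebra (LaurentSeries F) (Ser B κ)) (hST : ∀ a ∈ S, Φ a ∈ T)
    (hT : Dense ((T.toSubring ⊔ Φ.range : Subring (Ser B κ)) : Set (Ser B κ))) :
    Dense (T : Set (Ser B κ)) := by
  classical
  intro k
  let Wk : Finset (List κ) := (Finset.range k).biUnion fun n => words κ n
  have hWk : ∀ w : List κ, w.length < k → w ∈ Wk := fun w hw => by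
    simp only [Wk, Finset.mem_biUnion, Finset.mem_range, words, Finset.mem_image,
      Finset.mem_univ, true_and]
    exact ⟨w.length, hw, fun i => w.get i, List.ofFn_get w⟩
  have hWk' : ∀ w ∈ Wk, w.length < k := fun w hw => by
    simp only [Wk, Finset.mem_biUnion, Finset.mem_range, words, Finset.mem_image,
      Finset.mem_univ, true_and] at hw
    obtain ⟨n, hn, v, rfl⟩ := hw
    simpa using hn
  let co : Ser B κ →ₗ[LaurentSeries F] (Wk × P → LaurentSeries F) :=
    { toFun := fun f x => bB.repr (f.coeff x.1) x.2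
      map_add' := fun f g => by funext x; simp
      map_smul' := fun c f => by
        funext x
        rw [RingHom.id_apply, Pi.smul_apply, Algebra.smul_def, algebraMap_eq', Ser.coeff_C_mul,
          ← Algebra.smul_def, map_smul, Finsupp.smul_apply] }
  have hco : ∀ f g, co f = co g → ∀ w : List κ, w.length < k → f.coeff w = g.coeff w := by
    intro f g h w hw
    refine bB.repr.injective (Finsupp.ext fun p => ?_)
    exact congrFun h (⟨w, hWk w hw⟩, p)
  have hle : T.toSubring ⊔ Φ.range ≤ closureUpTo T.toSubring k := by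
    refine sup_le (fun a ha => ⟨a, ha, fun w _ => by simp⟩) ?_
    rintro _ ⟨f, rfl⟩
    have hmem : co (Φ f) ∈ (Subalgebra.toSubmodule T).map co := by
      refine Closed.mem_of_forall_approx _ _ fun N => ?_
      obtain ⟨n, hn⟩ := hΦ k N
      obtain ⟨a, ha, haf⟩ := hS n f
      refine ⟨co (Φ a), Submodule.mem_map_of_mem (hST a ha), fun x => ?_⟩
      rw [← Pi.sub_apply, ← map_sub, ← map_sub]
      refine hn _ (fun w hw => ?_) _ (hWk' _ x.1.2) x.2
      rw [Ser.coeff_sub, eq_of_sub_lowVanish haf w hw, sub_self]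
    obtain ⟨a, ha, e⟩ := hmem
    refine ⟨a, ha, fun w hw => ?_⟩
    rw [Ser.coeff_sub, hco _ _ e w hw, sub_self]
  intro f
  obtain ⟨g, hg, hgf⟩ := hT k f
  obtain ⟨a, ha, hag⟩ := hle hg
  refine ⟨a, ha, fun w hw => ?_⟩
  simp [eq_of_sub_lowVanish hag w hw, eq_of_sub_lowVanish hgf w hw]

/-- A dense set is not in the span of a finite family. -/
theorem not_finite_of_dense {K : Type*} [Field K] [Algebra K A] [Nontrivial A] [Nonempty ι]
    (S : Subalgebra K (Ser A ι)) (h : Dense (S : Set (Ser A ι))) : ¬ Module.Finite K S := by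
  classical
  intro hfin
  let a₀ : ι := Classical.arbitrary ι
  let n := Module.finrank K S
  let t : Fin (n + 1) → Ser A ι := fun j => ⟨fun w => if w = List.replicate j.val a₀ then 1 else 0⟩
  choose e he hea using fun j => h (n + 1) (t j)
  have hli : LinearIndependent K (fun j => (⟨e j, he j⟩ : S)) := by
    rw [Fintype.linearIndependent_iff]
    intro g hg j₀
    have hsum : ∑ j, g j • e j = 0 := by
      have := congrArg S.val hg
      simpa using this
    have h2 := congrArg (fun f => Ser.coeff f (List.replicate j₀.val a₀)) hsum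
    simp only [Ser.coeff_sum, Algebra.smul_def, algebraMap_eq', Ser.coeff_C_mul, Ser.coeff_zero] at h2
    rw [Finset.sum_eq_single j₀] at h2
    · rw [eq_of_sub_lowVanish (hea j₀) _ (by simp; omega)] at h2
      have h3 : algebraMap K A (g j₀) = 0 := by simpa [t] using h2
      exact (algebraMap K A).injective (h3.trans (map_zero _).symm)
    · intro j _ hj
      rw [eq_of_sub_lowVanish (hea j) _ (by simp; omega)]
      have : List.replicate j₀.val a₀ ≠ List.replicate j.val a₀ := fun hc =>
        hj (Fin.ext (by simpa using (congrArg List.length hc).symm))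
      simp [t, this]
    · simp
  have := hli.fintype_card_le_finrank
  rw [Fintype.card_fin] at this
  omega

end Vale.Agent.P199.DensityBasic
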