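import Mathlib

/-!
# P199: the symbol algebra of a stage

Over the lexicographic Hahn series field `H = F((ξ,η))` the clock and the shift generate, over
`K2 = K((ξ^q,η^q))`, a symbol algebra; tensored with a split division algebra `D` it is the set
`symD` of matrices whose coefficient at the exponent `γ` is `io d ⊗ twist γ`.  It has no zero
divisors, is finite over `K2`, and spans all matrices over `H`.
-/

noncomputable section

open scoped Kronecker
open HahnSeries Finset

namespace Vale.Agent.P199

/-- The exponents: two integers ordered lexicographically. -/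
abbrev Exp2 := ℤ ×ₗ ℤ

namespace Exp2

/-- The first coordinate modulo `q`. -/
def fstMod (q : ℕ) (γ : Exp2) : ZMod q := ((ofLex γ).1 : ZMod q)

/-- The second coordinate modulo `q`. -/
def sndMod (q : ℕ) (γ : Exp2) : ZMod q := ((ofLex γ).2 : ZMod q)

theorem fstMod_add (q : ℕ) (α β : Exp2) : fstMod q (α + β) = fstMod q α + fstMod q β := by
  simp [fstMod]

theorem sndMod_add (q : ℕ) (α β : Exp2) : sndMod q (α + β) = sndMod q α + sndMod q β := by
  simp [sndMod]

theorem fstMod_neg (q : ℕ) (α : Exp2) : fstMod q (-α) = -fstMod q α := by simp [fstMod]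

theorem sndMod_neg (q : ℕ) (α : Exp2) : sndMod q (-α) = -sndMod q α := by simp [sndMod]

/-- Multiplication by `q`. -/
def scale (q : ℕ) : Exp2 →+ Exp2 where
  toFun γ := q • γ
  map_zero' := smul_zero _
  map_add' := smul_add _

theorem scale_apply (q : ℕ) (γ : Exp2) : scale q γ = q • γ := rfl

theorem scale_injective (q : ℕ) [NeZero q] : Function.Injective (scale q) := fun a b h => by
  have h' : q • a = q • b := h
  rcases lt_trichotomy a b with hab | hab | hab
  · exact absurd h' (nsmul_lt_nsmul_right (NeZero.ne q) hab).ne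
  · exact hab
  · exact absurd h'.symm (nsmul_lt_nsmul_right (NeZero.ne q) hab).ne

theorem scale_le_iff (q : ℕ) [NeZero q] (a b : Exp2) : scale q a ≤ scale q b ↔ a ≤ b := by
  refine ⟨fun h => ?_, fun h => nsmul_le_nsmul_right h q⟩
  by_contra hab
  exact absurd h (not_le.2 (nsmul_lt_nsmul_right (NeZero.ne q) (not_le.1 hab)))

theorem fstMod_scale (q : ℕ) (γ : Exp2) : fstMod q (scale q γ) = 0 := by
  simp [fstMod, scale_apply]

theorem sndMod_scale (q : ℕ) (γ : Exp2) : sndMod q (scale q γ) = 0 := by
  simp [sndMod, scale_apply]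

/-- The reduced representative of a pair of residues. -/
def rep {q : ℕ} (ij : ZMod q × ZMod q) : Exp2 := toLex ((ij.1.val : ℤ), (ij.2.val : ℤ))

theorem fstMod_rep {q : ℕ} [NeZero q] (ij : ZMod q × ZMod q) : fstMod q (rep ij) = ij.1 := by
  simp [fstMod, rep]

theorem sndMod_rep {q : ℕ} [NeZero q] (ij : ZMod q × ZMod q) : sndMod q (rep ij) = ij.2 := by
  simp [sndMod, rep]

theorem exists_scale_add_rep (q : ℕ) [NeZero q] (γ : Exp2) :
    ∃ g, scale q g + rep (fstMod q γ, sndMod q γ) = γ := by
  refine ⟨toLex ((ofLex γ).1 / q, (ofLex γ).2 / q), ?_⟩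
  apply ofLex.injective
  ext <;> simp [scale_apply, rep, fstMod, sndMod, ZMod.coe_intCast, Int.mul_ediv_add_emod]

end Exp2

open Exp2

section Twist

variable (q : ℕ) [NeZero q] {F : Type*} [Field F] (ζ : F)

/-- The character with value `ζ` at `1`. -/
def chi (x : ZMod q) : F := ζ ^ x.val

variable {q ζ}

omit [NeZero q] in
theorem chi_zero : chi q ζ 0 = 1 := by simp [chi]

theorem chi_add (hζ : ζ ^ q = 1) (x y : ZMod q) : chi q ζ (x + y) = chi q ζ x * chi q ζ y := by
  rw [chi, chi, chi, ← _root_.pow_add, ZMod.val_add, ← pow_eq_pow_mod _ hζ]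

theorem chi_ne_zero (hζ : ζ ^ q = 1) (x : ZMod q) : chi q ζ x ≠ 0 := by
  refine pow_ne_zero _ fun h => ?_
  rw [h, zero_pow (NeZero.ne q)] at hζ
  exact zero_ne_one hζ

variable (q ζ)

/-- Clock to the power `a` times shift to the power `b`, at the exponent `(a,b)`. -/
def twist (γ : Exp2) : Matrix (ZMod q) (ZMod q) F :=
  Matrix.of fun i k => if k = i + sndMod q γ then chi q ζ (fstMod q γ * i) else 0

variable {q ζ}

omit [NeZero q] in
theorem twist_apply (γ : Exp2) (i k : ZMod q) :
    twist q ζ γ i k = if k = i + sndMod q γ then chi q ζ (fstMod q γ * i) else 0 := rfl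

omit [NeZero q] in
theorem twist_congr {α β : Exp2} (h1 : fstMod q α = fstMod q β) (h2 : sndMod q α = sndMod q β) :
    twist q ζ α = twist q ζ β := by
  ext i k; rw [twist_apply, twist_apply, h1, h2]

omit [NeZero q] in
theorem twist_scale (γ : Exp2) : twist q ζ (scale q γ) = 1 := by
  ext i k
  simp [twist_apply, fstMod_scale, sndMod_scale, chi_zero, Matrix.one_apply, eq_comm]

omit [NeZero q] in
theorem twist_zero : twist q ζ 0 = 1 := by
  rw [← map_zero (scale q), twist_scale]

theorem twist_mul (hζ : ζ ^ q = 1) (α β : Exp2) :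
    twist q ζ α * twist q ζ β = chi q ζ (fstMod q β * sndMod q α) • twist q ζ (α + β) := by
  ext i k
  rw [Matrix.mul_apply, Finset.sum_eq_single (i + sndMod q α)]
  · rw [Matrix.smul_apply, twist_apply, twist_apply, twist_apply, fstMod_add, sndMod_add,
      if_pos rfl, smul_eq_mul]
    by_cases h : k = i + sndMod q α + sndMod q β
    · rw [if_pos h, if_pos (by rw [h, add_assoc]), ← chi_add hζ, ← chi_add hζ]
      congr 1
      ring
    · rw [if_neg h, if_neg (by rwa [← add_assoc]), mul_zero, mul_zero]
  · intro j _ hj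
    rw [twist_apply, if_neg hj, zero_mul]
  · intro h
    exact absurd (mem_univ _) h

theorem twist_mul_neg (hζ : ζ ^ q = 1) (α : Exp2) :
    ∃ c : F, c ≠ 0 ∧ twist q ζ α * twist q ζ (-α) = c • 1 :=
  ⟨_, chi_ne_zero hζ _, by rw [twist_mul hζ, add_neg_cancel, twist_zero]⟩

/-- The twists span all matrices. -/
theorem span_twist (hζ : IsPrimitiveRoot ζ q) :
    Submodule.span F (Set.range fun ij : ZMod q × ZMod q => twist q ζ (rep ij)) = ⊤ := by
  rw [eq_top_iff]
  intro M _
  rw [Matrix.matrix_eq_sum_single M]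
  refine Submodule.sum_mem _ fun i₀ _ => Submodule.sum_mem _ fun k₀ _ => ?_
  have hq : (q : F) ≠ 0 := hζ.neZero'.out
  have key : Matrix.single i₀ k₀ (M i₀ k₀) =
      ∑ a : ZMod q, (M i₀ k₀ * (q : F)⁻¹ * (chi q ζ (a * i₀))⁻¹) •
        twist q ζ (rep (a, k₀ - i₀)) := by
    ext i k
    rw [Matrix.sum_apply]
    simp only [Matrix.smul_apply, twist_apply, fstMod_rep, sndMod_rep, smul_eq_mul]
    by_cases hk : k = i + (k₀ - i₀)
    · simp only [if_pos hk]
      by_cases hi : i = i₀
      · subst hi
        have hk' : k = k₀ := by rw [hk]; abel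
        subst hk'
        rw [Matrix.single_apply_same]
        simp [mul_assoc, inv_mul_cancel₀ (chi_ne_zero hζ.pow_eq_one _)]
        field_simp
      · rw [Matrix.single_apply_of_row_ne (Ne.symm hi)]
        have hd : ∀ a : ZMod q, (chi q ζ (a * i₀))⁻¹ * chi q ζ (a * i) = chi q ζ (a * (i - i₀)) := by
          intro a
          rw [inv_mul_eq_iff_eq_mul₀ (chi_ne_zero hζ.pow_eq_one _), ← chi_add hζ.pow_eq_one]
          congr 1
          ring
        have hsum : ∑ a : ZMod q, chi q ζ (a * (i - i₀)) = 0 := by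
          have hne : chi q ζ (i - i₀) ≠ 1 := by
            intro h
            have h0 := hζ.dvd_of_pow_eq_one _ h
            have h1 := Nat.eq_zero_of_dvd_of_lt h0 (ZMod.val_lt _)
            exact hi (sub_eq_zero.1 ((ZMod.val_eq_zero _).1 h1))
          have hshift := Fintype.sum_equiv (Equiv.addRight (1 : ZMod q))
            (fun a => chi q ζ ((a + 1) * (i - i₀))) (fun a => chi q ζ (a * (i - i₀))) (fun a => rfl)
          simp only [add_mul, one_mul, chi_add hζ.pow_eq_one, ← Finset.sum_mul] at hshift
          by_contra h0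
          exact hne (mul_left_cancel₀ h0 (hshift.trans (mul_one _).symm))
        simp only [mul_assoc, hd, ← Finset.mul_sum, hsum, mul_zero]
    · simp only [if_neg hk, mul_zero, Finset.sum_const_zero]
      rw [Matrix.single_apply, if_neg]
      rintro ⟨rfl, rfl⟩
      exact hk (by abel)
  rw [key]
  exact Submodule.sum_mem _ fun a _ =>
    Submodule.smul_mem _ _ (Submodule.subset_span ⟨(a, k₀ - i₀), rfl⟩)

end Twist

/-! ### Coefficient matrices -/

section Coeff

variable {F : Type*} [Field F] {ν : Type*} [Fintype ν] [DecidableEq ν]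

/-- The coefficient matrix at an exponent. -/
def cf (M : Matrix ν ν (HahnSeries Exp2 F)) (γ : Exp2) : Matrix ν ν F :=
  M.map fun x => x.coeff γ

/-- The exponents occurring in a matrix. -/
def msupp (M : Matrix ν ν (HahnSeries Exp2 F)) : Set Exp2 := {γ | cf M γ ≠ 0}

omit [Fintype ν] [DecidableEq ν] in
theorem cf_add (M N : Matrix ν ν (HahnSeries Exp2 F)) (γ : Exp2) :
    cf (M + N) γ = cf M γ + cf N γ := by
  ext i j; simp [cf]

omit [Fintype ν] [DecidableEq ν] in
theorem cf_zero (γ : Exp2) : cf (0 : Matrix ν ν (HahnSeries Exp2 F)) γ = 0 := by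
  ext i j; simp [cf]

omit [Fintype ν] [DecidableEq ν] in
theorem cf_ext {M N : Matrix ν ν (HahnSeries Exp2 F)} (h : ∀ γ, cf M γ = cf N γ) : M = N := by
  ext i j γ
  exact congrFun (congrFun (h γ) i) j

theorem cf_scalar (c : HahnSeries Exp2 F) (γ : Exp2) :
    cf (Matrix.scalar ν c) γ = c.coeff γ • 1 := by
  ext i j
  by_cases h : i = j <;> simp [cf, h]

omit [DecidableEq ν] in
theorem msupp_isPWO (M : Matrix ν ν (HahnSeries Exp2 F)) : (msupp M).IsPWO := by
  have h : msupp M ⊆ ⋃ p : ν × ν, (M p.1 p.2).support := by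
    intro γ hγ
    by_contra hn
    simp only [Set.mem_iUnion, HahnSeries.mem_support, not_exists, not_not] at hn
    exact hγ (Matrix.ext fun i j => hn (i, j))
  refine ((Finset.isPWO_bUnion (Finset.univ : Finset (ν × ν))
    (f := fun p => (M p.1 p.2).support)).2 fun p _ => (M p.1 p.2).isPWO_support).mono ?_
  exact h.trans (by simp)

omit [DecidableEq ν] in
theorem cf_mul (M N : Matrix ν ν (HahnSeries Exp2 F)) (γ : Exp2) :
    cf (M * N) γ = ∑ ab ∈ Finset.antidiagonal (msupp_isPWO M) (msupp_isPWO N) γ,
      cf M ab.1 * cf N ab.2 := by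
  classical
  ext i j
  simp only [cf, Matrix.map_apply, Matrix.mul_apply, Matrix.sum_apply, HahnSeries.coeff_sum]
  rw [Finset.sum_comm]
  refine Finset.sum_congr rfl fun k _ => ?_
  rw [HahnSeries.coeff_mul]
  refine Finset.sum_subset (fun ab h => ?_) fun ab h hn => ?_
  · simp only [Finset.mem_antidiagonal, HahnSeries.mem_support] at h ⊢
    exact ⟨fun h0 => h.1 (congrFun (congrFun h0 i) k), fun h0 => h.2.1 (congrFun (congrFun h0 k) j),
      h.2.2⟩
  · simp only [Finset.mem_antidiagonal, HahnSeries.mem_support] at h hn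
    by_contra h0
    exact hn ⟨left_ne_zero_of_mul h0, right_ne_zero_of_mul h0, h.2.2⟩

omit [DecidableEq ν] in
/-- The least exponent of a product. -/
theorem exists_cf_mul_ne_zero {M N : Matrix ν ν (HahnSeries Exp2 F)} (hM : M ≠ 0) (hN : N ≠ 0)
    (h : ∀ a b, cf M a ≠ 0 → cf N b ≠ 0 → cf M a * cf N b ≠ 0) : M * N ≠ 0 := by
  classical
  have ne : ∀ {P : Matrix ν ν (HahnSeries Exp2 F)}, P ≠ 0 → (msupp P).Nonempty := by
    intro P hP
    by_contra hn
    exact hP (cf_ext fun γ => (not_not.1 fun hγ => hn ⟨γ, hγ⟩).trans (cf_zero γ).symm)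
  obtain ⟨α, hα, hαmin⟩ : ∃ α ∈ msupp M, ∀ a ∈ msupp M, ¬ a < α :=
    ⟨_, (msupp_isPWO M).isWF.min_mem (ne hM), fun a ha =>
      (msupp_isPWO M).isWF.not_lt_min (ne hM) ha⟩
  obtain ⟨β, hβ, hβmin⟩ : ∃ β ∈ msupp N, ∀ b ∈ msupp N, ¬ b < β :=
    ⟨_, (msupp_isPWO N).isWF.min_mem (ne hN), fun b hb =>
      (msupp_isPWO N).isWF.not_lt_min (ne hN) hb⟩
  intro h0
  have hc := cf_mul M N (α + β)
  rw [h0, cf_zero, Finset.sum_eq_single (α, β)] at hc
  · exact h α β (show cf M α ≠ 0 from hα) (show cf N β ≠ 0 from hβ) hc.symm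
  · rintro ⟨a, b⟩ hab hne
    simp only [Finset.mem_antidiagonal] at hab
    obtain ⟨ha, hb, hsum⟩ := hab
    have h1 : α ≤ a := not_lt.1 (hαmin a ha)
    have h2 : β ≤ b := not_lt.1 (hβmin b hb)
    rcases h1.lt_or_eq with h1 | rfl
    · exact absurd hsum (add_lt_add_of_lt_of_le h1 h2).ne'
    · have hbb : b = β := add_left_cancel hsum
      exact (hne (Prod.ext rfl hbb)).elim
  · intro hn
    exact (hn (Finset.mem_antidiagonal.2 ⟨hα, hβ, rfl⟩)).elim

end Coeff

/-! ### The algebra -/

variable (q : ℕ) [NeZero q] {K F : Type} [Field K] [Field F] [Algebra K F]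

/-- The base field `K((ξ,η))` into `F((ξ,η))`, sending `ξ` to `ξ^q` and `η` to `η^q`. -/
def baseHom : HahnSeries Exp2 K →+* HahnSeries Exp2 F :=
  (embDomainRingHom (scale q) (scale_injective q) (scale_le_iff q)).comp
    { toFun := fun x => x.map (algebraMap K F)
      map_one' := HahnSeries.map_one (algebraMap K F).toMonoidWithZeroHom
      map_mul' := fun _ _ => HahnSeries.map_mul (algebraMap K F).toNonUnitalRingHom
      map_zero' := by ext; simp
      map_add' := fun x y => by ext; simp }

theorem baseHom_coeff_scale (x : HahnSeries Exp2 K) (g : Exp2) :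
    (baseHom q (F := F) x).coeff (scale q g) = algebraMap K F (x.coeff g) :=
  embDomain_mk_coeff (scale_injective q) (scale_le_iff q)

theorem baseHom_coeff_of_notMem (x : HahnSeries Exp2 K) {γ : Exp2} (h : γ ∉ Set.range (scale q)) :
    (baseHom q (F := F) x).coeff γ = 0 :=
  embDomain_of_notMem_range h

variable (K F)

/-- The centre `K((ξ^q,η^q))` of the symbol algebra. -/
def baseField : Subfield (HahnSeries Exp2 F) := (baseHom q (K := K) (F := F)).fieldRange

variable {K F}

/-- The base field is a copy of `K((ξ,η))`. -/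
def baseEquiv : HahnSeries Exp2 K ≃+* baseField q K F :=
  RingEquiv.ofBijective (baseHom q (K := K) (F := F)).rangeRestrictField
    ⟨fun _ _ h => (baseHom q (K := K) (F := F)).injective (congrArg Subtype.val h),
      fun ⟨_, x, hx⟩ => ⟨x, Subtype.ext hx⟩⟩

variable {n : Type} [Fintype n] [DecidableEq n] {D : Type} [DivisionRing D] [Algebra K D]
  (io : D →ₐ[K] Matrix n n F) (ζ : F)

/-- The allowed coefficient matrices at an exponent. -/
def coefMap (γ : Exp2) : D →ₗ[K] Matrix (n × ZMod q) (n × ZMod q) F where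
  toFun d := io d ⊗ₖ twist q ζ γ
  map_add' a b := by rw [map_add, Matrix.add_kronecker]
  map_smul' c a := by rw [map_smul, Matrix.smul_kronecker]; rfl

omit [NeZero q] in
theorem coefMap_apply (γ : Exp2) (d : D) : coefMap q io ζ γ d = io d ⊗ₖ twist q ζ γ := rfl

variable {q io ζ} (hζ : IsPrimitiveRoot ζ q)

include hζ in
theorem coefMap_ne_zero (γ : Exp2) {d : D} (hd : d ≠ 0) (hn : Nonempty n) :
    coefMap q io ζ γ d ≠ 0 := by
  intro h
  obtain ⟨c, hc, hT⟩ := twist_mul_neg hζ.pow_eq_one γ
  have h1 : io d * io d⁻¹ = 1 := by rw [← map_mul, mul_inv_cancel₀ hd, map_one]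
  have h2 : coefMap q io ζ γ d * coefMap q io ζ (-γ) d⁻¹ = c • 1 := by
    rw [coefMap_apply, coefMap_apply, ← Matrix.mul_kronecker_mul, h1, hT, Matrix.kronecker_smul,
      Matrix.one_kronecker_one]
  rw [h, zero_mul] at h2
  obtain ⟨i⟩ := hn
  exact hc (by simpa using (congrFun (congrFun h2.symm (i, 0)) (i, 0)))

variable (io)

include hζ in
theorem coefMap_mul (ζK : K) (hK : algebraMap K F ζK = ζ) (α β : Exp2) (a b : D) :
    coefMap q io ζ α a * coefMap q io ζ β b ∈ LinearMap.range (coefMap q io ζ (α + β)) := by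
  refine ⟨ζK ^ (fstMod q β * sndMod q α).val • (a * b), ?_⟩
  rw [map_smul, coefMap_apply, coefMap_apply, coefMap_apply, ← Matrix.mul_kronecker_mul,
    twist_mul hζ.pow_eq_one, Matrix.kronecker_smul, map_mul, algebra_compatible_smul F, map_pow, hK]
  rfl

variable {io}

/-- The symbol algebra over `D`: coefficient at `γ` in `io D ⊗ twist γ`. -/
def symD (ζK : K) (hK : algebraMap K F ζK = ζ) (hζ : IsPrimitiveRoot ζ q)
    (io : D →ₐ[K] Matrix n n F) :
    Subalgebra (baseField q K F) (Matrix (n × ZMod q) (n × ZMod q) (HahnSeries Exp2 F)) where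
  carrier := {M | ∀ γ, cf M γ ∈ LinearMap.range (coefMap q io ζ γ)}
  add_mem' {M N} hM hN γ := by rw [cf_add]; exact Submodule.add_mem _ (hM γ) (hN γ)
  mul_mem' {M N} hM hN γ := by
    rw [cf_mul]
    refine Submodule.sum_mem _ fun ab hab => ?_
    obtain ⟨a, ha⟩ := hM ab.1
    obtain ⟨b, hb⟩ := hN ab.2
    rw [← ha, ← hb, ← (Finset.mem_antidiagonal.1 hab).2.2]
    exact coefMap_mul io hζ ζK hK _ _ a b
  algebraMap_mem' := by
    rintro ⟨c, x, rfl⟩ γ
    have e : cf (algebraMap (baseField q K F) (Matrix (n × ZMod q) (n × ZMod q)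
        (HahnSeries Exp2 F)) ⟨baseHom q x, x, rfl⟩) γ = (baseHom q (F := F) x).coeff γ • 1 :=
      cf_scalar _ γ
    rw [e]
    by_cases h : γ ∈ Set.range (scale q)
    · obtain ⟨g, rfl⟩ := h
      refine ⟨x.coeff g • 1, ?_⟩
      rw [map_smul, coefMap_apply, map_one, twist_scale, Matrix.one_kronecker_one,
        baseHom_coeff_scale, algebraMap_smul]
    · rw [baseHom_coeff_of_notMem q x h, zero_smul]
      exact zero_mem _

variable {ζK : K} {hK : algebraMap K F ζK = ζ}

theorem mem_symD {M : Matrix (n × ZMod q) (n × ZMod q) (HahnSeries Exp2 F)} :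
    M ∈ symD ζK hK hζ io ↔ ∀ γ, cf M γ ∈ LinearMap.range (coefMap q io ζ γ) := Iff.rfl

/-- A monomial of the symbol algebra. -/
def monom (q : ℕ) [NeZero q] (io : D →ₐ[K] Matrix n n F) (ζ : F) (r : Exp2) (d : D) :
    Matrix (n × ZMod q) (n × ZMod q) (HahnSeries Exp2 F) :=
  (coefMap q io ζ r d).map (HahnSeries.single r)

theorem cf_monom (r : Exp2) (d : D) (γ : Exp2) :
    cf (monom q io ζ r d) γ = if γ = r then coefMap q io ζ r d else 0 := by
  ext i j
  by_cases h : γ = r <;> simp [cf, monom, h]

theorem monom_mem (r : Exp2) (d : D) : monom q io ζ r d ∈ symD ζK hK hζ io := fun γ => by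
  rw [cf_monom]
  split_ifs with h
  · exact ⟨d, h ▸ rfl⟩
  · exact zero_mem _

include hζ in
/-- Products of nonzero members are nonzero. -/
theorem symD_mul_ne_zero (hn : Nonempty n) {M N : symD ζK hK hζ io} (hM : M ≠ 0) (hN : N ≠ 0) :
    M * N ≠ 0 := by
  intro h
  refine exists_cf_mul_ne_zero (fun h0 => hM (Subtype.ext h0)) (fun h0 => hN (Subtype.ext h0))
    (fun a b ha hb => ?_) (congrArg Subtype.val h)
  obtain ⟨d, hd⟩ := M.2 a
  obtain ⟨e, he⟩ := N.2 b
  have hd0 : d ≠ 0 := fun h => ha (by rw [← hd, h, map_zero])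
  have he0 : e ≠ 0 := fun h => hb (by rw [← he, h, map_zero])
  rw [← hd, ← he, coefMap_apply, coefMap_apply, ← Matrix.mul_kronecker_mul, ← map_mul,
    twist_mul hζ.pow_eq_one, Matrix.kronecker_smul, ← coefMap_apply]
  exact smul_ne_zero (chi_ne_zero hζ.pow_eq_one _) (coefMap_ne_zero hζ _ (mul_ne_zero hd0 he0) hn)

section Basis

variable {ι : Type} [Fintype ι] (b : Module.Basis ι K D)

/-- The monomials on a basis and reduced exponents. -/
def symGen (ζK : K) (hK : algebraMap K F ζK = ζ) (hζ : IsPrimitiveRoot ζ q)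
    (io : D →ₐ[K] Matrix n n F) (b : Module.Basis ι K D) (p : ι × ZMod q × ZMod q) :
    symD ζK hK hζ io :=
  ⟨monom q io ζ (rep p.2) (b p.1), monom_mem hζ _ _⟩

include hζ in
theorem span_symGen (hn : Nonempty n) :
    Submodule.span (baseField q K F) (Set.range (symGen ζK hK hζ io b)) = ⊤ := by
  classical
  rw [eq_top_iff]
  rintro ⟨M, hM⟩ -
  choose d hd using (id hM)
  have dzero : ∀ γ, cf M γ = 0 → d γ = 0 := fun γ h => by
    by_contra h0
    exact coefMap_ne_zero hζ γ h0 hn ((hd γ).trans h)
  let g : ι × ZMod q × ZMod q → HahnSeries Exp2 K := fun p =>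
    { coeff := fun γ => b.repr (d (scale q γ + rep p.2)) p.1
      isPWO_support' := by
        refine Set.partiallyWellOrderedOn_iff_exists_lt.2 fun f hf => ?_
        have hmem : ∀ k, scale q (f k) + rep p.2 ∈ msupp M := fun k h0 => hf k (by
          simp [dzero _ h0])
        obtain ⟨i, j, hij, hle⟩ := (Set.partiallyWellOrderedOn_iff_exists_lt.1 (msupp_isPWO M))
          (fun k => scale q (f k) + rep p.2) hmem
        exact ⟨i, j, hij, (scale_le_iff q _ _).1 (le_of_add_le_add_right hle)⟩ }
  have key : (⟨M, fun γ => ⟨d γ, hd γ⟩⟩ : symD ζK hK hζ io) =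
      ∑ p, baseEquiv q (F := F) (g p) • symGen ζK hK hζ io b p := by
    refine Subtype.ext (cf_ext fun γ => ?_)
    have hco : ∀ p : ι × ZMod q × ZMod q,
        cf (baseHom q (F := F) (g p) • monom q io ζ (rep p.2) (b p.1)) γ =
          (baseHom q (F := F) (g p)).coeff (γ - rep p.2) • coefMap q io ζ (rep p.2) (b p.1) := by
      intro p
      ext i j
      simp only [cf, monom, Matrix.map_apply, Matrix.smul_apply, smul_eq_mul]
      conv_lhs => rw [← sub_add_cancel γ (rep p.2)]
      rw [coeff_mul_single_add]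
    have hsum : ((∑ p, baseEquiv q (F := F) (g p) • symGen ζK hK hζ io b p : symD ζK hK hζ io) :
        Matrix (n × ZMod q) (n × ZMod q) (HahnSeries Exp2 F)) =
        ∑ p, baseHom q (F := F) (g p) • monom q io ζ (rep p.2) (b p.1) := by
      rw [AddSubmonoidClass.coe_finsetSum]
      rfl
    rw [hsum]
    have hcfsum : cf (∑ p, baseHom q (F := F) (g p) • monom q io ζ (rep p.2) (b p.1)) γ =
        ∑ p, cf (baseHom q (F := F) (g p) • monom q io ζ (rep p.2) (b p.1)) γ := by
      ext i j; simp [cf, Matrix.sum_apply]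
    rw [hcfsum, ← hd γ, Fintype.sum_prod_type]
    obtain ⟨g0, hg0⟩ := exists_scale_add_rep q γ
    conv_lhs => rw [← b.sum_repr (d γ), map_sum]
    refine Finset.sum_congr rfl fun k _ => ?_
    rw [Finset.sum_eq_single (fstMod q γ, sndMod q γ)]
    · rw [hco, map_smul, show γ - rep (fstMod q γ, sndMod q γ) = scale q g0 from
        sub_eq_of_eq_add hg0.symm, baseHom_coeff_scale, algebraMap_smul]
      show _ = b.repr (d (scale q g0 + rep (fstMod q γ, sndMod q γ))) k • _
      rw [hg0]
      congr 1
      simp only [coefMap_apply]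
      rw [twist_congr (fstMod_rep (fstMod q γ, sndMod q γ)).symm
        (sndMod_rep (fstMod q γ, sndMod q γ)).symm]
    · intro ij _ hij
      rw [hco, baseHom_coeff_of_notMem, zero_smul]
      rintro ⟨g1, hg1⟩
      apply hij
      have e : γ = scale q g1 + rep ij := by rw [hg1, sub_add_cancel]
      rw [e, fstMod_add, sndMod_add, fstMod_scale, sndMod_scale, fstMod_rep, sndMod_rep,
        zero_add, zero_add]
    · intro h
      exact absurd (mem_univ _) h
  rw [key]
  exact Submodule.sum_mem _ fun p _ => Submodule.smul_mem _ _ (Submodule.subset_span ⟨p, rfl⟩)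

include hζ in
/-- The monomials span all matrices over the big field. -/
theorem span_symGen_matrix (hio : Submodule.span F (Set.range io) = ⊤) :
    Submodule.span (HahnSeries Exp2 F) (Set.range fun p =>
      (symGen ζK hK hζ io b p : Matrix (n × ZMod q) (n × ZMod q) (HahnSeries Exp2 F))) = ⊤ := by
  classical
  set S := Submodule.span (HahnSeries Exp2 F) (Set.range fun p =>
      (symGen ζK hK hζ io b p : Matrix (n × ZMod q) (n × ZMod q) (HahnSeries Exp2 F))) with hS
  let emb : Matrix (n × ZMod q) (n × ZMod q) F →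
      Matrix (n × ZMod q) (n × ZMod q) (HahnSeries Exp2 F) := fun A => A.map (C (Γ := Exp2) (R := F))
  have hemb : ∀ (r : Exp2) (d : D),
      emb (coefMap q io ζ r d) = HahnSeries.single (-r) (1 : F) • monom q io ζ r d := by
    intro r d
    ext i j : 1
    simp [emb, monom, C_apply, single_mul_single]
  let W : Submodule F (Matrix (n × ZMod q) (n × ZMod q) F) :=
    { carrier := {A | emb A ∈ S}
      add_mem' := fun {A B} hA hB => by
        show emb (A + B) ∈ S
        have e : emb (A + B) = emb A + emb B := by ext i j : 1; simp [emb]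
        rw [e]; exact S.add_mem hA hB
      zero_mem' := by
        show emb 0 ∈ S
        have e : emb 0 = 0 := by ext i j : 1; simp [emb]
        rw [e]; exact S.zero_mem
      smul_mem' := fun c A hA => by
        show emb (c • A) ∈ S
        have e : emb (c • A) = C (Γ := Exp2) c • emb A := by ext i j : 1; simp [emb]
        rw [e]; exact S.smul_mem _ hA }
  have hgen : ∀ (d : D) (ij : ZMod q × ZMod q), coefMap q io ζ (rep ij) d ∈ W := by
    intro d ij
    rw [← b.sum_repr d, map_sum]
    refine W.sum_mem fun k _ => ?_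
    rw [map_smul, algebra_compatible_smul F]
    refine W.smul_mem _ ?_
    show emb _ ∈ S
    rw [hemb]
    exact S.smul_mem _ (Submodule.subset_span ⟨(k, ij), rfl⟩)
  have hWtop : ∀ A, A ∈ W := by
    intro A
    have hkron : ∀ (B : Matrix n n F) (C' : Matrix (ZMod q) (ZMod q) F), B ⊗ₖ C' ∈ W := by
      intro B C'
      have hC : C' ∈ Submodule.span F (Set.range fun ij : ZMod q × ZMod q => twist q ζ (rep ij)) := by
        rw [span_twist hζ]; trivial
      induction hC using Submodule.span_induction with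
      | mem x hx =>
        obtain ⟨ij, rfl⟩ := hx
        have hB : B ∈ Submodule.span F (Set.range io) := by rw [hio]; trivial
        induction hB using Submodule.span_induction with
        | mem x hx => obtain ⟨d, rfl⟩ := hx; exact hgen d ij
        | zero => rw [Matrix.zero_kronecker]; exact W.zero_mem
        | add x y _ _ h1 h2 => rw [Matrix.add_kronecker]; exact W.add_mem h1 h2
        | smul a x _ h1 => rw [Matrix.smul_kronecker]; exact W.smul_mem a h1
      | zero => rw [Matrix.kronecker_zero]; exact W.zero_mem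
      | add x y _ _ h1 h2 => rw [Matrix.kronecker_add]; exact W.add_mem h1 h2
      | smul a x _ h1 => rw [Matrix.kronecker_smul]; exact W.smul_mem a h1
    rw [Matrix.matrix_eq_sum_single A]
    refine W.sum_mem fun i _ => W.sum_mem fun j _ => ?_
    rw [show Matrix.single i j (A i j) =
      Matrix.single i.1 j.1 (A i j) ⊗ₖ Matrix.single i.2 j.2 (1 : F) by
        rw [Matrix.single_kronecker_single, mul_one]]
    exact hkron _ _
  rw [eq_top_iff]
  intro M _
  rw [Matrix.matrix_eq_sum_single M]
  refine S.sum_mem fun i _ => S.sum_mem fun j _ => ?_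
  have e : Matrix.single i j (M i j) = M i j • emb (Matrix.single i j 1) := by
    ext a c : 1
    by_cases h : i = a ∧ j = c <;> simp [emb, h]
  rw [e]
  exact S.smul_mem _ (hWtop _)

include hζ in
/-- The dimension of the symbol algebra over its centre. -/
theorem finrank_symD (hn : Nonempty n) (hio : Submodule.span F (Set.range io) = ⊤)
    (hD : Module.finrank K D = Fintype.card n ^ 2) (hfin : FiniteDimensional K D) :
    FiniteDimensional (baseField q K F) (symD ζK hK hζ io) ∧
      Module.finrank (baseField q K F) (symD ζK hK hζ io) = (Fintype.card n * q) ^ 2 := by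
  classical
  let b := Module.finBasis K D
  have hsp := span_symGen (io := io) (ζK := ζK) (hK := hK) hζ b hn
  have hfd : FiniteDimensional (baseField q K F) (symD ζK hK hζ io) :=
    Module.Finite.of_fg_top ⟨Set.toFinset (Set.range (symGen ζK hK hζ io b)), by simp [hsp]⟩
  refine ⟨hfd, ?_⟩
  have hcard : Fintype.card (Fin (Module.finrank K D) × ZMod q × ZMod q) =
      (Fintype.card n * q) ^ 2 := by
    simp [hD, ZMod.card]; ring
  refine le_antisymm ?_ ?_
  · have h1 := finrank_range_le_card (R := baseField q K F) (symGen ζK hK hζ io b)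
    rw [Set.finrank, hsp, finrank_top, hcard] at h1
    exact h1
  · let c := Module.finBasis (baseField q K F) (symD ζK hK hζ io)
    have htop : Submodule.span (HahnSeries Exp2 F) (Set.range fun i =>
        (c i : Matrix (n × ZMod q) (n × ZMod q) (HahnSeries Exp2 F))) = ⊤ := by
      rw [eq_top_iff, ← span_symGen_matrix (ζK := ζK) (hK := hK) hζ b hio, Submodule.span_le]
      rintro _ ⟨p, rfl⟩
      simp only [SetLike.mem_coe]
      rw [← c.sum_repr (symGen ζK hK hζ io b p)]
      simp only [AddSubmonoidClass.coe_finsetSum]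
      exact Submodule.sum_mem _ fun i _ =>
        Submodule.smul_mem _ _ (Submodule.subset_span ⟨i, rfl⟩)
    have h1 := finrank_range_le_card (R := HahnSeries Exp2 F) (fun i =>
      (c i : Matrix (n × ZMod q) (n × ZMod q) (HahnSeries Exp2 F)))
    rw [Set.finrank, htop, finrank_top, Module.finrank_matrix] at h1
    simp [ZMod.card] at h1
    rw [sq]
    exact h1

end Basis

variable [FiniteDimensional K D]

include hζ in
/-- The symbol algebra is a division algebra. -/
theorem isField_symD (hn : Nonempty n) (hio : Submodule.span F (Set.range io) = ⊤)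
    (hD : Module.finrank K D = Fintype.card n ^ 2) {M : symD ζK hK hζ io} (hM : M ≠ 0) :
    IsUnit M := by
  have hfd := (finrank_symD (ζK := ζK) (hK := hK) hζ hn hio hD inferInstance).1
  have hinj : Function.Injective (LinearMap.mulLeft (baseField q K F) M) := fun a c h => by
    by_contra hne
    exact symD_mul_ne_zero hζ hn hM (sub_ne_zero.2 hne) (by
      rw [mul_sub]; exact sub_eq_zero.2 h)
  obtain ⟨N, hN⟩ := LinearMap.injective_iff_surjective.1 hinj 1
  have hN' : M * N = 1 := hN
  have hNM : N * M = 1 := hinj (by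
    show M * (N * M) = M * 1
    rw [← mul_assoc, hN', one_mul, mul_one])
  exact ⟨⟨M, N, hN', hNM⟩, rfl⟩

include hζ in
/-- The symbol algebra spans all matrices. -/
theorem span_symD (hio : Submodule.span F (Set.range io) = ⊤) :
    Submodule.span (HahnSeries Exp2 F) (symD ζK hK hζ io :
      Set (Matrix (n × ZMod q) (n × ZMod q) (HahnSeries Exp2 F))) = ⊤ := by
  rw [eq_top_iff, ← span_symGen_matrix (ζK := ζK) (hK := hK) hζ (Module.finBasis K D) hio]
  exact Submodule.span_mono (by rintro _ ⟨p, rfl⟩; exact Subtype.prop _)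

omit [FiniteDimensional K D] in
include hζ in
/-- Monomials multiply by adding exponents. -/
theorem monom_mul (α β : Exp2) (a c : D) :
    monom q io ζ α a * monom q io ζ β c =
      (monom q io ζ (α + β) (a * c)).map
        (fun x => HahnSeries.C (Γ := Exp2) (chi q ζ (fstMod q β * sndMod q α)) * x) := by
  refine cf_ext fun γ => ?_
  have h1 : cf ((monom q io ζ (α + β) (a * c)).map
      (fun x => HahnSeries.C (Γ := Exp2) (chi q ζ (fstMod q β * sndMod q α)) * x)) γ =
      chi q ζ (fstMod q β * sndMod q α) • cf (monom q io ζ (α + β) (a * c)) γ := by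
    ext i j
    simp [cf, HahnSeries.C_apply]
  rw [h1, cf_monom, cf_mul]
  by_cases hα : coefMap q io ζ α a = 0
  · have h2 : coefMap q io ζ α a * coefMap q io ζ β c = 0 := by rw [hα, zero_mul]
    rw [coefMap_apply, coefMap_apply, ← Matrix.mul_kronecker_mul, ← map_mul,
      twist_mul hζ.pow_eq_one, Matrix.kronecker_smul, ← coefMap_apply] at h2
    rw [Finset.sum_eq_zero fun ab _ => by rw [cf_monom]; split_ifs <;> simp [hα]]
    split_ifs
    · exact h2.symm
    · rw [smul_zero]
  by_cases hβ : coefMap q io ζ β c = 0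
  · have h2 : coefMap q io ζ α a * coefMap q io ζ β c = 0 := by rw [hβ, mul_zero]
    rw [coefMap_apply, coefMap_apply, ← Matrix.mul_kronecker_mul, ← map_mul,
      twist_mul hζ.pow_eq_one, Matrix.kronecker_smul, ← coefMap_apply] at h2
    rw [Finset.sum_eq_zero fun ab _ => by rw [cf_monom β]; split_ifs <;> simp [hβ]]
    split_ifs
    · exact h2.symm
    · rw [smul_zero]
  by_cases h : γ = α + β
  · subst h
    rw [if_pos rfl, Finset.sum_eq_single (α, β)]
    · rw [cf_monom, cf_monom, if_pos rfl, if_pos rfl, coefMap_apply, coefMap_apply,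
        ← Matrix.mul_kronecker_mul, ← map_mul, twist_mul hζ.pow_eq_one, Matrix.kronecker_smul,
        ← coefMap_apply]
    · rintro ⟨u, v⟩ _ hne
      rw [cf_monom, cf_monom]
      by_cases hu : u = α
      · have hv : v ≠ β := fun hv => hne (by rw [hu, hv])
        rw [if_neg hv, mul_zero]
      · rw [if_neg hu, zero_mul]
    · intro hn
      refine (hn (Finset.mem_antidiagonal.2 ⟨?_, ?_, rfl⟩)).elim
      · show cf _ α ≠ 0
        rwa [cf_monom, if_pos rfl]
      · show cf _ β ≠ 0
        rwa [cf_monom, if_pos rfl]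
  · rw [if_neg h, smul_zero]
    refine Finset.sum_eq_zero fun ab hab => ?_
    have hsum := (Finset.mem_antidiagonal.1 hab).2.2
    rw [cf_monom, cf_monom]
    by_cases hu : ab.1 = α
    · have hv : ab.2 ≠ β := fun hv => h (by rw [← hsum, hu, hv])
      rw [if_neg hv, mul_zero]
    · rw [if_neg hu, zero_mul]

/-- The constants: `D` inside the symbol algebra. -/
def dEmb (ζK : K) (hK : algebraMap K F ζK = ζ) (hζ : IsPrimitiveRoot ζ q)
    (io : D →ₐ[K] Matrix n n F) : D →+* symD ζK hK hζ io where
  toFun d := ⟨monom q io ζ 0 d, monom_mem hζ _ _⟩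
  map_one' := Subtype.ext (by
    show monom q io ζ 0 1 = 1
    ext i j : 1
    by_cases h : i = j <;> simp [monom, coefMap_apply, twist_zero, Matrix.one_apply, h])
  map_mul' a c := Subtype.ext (by
    show monom q io ζ 0 (a * c) = monom q io ζ 0 a * monom q io ζ 0 c
    rw [monom_mul hζ, add_zero]
    ext i j : 1
    simp [fstMod, chi_zero])
  map_zero' := Subtype.ext (by
    show monom q io ζ 0 0 = 0
    ext i j : 1
    simp [monom])
  map_add' a c := Subtype.ext (by
    show monom q io ζ 0 (a + c) = monom q io ζ 0 a + monom q io ζ 0 c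
    ext i j : 1
    simp [monom])

omit [FiniteDimensional K D] in
theorem dEmb_val (d : D) :
    (dEmb ζK hK hζ io d : Matrix (n × ZMod q) (n × ZMod q) (HahnSeries Exp2 F)) =
      (io d ⊗ₖ (1 : Matrix (ZMod q) (ZMod q) F)).map (HahnSeries.C (Γ := Exp2)) := by
  show monom q io ζ 0 d = _
  ext i j : 1
  simp [monom, coefMap_apply, twist_zero, HahnSeries.C_apply]

include hζ in
/-- A scalar matrix in the symbol algebra is in the base field. -/
theorem scalar_mem_symD (hn : Nonempty n) (hio : Submodule.span F (Set.range io) = ⊤)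
    (hD : Module.finrank K D = Fintype.card n ^ 2) {x : HahnSeries Exp2 F}
    (hx : Matrix.scalar (n × ZMod q) x ∈ symD ζK hK hζ io) : x ∈ baseField q K F := by
  classical
  let b := Module.finBasis K D
  -- a scalar in the image of `io` comes from `K`
  have hscalar : ∀ (d : D) (z : F), io d = z • 1 → ∃ k : K, algebraMap K F k = z := by
    intro d z hd
    have hspan : ⊤ ≤ Submodule.span F (Set.range fun i => io (b i)) := by
      rw [← hio, Submodule.span_le]
      rintro _ ⟨e, rfl⟩
      simp only [SetLike.mem_coe]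
      rw [← b.sum_repr e, map_sum]
      refine Submodule.sum_mem _ fun i _ => ?_
      rw [map_smul, algebra_compatible_smul F]
      exact Submodule.smul_mem _ _ (Submodule.subset_span ⟨i, rfl⟩)
    have hli : LinearIndependent F fun i => io (b i) :=
      linearIndependent_of_top_le_span_of_card_eq_finrank hspan
        (by rw [Module.finrank_matrix, Fintype.card_fin, hD]; simp [sq])
    obtain ⟨i₀, hi₀⟩ : ∃ i, b.repr 1 i ≠ 0 := by
      by_contra h
      push Not at h
      exact one_ne_zero (b.repr.injective (Finsupp.ext fun i => by simp [h i]))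
    have e : ∀ e' : D, io e' = ∑ i, algebraMap K F (b.repr e' i) • io (b i) := fun e' => by
      conv_lhs => rw [← b.sum_repr e', map_sum]
      exact Finset.sum_congr rfl fun i _ => by rw [map_smul, algebra_compatible_smul F]
    have h0 : ∑ i, (algebraMap K F (b.repr d i) - z * algebraMap K F (b.repr 1 i)) • io (b i)
        = 0 := by
      simp only [sub_smul, mul_smul, Finset.sum_sub_distrib, ← Finset.smul_sum, ← e]
      rw [map_one, hd, sub_self]
    have h1 := Fintype.linearIndependent_iff.1 hli _ h0 i₀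
    have hne : algebraMap K F (b.repr 1 i₀) ≠ 0 :=
      fun h => hi₀ ((algebraMap K F).injective (h.trans (map_zero _).symm))
    exact ⟨b.repr d i₀ / b.repr 1 i₀, by
      rw [map_div₀, div_eq_iff hne]; exact sub_eq_zero.1 h1⟩
  have hsupp : ∀ γ, x.coeff γ ≠ 0 →
      ∃ g, scale q g = γ ∧ ∃ k : K, algebraMap K F k = x.coeff γ := by
    intro γ hγ
    obtain ⟨d, hd⟩ := hx γ
    rw [cf_scalar, coefMap_apply] at hd
    obtain ⟨i₀⟩ := hn
    have hat : ∀ (i j : n) (u v : ZMod q), io d i j * twist q ζ γ u v =
        x.coeff γ * (if i = j ∧ u = v then 1 else 0) := fun i j u v => by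
      have h := congrFun (congrFun hd (i, u)) (j, v)
      simpa [Matrix.one_apply] using h
    have h00 := hat i₀ i₀ 0 0
    rw [if_pos ⟨rfl, rfl⟩, mul_one, twist_apply] at h00
    have hs : sndMod q γ = 0 := by
      by_contra hne
      rw [if_neg (by rw [zero_add]; exact fun h => hne h.symm), mul_zero] at h00
      exact hγ h00.symm
    rw [if_pos (by rw [hs, add_zero]), mul_zero, chi_zero, mul_one] at h00
    have hf : fstMod q γ = 0 := by
      have h11 := hat i₀ i₀ 1 1
      rw [if_pos ⟨rfl, rfl⟩, mul_one, twist_apply, if_pos (by rw [hs, add_zero]), h00,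
        mul_one] at h11
      have hchi : chi q ζ (fstMod q γ) = 1 := mul_left_cancel₀ hγ (h11.trans (mul_one _).symm)
      have h1 := Nat.eq_zero_of_dvd_of_lt (hζ.dvd_of_pow_eq_one _ hchi) (ZMod.val_lt _)
      exact (ZMod.val_eq_zero _).1 h1
    obtain ⟨g, hg⟩ := exists_scale_add_rep q γ
    rw [hf, hs] at hg
    have hr : rep ((0 : ZMod q), (0 : ZMod q)) = 0 := by
      apply ofLex.injective
      ext <;> simp [rep]
    rw [hr, add_zero] at hg
    refine ⟨g, hg, hscalar d _ (Matrix.ext fun i j => ?_)⟩
    have h := hat i j 0 0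
    rw [twist_apply, if_pos (by rw [hs, add_zero]), hf, zero_mul, chi_zero, mul_one] at h
    rw [h, Matrix.smul_apply, smul_eq_mul, Matrix.one_apply]
    by_cases hij : i = j <;> simp [hij]
  have hk : ∀ g, ∃ k : K, algebraMap K F k = x.coeff (scale q g) := by
    intro g
    by_cases h : x.coeff (scale q g) = 0
    · exact ⟨0, by rw [h, map_zero]⟩
    · obtain ⟨-, -, k, hk⟩ := hsupp _ h
      exact ⟨k, hk⟩
  choose f hf using hk
  let y : HahnSeries Exp2 K :=
    { coeff := f
      isPWO_support' := by
        refine Set.partiallyWellOrderedOn_iff_exists_lt.2 fun u hu => ?_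
        have hmem : ∀ k, scale q (u k) ∈ x.support := fun k => by
          rw [HahnSeries.mem_support, ← hf]
          exact fun h => hu k ((algebraMap K F).injective (h.trans (map_zero _).symm))
        obtain ⟨i, j, hij, hle⟩ := (Set.partiallyWellOrderedOn_iff_exists_lt.1 x.isPWO_support)
          (fun k => scale q (u k)) hmem
        exact ⟨i, j, hij, (scale_le_iff q _ _).1 hle⟩ }
  refine ⟨y, HahnSeries.ext (funext fun γ => ?_)⟩
  by_cases hr : γ ∈ Set.range (scale q)
  · obtain ⟨g, rfl⟩ := hr
    rw [baseHom_coeff_scale]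
    exact hf g
  · rw [baseHom_coeff_of_notMem q y hr]
    by_contra hne
    obtain ⟨g, hg, -⟩ := hsupp γ (Ne.symm hne)
    exact hr ⟨g, hg⟩

/-- The representation over an algebraic closure of the series field. -/
def symIo (ζK : K) (hK : algebraMap K F ζK = ζ) (hζ : IsPrimitiveRoot ζ q)
    (io : D →ₐ[K] Matrix n n F) : symD ζK hK hζ io →ₐ[baseField q K F]
      Matrix (n × ZMod q) (n × ZMod q) (AlgebraicClosure (HahnSeries Exp2 F)) :=
  (((Algebra.ofId (HahnSeries Exp2 F) (AlgebraicClosure (HahnSeries Exp2 F))).restrictScalars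
    (baseField q K F)).mapMatrix).comp (symD ζK hK hζ io).val

include hζ in
theorem span_symIo (hio : Submodule.span F (Set.range io) = ⊤) :
    Submodule.span (AlgebraicClosure (HahnSeries Exp2 F))
      (Set.range (symIo ζK hK hζ io)) = ⊤ := by
  classical
  rw [eq_top_iff]
  intro A _
  have key : ∀ B : Matrix (n × ZMod q) (n × ZMod q) (HahnSeries Exp2 F),
      B.map (algebraMap _ (AlgebraicClosure (HahnSeries Exp2 F))) ∈
        Submodule.span (AlgebraicClosure (HahnSeries Exp2 F)) (Set.range (symIo ζK hK hζ io)) := by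
    intro B
    have hB : B ∈ Submodule.span (HahnSeries Exp2 F) (symD ζK hK hζ io :
        Set (Matrix (n × ZMod q) (n × ZMod q) (HahnSeries Exp2 F))) := by
      rw [span_symD hζ hio]; trivial
    induction hB using Submodule.span_induction with
    | mem y hy => exact Submodule.subset_span ⟨⟨y, hy⟩, rfl⟩
    | zero => simp
    | add y z _ _ h1 h2 =>
      rw [Matrix.map_add _ (map_add _)]
      exact Submodule.add_mem _ h1 h2
    | smul a y _ h1 =>
      have e : (a • y).map (algebraMap _ (AlgebraicClosure (HahnSeries Exp2 F))) =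
          algebraMap _ (AlgebraicClosure (HahnSeries Exp2 F)) a •
            y.map (algebraMap _ (AlgebraicClosure (HahnSeries Exp2 F))) := by
        ext i j : 1; simp
      rw [e]
      exact Submodule.smul_mem _ _ h1
  rw [Matrix.matrix_eq_sum_single A]
  refine Submodule.sum_mem _ fun i _ => Submodule.sum_mem _ fun j _ => ?_
  have e : Matrix.single i j (A i j) =
      A i j • (Matrix.single i j (1 : HahnSeries Exp2 F)).map (algebraMap _ _) := by
    ext a c : 1
    by_cases h : i = a ∧ j = c <;> simp [h]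
  rw [e]
  exact Submodule.smul_mem _ _ (key _)

end Vale.Agent.P199
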