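import Vale.Agent.P199.DivAlgebra
import Vale.Agent.P199.Symbol
import Vale.Agent.P199.Universal

/-!
# P199: the symbol step and the Laurent step on division algebras of matrices

`DivAlg.symAlg` is the symbol algebra of degree `q` over `K((ξ^q,η^q))`, in the matrices of size
`n × Fin q` over an algebraic closure of `F((ξ,η))`; `DivAlg.laurAlg` extends a stage to Laurent
series in a central variable.
-/

open scoped Kronecker
open Module

noncomputable section

namespace Vale.Agent.P199

open Exp2

/-- A spanning family of matrices spans after a field extension. -/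
theorem span_map_matrix {F L m ι : Type*} [Field F] [Field L] [Fintype m] [DecidableEq m]
    (f : F →+* L) (b : ι → Matrix m m F) (hb : Submodule.span F (Set.range b) = ⊤) :
    Submodule.span L (Set.range fun i => (b i).map f) = ⊤ := by
  set S := Submodule.span L (Set.range fun i => (b i).map f)
  have key : ∀ A : Matrix m m F, A.map f ∈ S := by
    intro A
    have hA : A ∈ Submodule.span F (Set.range b) := hb ▸ Submodule.mem_top
    induction hA using Submodule.span_induction with
    | mem y hy => obtain ⟨i, rfl⟩ := hy; exact Submodule.subset_span ⟨i, rfl⟩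
    | zero => rw [Matrix.map_zero _ (map_zero f)]; exact zero_mem _
    | add y z _ _ h1 h2 => rw [Matrix.map_add _ (map_add f)]; exact add_mem h1 h2
    | smul a y _ h1 =>
      rw [show (a • y).map f = f a • y.map f from Matrix.map_smul' f a y (map_mul f)]
      exact Submodule.smul_mem _ _ h1
  rw [eq_top_iff]
  intro A _
  rw [Matrix.matrix_eq_sum_single A]
  refine Submodule.sum_mem _ fun i _ => Submodule.sum_mem _ fun j _ => ?_
  have e : Matrix.single i j (A i j) = A i j • (Matrix.single i j (1 : F)).map f := by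
    ext a c
    by_cases h : i = a ∧ j = c <;> simp [h]
  rw [e]
  exact Submodule.smul_mem _ _ (key _)

namespace DivAlg

variable {n : Type} [Fintype n] [DecidableEq n] {F : Type} [Field F] (S : DivAlg n F)

section Bridge

/-- The inclusion of `D`. -/
def inclD : S.D →ₐ[S.K] Matrix n n F where
  toRingHom := S.D.subtype
  commutes' _ := rfl

theorem inclD_apply (x : S.D) : S.inclD x = x := rfl

theorem smul_mem {c : F} (hc : c ∈ S.K) {x : Matrix n n F} (hx : x ∈ S.D) : c • x ∈ S.D := by
  rw [Matrix.smul_eq_diagonal_mul]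
  exact S.D.mul_mem (S.scalar_mem c hc) hx

theorem sum_mem {c : n × n → F} (hc : ∀ i, c i ∈ S.K) : ∑ i, c i • S.b i ∈ S.D :=
  S.D.sum_mem fun i _ => S.smul_mem (hc i) (S.b_mem i)

theorem finrank_D : finrank S.K S.D = Fintype.card n ^ 2 := by
  rw [finrank_eq_card_basis S.basisK, Fintype.card_prod, sq]

theorem span_inclD : Submodule.span F (Set.range S.inclD) = ⊤ := by
  rw [eq_top_iff, ← S.span_b]
  exact Submodule.span_mono (by rintro _ ⟨i, rfl⟩; exact ⟨⟨S.b i, S.b_mem i⟩, rfl⟩)

end Bridge

section Symbol

variable (q : ℕ) [NeZero q]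

/-- The algebraically closed field of the symbol step. -/
abbrev SymF (F : Type) [Field F] : Type := AlgebraicClosure (HahnSeries Exp2 F)

/-- `F` into the field of the symbol step. -/
def embF : F →+* SymF F := (algebraMap (HahnSeries Exp2 F) (SymF F)).comp HahnSeries.C

theorem charZero_symF [CharZero F] : CharZero (SymF F) :=
  charZero_of_injective_ringHom (embF (F := F)).injective

/-- The chosen primitive root of unity in `K`. -/
def zetaK : S.K := ⟨_, (S.roots q (NeZero.ne q)).choose_spec.1⟩

theorem zeta_prim : IsPrimitiveRoot (algebraMap S.K F (S.zetaK q)) q := (S.roots q (NeZero.ne q)).choose_spec.2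

/-- The centre of the symbol algebra. -/
def symK : Subfield (SymF F) :=
  (baseField q S.K F).map (algebraMap (HahnSeries Exp2 F) (SymF F))

theorem embF_mem_symK {x : F} (hx : x ∈ S.K) : embF x ∈ S.symK q := by
  refine ⟨_, ⟨HahnSeries.C ⟨x, hx⟩, rfl⟩, ?_⟩
  refine congrArg (algebraMap (HahnSeries Exp2 F) (SymF F)) (HahnSeries.ext (funext fun γ => ?_))
  have h0 : scale q 0 = 0 := map_zero _
  by_cases h : γ ∈ Set.range (scale q)
  · obtain ⟨g, rfl⟩ := h
    rw [baseHom_coeff_scale]
    by_cases hg : g = 0
    · subst hg; simp [h0]; rfl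
    · have hg' : scale q g ≠ 0 := fun e => hg (scale_injective q (e.trans h0.symm))
      simp [hg, hg', HahnSeries.C_apply]
  · rw [baseHom_coeff_of_notMem q _ h]
    have : γ ≠ 0 := fun e => h ⟨0, h0.trans e.symm⟩
    simp [this, HahnSeries.C_apply]

theorem infinite_symK [CharZero F] : Infinite (S.symK q) := by
  have := charZero_symF (F := F)
  exact Infinite.of_injective (fun k : ℕ => (k : S.symK q)) Nat.cast_injective

/-- The change of index from `Fin q` to `ZMod q`. -/
def idx : n × Fin q ≃ n × ZMod q := Equiv.prodCongr (Equiv.refl n) (ZMod.finEquiv q).toEquiv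

/-- The symbol algebra inside the matrices over the series field. -/
abbrev symSub [Nonempty n] :
    Subalgebra (baseField q S.K F) (Matrix (n × ZMod q) (n × ZMod q) (HahnSeries Exp2 F)) :=
    symD (S.zetaK q) rfl (S.zeta_prim q) S.inclD

/-- The representation of the symbol algebra. -/
def symHom [Nonempty n] : S.symSub q →+* Matrix (n × Fin q) (n × Fin q) (SymF F) :=
  ((Matrix.reindexAlgEquiv F (SymF F) (idx (n := n) q).symm).toRingEquiv.toRingHom.comp
    ((algebraMap (HahnSeries Exp2 F) (SymF F)).mapMatrix)).comp (S.symSub q).val.toRingHom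

/-- The monomials of the new factor. -/
def symE (l : Fin q × Fin q) : Matrix (Fin q) (Fin q) (SymF F) :=
  Matrix.of fun u v => algebraMap (HahnSeries Exp2 F) (SymF F)
    (HahnSeries.single (rep (ZMod.finEquiv q l.1, ZMod.finEquiv q l.2))
      (twist q (algebraMap S.K F (S.zetaK q)) (rep (ZMod.finEquiv q l.1, ZMod.finEquiv q l.2))
        (ZMod.finEquiv q u) (ZMod.finEquiv q v)))

/-- The basis of the symbol algebra: `b i ⊗ E l`. -/
def symB (p : (n × Fin q) × (n × Fin q)) : Matrix (n × Fin q) (n × Fin q) (SymF F) :=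
  (S.b (p.1.1, p.2.1)).map embF ⊗ₖ S.symE q (p.1.2, p.2.2)

theorem algebraMap_single (r : Exp2) (a b : F) :
    algebraMap (HahnSeries Exp2 F) (SymF F) (HahnSeries.single r (a * b)) =
      embF a * algebraMap (HahnSeries Exp2 F) (SymF F) (HahnSeries.single r b) := by
  rw [embF, RingHom.comp_apply, ← map_mul, HahnSeries.C_apply, HahnSeries.single_mul_single,
    zero_add]

variable [Nonempty n]

/-- A monomial of the symbol algebra. -/
def symMon (l : Fin q × Fin q) (d : S.D) : S.symSub q :=
    ⟨monom q S.inclD (algebraMap S.K F (S.zetaK q)) (rep (ZMod.finEquiv q l.1, ZMod.finEquiv q l.2)) d,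
    monom_mem (S.zeta_prim q) _ _⟩

theorem symHom_symMon (l : Fin q × Fin q) (d : S.D) :
    S.symHom q (S.symMon q l d) = (d : Matrix n n F).map embF ⊗ₖ S.symE q l := by
  ext ⟨a, u⟩ ⟨c, v⟩
  exact algebraMap_single _ _ _

theorem symHom_dEmb (d : S.D) :
    S.symHom q (      (dEmb (S.zetaK q) rfl (S.zeta_prim q) S.inclD d : _)) =
      (d : Matrix n n F).map embF ⊗ₖ (1 : Matrix (Fin q) (Fin q) (SymF F)) := by
  let _ := S.divisionRing
  ext ⟨a, u⟩ ⟨c, v⟩
  change algebraMap (HahnSeries Exp2 F) (SymF F)
    ((dEmb (S.zetaK q) rfl (S.zeta_prim q) S.inclD d :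
      Matrix (n × ZMod q) (n × ZMod q) (HahnSeries Exp2 F))
      (a, ZMod.finEquiv q u) (c, ZMod.finEquiv q v)) = _
  rw [dEmb_val]
  by_cases h : u = v <;> simp [h, inclD_apply, embF]

theorem symHom_injective : Function.Injective (S.symHom q) := fun x y h => by
  refine Subtype.ext (Matrix.map_injective (algebraMap (HahnSeries Exp2 F) (SymF F)).injective ?_)
  exact (Matrix.reindexAlgEquiv F (SymF F) (idx (n := n) q).symm).injective h

theorem symHom_smul (c : baseField q S.K F) (m : S.symSub q) :
    S.symHom q (c • m) = algebraMap (HahnSeries Exp2 F) (SymF F) (c : HahnSeries Exp2 F) •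
      S.symHom q m := by
  ext i j
  exact map_mul (algebraMap (HahnSeries Exp2 F) (SymF F)) (c : HahnSeries Exp2 F) _

theorem symB_eq (p : (n × Fin q) × (n × Fin q)) :
    S.symB q p = S.symHom q (S.symMon q (p.1.2, p.2.2) (S.basisK (p.1.1, p.2.1))) := by
  rw [symHom_symMon, basisK_apply, symB]

/-- Index of the new basis. -/
def symIdx : (n × Fin q) × (n × Fin q) ≃ (n × n) × ZMod q × ZMod q :=
  (Equiv.prodProdProdComm n (Fin q) n (Fin q)).trans
    (Equiv.prodCongr (Equiv.refl _)
      (Equiv.prodCongr (ZMod.finEquiv q).toEquiv (ZMod.finEquiv q).toEquiv))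

theorem symHom_symGen (p : (n × Fin q) × (n × Fin q)) :
    S.symHom q (      (symGen (S.zetaK q) rfl (S.zeta_prim q) S.inclD S.basisK (symIdx q p) : _)) = S.symB q p := by
  rw [symB_eq]
  rfl

theorem span_symB : Submodule.span (SymF F) (Set.range (S.symB q)) = ⊤ := by
  let _ := S.divisionRing
  rw [eq_top_iff]
  intro M _
  have hM : M.submatrix (idx q).symm (idx q).symm ∈ Submodule.span (SymF F)
      (Set.range fun p => ((symGen (S.zetaK q) rfl (S.zeta_prim q) S.inclD S.basisK p :
        Matrix (n × ZMod q) (n × ZMod q) (HahnSeries Exp2 F))).map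
          (algebraMap (HahnSeries Exp2 F) (SymF F))) := by
    rw [span_map_matrix _ _ (span_symGen_matrix (S.zeta_prim q) S.basisK S.span_inclD)]
    trivial
  have h := Submodule.mem_map_of_mem
    (f := (Matrix.reindexLinearEquiv (SymF F) (SymF F) (idx (n := n) q).symm
      (idx (n := n) q).symm).toLinearMap) hM
  rw [Submodule.map_span, ← Set.range_comp] at h
  rw [show M = (Matrix.reindexLinearEquiv (SymF F) (SymF F) (idx (n := n) q).symm
      (idx (n := n) q).symm) (M.submatrix (idx q).symm (idx q).symm) from by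
    ext i j; simp]
  refine Submodule.span_mono ?_ h
  rintro _ ⟨p, rfl⟩
  refine ⟨(symIdx q).symm p, ?_⟩
  rw [← symHom_symGen, Equiv.apply_symm_apply]
  rfl

/-- **The symbol step.** -/
def symAlg : DivAlg (n × Fin q) (SymF F) where
  K := S.symK q
  D := (S.symHom q).range
  scalar_mem x hx := by
    obtain ⟨c, hc, rfl⟩ := hx
    refine ⟨algebraMap (baseField q S.K F) (S.symSub q) ⟨c, hc⟩, ?_⟩
    rw [Algebra.algebraMap_eq_smul_one, symHom_smul, map_one, Matrix.scalar_apply,
      Matrix.smul_one_eq_diagonal]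
  b := S.symB q
  b_mem p := ⟨_, (S.symB_eq q p).symm⟩
  b_indep := linearIndependent_of_top_le_span_of_card_eq_finrank (S.span_symB q).ge (by
    rw [Fintype.card_prod, Module.finrank_matrix, finrank_self, mul_one])
  exists_coord x hx := by
    let _ := S.divisionRing
    obtain ⟨m, rfl⟩ := hx
    have hm : m ∈ Submodule.span (baseField q S.K F)
        (Set.range fun p => symGen (S.zetaK q) rfl (S.zeta_prim q) S.inclD S.basisK (symIdx q p)) := by
      have := span_symGen (ζK := S.zetaK q) (hK := rfl) (io := S.inclD) (S.zeta_prim q) S.basisK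
        inferInstance
      rw [← (symIdx q).surjective.range_comp] at this
      rw [show (fun p => symGen (S.zetaK q) rfl (S.zeta_prim q) S.inclD S.basisK (symIdx q p)) =
        symGen (S.zetaK q) rfl (S.zeta_prim q) S.inclD S.basisK ∘ symIdx q from rfl, this]
      trivial
    obtain ⟨c, rfl⟩ := (Submodule.mem_span_range_iff_exists_fun _).1 hm
    refine ⟨fun p => algebraMap (HahnSeries Exp2 F) (SymF F) (c p).1, fun p => ⟨_, (c p).2, rfl⟩, ?_⟩
    rw [map_sum]
    exact Finset.sum_congr rfl fun p _ => by rw [symHom_smul, symHom_symGen]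
  no_zero_div := by
    rintro _ ⟨x, rfl⟩ _ ⟨y, rfl⟩ h
    let _ := S.divisionRing
    by_contra hne
    push Not at hne
    exact symD_mul_ne_zero (S.zeta_prim q) inferInstance (M := x) (N := y)
      (fun h0 => hne.1 (by rw [h0]; exact map_zero _))
      (fun h0 => hne.2 (by rw [h0]; exact map_zero _))
      (S.symHom_injective q (by rw [map_mul, h, map_zero]))
  roots k hk := by
    obtain ⟨z, hz, hp⟩ := S.roots k hk
    exact ⟨embF z, S.embF_mem_symK q hz, hp.map_of_injective (f := embF) (RingHom.injective _)⟩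

theorem symAlg_K : (S.symAlg q).K = S.symK q := rfl

theorem symAlg_b : (S.symAlg q).b = S.symB q := rfl

/-- `D ⊗ 1` lies in the symbol algebra. -/
theorem kron_one_mem {x : Matrix n n F} (hx : x ∈ S.D) :
    x.map embF ⊗ₖ (1 : Matrix (Fin q) (Fin q) (SymF F)) ∈ (S.symAlg q).D :=
  ⟨_, S.symHom_dEmb q ⟨x, hx⟩⟩

/-- `1 ⊗ E l` lies in the symbol algebra. -/
theorem one_kron_symE_mem (l : Fin q × Fin q) :
    (1 : Matrix n n (SymF F)) ⊗ₖ S.symE q l ∈ (S.symAlg q).D := by
  refine ⟨S.symMon q l 1, ?_⟩
  rw [symHom_symMon, OneMemClass.coe_one, Matrix.map_one _ (map_zero _) (map_one _)]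

/-- `x ⊗ E l` lies in the symbol algebra. -/
theorem kron_symE_mem {x : Matrix n n F} (hx : x ∈ S.D) (l : Fin q × Fin q) :
    x.map embF ⊗ₖ S.symE q l ∈ (S.symAlg q).D :=
  ⟨_, S.symHom_symMon q l ⟨x, hx⟩⟩

/-- The monomials of the new factor form a basis of the matrices of size `q`. -/
theorem symE_indep : LinearIndependent (SymF F) (S.symE q) := by
  rw [Fintype.linearIndependent_iff]
  intro g hg l
  have h : LinearIndependent (SymF F) (S.symB q) := (S.symAlg q).b_indep
  obtain ⟨i⟩ := ‹Nonempty n›
  have := Fintype.linearIndependent_iff.1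
    (h.comp (fun l : Fin q × Fin q => ((i, l.1), (i, l.2))) fun a b hab => by
      simpa [Prod.ext_iff] using hab) g (by
    have h2 := congrArg (fun M => (S.b (i, i)).map embF ⊗ₖ M) hg
    simp only [Matrix.kronecker_zero] at h2
    rw [← h2]
    ext ⟨a, u⟩ ⟨c, v⟩
    simp [symB, Matrix.sum_apply, Finset.mul_sum, mul_left_comm]) l
  exact this

theorem span_symE : Submodule.span (SymF F) (Set.range (S.symE q)) = ⊤ :=
  (S.symE_indep q).span_eq_top_of_card_eq_finrank' (by
    rw [Fintype.card_prod, Module.finrank_matrix, finrank_self, mul_one])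

end Symbol

section Laurent

/-- The algebraically closed field of the Laurent step. -/
abbrev LaurF (F : Type) [Field F] : Type := AlgebraicClosure (LaurentSeries F)

/-- `F` into the field of the Laurent step. -/
def embL : F →+* LaurF F := (algebraMap (LaurentSeries F) (LaurF F)).comp HahnSeries.C

/-- Power series into the field of the Laurent step. -/
def psEmb : PowerSeries F →+* LaurF F :=
  (algebraMap (LaurentSeries F) (LaurF F)).comp (HahnSeries.ofPowerSeries ℤ F)

theorem psEmb_C (a : F) : psEmb (PowerSeries.C a) = embL a := by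
  simp [psEmb, embL]

theorem psEmb_injective : Function.Injective (psEmb (F := F)) :=
  (algebraMap (LaurentSeries F) (LaurF F)).injective.comp HahnSeries.ofPowerSeries_injective

theorem charZero_laurF [CharZero F] : CharZero (LaurF F) :=
  charZero_of_injective_ringHom (embL (F := F)).injective

/-- Laurent series over `K` inside those over `F`. -/
def laurHom : LaurentSeries S.K →+* LaurentSeries F where
  toFun x := x.map S.K.subtype
  map_one' := HahnSeries.map_one S.K.subtype.toMonoidWithZeroHom
  map_mul' _ _ := HahnSeries.map_mul S.K.subtype.toNonUnitalRingHom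
  map_zero' := by ext; simp
  map_add' x y := by ext; simp

/-- The centre of the Laurent step. -/
def laurK : Subfield (LaurF F) :=
  S.laurHom.fieldRange.map (algebraMap (LaurentSeries F) (LaurF F))

theorem mem_laurK {y : LaurentSeries F} (hy : ∀ k, y.coeff k ∈ S.K) :
    algebraMap (LaurentSeries F) (LaurF F) y ∈ S.laurK := by
  refine ⟨y, ⟨{ coeff := fun k => ⟨y.coeff k, hy k⟩, isPWO_support' := ?_ }, ?_⟩, rfl⟩
  · exact y.isPWO_support.mono fun k hk h => hk (Subtype.ext h)
  · ext k; rfl

theorem psEmb_mem {y : PowerSeries F} (hy : ∀ k, PowerSeries.coeff k y ∈ S.K) :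
    psEmb y ∈ S.laurK := by
  refine S.mem_laurK fun k => ?_
  by_cases hk : 0 ≤ k
  · lift k to ℕ using hk
    rw [HahnSeries.ofPowerSeries_apply_coeff]
    exact hy k
  · rw [HahnSeries.ofPowerSeries_apply, HahnSeries.embDomain_of_notMem_range]
    · exact S.K.zero_mem
    · rintro ⟨a, rfl⟩
      exact hk (Int.natCast_nonneg a)

theorem embL_mem {x : F} (hx : x ∈ S.K) : embL x ∈ S.laurK := by
  rw [← psEmb_C]
  refine S.psEmb_mem fun k => ?_
  rw [PowerSeries.coeff_C]
  split_ifs
  · exact hx
  · exact S.K.zero_mem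

theorem infinite_laurK [CharZero F] : Infinite S.laurK := by
  have := charZero_laurF (F := F)
  exact Infinite.of_injective (fun k : ℕ => (k : S.laurK)) Nat.cast_injective

/-- The coefficient matrix at an exponent. -/
def lc (M : Matrix n n (LaurentSeries F)) (k : ℤ) : Matrix n n F := M.map fun x => x.coeff k

/-- The basis of all matrices over the series field. -/
def bcoord : Module.Basis (n × n) (LaurentSeries F) (Matrix n n (LaurentSeries F)) :=
  basisOfTopLeSpanOfCardEqFinrank (fun i => (S.b i).map HahnSeries.C)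
    (span_map_matrix _ _ S.span_b).ge
    (by rw [Fintype.card_prod, Module.finrank_matrix, finrank_self, mul_one])

theorem lc_sum (c : n × n → LaurentSeries F) (k : ℤ) :
    lc (∑ i, c i • (S.b i).map HahnSeries.C) k = ∑ i, (c i).coeff k • S.b i := by
  ext a b
  simp [lc, Matrix.sum_apply, HahnSeries.coeff_sum, HahnSeries.C_apply,
    HahnSeries.coeff_mul_single_zero]

theorem exists_coord_laur {M : Matrix n n (LaurentSeries F)} (hM : ∀ k, lc M k ∈ S.D) :
    ∃ c : n × n → LaurentSeries F,
      (∀ i k, (c i).coeff k ∈ S.K) ∧ M = ∑ i, c i • (S.b i).map HahnSeries.C := by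
  have hsum : M = ∑ i, S.bcoord.repr M i • (S.b i).map HahnSeries.C := by
    conv_lhs => rw [← S.bcoord.sum_repr M]
    simp [bcoord]
  refine ⟨fun i => S.bcoord.repr M i, fun i k => ?_, hsum⟩
  obtain ⟨c, hc, hc'⟩ := S.exists_coord _ (hM k)
  rw [hsum, lc_sum, ← sub_eq_zero, ← Finset.sum_sub_distrib] at hc'
  simp only [← sub_smul] at hc'
  have := Fintype.linearIndependent_iff.1 S.b_indep _ hc' i
  rw [sub_eq_zero] at this
  rw [this]
  exact hc i

/-- Series with all coefficients in `D`. -/
def laurSub : Subring (Matrix n n (LaurentSeries F)) where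
  carrier := {M | ∀ k, lc M k ∈ S.D}
  zero_mem' k := by
    rw [show lc (0 : Matrix n n (LaurentSeries F)) k = 0 from Matrix.ext fun i j => by simp [lc]]
    exact S.D.zero_mem
  add_mem' {x y} hx hy k := by
    rw [show lc (x + y) k = lc x k + lc y k from Matrix.ext fun i j => by simp [lc]]
    exact S.D.add_mem (hx k) (hy k)
  neg_mem' {x} hx k := by
    rw [show lc (-x) k = -lc x k from Matrix.ext fun i j => by simp [lc]]
    exact S.D.neg_mem (hx k)
  one_mem' k := by
    rw [show lc (1 : Matrix n n (LaurentSeries F)) k = if k = 0 then 1 else 0 from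
      Matrix.ext fun i j => by
        by_cases hk : k = 0 <;> by_cases hij : i = j <;>
          simp [lc, Matrix.one_apply, hij, hk]]
    split_ifs
    · exact S.D.one_mem
    · exact S.D.zero_mem
  mul_mem' {x y} hx hy k := by
    obtain ⟨c, hc, rfl⟩ := S.exists_coord_laur hx
    obtain ⟨d, hd, rfl⟩ := S.exists_coord_laur hy
    rw [show lc ((∑ i, c i • (S.b i).map HahnSeries.C) * ∑ j, d j • (S.b j).map HahnSeries.C) k =
        ∑ i, ∑ j, (c i * d j).coeff k • (S.b i * S.b j) from by
      rw [Finset.sum_mul_sum]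
      ext a b
      simp only [lc, Matrix.map_apply, Matrix.sum_apply, HahnSeries.coeff_sum]
      refine Finset.sum_congr rfl fun i _ => Finset.sum_congr rfl fun j _ => ?_
      rw [smul_mul_smul_comm, ← Matrix.map_mul, Matrix.smul_apply, Matrix.map_apply, smul_eq_mul,
        HahnSeries.C_apply, HahnSeries.coeff_mul_single_zero, Matrix.smul_apply, smul_eq_mul]]
    refine S.D.sum_mem fun i _ => S.D.sum_mem fun j _ => S.smul_mem ?_
      (S.D.mul_mem (S.b_mem i) (S.b_mem j))
    rw [HahnSeries.coeff_mul]
    exact S.K.sum_mem fun uv _ => S.K.mul_mem (hc _ _) (hd _ _)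

theorem mem_laurSub_iff {M : Matrix n n (LaurentSeries F)} :
    M ∈ S.laurSub ↔ ∃ c : n × n → LaurentSeries F,
      (∀ i k, (c i).coeff k ∈ S.K) ∧ M = ∑ i, c i • (S.b i).map HahnSeries.C := by
  refine ⟨fun hM => S.exists_coord_laur hM, ?_⟩
  rintro ⟨c, hc, rfl⟩ k
  rw [lc_sum]
  exact S.sum_mem fun i => hc i k

omit [DecidableEq n] in
theorem exists_lc_low {M : Matrix n n (LaurentSeries F)} (hM : M ≠ 0) :
    ∃ a : ℤ, lc M a ≠ 0 ∧ ∀ i j, ∀ k < a, (M i j).coeff k = 0 := by
  classical
  obtain ⟨i₀, j₀, h₀⟩ : ∃ i j, M i j ≠ 0 := by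
    by_contra h
    push Not at h
    exact hM (Matrix.ext h)
  let P := (Finset.univ : Finset (n × n)).filter fun p => M p.1 p.2 ≠ 0
  obtain ⟨p, hp, hmin⟩ := P.exists_min_image (fun p => (M p.1 p.2).order)
    ⟨(i₀, j₀), by simp [P, h₀]⟩
  have hp : M p.1 p.2 ≠ 0 := (Finset.mem_filter.1 hp).2
  refine ⟨(M p.1 p.2).order, fun h => ?_, fun i j k hk => ?_⟩
  · exact (fun e => hp (HahnSeries.coeff_order_eq_zero.1 e)) (congrFun (congrFun h p.1) p.2)
  · by_cases h : M i j = 0
    · simp [h]
    · exact HahnSeries.coeff_eq_zero_of_lt_order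
        (hk.trans_le (hmin (i, j) (by simp [P, h])))

/-- The representation over the closed field. -/
def laurRep : Matrix n n (LaurentSeries F) →+* Matrix n n (LaurF F) :=
  (algebraMap (LaurentSeries F) (LaurF F)).mapMatrix

/-- **The Laurent step.** -/
def laurAlg : DivAlg n (LaurF F) where
  K := S.laurK
  D := S.laurSub.map laurRep
  scalar_mem x hx := by
    obtain ⟨y, ⟨z, rfl⟩, rfl⟩ := hx
    refine ⟨Matrix.scalar n (S.laurHom z), fun k => ?_, ?_⟩
    · rw [show lc (Matrix.scalar n (S.laurHom z)) k = Matrix.scalar n (z.coeff k : F) from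
        Matrix.ext fun i j => by
          by_cases h : i = j
          · subst h; simp only [lc, Matrix.map_apply, Matrix.scalar_apply, Matrix.diagonal_apply_eq]
            rfl
          · simp [lc, h]]
      exact S.scalar_mem _ (z.coeff k).2
    · exact Matrix.ext fun i j => by by_cases h : i = j <;> simp [laurRep, h]
  b i := (S.b i).map embL
  b_mem i := by
    refine ⟨(S.b i).map HahnSeries.C, fun k => ?_, Matrix.ext fun a b => rfl⟩
    rw [show lc ((S.b i).map HahnSeries.C) k = if k = 0 then S.b i else 0 from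
      Matrix.ext fun a b => by by_cases hk : k = 0 <;> simp [lc, hk, HahnSeries.C_apply]]
    split_ifs
    · exact S.b_mem i
    · exact S.D.zero_mem
  b_indep := linearIndependent_of_top_le_span_of_card_eq_finrank
    (span_map_matrix embL _ S.span_b).ge
    (by rw [Fintype.card_prod, Module.finrank_matrix, finrank_self, mul_one])
  exists_coord := by
    rintro _ ⟨M, hM, rfl⟩
    obtain ⟨c, hc, rfl⟩ := S.mem_laurSub_iff.1 hM
    refine ⟨fun i => algebraMap (LaurentSeries F) (LaurF F) (c i), fun i => S.mem_laurK (hc i), ?_⟩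
    rw [map_sum]
    refine Finset.sum_congr rfl fun i _ => Matrix.ext fun a b => ?_
    exact map_mul (algebraMap (LaurentSeries F) (LaurF F)) (c i) _
  no_zero_div := by
    rintro _ ⟨A, hA, rfl⟩ _ ⟨B, hB, rfl⟩ h
    by_contra hne
    push Not at hne
    obtain ⟨a, ha, ha'⟩ := exists_lc_low (M := A) fun e => hne.1 (by rw [e, map_zero])
    obtain ⟨b, hb, hb'⟩ := exists_lc_low (M := B) fun e => hne.2 (by rw [e, map_zero])
    have h0 : A * B = 0 := Matrix.map_injective (algebraMap (LaurentSeries F) (LaurF F)).injective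
      (show laurRep (A * B) = laurRep 0 by rw [map_mul, h, map_zero])
    have hab : lc (A * B) (a + b) = lc A a * lc B b := Matrix.ext fun i j => by
      simp only [lc, Matrix.map_apply, Matrix.mul_apply, HahnSeries.coeff_sum]
      refine Finset.sum_congr rfl fun l _ => ?_
      rw [HahnSeries.coeff_mul, Finset.sum_eq_single (a, b)]
      · intro uv huv hne'
        simp only [Finset.mem_antidiagonal] at huv
        by_cases hu : uv.1 < a
        · exact absurd (ha' i l _ hu) huv.1
        by_cases hv : uv.2 < b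
        · exact absurd (hb' l j _ hv) huv.2.1
        exact absurd (Prod.ext (by omega) (by omega)) hne'
      · intro hn
        simp only [Finset.mem_antidiagonal, HahnSeries.mem_support] at hn
        by_cases hu : (A i l).coeff a = 0
        · rw [hu, zero_mul]
        by_cases hv : (B l j).coeff b = 0
        · rw [hv, mul_zero]
        exact absurd ⟨hu, hv, trivial⟩ hn
    rw [h0] at hab
    rcases S.no_zero_div _ (hA a) _ (hB b) (hab.symm.trans (Matrix.ext fun i j => by simp [lc])) with
      h1 | h1
    · exact ha h1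
    · exact hb h1
  roots k hk := by
    obtain ⟨z, hz, hp⟩ := S.roots k hk
    exact ⟨embL z, S.embL_mem hz, hp.map_of_injective (f := embL) (RingHom.injective _)⟩

theorem laurAlg_K : S.laurAlg.K = S.laurK := rfl

/-- A power series of elements of `D` lies in the Laurent step. -/
theorem series_mem_laurAlg {x : ℕ → Matrix n n F} (hx : ∀ k, x k ∈ S.D) :
    Matrix.of (fun i j => psEmb (PowerSeries.mk fun k => x k i j)) ∈ S.laurAlg.D := by
  refine ⟨Matrix.of fun i j => HahnSeries.ofPowerSeries ℤ F (PowerSeries.mk fun k => x k i j),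
    fun k => ?_, Matrix.ext fun i j => rfl⟩
  by_cases hk : 0 ≤ k
  · lift k to ℕ using hk
    rw [show lc (Matrix.of fun i j => HahnSeries.ofPowerSeries ℤ F
        (PowerSeries.mk fun m => x m i j)) (k : ℤ) = x k from Matrix.ext fun i j => by
      simp [lc, HahnSeries.ofPowerSeries_apply_coeff]]
    exact hx k
  · rw [show lc (Matrix.of fun i j => HahnSeries.ofPowerSeries ℤ F
        (PowerSeries.mk fun m => x m i j)) k = 0 from Matrix.ext fun i j => by
      simp only [lc, Matrix.map_apply, Matrix.of_apply, Matrix.zero_apply]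
      rw [HahnSeries.ofPowerSeries_apply, HahnSeries.embDomain_of_notMem_range]
      rintro ⟨a, rfl⟩
      exact hk (Int.natCast_nonneg a)]
    exact S.D.zero_mem

/-- Constants lie in the Laurent step. -/
theorem map_embL_mem {x : Matrix n n F} (hx : x ∈ S.D) : x.map embL ∈ S.laurAlg.D := by
  refine ⟨x.map HahnSeries.C, fun k => ?_, Matrix.ext fun a b => rfl⟩
  rw [show lc (x.map HahnSeries.C) k = if k = 0 then x else 0 from
    Matrix.ext fun a b => by by_cases hk : k = 0 <;> simp [lc, hk, HahnSeries.C_apply]]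
  split_ifs
  · exact hx
  · exact S.D.zero_mem

end Laurent

section Step

variable [Nonempty n] (q : ℕ) [NeZero q]

/-- The symbol step followed by the Laurent step. -/
abbrev inflAlg : DivAlg (n × Fin q) (LaurF (SymF F)) := (S.symAlg q).laurAlg

/-- A matrix of power series with coefficient matrices in the symbol step lies in the full step. -/
theorem map_psEmb_mem {M : Matrix (n × Fin q) (n × Fin q) (PowerSeries (SymF F))}
    (hM : ∀ k, M.map (PowerSeries.coeff k) ∈ (S.symAlg q).D) :
    M.map psEmb ∈ (S.inflAlg q).D := by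
  convert (S.symAlg q).series_mem_laurAlg hM using 1
  ext i j
  exact congrArg psEmb (PowerSeries.ext fun k => by simp)

/-- `1 ⊗ Σ a l • E l` lies in the symbol step. -/
theorem one_kron_sum_mem {a : Fin q × Fin q → SymF F} (ha : ∀ l, a l ∈ S.symK q) :
    (1 : Matrix n n (SymF F)) ⊗ₖ (∑ l, a l • S.symE q l) ∈ (S.symAlg q).D := by
  have h : (1 : Matrix n n (SymF F)) ⊗ₖ (∑ l, a l • S.symE q l) =
      ∑ l, a l • ((1 : Matrix n n (SymF F)) ⊗ₖ S.symE q l) := by
    ext ⟨i, u⟩ ⟨j, v⟩
    simp [Matrix.sum_apply, Finset.mul_sum, mul_left_comm]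
  rw [h]
  exact (S.symAlg q).D.sum_mem fun l _ => (S.symAlg q).smul_mem (ha l) (S.one_kron_symE_mem q l)

/-- Points with coordinates in the centre avoid any given hypersurface over `F`. -/
theorem exists_coords [CharZero F] {ι : Type} {P : MvPolynomial (ι × Fin q × Fin q) F}
    (hP : P ≠ 0) :
    ∃ a : ι → Fin q × Fin q → SymF F, (∀ i l, a i l ∈ S.symK q) ∧
      MvPolynomial.eval₂ (embF (F := F))
        (fun x => (∑ l, a x.1 l • S.symE q l) x.2.1 x.2.2) P ≠ 0 := by
  have := charZero_symF (F := F)
  have := S.infinite_symK q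
  have : Infinite (SymF F) := Infinite.of_injective (fun k : ℕ => (k : SymF F)) Nat.cast_injective
  let g : ι × Fin q × Fin q → MvPolynomial (ι × (Fin q × Fin q)) (SymF F) := fun x =>
    ∑ l, MvPolynomial.C (S.symE q l x.2.1 x.2.2) * MvPolynomial.X (x.1, l)
  let Q : MvPolynomial (ι × (Fin q × Fin q)) (SymF F) :=
    MvPolynomial.eval₂ (MvPolynomial.C.comp (embF (F := F))) g P
  have hQ : ∀ y : ι × (Fin q × Fin q) → SymF F, MvPolynomial.eval y Q =
      MvPolynomial.eval₂ (embF (F := F))
        (fun x => (∑ l, y (x.1, l) • S.symE q l) x.2.1 x.2.2) P := by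
    intro y
    rw [MvPolynomial.eval₂_comp_left (MvPolynomial.eval y)]
    congr 1
    · ext c; simp
    · funext x
      simp [g, Matrix.sum_apply, mul_comm]
  have hQ0 : Q ≠ 0 := by
    intro h0
    refine hP (MvPolynomial.map_injective (embF (F := F)) (RingHom.injective _) ?_)
    rw [map_zero]
    refine MvPolynomial.funext fun x => ?_
    let B := basisOfTopLeSpanOfCardEqFinrank (S.symE q) (S.span_symE q).ge (by
      rw [Fintype.card_prod, Module.finrank_matrix, finrank_self, mul_one])
    have h := hQ fun il => B.repr (Matrix.of fun u v => x (il.1, u, v)) il.2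
    rw [h0, map_zero] at h
    rw [map_zero, MvPolynomial.eval_map, h]
    congr 1
    funext ⟨i, u, v⟩
    have := congrArg (fun M : Matrix (Fin q) (Fin q) (SymF F) => M u v)
      (B.sum_repr (Matrix.of fun u v => x (i, u, v)))
    simpa [B] using this.symm
  obtain ⟨z, hz⟩ := Universal.exists_eval_ne_zero (S.symK q).subtype {()} (fun _ => Q)
    fun _ _ => hQ0
  refine ⟨fun i l => z (i, l), fun i l => (z (i, l)).2, ?_⟩
  have h := hz () (Finset.mem_singleton_self _)
  rw [hQ] at h
  exact h

end Step

end DivAlg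

end Vale.Agent.P199
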