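import Vale.Agent.P199.SerHom

/-!
P199: the evaluation `ev` of series at small matrices over power series, its derivative `dev`,
substitution, and orders.
-/

namespace Vale.Agent.P199

open Finset Series
open scoped Kronecker

section Orders

variable {A : Type*} [CommRing A] {m n o p : Type*}

/-- The coefficient matrix of degree `k`. -/
noncomputable def cm (k : ℕ) (M : Matrix m n (PowerSeries A)) : Matrix m n A :=
  M.map (PowerSeries.coeff k)

@[simp] theorem cm_apply (k : ℕ) (M : Matrix m n (PowerSeries A)) (x : m) (y : n) :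
    cm k M x y = PowerSeries.coeff k (M x y) := rfl

theorem cm_ext {M N : Matrix m n (PowerSeries A)} (h : ∀ k, cm k M = cm k N) : M = N := by
  ext x y k
  exact congrFun₂ (h k) x y

@[simp] theorem cm_add (k : ℕ) (M N : Matrix m n (PowerSeries A)) :
    cm k (M + N) = cm k M + cm k N := by ext; simp

@[simp] theorem cm_sub (k : ℕ) (M N : Matrix m n (PowerSeries A)) :
    cm k (M - N) = cm k M - cm k N := by ext; simp

@[simp] theorem cm_zero (k : ℕ) : cm k (0 : Matrix m n (PowerSeries A)) = 0 := by ext; simp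

@[simp] theorem cm_sum {α : Type*} (S : Finset α) (k : ℕ) (f : α → Matrix m n (PowerSeries A)) :
    cm k (∑ i ∈ S, f i) = ∑ i ∈ S, cm k (f i) := by
  ext x y; simp [Matrix.sum_apply]

theorem cm_smul (k : ℕ) (c : A) (M : Matrix m n (PowerSeries A)) :
    cm k (PowerSeries.C c • M) = c • cm k M := by
  ext; simp [PowerSeries.coeff_C_mul]

theorem cm_one [DecidableEq m] (k : ℕ) :
    cm k (1 : Matrix m m (PowerSeries A)) = if k = 0 then 1 else 0 := by
  ext x y
  by_cases h : x = y <;> split_ifs with hk <;>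
    simp [Matrix.one_apply, h, hk, PowerSeries.coeff_one]

theorem cm_map_C (k : ℕ) (M : Matrix m n A) :
    cm k (M.map PowerSeries.C) = if k = 0 then M else 0 := by
  ext x y
  split_ifs with hk <;> simp [PowerSeries.coeff_C, hk]

theorem cm_mul [Fintype n] (k : ℕ) (M : Matrix m n (PowerSeries A))
    (N : Matrix n o (PowerSeries A)) :
    cm k (M * N) = ∑ ij ∈ antidiagonal k, cm ij.1 M * cm ij.2 N := by
  ext x y
  simp only [cm_apply, Matrix.mul_apply, map_sum, Matrix.sum_apply, PowerSeries.coeff_mul]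
  exact sum_comm

/-- All coefficients below degree `e` vanish. -/
def Van (e : ℕ) (M : Matrix m n (PowerSeries A)) : Prop := ∀ k < e, cm k M = 0

namespace Van

variable {M N : Matrix m n (PowerSeries A)} {e e' : ℕ}

theorem of_zero (M : Matrix m n (PowerSeries A)) : Van 0 M :=
  fun _ h => absurd h (Nat.not_lt_zero _)

theorem zero (e : ℕ) : Van e (0 : Matrix m n (PowerSeries A)) := fun _ _ => cm_zero _

theorem mono (h : Van e M) (he : e' ≤ e) : Van e' M := fun k hk => h k (hk.trans_le he)

theorem add (hM : Van e M) (hN : Van e N) : Van e (M + N) :=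
  fun k hk => by rw [cm_add, hM k hk, hN k hk, add_zero]

theorem sub (hM : Van e M) (hN : Van e N) : Van e (M - N) :=
  fun k hk => by rw [cm_sub, hM k hk, hN k hk, sub_zero]

theorem neg (hM : Van e M) : Van e (-M) := by simpa using (Van.zero e).sub hM

theorem sum {α : Type*} {S : Finset α} {f : α → Matrix m n (PowerSeries A)}
    (h : ∀ i ∈ S, Van e (f i)) : Van e (∑ i ∈ S, f i) :=
  fun k hk => by rw [cm_sum, sum_eq_zero fun i hi => h i hi k hk]

theorem mul [Fintype n] {N : Matrix n o (PowerSeries A)} (hM : Van e M) (hN : Van e' N) :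
    Van (e + e') (M * N) := by
  intro k hk
  rw [cm_mul]
  refine sum_eq_zero fun ij hij => ?_
  rw [HasAntidiagonal.mem_antidiagonal] at hij
  by_cases h : ij.1 < e
  · rw [hM _ h, Matrix.zero_mul]
  · rw [hN _ (by omega), Matrix.mul_zero]

theorem cm_mul_lead [Fintype n] {N : Matrix n o (PowerSeries A)} (hM : Van e M) (hN : Van e' N) :
    cm (e + e') (M * N) = cm e M * cm e' N := by
  rw [cm_mul, sum_eq_single (e, e')]
  · intro ij hij hne
    rw [HasAntidiagonal.mem_antidiagonal] at hij
    by_cases h : ij.1 < e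
    · rw [hM _ h, Matrix.zero_mul]
    · have : ij.2 < e' := by
        by_contra h'
        exact hne (Prod.ext (by show ij.1 = e; omega) (by show ij.2 = e'; omega))
      rw [hN _ this, Matrix.mul_zero]
  · simp

theorem submatrix {m' n' : Type*} (h : Van e M) (f : m' → m) (g : n' → n) :
    Van e (M.submatrix f g) := fun k hk => by
  ext x y; exact congrFun₂ (h k hk) (f x) (g y)

theorem kronecker_left {α β : Type*} (a : Matrix α β (PowerSeries A)) (h : Van e M) :
    Van e (a ⊗ₖ M) := by
  intro k hk
  ext x y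
  simp only [cm_apply, Matrix.kroneckerMap_apply, Matrix.zero_apply,
    PowerSeries.coeff_mul]
  refine sum_eq_zero fun ij hij => ?_
  rw [HasAntidiagonal.mem_antidiagonal] at hij
  have := congrFun₂ (h ij.2 (by omega)) x.2 y.2
  rw [cm_apply] at this
  rw [this, Matrix.zero_apply, mul_zero]

theorem eq_zero (h : ∀ e, Van e M) : M = 0 :=
  cm_ext fun k => by rw [cm_zero]; exact h (k + 1) k (Nat.lt_succ_self k)

end Van

theorem eq_of_van_sub {M N : Matrix m n (PowerSeries A)} (h : ∀ e, Van e (M - N)) : M = N :=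
  sub_eq_zero.1 (Van.eq_zero h)

theorem van_sub_trans {M N O : Matrix m n (PowerSeries A)} {e : ℕ} (h : Van e (M - N))
    (h' : Van e (N - O)) : Van e (M - O) := by simpa using h.add h'

theorem smallAt_iff {ι : Type*} {H : ι → Matrix p p (PowerSeries A)} :
    SmallAt H ↔ ∀ i, Van 1 (H i) := by
  refine ⟨fun h i k hk => ?_, fun h i x y => ?_⟩
  · obtain rfl : k = 0 := by omega
    ext x y
    simpa using h i x y
  · simpa using congrFun₂ (h i 0 one_pos) x y

theorem cm_kronecker_C {α β : Type*} (k : ℕ) (a : Matrix α β A) (M : Matrix m n (PowerSeries A)) :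
    cm k (a.map PowerSeries.C ⊗ₖ M) = a ⊗ₖ cm k M := by
  ext x y
  simp [PowerSeries.coeff_C_mul]

theorem one_kronecker_inj {α : Type*} [DecidableEq α] [Nonempty α] {R : Type*} [CommRing R]
    {M N : Matrix m n R} (h : (1 : Matrix α α R) ⊗ₖ M = (1 : Matrix α α R) ⊗ₖ N) : M = N := by
  ext x y
  obtain ⟨a⟩ := ‹Nonempty α›
  simpa using congrFun₂ h (a, x) (a, y)

variable [Fintype p] [DecidableEq p]

theorem van_list_prod {ι : Type*} {H : ι → Matrix p p (PowerSeries A)} {e : ℕ}
    (h : ∀ i, Van e (H i)) : ∀ w : List ι,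
      Van (e * w.length) (w.map H).prod ∧
        cm (e * w.length) (w.map H).prod = (w.map fun i => cm e (H i)).prod
  | [] => by simpa [cm_one] using Van.of_zero (1 : Matrix p p (PowerSeries A))
  | i :: w => by
    obtain ⟨h1, h2⟩ := van_list_prod h w
    rw [List.length_cons, Nat.mul_succ, Nat.add_comm, List.map_cons, List.map_cons, List.prod_cons,
      List.prod_cons]
    exact ⟨(h i).mul h1, by rw [Van.cm_mul_lead (h i) h1, h2]⟩

theorem van_list_prod_sub {ι : Type*} {H H' : ι → Matrix p p (PowerSeries A)} {e f : ℕ}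
    (hH : ∀ i, Van f (H i)) (hH' : ∀ i, Van f (H' i)) (hd : ∀ i, Van e (H' i - H i)) :
    ∀ w : List ι, Van (e + f * (w.length - 1)) ((w.map H').prod - (w.map H).prod)
  | [] => by simpa using Van.zero (A := A) (m := p) (n := p) e
  | [i] => by simpa using hd i
  | i :: l :: w => by
    rw [List.map_cons, List.map_cons (f := H), List.prod_cons, List.prod_cons,
      show H' i * ((l :: w).map H').prod - H i * ((l :: w).map H).prod =
        (H' i - H i) * ((l :: w).map H').prod +
          H i * (((l :: w).map H').prod - ((l :: w).map H).prod) by noncomm_ring]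
    refine Van.add (((hd i).mul (van_list_prod hH' (l :: w)).1).mono ?_)
      (((hH i).mul (van_list_prod_sub hH hH' hd (l :: w))).mono ?_)
    · simp only [List.length_cons]; rfl
    · simp only [List.length_cons, Nat.add_sub_cancel]
      rw [Nat.mul_succ]
      omega

end Orders

section ToPS

variable {A : Type*} [CommRing A] {m : Type*}

theorem cm_toPS (k : ℕ) (a : Ser (Matrix m m A) Unit) :
    cm k (toPS a) = a.coeff (List.replicate k ()) := by
  ext x y; simp [toPS]

variable [Fintype m] [DecidableEq m]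

/-- `toPS` as a ring hom. -/
noncomputable def toPSHom : Ser (Matrix m m A) Unit →+* Matrix m m (PowerSeries A) where
  toFun := toPS
  map_one' := cm_ext fun k => by simp [cm_toPS, cm_one, Ser.coeff_one_if]
  map_mul' a b := cm_ext fun k => by
    rw [cm_toPS, Ser.coeff_mul_sum, cm_mul,
      Finset.Nat.sum_antidiagonal_eq_sum_range_succ (fun i j => cm i (toPS a) * cm j (toPS b)),
      List.length_replicate]
    refine sum_congr rfl fun i hi => ?_
    rw [mem_range] at hi
    rw [cm_toPS, cm_toPS, List.take_replicate, List.drop_replicate, min_eq_left (by omega)]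
  map_zero' := cm_ext fun k => by simp [cm_toPS]
  map_add' a b := cm_ext fun k => by simp [cm_toPS]

theorem van_toPS {a : Ser (Matrix m m A) Unit} {n : ℕ} (h : Ser.LowVanish n a) :
    Van n (toPS a) := fun k hk => by rw [cm_toPS, h _ (by simpa using hk)]

end ToPS

section Eval

variable {A : Type*} [CommRing A] {ι p β : Type*} [Fintype ι] [DecidableEq ι] [Fintype β]
  [DecidableEq β] [Fintype p] [DecidableEq p] {H V : ι → Matrix p p (PowerSeries A)}

omit [Fintype ι] [DecidableEq ι] [Fintype β] [Fintype p] [DecidableEq p] in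
theorem toPS_ofH (H : ι → Matrix p p (PowerSeries A)) (i : ι) :
    toPS (ofH (β := β) H i) = (1 : Matrix β β (PowerSeries A)) ⊗ₖ H i :=
  cm_ext fun k => by
    rw [cm_toPS, show (1 : Matrix β β (PowerSeries A)) =
      (1 : Matrix β β A).map PowerSeries.C from (Matrix.map_one _ (map_zero _) (map_one _)).symm,
      cm_kronecker_C]
    simp [ofH, cm]

omit [Fintype ι] [DecidableEq ι] in
theorem coeff_prod_ofH (H : ι → Matrix p p (PowerSeries A)) (w : List ι) (k : ℕ) :
    ((w.map (ofH (β := β) H)).prod).coeff (List.replicate k ()) =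
      (1 : Matrix β β A) ⊗ₖ cm k (w.map H).prod := by
  have e : toPS (w.map (ofH (β := β) H)).prod =
      (1 : Matrix β β (PowerSeries A)) ⊗ₖ (w.map H).prod := by
    show toPSHom _ = _
    induction w with
    | nil => simp
    | cons i w ih =>
      rw [List.map_cons, List.prod_cons, map_mul, ih, List.map_cons, List.prod_cons]
      show toPS _ * _ = _
      rw [toPS_ofH, ← Matrix.mul_kronecker_mul, one_mul]
  rw [← cm_toPS, e, show (1 : Matrix β β (PowerSeries A)) =
    (1 : Matrix β β A).map PowerSeries.C from (Matrix.map_one _ (map_zero _) (map_one _)).symm,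
    cm_kronecker_C]

/-- The coefficient formula for `ev`. -/
theorem cm_ev (H : ι → Matrix p p (PowerSeries A)) (a : Ser (Matrix β β A) ι) (k : ℕ) :
    cm k (ev H a) =
      ∑ l ∈ range (k + 1), ∑ w ∈ words ι l, a.coeff w ⊗ₖ cm k (w.map H).prod := by
  rw [ev, cm_toPS, Ser.coeff_subst, List.length_replicate]
  refine sum_congr rfl fun l _ => sum_congr rfl fun w _ => ?_
  rw [coeff_prod_ofH]
  show (a.coeff w ⊗ₖ 1) * _ = _
  rw [← Matrix.mul_kronecker_mul, Matrix.mul_one, Matrix.one_mul]

/-- Any longer range gives the same coefficient. -/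
theorem cm_ev_of_le (hH : SmallAt H) (a : Ser (Matrix β β A) ι) {k N : ℕ} (hk : k < N) :
    cm k (ev H a) = ∑ l ∈ range N, ∑ w ∈ words ι l, a.coeff w ⊗ₖ cm k (w.map H).prod := by
  rw [cm_ev]
  refine sum_subset (range_subset_range.2 hk) fun l _ hl => sum_eq_zero fun w hw => ?_
  rw [((van_list_prod (smallAt_iff.1 hH) w).1 k (by
    rw [mem_words.1 hw, one_mul]; simp only [mem_range] at hl; omega))]
  exact Matrix.kronecker_zero _

/-- The polynomial approximation of an evaluation. -/
theorem ev_sub_trunc (hH : SmallAt H) (a : Ser (Matrix β β A) ι) (N : ℕ) :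
    Van N (ev H a -
      ∑ l ∈ range N, ∑ w ∈ words ι l, (a.coeff w).map PowerSeries.C ⊗ₖ (w.map H).prod) := by
  intro k hk
  simp only [cm_sub, cm_sum, cm_kronecker_C]
  rw [cm_ev_of_le hH a hk, sub_self]

omit [DecidableEq ι] [Fintype ι] [Fintype β] [Fintype p] [DecidableEq p] in
theorem ofH_coeff_nil (hH : SmallAt H) (i : ι) :
    (ofH (β := β) H i).coeff [] = 0 := by
  show (1 : Matrix β β A) ⊗ₖ cm 0 (H i) = 0
  rw [smallAt_iff.1 hH i 0 one_pos]
  exact Matrix.kronecker_zero _

omit [DecidableEq ι] [Fintype ι] in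
theorem ofH_commute (H : ι → Matrix p p (PowerSeries A)) (x : Matrix β β A) (i : ι)
    (u : List Unit) : Commute (kronOne (p := p) x) ((ofH (β := β) H i).coeff u) := by
  show (x ⊗ₖ (1 : Matrix p p A)) * _ = _ * (x ⊗ₖ (1 : Matrix p p A))
  simp only [ofH, ← Matrix.mul_kronecker_mul, Matrix.one_mul, Matrix.mul_one]

/-- `ev` as a ring hom. -/
noncomputable def evHom (hH : SmallAt H) :
    Ser (Matrix β β A) ι →+* Matrix (β × p) (β × p) (PowerSeries A) :=
  toPSHom.comp (Ser.substHom kronOne (ofH_coeff_nil hH) (ofH_commute H))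

@[simp] theorem evHom_apply (hH : SmallAt H) (a : Ser (Matrix β β A) ι) :
    evHom hH a = ev H a := rfl

theorem ev_add (hH : SmallAt H) (a b : Ser (Matrix β β A) ι) :
    ev H (a + b) = ev H a + ev H b := (evHom hH).map_add a b

theorem ev_sub (hH : SmallAt H) (a b : Ser (Matrix β β A) ι) :
    ev H (a - b) = ev H a - ev H b := (evHom hH).map_sub a b

theorem ev_mul (hH : SmallAt H) (a b : Ser (Matrix β β A) ι) :
    ev H (a * b) = ev H a * ev H b := (evHom hH).map_mul a b

theorem ev_one (hH : SmallAt H) : ev (β := β) H 1 = 1 := (evHom hH).map_one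

theorem ev_C (H : ι → Matrix p p (PowerSeries A)) (M : Matrix β β A) :
    ev H (Ser.C M) = M.map PowerSeries.C ⊗ₖ (1 : Matrix p p (PowerSeries A)) :=
  cm_ext fun k => by
    rw [cm_ev, cm_kronecker_C, sum_eq_single 0 (fun l _ hl => sum_eq_zero fun w hw => ?_)
      (fun h => absurd h (by simp)), words_zero, sum_singleton]
    · simp
    · rw [Ser.coeff_C, if_neg (by rw [mem_words.1 hw]; exact hl)]
      exact Matrix.zero_kronecker _

theorem ev_X (hH : SmallAt H) (i : ι) :
    ev H (Ser.X i : Ser (Matrix β β A) ι) = (1 : Matrix β β (PowerSeries A)) ⊗ₖ H i := by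
  rw [ev, Ser.subst_X _ (ofH_coeff_nil hH), toPS_ofH]

theorem ev_van {a : Ser (Matrix β β A) ι} {e n : ℕ} (hH : ∀ i, Van e (H i))
    (ha : Ser.LowVanish n a) : Van (e * n) (ev H a) := by
  intro k hk
  rw [cm_ev]
  refine sum_eq_zero fun l _ => sum_eq_zero fun w hw => ?_
  by_cases hl : l < n
  · rw [ha w (by rwa [mem_words.1 hw])]
    exact Matrix.zero_kronecker _
  · rw [(van_list_prod hH w).1 k (hk.trans_le (Nat.mul_le_mul_left e
      (by rw [mem_words.1 hw]; omega)))]
    exact Matrix.kronecker_zero _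

/-- The leading coefficient of an evaluation. -/
theorem cm_ev_lead {a : Ser (Matrix β β A) ι} {e n : ℕ} (he : 1 ≤ e) (hH : ∀ i, Van e (H i))
    (ha : Ser.LowVanish n a) :
    cm (e * n) (ev H a) =
      ∑ w ∈ words ι n, a.coeff w ⊗ₖ (w.map fun i => cm e (H i)).prod := by
  rw [cm_ev, sum_eq_single n]
  · refine sum_congr rfl fun w hw => ?_
    rw [← (van_list_prod hH w).2, mem_words.1 hw]
  · intro l _ hl
    refine sum_eq_zero fun w hw => ?_
    by_cases h : l < n
    · rw [ha w (by rwa [mem_words.1 hw])]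
      exact Matrix.zero_kronecker _
    · rw [(van_list_prod hH w).1 (e * n) (Nat.mul_lt_mul_of_pos_left
        (by rw [mem_words.1 hw]; omega) he)]
      exact Matrix.kronecker_zero _
  · intro h
    exact absurd (mem_range.2 (Nat.lt_succ_of_le (Nat.le_mul_of_pos_left n he))) h

/-- First order congruence. -/
theorem ev_first_order {H' : ι → Matrix p p (PowerSeries A)} {e f : ℕ} (hf : 1 ≤ f)
    (hH : ∀ i, Van f (H i)) (hH' : ∀ i, Van f (H' i)) (hd : ∀ i, Van e (H' i - H i))
    (a : Ser (Matrix β β A) ι) :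
    Van (e + f) (ev H' a - ev H a -
      ∑ i, (a.coeff [i]).map PowerSeries.C ⊗ₖ (H' i - H i)) := by
  intro k hk
  have hs : SmallAt H := smallAt_iff.2 fun i => (hH i).mono hf
  have hs' : SmallAt H' := smallAt_iff.2 fun i => (hH' i).mono hf
  have hk' : k < k + 2 := by omega
  simp only [cm_sub, cm_sum, cm_kronecker_C, cm_ev_of_le hs a hk', cm_ev_of_le hs' a hk']
  rw [← sum_sub_distrib, sum_eq_single 1]
  · rw [sum_words_one, sum_words_one, ← sum_sub_distrib, ← sum_sub_distrib]
    refine sum_eq_zero fun i _ => ?_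
    ext x y
    simp
    ring
  · intro l _ hl
    rw [← sum_sub_distrib]
    refine sum_eq_zero fun w hw => ?_
    rw [sub_eq_zero]
    congr 1
    rw [← sub_eq_zero, ← cm_sub]
    rcases l with _ | _ | l
    · rw [List.length_eq_zero_iff.1 (mem_words.1 hw)]; simp
    · exact absurd rfl hl
    · refine (van_list_prod_sub hH hH' hd w).mono ?_ k hk
      have h1 : 1 ≤ w.length - 1 := by rw [mem_words.1 hw]; omega
      have := Nat.mul_le_mul_left f h1
      omega
  · intro h; exact absurd (mem_range.2 (by omega)) h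

/-- Naturality: intertwined points give intertwined evaluations. -/
theorem ev_intertwine {p' : Type*} [Fintype p'] [DecidableEq p']
    {H' : ι → Matrix p' p' (PowerSeries A)} (hH : SmallAt H) (hH' : SmallAt H')
    {J : Matrix p' p (PowerSeries A)} (hJ : ∀ i, H' i * J = J * H i)
    (a : Ser (Matrix β β A) ι) :
    ev H' a * ((1 : Matrix β β (PowerSeries A)) ⊗ₖ J) =
      ((1 : Matrix β β (PowerSeries A)) ⊗ₖ J) * ev H a := by
  have hw : ∀ w : List ι, (w.map H').prod * J = J * (w.map H).prod := by
    intro w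
    induction w with
    | nil => simp
    | cons i w ih =>
      rw [List.map_cons, List.prod_cons, List.map_cons, List.prod_cons, Matrix.mul_assoc, ih,
        ← Matrix.mul_assoc, hJ, Matrix.mul_assoc]
  refine eq_of_van_sub fun N => ?_
  have h1 := ((ev_sub_trunc hH' a N).mul (Van.of_zero ((1 : Matrix β β (PowerSeries A)) ⊗ₖ J)))
  have h2 := ((Van.of_zero ((1 : Matrix β β (PowerSeries A)) ⊗ₖ J)).mul (ev_sub_trunc hH a N))
  rw [Matrix.sub_mul] at h1
  rw [Matrix.mul_sub] at h2
  simp only [Matrix.sum_mul, Matrix.mul_sum, ← Matrix.mul_kronecker_mul, Matrix.one_mul,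
    Matrix.mul_one, hw] at h1 h2
  simpa using h1.sub (h2.mono (by simp))

theorem ev_submatrix {p' : Type*} [Fintype p'] [DecidableEq p'] (e : p' ≃ p)
    (a : Ser (Matrix β β A) ι) :
    ev (fun i => (H i).submatrix e e) a = (ev H a).submatrix (Prod.map id e) (Prod.map id e) := by
  refine cm_ext fun k => ?_
  have hw : ∀ w : List ι, (w.map fun i => (H i).submatrix e e).prod = (w.map H).prod.submatrix e e := by
    intro w
    induction w with
    | nil => simp
    | cons i w ih => simp [ih, Matrix.submatrix_mul_equiv]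
  ext x y
  have e1 := congrFun₂ (cm_ev (fun i => (H i).submatrix e e) a k) x y
  have e2 := congrFun₂ (cm_ev H a k) (Prod.map id e x) (Prod.map id e y)
  simp only [Matrix.sum_apply, cm_apply, Matrix.kroneckerMap_apply, hw,
    Matrix.submatrix_apply, Prod.map_fst, Prod.map_snd, id_eq] at e1 e2 ⊢
  rw [e1, e2]

theorem ev_map {A' : Type*} [CommRing A'] (f : A →+* A') (a : Ser (Matrix β β A) ι) :
    ev (fun i => (H i).map (PowerSeries.map f)) (Ser.map f.mapMatrix a) =
      (ev H a).map (PowerSeries.map f) := by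
  refine cm_ext fun k => ?_
  have hw : ∀ w : List ι, (w.map fun i => (H i).map (PowerSeries.map f)).prod =
      (w.map H).prod.map (PowerSeries.map f) := by
    intro w
    have := map_list_prod (RingHom.mapMatrix (m := p) (PowerSeries.map f)) (w.map H)
    simpa [List.map_map, Function.comp_def] using this.symm
  ext x y
  have e1 := congrFun₂ (cm_ev (fun i => (H i).map (PowerSeries.map f)) (Ser.map f.mapMatrix a) k) x y
  have e2 := congrArg f (congrFun₂ (cm_ev H a k) x y)
  simp only [Matrix.sum_apply, cm_apply, Matrix.kroneckerMap_apply, hw,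
    Ser.coeff_map, RingHom.mapMatrix_apply, Matrix.map_apply, map_sum, map_mul,
    PowerSeries.coeff_map] at e1 e2 ⊢
  rw [e1, e2]

/-- Order preserving homs into matrices over power series agreeing on constants and variables. -/
theorem hom_ext_ps {φ ψ : Ser (Matrix β β A) ι →+* Matrix (β × p) (β × p) (PowerSeries A)}
    (hφ : ∀ n a, Ser.LowVanish n a → Van n (φ a)) (hψ : ∀ n a, Ser.LowVanish n a → Van n (ψ a))
    (hC : ∀ x, φ (Ser.C x) = ψ (Ser.C x)) (hX : ∀ i, φ (Ser.X i) = ψ (Ser.X i)) : φ = ψ := by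
  refine RingHom.ext fun a => eq_of_van_sub fun n => ?_
  have h1 := (hφ n _ (Ser.trunc_sub n a)).sub (hψ n _ (Ser.trunc_sub n a))
  have h2 : φ (Ser.trunc n a) = ψ (Ser.trunc n a) := by
    simp only [Ser.trunc, map_sum, map_mul, map_list_prod, List.map_map, hC]
    refine sum_congr rfl fun k _ => sum_congr rfl fun w _ => ?_
    congr 2
    exact List.map_congr_left fun i _ => hX i
  simpa [map_sub, h2] using h1

section Derivative

omit [Fintype ι] [DecidableEq ι] in
/-- The derivative of the product along a word. -/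
noncomputable def dprod (H V : ι → Matrix p p (PowerSeries A)) :
    List ι → Matrix p p (PowerSeries A)
  | [] => 0
  | i :: w => H i * dprod H V w + V i * (w.map H).prod

omit [Fintype ι] [DecidableEq ι] in
theorem prod_dblPoint (H V : ι → Matrix p p (PowerSeries A)) : ∀ w : List ι,
    (w.map (dblPoint H V)).prod = Matrix.fromBlocks (w.map H).prod (dprod H V w) 0 (w.map H).prod
  | [] => by simp [dprod, Matrix.fromBlocks_one]
  | i :: w => by
    rw [List.map_cons, List.prod_cons, prod_dblPoint H V w, dblPoint, Matrix.fromBlocks_multiply]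
    simp [dprod]

omit [Fintype ι] [DecidableEq ι] [Fintype p] [DecidableEq p] in
theorem van_dblPoint {e : ℕ} (hH : ∀ i, Van e (H i)) (hV : ∀ i, Van e (V i)) (i : ι) :
    Van e (dblPoint H V i) := by
  intro k hk
  ext x y
  rcases x with x | x <;> rcases y with y | y
  · exact congrFun₂ (hH i k hk) x y
  · exact congrFun₂ (hV i k hk) x y
  · simp [dblPoint]
  · exact congrFun₂ (hH i k hk) x y

omit [Fintype ι] [DecidableEq ι] [Fintype p] [DecidableEq p] in
theorem smallAt_dblPoint (hH : SmallAt H) (hV : SmallAt V) : SmallAt (dblPoint H V) :=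
  smallAt_iff.2 (van_dblPoint (smallAt_iff.1 hH) (smallAt_iff.1 hV))

/-- The coefficient formula for `dev`. -/
theorem cm_dev (H V : ι → Matrix p p (PowerSeries A)) (a : Ser (Matrix β β A) ι) (k : ℕ) :
    cm k (dev H V a) =
      ∑ l ∈ range (k + 1), ∑ w ∈ words ι l, a.coeff w ⊗ₖ cm k (dprod H V w) := by
  ext x y
  have h := congrFun₂ (cm_ev (dblPoint H V) a k) (x.1, Sum.inl x.2) (y.1, Sum.inr y.2)
  simp only [Matrix.sum_apply, cm_apply, Matrix.kroneckerMap_apply,
    prod_dblPoint, Matrix.fromBlocks_apply₁₂] at h ⊢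
  exact h

/-- The evaluation at the doubled point is block triangular. -/
theorem ev_dblPoint (H V : ι → Matrix p p (PowerSeries A)) (a : Ser (Matrix β β A) ι) :
    ev (dblPoint H V) a = (Matrix.fromBlocks (ev H a) (dev H V a) 0 (ev H a)).submatrix
      (Equiv.prodSumDistrib β p p) (Equiv.prodSumDistrib β p p) := by
  refine cm_ext fun k => ?_
  ext ⟨x, x'⟩ ⟨y, y'⟩
  have h := congrFun₂ (cm_ev (dblPoint H V) a k) (x, x') (y, y')
  simp only [Matrix.sum_apply, cm_apply, Matrix.kroneckerMap_apply,
    prod_dblPoint] at h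
  rcases x' with x' | x' <;> rcases y' with y' | y'
  · have h2 := congrFun₂ (cm_ev H a k) (x, x') (y, y')
    simp only [Matrix.sum_apply, cm_apply, Matrix.kroneckerMap_apply] at h2
    simpa using h.trans (by simpa using h2.symm)
  · simp [dev]
  · simpa using h
  · have h2 := congrFun₂ (cm_ev H a k) (x, x') (y, y')
    simp only [Matrix.sum_apply, cm_apply, Matrix.kroneckerMap_apply] at h2
    simpa using h.trans (by simpa using h2.symm)

theorem dev_sub_trunc (hH : SmallAt H) (hV : SmallAt V) (a : Ser (Matrix β β A) ι) (N : ℕ) :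
    Van N (dev H V a -
      ∑ l ∈ range N, ∑ w ∈ words ι l, (a.coeff w).map PowerSeries.C ⊗ₖ dprod H V w) := by
  have h := ev_sub_trunc (smallAt_dblPoint hH hV) a N
  intro k hk
  ext x y
  have := congrFun₂ (h k hk) (x.1, Sum.inl x.2) (y.1, Sum.inr y.2)
  simpa [Matrix.sum_apply, prod_dblPoint, dev] using this

theorem dev_add (hH : SmallAt H) (hV : SmallAt V) (a b : Ser (Matrix β β A) ι) :
    dev H V (a + b) = dev H V a + dev H V b := by
  ext x y
  simp [dev, ev_add (smallAt_dblPoint hH hV)]

theorem dev_sub (hH : SmallAt H) (hV : SmallAt V) (a b : Ser (Matrix β β A) ι) :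
    dev H V (a - b) = dev H V a - dev H V b := by
  ext x y
  simp [dev, ev_sub (smallAt_dblPoint hH hV)]

/-- Leibniz. -/
theorem dev_mul (hH : SmallAt H) (hV : SmallAt V) (a b : Ser (Matrix β β A) ι) :
    dev H V (a * b) = ev H a * dev H V b + dev H V a * ev H b := by
  have h := ev_mul (smallAt_dblPoint hH hV) a b
  rw [ev_dblPoint, ev_dblPoint, ev_dblPoint, Matrix.submatrix_mul_equiv,
    Matrix.fromBlocks_multiply] at h
  refine Matrix.ext fun x y => ?_
  have h2 := congrFun₂ h (x.1, Sum.inl x.2) (y.1, Sum.inr y.2)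
  simpa using h2

theorem dev_C (H V : ι → Matrix p p (PowerSeries A)) (M : Matrix β β A) :
    dev H V (Ser.C M) = 0 := by
  ext x y
  simp [dev, ev_C]

theorem dev_X (hH : SmallAt H) (hV : SmallAt V) (i : ι) :
    dev H V (Ser.X i : Ser (Matrix β β A) ι) = (1 : Matrix β β (PowerSeries A)) ⊗ₖ V i := by
  ext x y
  simp [dev, ev_X (smallAt_dblPoint hH hV), dblPoint]

omit [Fintype ι] [DecidableEq ι] in
theorem dprod_add (H V V' : ι → Matrix p p (PowerSeries A)) : ∀ w : List ι,
    dprod H (V + V') w = dprod H V w + dprod H V' w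
  | [] => by simp [dprod]
  | i :: w => by
    simp only [dprod, dprod_add H V V' w, Pi.add_apply, Matrix.mul_add, Matrix.add_mul]
    abel

omit [Fintype ι] [DecidableEq ι] in
theorem dprod_smul (H V : ι → Matrix p p (PowerSeries A)) (c : PowerSeries A) : ∀ w : List ι,
    dprod H (c • V) w = c • dprod H V w
  | [] => by simp [dprod]
  | i :: w => by
    simp only [dprod, dprod_smul H V c w, Pi.smul_apply, Matrix.mul_smul, Matrix.smul_mul, smul_add]

omit [Fintype ι] [DecidableEq ι] [Fintype p] [DecidableEq p] in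
theorem van_smul {e : ℕ} {M : Matrix p p (PowerSeries A)} (h : Van e M) (c : PowerSeries A) :
    Van e (c • M) := by
  intro k hk
  ext x y
  simp only [cm_apply, Matrix.smul_apply, smul_eq_mul, PowerSeries.coeff_mul, Matrix.zero_apply]
  refine sum_eq_zero fun ij hij => ?_
  rw [HasAntidiagonal.mem_antidiagonal] at hij
  have := congrFun₂ (h ij.2 (by omega)) x y
  rw [cm_apply] at this
  rw [this, Matrix.zero_apply, mul_zero]

theorem dev_add_dir {V' : ι → Matrix p p (PowerSeries A)} (hH : SmallAt H) (hV : SmallAt V)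
    (hV' : SmallAt V') (a : Ser (Matrix β β A) ι) :
    dev H (V + V') a = dev H V a + dev H V' a := by
  refine eq_of_van_sub fun N => ?_
  have hs : SmallAt (V + V') :=
    smallAt_iff.2 fun i => (smallAt_iff.1 hV i).add (smallAt_iff.1 hV' i)
  have h := (dev_sub_trunc hH hs a N).sub
    ((dev_sub_trunc hH hV a N).add (dev_sub_trunc hH hV' a N))
  simp only [dprod_add, Matrix.kronecker_add, sum_add_distrib] at h
  refine cast (congrArg (Van N) ?_) h
  abel

theorem dev_smul_dir (hH : SmallAt H) (hV : SmallAt V) (c : PowerSeries A)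
    (a : Ser (Matrix β β A) ι) : dev H (c • V) a = c • dev H V a := by
  refine eq_of_van_sub fun N => ?_
  have hs : SmallAt (c • V) := smallAt_iff.2 fun i => van_smul (smallAt_iff.1 hV i) c
  have h := (dev_sub_trunc hH hs a N).sub (van_smul (dev_sub_trunc hH hV a N) c)
  simp only [dprod_smul, Matrix.kronecker_smul, smul_sub, smul_sum] at h
  simpa using h

theorem dev_van {a : Ser (Matrix β β A) ι} {e n : ℕ} (hH : ∀ i, Van e (H i))
    (hV : ∀ i, Van e (V i)) (ha : Ser.LowVanish n a) : Van (e * n) (dev H V a) :=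
  (ev_van (van_dblPoint hH hV) ha).submatrix (fun x : β × p => (x.1, Sum.inl x.2))
    fun y : β × p => (y.1, Sum.inr y.2)

theorem dev_first_order {H' V' : ι → Matrix p p (PowerSeries A)} {e f : ℕ} (hf : 1 ≤ f)
    (hH : ∀ i, Van f (H i)) (hH' : ∀ i, Van f (H' i)) (hV : ∀ i, Van f (V i))
    (hV' : ∀ i, Van f (V' i)) (hd : ∀ i, Van e (H' i - H i)) (hdV : ∀ i, Van e (V' i - V i))
    (a : Ser (Matrix β β A) ι) :
    Van (e + f) (dev H' V' a - dev H V a -
      ∑ i, (a.coeff [i]).map PowerSeries.C ⊗ₖ (V' i - V i)) := by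
  have hdd : ∀ i, Van e (dblPoint H' V' i - dblPoint H V i) := by
    intro i k hk
    ext x y
    rcases x with x | x <;> rcases y with y | y
    · simpa [dblPoint] using congrFun₂ (hd i k hk) x y
    · simpa [dblPoint] using congrFun₂ (hdV i k hk) x y
    · simp [dblPoint]
    · simpa [dblPoint] using congrFun₂ (hd i k hk) x y
  have h := ev_first_order hf (van_dblPoint hH hV) (van_dblPoint hH' hV') hdd a
  intro k hk
  ext x y
  have := congrFun₂ (h k hk) (x.1, Sum.inl x.2) (y.1, Sum.inr y.2)
  simpa [Matrix.sum_apply, dev, dblPoint] using this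

end Derivative

section Scalar

/-- Coefficients of the evaluation of a scalar series. -/
theorem cm_evS (H : ι → Matrix p p (PowerSeries A)) (y : Ser A ι) (k : ℕ) :
    cm k (evS H y) = ∑ l ∈ range (k + 1), ∑ w ∈ words ι l, y.coeff w • cm k (w.map H).prod := by
  ext x x'
  have h := congrFun₂ (cm_ev H (scalar1 y) k) ((), x) ((), x')
  simpa [Matrix.sum_apply, scalar1, evS] using h

theorem ev_map_scalar (H : ι → Matrix p p (PowerSeries A)) (y : Ser A ι) :
    ev H (Ser.map (Matrix.scalar β) y) = (1 : Matrix β β (PowerSeries A)) ⊗ₖ evS H y := by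
  refine cm_ext fun k => ?_
  rw [cm_ev, show (1 : Matrix β β (PowerSeries A)) =
    (1 : Matrix β β A).map PowerSeries.C from (Matrix.map_one _ (map_zero _) (map_one _)).symm,
    cm_kronecker_C, cm_evS]
  ext x x'
  simp only [Matrix.sum_apply, Ser.coeff_map, Matrix.kroneckerMap_apply,
    Matrix.smul_apply, smul_eq_mul, mul_sum]
  refine sum_congr rfl fun l _ => sum_congr rfl fun w _ => ?_
  by_cases h : x.1 = x'.1 <;> simp [Matrix.scalar_apply, Matrix.one_apply, h]

/-- `evS` as a ring hom. -/
noncomputable def evSHom (hH : SmallAt H) : Ser A ι →+* Matrix p p (PowerSeries A) where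
  toFun := evS H
  map_one' := one_kronecker_inj (α := Unit) (by
    rw [← ev_map_scalar, map_one, ev_one hH, Matrix.one_kronecker_one])
  map_mul' a b := one_kronecker_inj (α := Unit) (by
    rw [← ev_map_scalar, map_mul, ev_mul hH, ev_map_scalar, ev_map_scalar,
      ← Matrix.mul_kronecker_mul, Matrix.one_mul])
  map_zero' := one_kronecker_inj (α := Unit) (by
    rw [← ev_map_scalar, map_zero, ← evHom_apply hH, map_zero,
      Matrix.kronecker_zero])
  map_add' a b := one_kronecker_inj (α := Unit) (by
    rw [← ev_map_scalar, map_add, ev_add hH, ev_map_scalar, ev_map_scalar,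
      Matrix.kronecker_add])

@[simp] theorem evSHom_apply (hH : SmallAt H) (y : Ser A ι) : evSHom hH y = evS H y := rfl

theorem evS_van {y : Ser A ι} {e n : ℕ} (hH : ∀ i, Van e (H i)) (hy : Ser.LowVanish n y) :
    Van (e * n) (evS H y) := by
  have h := ev_van (β := Unit) hH (a := scalar1 y) (hy.map (Matrix.scalar Unit))
  intro k hk
  refine Matrix.ext fun x x' => ?_
  simpa [evS] using congrFun₂ (h k hk) ((), x) ((), x')

theorem evS_X (hH : SmallAt H) (i : ι) : evS H (Ser.X i) = H i := by
  refine one_kronecker_inj (α := Unit) ?_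
  rw [← ev_map_scalar, Ser.map_X, ev_X hH]

theorem smallAt_evS {κ : Type*} (hH : SmallAt H) {h : κ → Ser A ι}
    (hh : ∀ i, (h i).coeff [] = 0) : SmallAt fun i => evS H (h i) :=
  smallAt_iff.2 fun i =>
    (evS_van (smallAt_iff.1 hH) (Ser.LowVanish.of_coeff_nil (hh i))).mono (by simp)

/-- The derivative of `evS`. -/
noncomputable def devS (H V : ι → Matrix p p (PowerSeries A)) (y : Ser A ι) :
    Matrix p p (PowerSeries A) :=
  fun x x' => evS (dblPoint H V) y (Sum.inl x) (Sum.inr x')

theorem evS_dblPoint (H V : ι → Matrix p p (PowerSeries A)) (y : Ser A ι) :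
    evS (dblPoint H V) y = Matrix.fromBlocks (evS H y) (devS H V y) 0 (evS H y) := by
  ext x x'
  have h := congrFun₂ (ev_dblPoint H V (scalar1 y)) ((), x) ((), x')
  rcases x with x | x <;> rcases x' with x' | x' <;> simp_all [evS, devS]

theorem dev_map_scalar (H V : ι → Matrix p p (PowerSeries A)) (y : Ser A ι) :
    dev H V (Ser.map (Matrix.scalar β) y) = (1 : Matrix β β (PowerSeries A)) ⊗ₖ devS H V y := by
  ext x x'
  simp [dev, ev_map_scalar, devS]

theorem smallAt_devS {κ : Type*} (hH : SmallAt H) (hV : SmallAt V) {h : κ → Ser A ι}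
    (hh : ∀ i, (h i).coeff [] = 0) : SmallAt fun i => devS H V (h i) :=
  fun i x x' => smallAt_evS (smallAt_dblPoint hH hV) hh i (Sum.inl x) (Sum.inr x')

end Scalar

end Eval

section Substitution

variable {F : Type*} [Field F] {ι κ p β : Type*} [Fintype ι] [DecidableEq ι] [Fintype κ]
  [DecidableEq κ] [Fintype β] [DecidableEq β] [Fintype p] [DecidableEq p]
  {H V : κ → Matrix p p (PowerSeries F)} {h : ι → Ser F κ}

omit [Fintype κ] [DecidableEq κ] [Fintype p] [DecidableEq p] in
theorem map_scalar_substS (h : ι → Ser F κ) (y : Ser F ι) :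
    Ser.map (Matrix.scalar β) (substS h y) = substM h (Ser.map (Matrix.scalar β) y) := by
  rw [substS, substM, Ser.map_subst, Ser.subst_map]
  rfl

/-- Evaluation of a substitution. -/
theorem ev_substM (hH : SmallAt H) (hh : ∀ i, (h i).coeff [] = 0) (X : Ser (Matrix β β F) ι) :
    ev H (substM h X) = ev (fun i => evS H (h i)) X := by
  have hv : ∀ i, (Ser.map (Matrix.scalar β) (h i)).coeff [] = 0 := fun i => by
    rw [Ser.coeff_map, hh i, map_zero]
  have hc : ∀ (x : Matrix β β F) i u,
      Commute (RingHom.id _ x) ((Ser.map (Matrix.scalar β) (h i)).coeff u) := fun x i u =>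
    (Matrix.scalar_commute _ (fun _ => Commute.all _ _) x).symm
  have key := hom_ext_ps (φ := (evHom hH).comp (Ser.substHom (RingHom.id _) hv hc))
    (ψ := evHom (smallAt_evS hH hh))
    (fun n a ha => (ev_van (smallAt_iff.1 hH) (ha.subst _ hv)).mono (by simp))
    (fun n a ha => (ev_van (smallAt_iff.1 (smallAt_evS hH hh)) ha).mono (by simp))
    (fun x => by simp [Ser.subst_C, ev_C])
    (fun i => by simp [Ser.subst_X _ hv, ev_map_scalar, ev_X (smallAt_evS hH hh)])
  exact RingHom.congr_fun key X

theorem evS_substS (hH : SmallAt H) (hh : ∀ i, (h i).coeff [] = 0) (y : Ser F ι) :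
    evS H (substS h y) = evS (fun i => evS H (h i)) y := by
  refine one_kronecker_inj (α := Unit) ?_
  rw [← ev_map_scalar, map_scalar_substS, ev_substM hH hh, ev_map_scalar]

/-- Chain rule. -/
theorem dev_substM (hH : SmallAt H) (hV : SmallAt V) (hh : ∀ i, (h i).coeff [] = 0)
    (X : Ser (Matrix β β F) ι) :
    dev H V (substM h X) = dev (fun i => evS H (h i)) (fun i => devS H V (h i)) X := by
  ext x y
  simp only [dev, ev_substM (smallAt_dblPoint hH hV) hh, evS_dblPoint]
  rfl

theorem devS_substS (hH : SmallAt H) (hV : SmallAt V) (hh : ∀ i, (h i).coeff [] = 0)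
    (y : Ser F ι) :
    devS H V (substS h y) = devS (fun i => evS H (h i)) (fun i => devS H V (h i)) y := by
  ext x x'
  simp only [devS, evS_substS (smallAt_dblPoint hH hV) hh, evS_dblPoint]
  rfl

end Substitution

end Vale.Agent.P199
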