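import Mathlib
import Vale.Agent.P199.Series
import Vale.Agent.P199.Basic
import Vale.Agent.P199.Frame
import Vale.Agent.P199.Eval

/-!
P199: translation of a series to the point `τ • c`.

`transl₀ c E` sends constants `x` to `x ⊗ 1` and the variable `i` to
`τ • (1 ⊗ c i) + ∑ l, (1 ⊗ E l) X (i, l)`, into series with matrices over power series as
coefficients.  Its coefficients at the empty word, at a letter and at two letters are `ev`, `dev`
and `dev2` at `τ • c`.
-/

open Finset
open scoped Kronecker

namespace Vale.Agent.P199.Translate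

open Series

variable {A : Type*} [CommRing A]

/-- Approximations of deep series vanish below their depth. -/
theorem approx_deep {R ι' B S : Type*} [Ring R] [AddCommGroup B] [Ring S] {G : Grading R ι' B}
    {s : Type*} [Fintype s] (φ : S →+* R) (U : s → R) (hU : ∀ a, G.Pos (U a)) :
    ∀ (M : ℕ) (a : Ser S s), Ser.LowVanish M a → G.Agree M (Grading.approx φ U M a) 0 := by
  intro M
  induction M with
  | zero => intro a _ i hi; omega
  | succ M ih =>
    intro a ha
    have h0 : φ (a.coeff []) = 0 := by rw [ha [] (Nat.succ_pos M), map_zero]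
    intro i hi
    show G.coe (φ (a.coeff []) + _) i = _
    rw [h0, zero_add, map_sum, Finset.sum_apply, map_zero]
    refine Finset.sum_eq_zero fun j _ => ?_
    have := (hU j).agree (ih (Ser.tail j a) fun w hw => ha (j :: w) (by
      simp only [List.length_cons]; omega)) i hi
    rw [this, mul_zero, map_zero, Pi.zero_apply]

section Grading

variable {m : Type*} [Fintype m] [DecidableEq m] {κ : Type*}

/-- Series with power series entries, graded by the length of the word plus the `τ`-degree. -/
noncomputable def grading :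
    Grading (Ser (Matrix m m (PowerSeries A)) κ) (List κ × ℕ) (Matrix m m A) where
  coe :=
    { toFun := fun f i => cm i.2 (f.coeff i.1)
      invFun := fun g => ⟨fun W => Matrix.of fun x y => PowerSeries.mk fun k => g (W, k) x y⟩
      left_inv := fun f => by
        refine Ser.ext (funext fun W => cm_ext fun k => ?_)
        ext x y
        simp
      right_inv := fun g => by funext i; ext x y; simp
      map_add' := fun f g => by funext i; simp }
  deg i := i.1.length + i.2
  mul_congr := by
    rintro f f' g g' ⟨W, N⟩ hf hg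
    show cm N ((f * g).coeff W) = cm N ((f' * g').coeff W)
    simp only [Ser.coeff_mul_sum, cm_sum, cm_mul]
    refine Finset.sum_congr rfl fun r _ => Finset.sum_congr rfl fun ab hab => ?_
    rw [HasAntidiagonal.mem_antidiagonal] at hab
    have h1 := hf (W.take r, ab.1)
      (by simp only [List.length_take]; omega)
    have h2 := hg (W.drop r, ab.2)
      (by simp only [List.length_drop]; omega)
    exact congrArg₂ (· * ·) h1 h2

theorem pos_of_van {u : Ser (Matrix m m (PowerSeries A)) κ} (hu : Van 1 (u.coeff [])) :
    (grading (A := A) (m := m) (κ := κ)).Pos u := by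
  rintro f f' ⟨W, N⟩ h
  show cm N ((u * f).coeff W) = cm N ((u * f').coeff W)
  simp only [Ser.coeff_mul_sum, cm_sum, cm_mul]
  refine Finset.sum_congr rfl fun r hr => Finset.sum_congr rfl fun ab hab => ?_
  rw [HasAntidiagonal.mem_antidiagonal] at hab
  rw [Finset.mem_range] at hr
  rcases Nat.eq_zero_or_pos r with rfl | hr0
  · rcases Nat.eq_zero_or_pos ab.1 with h0 | h0
    · rw [h0, List.take_zero, hu 0 one_pos, zero_mul, zero_mul]
    · exact congrArg (_ * ·) (h (W.drop 0, ab.2) (by
        show (W.drop 0).length + ab.2 < W.length + N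
        simp only [List.drop_zero]; omega))
  · exact congrArg (_ * ·) (h (W.drop r, ab.2) (by
      show (W.drop r).length + ab.2 < W.length + N
      simp only [List.length_drop]; omega))

end Grading

variable {β p : Type*} [Fintype β] [DecidableEq β] [Fintype p] [DecidableEq p]

/-- `M ↦ M ⊗ 1` as constants. -/
noncomputable def constHom :
    Matrix β β A →+* Matrix (β × p) (β × p) (PowerSeries A) where
  toFun M := M.map PowerSeries.C ⊗ₖ (1 : Matrix p p (PowerSeries A))
  map_one' := by
    rw [Matrix.map_one _ (map_zero _) (map_one _), Matrix.one_kronecker_one]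
  map_mul' x y := by
    rw [← Matrix.mul_kronecker_mul, one_mul, Matrix.map_mul]
  map_zero' := by rw [Matrix.map_zero _ (map_zero _), Matrix.zero_kronecker]
  map_add' x y := by rw [Matrix.map_add _ (map_add _), Matrix.add_kronecker]

theorem cm_constHom (M : Matrix β β A) (k : ℕ) :
    cm k (constHom (p := p) M) = if k = 0 then M ⊗ₖ (1 : Matrix p p A) else 0 := by
  show cm k (M.map PowerSeries.C ⊗ₖ (1 : Matrix p p (PowerSeries A))) = _
  rw [cm_kronecker_C, cm_one]
  split_ifs <;> simp

variable {ι Q : Type*} [Fintype ι] [DecidableEq ι] [Fintype Q] [DecidableEq Q]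

/-- The image of a variable. -/
noncomputable def point (c : ι → Matrix p p A) (E : Q → Matrix p p A) (i : ι) :
    Ser (Matrix (β × p) (β × p) (PowerSeries A)) (ι × Q) :=
  Ser.C ((1 : Matrix β β (PowerSeries A)) ⊗ₖ tauPoint c i) +
    ∑ l, Ser.C ((1 : Matrix β β (PowerSeries A)) ⊗ₖ (E l).map PowerSeries.C) * Ser.X (i, l)

theorem tauPoint_eq (c : ι → Matrix p p A) (i : ι) :
    tauPoint c i = (PowerSeries.X : PowerSeries A) • (c i).map PowerSeries.C := rfl

theorem van_tauPoint (c : ι → Matrix p p A) (i : ι) : Van 1 (tauPoint c i) := by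
  intro k hk
  obtain rfl : k = 0 := by omega
  ext x y
  simp [tauPoint]

theorem smallAt_tauPoint (c : ι → Matrix p p A) : SmallAt (tauPoint c) :=
  smallAt_iff.2 (van_tauPoint c)

theorem point_coeff_nil (c : ι → Matrix p p A) (E : Q → Matrix p p A) (i : ι) :
    (point (β := β) c E i).coeff [] = (1 : Matrix β β (PowerSeries A)) ⊗ₖ tauPoint c i := by
  simp [point, Ser.coeff_C_mul, Ser.X_coeff]

theorem point_coeff_single (c : ι → Matrix p p A) (E : Q → Matrix p p A) (i j : ι) (l : Q) :
    (point (β := β) c E i).coeff [(j, l)] =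
      if i = j then (1 : Matrix β β (PowerSeries A)) ⊗ₖ (E l).map PowerSeries.C else 0 := by
  rcases eq_or_ne i j with rfl | h
  · simp [point, Ser.coeff_C_mul, Ser.X_coeff]
  · simp [point, Ser.coeff_C_mul, Ser.X_coeff, h, Ne.symm h]

theorem point_coeff_two (c : ι → Matrix p p A) (E : Q → Matrix p p A) (i : ι) (a b : ι × Q)
    (W : List (ι × Q)) : (point (β := β) c E i).coeff (a :: b :: W) = 0 := by
  simp [point, Ser.coeff_C_mul, Ser.X_coeff]

theorem point_pos (c : ι → Matrix p p A) (E : Q → Matrix p p A) (i : ι) :
    (grading (A := A) (m := β × p) (κ := ι × Q)).Pos (point c E i) :=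
  pos_of_van (by rw [point_coeff_nil]; exact Van.kronecker_left _ (van_tauPoint c i))

theorem point_commute (c : ι → Matrix p p A) (E : Q → Matrix p p A) (i : ι) (x : Matrix β β A) :
    point c E i * Ser.C (constHom x) =
      Ser.C (constHom x) * point (β := β) c E i := by
  have key : ∀ N : Matrix p p (PowerSeries A),
      constHom x * ((1 : Matrix β β (PowerSeries A)) ⊗ₖ N) =
        ((1 : Matrix β β (PowerSeries A)) ⊗ₖ N) * constHom x := by
    intro N
    show (x.map PowerSeries.C ⊗ₖ 1) * _ = _ * (x.map PowerSeries.C ⊗ₖ 1)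
    simp only [← Matrix.mul_kronecker_mul, Matrix.one_mul, Matrix.mul_one]
  simp only [point, add_mul, mul_add, Finset.sum_mul, Finset.mul_sum, ← map_mul, key]
  congr 1
  refine Finset.sum_congr rfl fun l _ => ?_
  rw [mul_assoc, Ser.X_commute_C, ← mul_assoc, ← map_mul, ← key, map_mul, mul_assoc]

/-- The translation over power series. -/
noncomputable def transl₀ (c : ι → Matrix p p A) (E : Q → Matrix p p A) :
    Ser (Matrix β β A) ι →+* Ser (Matrix (β × p) (β × p) (PowerSeries A)) (ι × Q) :=
  grading.subst (Ser.C.comp constHom) (point c E) (point_pos c E) (point_commute c E)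

variable (c : ι → Matrix p p A) (E : Q → Matrix p p A)

theorem transl₀_C (x : Matrix β β A) : transl₀ c E (Ser.C x) = Ser.C (constHom x) :=
  Grading.subst_C _ _ _ _ _ x

theorem transl₀_X (i : ι) :
    transl₀ c E (Ser.X i : Ser (Matrix β β A) ι) = point c E i :=
  Grading.subst_X _ _ _ _ _ i

/-- Deep series have deep translations. -/
theorem van_transl₀ {a : Ser (Matrix β β A) ι} {M : ℕ} (ha : Ser.LowVanish M a)
    (W : List (ι × Q)) : Van (M - W.length) ((transl₀ c E a).coeff W) := by
  intro k hk
  have h1 := (grading.subst_agree (Ser.C.comp constHom) (point c E) (point_pos c E)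
    (point_commute c E) M a).trans
      (approx_deep _ _ (point_pos c E) M a ha) (W, k) (by
      show W.length + k < M
      omega)
  show cm k _ = 0
  rw [show (0 : Matrix (β × p) (β × p) A) =
    (grading (A := A) (m := β × p) (κ := ι × Q)).coe 0 (W, k) by rw [map_zero]; rfl]
  exact h1

/-- The coefficient at the empty word is the evaluation. -/
theorem transl₀_coeff_nil (a : Ser (Matrix β β A) ι) :
    (transl₀ c E a).coeff [] = ev (tauPoint c) a := by
  let nilHom : Ser (Matrix (β × p) (β × p) (PowerSeries A)) (ι × Q) →+*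
      Matrix (β × p) (β × p) (PowerSeries A) :=
    { toFun := fun f => f.coeff []
      map_one' := rfl
      map_mul' := fun f g => Ser.coeff_mul_nil f g
      map_zero' := rfl
      map_add' := fun _ _ => rfl }
  have key := hom_ext_ps (φ := nilHom.comp (transl₀ c E)) (ψ := evHom (smallAt_tauPoint c))
    (fun n b hb k hk => van_transl₀ c E hb [] k (by simpa using hk))
    (fun n b hb => (ev_van (van_tauPoint c) hb).mono (by simp))
    (fun x => by
      show (transl₀ c E (Ser.C x)).coeff [] = ev (tauPoint c) (Ser.C x)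
      rw [transl₀_C, ev_C]
      rfl)
    (fun i => by
      show (transl₀ c E (Ser.X i)).coeff [] = ev (tauPoint c) (Ser.X i)
      rw [transl₀_X, ev_X (smallAt_tauPoint c), point_coeff_nil])
  exact RingHom.congr_fun key a

/-- The direction of a letter. -/
def dir (E : Q → Matrix p p A) (u : ι × Q) : ι → Matrix p p A := Pi.single u.1 (E u.2)

theorem kron_tauPoint_dir (u : ι × Q) (i : ι) :
    (1 : Matrix β β (PowerSeries A)) ⊗ₖ tauPoint (dir E u) i =
      (PowerSeries.X : PowerSeries A) • (point (β := β) c E i).coeff [u] := by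
  obtain ⟨j, l⟩ := u
  rw [point_coeff_single, tauPoint_eq]
  rcases eq_or_ne i j with rfl | h
  · simp [dir, Matrix.kronecker_smul]
  · simp [dir, h, Matrix.map_zero]

theorem coeff_mul_single (f g : Ser (Matrix (β × p) (β × p) (PowerSeries A)) (ι × Q)) (u : ι × Q) :
    (f * g).coeff [u] = f.coeff [] * g.coeff [u] + f.coeff [u] * g.coeff [] := by
  rw [Ser.coeff_mul_cons, Ser.coeff_mul_nil, Ser.coeff_tail]

theorem coeff_mul_pair (f g : Ser (Matrix (β × p) (β × p) (PowerSeries A)) (ι × Q)) (u v : ι × Q) :
    (f * g).coeff [u, v] =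
      f.coeff [] * g.coeff [u, v] + (f.coeff [u] * g.coeff [v] + f.coeff [u, v] * g.coeff []) := by
  rw [Ser.coeff_mul_cons, Ser.coeff_mul_cons, Ser.coeff_mul_nil]
  rfl

/-- First-order data of a translated series as one block triangular matrix. -/
noncomputable def pairMat (u : ι × Q)
    (f : Ser (Matrix (β × p) (β × p) (PowerSeries A)) (ι × Q)) :
    Matrix ((β × p) ⊕ (β × p)) ((β × p) ⊕ (β × p)) (PowerSeries A) :=
  Matrix.fromBlocks (f.coeff []) ((PowerSeries.X : PowerSeries A) • f.coeff [u]) 0 (f.coeff [])

/-- `pairMat` as a ring hom. -/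
noncomputable def pairHom (u : ι × Q) :
    Ser (Matrix (β × p) (β × p) (PowerSeries A)) (ι × Q) →+*
      Matrix ((β × p) ⊕ (β × p)) ((β × p) ⊕ (β × p)) (PowerSeries A) where
  toFun := pairMat u
  map_one' := by simp [pairMat, Ser.coeff_one, Series.const, Matrix.fromBlocks_one]
  map_mul' f g := by
    simp only [pairMat, Matrix.fromBlocks_multiply, coeff_mul_single, Ser.coeff_mul_nil]
    congr 1 <;> simp [Matrix.smul_mul, Matrix.mul_smul, smul_add]
  map_zero' := by simp [pairMat]
  map_add' f g := by simp [pairMat, Matrix.fromBlocks_add, smul_add]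

/-- The coefficient at a letter is the derivative of the evaluation, divided by `τ`. -/
theorem smul_transl₀_coeff_single (a : Ser (Matrix β β A) ι) (u : ι × Q) :
    (PowerSeries.X : PowerSeries A) • (transl₀ c E a).coeff [u] = dev (tauPoint c) (tauPoint (dir E u)) a := by
  let e := Equiv.prodSumDistrib β p p
  let hom : Ser (Matrix β β A) ι →+* Matrix (β × (p ⊕ p)) (β × (p ⊕ p)) (PowerSeries A) :=
    (Matrix.reindexAlgEquiv ℕ (PowerSeries A) e.symm).toRingEquiv.toRingHom.comp
      ((pairHom u).comp (transl₀ c E))
  have hsm : SmallAt (dblPoint (tauPoint c) (tauPoint (dir E u))) :=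
    smallAt_dblPoint (smallAt_tauPoint c) (smallAt_tauPoint _)
  have key := hom_ext_ps (φ := hom) (ψ := evHom hsm) ?_
    (fun n b hb => (ev_van (smallAt_iff.1 hsm) hb).mono (by simp)) ?_ ?_
  · have h := RingHom.congr_fun key a
    refine Matrix.ext fun x y => ?_
    have h2 := congrFun₂ h (x.1, Sum.inl x.2) (y.1, Sum.inr y.2)
    simpa [hom, e, pairHom, pairMat, dev] using h2
  · intro n b hb k hk
    ext ⟨x, x'⟩ ⟨y, y'⟩
    have h0 := van_transl₀ c E hb [] k (by simpa using hk)
    have h1 := van_transl₀ c E hb [u]
    rcases x' with x' | x' <;> rcases y' with y' | y'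
    · simpa [hom, e, pairHom, pairMat] using congrFun₂ h0 (x, x') (y, y')
    · simp only [hom, RingHom.comp_apply, pairHom]
      show PowerSeries.coeff k (PowerSeries.X * ((transl₀ c E b).coeff [u]) (x, x') (y, y')) = 0
      rcases k with _ | k
      · simp
      · rw [PowerSeries.coeff_succ_X_mul]
        exact congrFun₂ (h1 k (by simp only [List.length_singleton]; omega)) (x, x') (y, y')
    · simp [hom, e, pairHom, pairMat]
    · simpa [hom, e, pairHom, pairMat] using congrFun₂ h0 (x, x') (y, y')
  · intro x
    show _ = ev _ (Ser.C x)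
    rw [ev_C]
    refine Matrix.ext fun ⟨i, i'⟩ ⟨j, j'⟩ => ?_
    rcases i' with i' | i' <;> rcases j' with j' | j' <;>
      simp [hom, e, pairHom, pairMat, transl₀_C, constHom, Matrix.one_apply]
  · intro i
    show _ = ev _ (Ser.X i)
    rw [ev_X hsm]
    refine Matrix.ext fun ⟨x, x'⟩ ⟨y, y'⟩ => ?_
    have h := congrFun₂ (kron_tauPoint_dir (β := β) c E u i)
    rcases x' with x' | x' <;> rcases y' with y' | y'
    · simp [hom, e, pairHom, pairMat, transl₀_X, point_coeff_nil, dblPoint]
    · simpa [hom, e, pairHom, pairMat, transl₀_X, dblPoint] using (h (x, x') (y, y')).symm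
    · simp [hom, e, pairHom, pairMat, transl₀_X, dblPoint]
    · simp [hom, e, pairHom, pairMat, transl₀_X, point_coeff_nil, dblPoint]

/-- Second-order data of a translated series. -/
noncomputable def tripMat (u v : ι × Q)
    (f : Ser (Matrix (β × p) (β × p) (PowerSeries A)) (ι × Q)) :
    Matrix (((β × p) ⊕ (β × p)) ⊕ (β × p)) (((β × p) ⊕ (β × p)) ⊕ (β × p)) (PowerSeries A) :=
  Matrix.fromBlocks (pairMat u f)
    (Matrix.fromRows ((PowerSeries.X ^ 2 : PowerSeries A) • f.coeff [u, v])
      ((PowerSeries.X : PowerSeries A) • f.coeff [v]))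
    0 (f.coeff [])

/-- `tripMat` as a ring hom. -/
noncomputable def tripHom (u v : ι × Q) :
    Ser (Matrix (β × p) (β × p) (PowerSeries A)) (ι × Q) →+*
      Matrix (((β × p) ⊕ (β × p)) ⊕ (β × p)) (((β × p) ⊕ (β × p)) ⊕ (β × p)) (PowerSeries A) where
  toFun := tripMat u v
  map_one' := by
    have : pairMat u (1 : Ser (Matrix (β × p) (β × p) (PowerSeries A)) (ι × Q)) = 1 :=
      (pairHom u).map_one
    simp [tripMat, this, Ser.coeff_one, Series.const, Matrix.fromBlocks_one]
  map_mul' f g := by
    have : pairMat u (f * g) = pairMat u f * pairMat u g := (pairHom u).map_mul f g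
    simp only [tripMat, this, Matrix.fromBlocks_multiply, coeff_mul_single, coeff_mul_pair,
      Ser.coeff_mul_nil]
    congr 1
    · simp
    · rw [pairMat, Matrix.fromBlocks_mul_fromRows, Matrix.fromRows_mul]
      refine Matrix.ext fun x y => ?_
      rcases x with x | x <;>
        simp [Matrix.smul_mul, Matrix.mul_smul, smul_add, smul_smul, pow_two] <;> ring
    · simp
    · simp
  map_zero' := by simp [tripMat, pairMat]
  map_add' f g := by
    have : pairMat u (f + g) = pairMat u f + pairMat u g := (pairHom u).map_add f g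
    simp only [tripMat, this, Ser.coeff_add, smul_add, Matrix.fromBlocks_add]
    congr 1
    · refine Matrix.ext fun x y => ?_
      rcases x with x | x <;> simp
    · simp

/-- The index bijection for three blocks. -/
def tripEquiv (β p : Type*) : β × ((p ⊕ p) ⊕ p) ≃ ((β × p) ⊕ (β × p)) ⊕ (β × p) :=
  (Equiv.prodSumDistrib β (p ⊕ p) p).trans
    (Equiv.sumCongr (Equiv.prodSumDistrib β p p) (Equiv.refl _))

theorem smallAt_tripPoint {H V V' : ι → Matrix p p (PowerSeries A)} (hH : SmallAt H)
    (hV : SmallAt V) (hV' : SmallAt V') : SmallAt (tripPoint H V V') := by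
  intro i x y
  rcases x with (x | x) | x <;> rcases y with (y | y) | y <;>
    simp [tripPoint, dblPoint, hH i x y, hV i x y, hV' i x y]

/-- The coefficient at two letters is the ordered second derivative, divided by `τ²`. -/
theorem smul_transl₀_coeff_pair (a : Ser (Matrix β β A) ι) (u v : ι × Q) :
    (PowerSeries.X ^ 2 : PowerSeries A) • (transl₀ c E a).coeff [u, v] =
      dev2 (tauPoint c) (tauPoint (dir E u)) (tauPoint (dir E v)) a := by
  let e := tripEquiv β p
  let hom : Ser (Matrix β β A) ι →+*
      Matrix (β × ((p ⊕ p) ⊕ p)) (β × ((p ⊕ p) ⊕ p)) (PowerSeries A) :=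
    (Matrix.reindexAlgEquiv ℕ (PowerSeries A) e.symm).toRingEquiv.toRingHom.comp
      ((tripHom u v).comp (transl₀ c E))
  have hsm : SmallAt (tripPoint (tauPoint c) (tauPoint (dir E u)) (tauPoint (dir E v))) :=
    smallAt_tripPoint (smallAt_tauPoint c) (smallAt_tauPoint _) (smallAt_tauPoint _)
  have key := hom_ext_ps (φ := hom) (ψ := evHom hsm) ?_
    (fun n b hb => (ev_van (smallAt_iff.1 hsm) hb).mono (by simp)) ?_ ?_
  · have h := RingHom.congr_fun key a
    refine Matrix.ext fun x y => ?_
    have h2 := congrFun₂ h (x.1, Sum.inl (Sum.inl x.2)) (y.1, Sum.inr y.2)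
    simpa [hom, e, tripEquiv, tripHom, tripMat, dev2] using h2
  · intro n b hb k hk
    ext ⟨x, x'⟩ ⟨y, y'⟩
    have h0 := van_transl₀ c E hb [] k (by simpa using hk)
    have h1 : ∀ (w : ι × Q) (P : β × p) (R : β × p),
        PowerSeries.coeff k (PowerSeries.X * ((transl₀ c E b).coeff [w]) P R) = 0 := by
      intro w P R
      rcases k with _ | k
      · simp
      · rw [PowerSeries.coeff_succ_X_mul]
        exact congrFun₂ (van_transl₀ c E hb [w] k
          (by simp only [List.length_singleton]; omega)) P R
    have h2 : ∀ (P : β × p) (R : β × p),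
        PowerSeries.coeff k ((PowerSeries.X ^ 2 : PowerSeries A) *
          ((transl₀ c E b).coeff [u, v]) P R) = 0 := by
      intro P R
      rw [pow_two, mul_assoc]
      rcases k with _ | _ | k
      · simp
      · rw [PowerSeries.coeff_succ_X_mul]; simp
      · rw [PowerSeries.coeff_succ_X_mul, PowerSeries.coeff_succ_X_mul]
        exact congrFun₂ (van_transl₀ c E hb [u, v] k
          (by simp only [List.length_cons, List.length_nil]; omega)) P R
    rcases x' with (x' | x') | x' <;> rcases y' with (y' | y') | y' <;>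
      first
        | simpa [hom, e, tripEquiv, tripHom, tripMat, pairMat] using congrFun₂ h0 (x, x') (y, y')
        | simpa [hom, e, tripEquiv, tripHom, tripMat, pairMat] using h1 u (x, x') (y, y')
        | simpa [hom, e, tripEquiv, tripHom, tripMat, pairMat] using h1 v (x, x') (y, y')
        | simpa [hom, e, tripEquiv, tripHom, tripMat, pairMat] using h2 (x, x') (y, y')
        | simp [hom, e, tripEquiv, tripHom, tripMat, pairMat]
  · intro x
    show _ = ev _ (Ser.C x)
    rw [ev_C]
    refine Matrix.ext fun ⟨i, i'⟩ ⟨j, j'⟩ => ?_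
    rcases i' with (i' | i') | i' <;> rcases j' with (j' | j') | j' <;>
      simp [hom, e, tripEquiv, tripHom, tripMat, pairMat, transl₀_C, constHom, Matrix.one_apply]
  · intro i
    show _ = ev _ (Ser.X i)
    rw [ev_X hsm]
    refine Matrix.ext fun ⟨x, x'⟩ ⟨y, y'⟩ => ?_
    have hu := congrFun₂ (kron_tauPoint_dir (β := β) c E u i)
    have hv := congrFun₂ (kron_tauPoint_dir (β := β) c E v i)
    rcases x' with (x' | x') | x' <;> rcases y' with (y' | y') | y' <;>
      first
        | simpa [hom, e, tripEquiv, tripHom, tripMat, pairMat, transl₀_X, point_coeff_nil,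
            point_coeff_two, dblPoint, tripPoint] using (hu (x, x') (y, y')).symm
        | simpa [hom, e, tripEquiv, tripHom, tripMat, pairMat, transl₀_X, point_coeff_nil,
            point_coeff_two, dblPoint, tripPoint] using (hv (x, x') (y, y')).symm
        | simp [hom, e, tripEquiv, tripHom, tripMat, pairMat, transl₀_X, point_coeff_nil,
            point_coeff_two, dblPoint, tripPoint]

/-- Rationality: every `τ`-coefficient of every coefficient lies in a subring containing the
constants, the point and the directions. -/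
theorem cm_transl₀_mem (S : Subring (Matrix (β × p) (β × p) A)) (a : Ser (Matrix β β A) ι)
    (ha : ∀ w, a.coeff w ⊗ₖ (1 : Matrix p p A) ∈ S)
    (hc : ∀ i, (1 : Matrix β β A) ⊗ₖ c i ∈ S) (hE : ∀ l, (1 : Matrix β β A) ⊗ₖ E l ∈ S)
    (W : List (ι × Q)) (k : ℕ) : cm k ((transl₀ c E a).coeff W) ∈ S := by
  classical
  let S' : Subring (Matrix (β × p) (β × p) (PowerSeries A)) :=
    { carrier := {M | ∀ k, cm k M ∈ S}
      mul_mem' := fun {M N} hM hN k => by
        rw [cm_mul]; exact S.sum_mem fun ab _ => S.mul_mem (hM _) (hN _)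
      one_mem' := fun k => by rw [cm_one]; split_ifs <;> simp [S.one_mem, S.zero_mem]
      add_mem' := fun {M N} hM hN k => by rw [cm_add]; exact S.add_mem (hM k) (hN k)
      zero_mem' := fun k => by simp [S.zero_mem]
      neg_mem' := fun {M} hM k => by
        have : cm k (-M) = -cm k M := by ext; simp
        rw [this]; exact S.neg_mem (hM k) }
  have hone : (1 : Matrix β β (PowerSeries A)) = (1 : Matrix β β A).map PowerSeries.C :=
    (Matrix.map_one _ (map_zero _) (map_one _)).symm
  have hpt : ∀ i, point (β := β) c E i ∈ Ser.coeffIn (ι := ι × Q) S' := by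
    intro i
    refine Subring.add_mem _ (Ser.C_mem_coeffIn ?_) (Subring.sum_mem _ fun l _ =>
      Subring.mul_mem _ (Ser.C_mem_coeffIn ?_) (Ser.mem_coeffIn.2 fun w => ?_))
    · intro k
      rw [hone, cm_kronecker_C]
      have : cm k (tauPoint c i) = if k = 1 then c i else 0 := by
        ext x y
        rcases k with _ | k
        · simp [tauPoint]
        · simp only [tauPoint, cm_apply]
          rw [PowerSeries.coeff_succ_X_mul, PowerSeries.coeff_C]
          split_ifs <;> first | rfl | omega
      rw [this]
      split_ifs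
      · exact hc i
      · rw [Matrix.kronecker_zero]; exact S.zero_mem
    · intro k
      rw [hone, cm_kronecker_C, cm_map_C]
      split_ifs
      · exact hE l
      · rw [Matrix.kronecker_zero]; exact S.zero_mem
    · rw [Ser.X_coeff]
      split_ifs
      · exact S'.one_mem
      · exact S'.zero_mem
  have hap : ∀ (n : ℕ) (b : Ser (Matrix β β A) ι), (∀ w, b.coeff w ⊗ₖ (1 : Matrix p p A) ∈ S) →
      Grading.approx (Ser.C.comp constHom) (point c E) n b ∈ Ser.coeffIn (ι := ι × Q) S' := by
    intro n
    induction n with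
    | zero => intro b _; exact Subring.zero_mem _
    | succ n ih =>
      intro b hb
      refine Subring.add_mem _ (Ser.C_mem_coeffIn fun k => ?_) (Subring.sum_mem _ fun i _ =>
        Subring.mul_mem _ (hpt i) (ih _ fun w => hb _))
      rw [cm_constHom]
      split_ifs
      · exact hb _
      · exact S.zero_mem
  have h := grading.subst_agree (Ser.C.comp constHom) (point c E) (point_pos c E)
    (point_commute c E) (W.length + k + 1) a (W, k) (by show W.length + k < _; omega)
  show cm k ((transl₀ c E a).coeff W) ∈ S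
  rw [show cm k ((transl₀ c E a).coeff W) = cm k ((Grading.approx (Ser.C.comp constHom)
    (point c E) (W.length + k + 1) a).coeff W) from h]
  exact Ser.mem_coeffIn.1 (hap _ a ha) W k

section Transl

variable {F G : Type*} [CommRing F] [CommRing G]

/-- The translation into a ring `G` receiving the power series. -/
noncomputable def transl (κ : PowerSeries A →+* G) (f : F →+* A) :
    Ser (Matrix β β F) ι →+* Ser (Matrix (β × p) (β × p) G) (ι × Q) :=
  (Ser.map κ.mapMatrix).comp ((transl₀ c E).comp (Ser.map f.mapMatrix))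

variable (κ : PowerSeries A →+* G) (f : F →+* A)

theorem transl_C (x : Matrix β β F) :
    transl c E κ f (Ser.C x) =
      Ser.C ((x.map (κ.comp (PowerSeries.C.comp f))) ⊗ₖ (1 : Matrix p p G)) := by
  simp only [transl, RingHom.comp_apply, Ser.map_C, transl₀_C]
  congr 1
  ext ⟨i, i'⟩ ⟨j, j'⟩
  by_cases h : i' = j' <;> simp [constHom, Matrix.one_apply, h]

theorem transl_coeff_nil (a : Ser (Matrix β β F) ι) :
    (transl c E κ f a).coeff [] = (ev (tauPoint c) (Ser.map f.mapMatrix a)).map κ := by
  simp only [transl, RingHom.comp_apply, Ser.coeff_map, transl₀_coeff_nil]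
  rfl

theorem transl_coeff_single (a : Ser (Matrix β β F) ι) (u : ι × Q) :
    κ (PowerSeries.X : PowerSeries A) • (transl c E κ f a).coeff [u] =
      (dev (tauPoint c) (tauPoint (dir E u)) (Ser.map f.mapMatrix a)).map κ := by
  rw [← smul_transl₀_coeff_single]
  ext x y
  simp [transl]

theorem transl_coeff_pair (a : Ser (Matrix β β F) ι) (u v : ι × Q) :
    κ (PowerSeries.X : PowerSeries A) ^ 2 • (transl c E κ f a).coeff [u, v] =
      (dev2 (tauPoint c) (tauPoint (dir E u)) (tauPoint (dir E v))
        (Ser.map f.mapMatrix a)).map κ := by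
  rw [← smul_transl₀_coeff_pair]
  ext x y
  simp [transl]

end Transl

end Vale.Agent.P199.Translate
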