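import Mathlib
import Vale.Agent.P199.Translate
import Vale.Agent.P199.Inflate
import Vale.Agent.P199.Closed

/-!
P199: descendants of a series over a division algebra.

`Desc A₀ a₀ A a`: a homomorphism `Φ` from the series of the first stage, sending constants to
`U (x ⊗ 1) U⁻¹` and the variable `i` to `σ i` plus a basis of the centraliser of the constants times
the new variables, whose image is dense in the closure sense, with `a` conjugate to `Φ a₀`.
-/

open Finset
open scoped Kronecker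

noncomputable section

namespace Vale.Agent.P199

open Series

section Emb

variable {n₀ k n : Type} [Fintype n₀] [DecidableEq n₀] [Fintype k] [DecidableEq k] [Fintype n]
  [DecidableEq n] {F₀ F : Type} [Field F₀] [Field F]

/-- Conjugation by a unit. -/
def conjRing {R : Type*} [Ring R] (U : Rˣ) : R →+* R where
  toFun x := (U : R) * x * (↑U⁻¹ : R)
  map_one' := by simp
  map_mul' x y := by simp [mul_assoc]
  map_zero' := by simp
  map_add' x y := by simp [mul_add, add_mul]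

theorem conjRing_apply {R : Type*} [Ring R] (U : Rˣ) (x : R) :
    conjRing U x = (U : R) * x * (↑U⁻¹ : R) := rfl

/-- Change of index. -/
def subHom {m n : Type*} [Fintype m] [DecidableEq m] [Fintype n] [DecidableEq n] {R : Type*}
    [Semiring R] (e : m ≃ n) : Matrix n n R →+* Matrix m m R where
  toFun M := M.submatrix e e
  map_one' := Matrix.submatrix_one_equiv e
  map_mul' M N := (Matrix.submatrix_mul_equiv M N e e e).symm
  map_zero' := rfl
  map_add' _ _ := rfl

theorem subHom_apply {m n : Type*} [Fintype m] [DecidableEq m] [Fintype n] [DecidableEq n]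
    {R : Type*} [Semiring R] (e : m ≃ n) (M : Matrix n n R) : subHom e M = M.submatrix e e := rfl

/-- `x ↦ U (x ⊗ 1) U⁻¹`. -/
def embConst (j : F₀ →+* F) (e : n₀ × k ≃ n) (U : (Matrix n n F)ˣ) :
    Matrix n₀ n₀ F₀ →+* Matrix n n F :=
  (conjRing U).comp ((subHom e.symm).comp ((kronOne (p := k)).comp j.mapMatrix))

theorem embConst_apply (j : F₀ →+* F) (e : n₀ × k ≃ n) (U : (Matrix n n F)ˣ)
    (x : Matrix n₀ n₀ F₀) : embConst j e U x = (U : Matrix n n F) *
      (x.map j ⊗ₖ (1 : Matrix k k F)).submatrix e.symm e.symm * (↑U⁻¹ : Matrix n n F) := rfl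

/-- `1 ⊗ M`. -/
def oneKron : Matrix k k F →+* Matrix (n₀ × k) (n₀ × k) F where
  toFun M := (1 : Matrix n₀ n₀ F) ⊗ₖ M
  map_one' := Matrix.one_kronecker_one
  map_mul' x y := by rw [← Matrix.mul_kronecker_mul, one_mul]
  map_zero' := Matrix.kronecker_zero _
  map_add' x y := Matrix.kronecker_add _ x y

/-- `M ↦ U (1 ⊗ M) U⁻¹`: the centraliser of the constants. -/
def embCent (e : n₀ × k ≃ n) (U : (Matrix n n F)ˣ) : Matrix k k F →+* Matrix n n F :=
  (conjRing U).comp ((subHom e.symm).comp oneKron)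

theorem embCent_apply (e : n₀ × k ≃ n) (U : (Matrix n n F)ˣ) (M : Matrix k k F) :
    embCent e U M = (U : Matrix n n F) *
      ((1 : Matrix n₀ n₀ F) ⊗ₖ M).submatrix e.symm e.symm * (↑U⁻¹ : Matrix n n F) := rfl

theorem embConst_commute (j : F₀ →+* F) (e : n₀ × k ≃ n) (U : (Matrix n n F)ˣ)
    (x : Matrix n₀ n₀ F₀) (M : Matrix k k F) : Commute (embConst j e U x) (embCent e U M) := by
  have h : Commute ((kronOne (p := k)) (x.map j)) (oneKron (n₀ := n₀) M) := by
    show (x.map j ⊗ₖ (1 : Matrix k k F)) * _ = _ * (x.map j ⊗ₖ (1 : Matrix k k F))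
    simp only [oneKron, RingHom.coe_mk, MonoidHom.coe_mk, OneHom.coe_mk, ← Matrix.mul_kronecker_mul,
      Matrix.one_mul, Matrix.mul_one]
  exact (h.map (subHom e.symm)).map (conjRing U)

theorem embCent_smul (e : n₀ × k ≃ n) (U : (Matrix n n F)ˣ) (c : F) (M : Matrix k k F) :
    embCent e U (c • M) = c • embCent e U M := by
  simp only [embCent_apply, Matrix.kronecker_smul, Matrix.submatrix_smul, Pi.smul_apply,
    Matrix.mul_smul, Matrix.smul_mul]

theorem embCent_injective [Nonempty n₀] (e : n₀ × k ≃ n) (U : (Matrix n n F)ˣ) :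
    Function.Injective (embCent e U) := by
  intro M N h
  rw [embCent_apply, embCent_apply] at h
  have h2 := (Units.mul_right_inj U).1 ((Units.mul_left_inj U⁻¹).1 h)
  obtain ⟨a⟩ := ‹Nonempty n₀›
  ext x y
  simpa using congrFun₂ h2 (e (a, x)) (e (a, y))

end Emb

/-- A descendant of `(A₀, a₀)`. -/
structure Desc {n₀ : Type} [Fintype n₀] [DecidableEq n₀] {F₀ : Type} [Field F₀]
    (A₀ : DivAlg n₀ F₀) (a₀ : Ser (Matrix n₀ n₀ F₀) (Fin 2))
    {n : Type} [Fintype n] [DecidableEq n] {F : Type} [Field F] (A : DivAlg n F)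
    {ι : Type} [Fintype ι] [DecidableEq ι] (a : Ser (Matrix n n F) ι) where
  j : F₀ →+* F
  j_mem : ∀ x ∈ A₀.K, j x ∈ A.K
  k : Type
  [fintypek : Fintype k]
  [deck : DecidableEq k]
  e : n₀ × k ≃ n
  U : (Matrix n n F)ˣ
  Q : Type
  [fintypeQ : Fintype Q]
  [decQ : DecidableEq Q]
  b : Q → Matrix n n F
  b_mem : ∀ l, b l ∈ A.D
  b_cent : ∀ l, ∃ M, b l = embCent e U M
  b_indep : LinearIndependent F b
  card_Q : Fintype.card Q = Fintype.card k * Fintype.card k
  σ : Fin 2 → Matrix n n F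
  σ_mem : ∀ i, σ i ∈ A.D
  σ_cent : ∀ i, ∃ M, σ i = embCent e U M
  idx : Fin 2 × Q ≃ ι
  Φ : Ser (Matrix n₀ n₀ F₀) (Fin 2) →+* Ser (Matrix n n F) ι
  Φ_C : ∀ x, Φ (Ser.C x) = Ser.C (embConst j e U x)
  Φ_X : ∀ i, Φ (Ser.X i) = Ser.C (σ i) + ∑ l, Ser.C (b l) * Ser.X (idx (i, l))
  Φ_mem : ∀ f, (∀ w, f.coeff w ∈ A₀.D) → ∀ w, (Φ f).coeff w ∈ A.D
  approx : ∀ P : Set (Ser (Matrix n₀ n₀ F₀) (Fin 2)), (∀ p ∈ P, ∀ w, p.coeff w ∈ A₀.D) →
    (∀ k f, (∀ w, f.coeff w ∈ A₀.D) → ∃ p ∈ P, Ser.LowVanish k (p - f)) →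
    ∀ k f, (∀ w, f.coeff w ∈ A₀.D) →
      ∃ g ∈ Submodule.span A.K (Φ '' P), Ser.LowVanish k (g - Φ f)
  conj : ∃ G : (Ser (Matrix n n F) ι)ˣ,
    (∀ w, (G : Ser (Matrix n n F) ι).coeff w ∈ A.D) ∧
    (∀ w, (↑G⁻¹ : Ser (Matrix n n F) ι).coeff w ∈ A.D) ∧
    a = (G : Ser (Matrix n n F) ι) * Φ a₀ * (↑G⁻¹ : Ser (Matrix n n F) ι)

attribute [instance] Desc.fintypek Desc.deck Desc.fintypeQ Desc.decQ

namespace DivAlg

variable {n : Type} [Fintype n] [DecidableEq n] {F : Type} [Field F] (A : DivAlg n F)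
  {ι : Type} [Fintype ι] [DecidableEq ι]

theorem mem_K_smul_D {c : F} (hc : c ∈ A.K) {x : Matrix n n F} (hx : x ∈ A.D) :
    c • x ∈ A.D := A.smul_mem hc hx

omit [Fintype ι] [DecidableEq ι] in
theorem coeff_smul (c : A.K) (g : Ser (Matrix n n F) ι) (w : List ι) :
    (c • g).coeff w = (c : F) • g.coeff w := by
  simp only [Algebra.smul_def]
  show (Ser.C (algebraMap A.K (Matrix n n F) c) * g).coeff w = _
  rw [Ser.coeff_C_mul]
  rfl

omit [Fintype ι] [DecidableEq ι] in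
theorem coeff_mem_of_mem_span {S : Set (Ser (Matrix n n F) ι)}
    (hS : ∀ g ∈ S, ∀ w, g.coeff w ∈ A.D) {g : Ser (Matrix n n F) ι}
    (hg : g ∈ Submodule.span A.K S) : ∀ w, g.coeff w ∈ A.D := by
  induction hg using Submodule.span_induction with
  | mem g hg => exact hS g hg
  | zero => intro w; exact A.D.zero_mem
  | add g h _ _ h1 h2 => intro w; exact A.D.add_mem (h1 w) (h2 w)
  | smul c g _ h =>
    intro w
    rw [A.coeff_smul]
    exact A.smul_mem c.2 (h w)

end DivAlg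

namespace Desc

variable {n₀ : Type} [Fintype n₀] [DecidableEq n₀] {F₀ : Type} [Field F₀]
  {A₀ : DivAlg n₀ F₀} {a₀ : Ser (Matrix n₀ n₀ F₀) (Fin 2)}

/-- The first stage descends from itself. -/
def start [Nonempty n₀] (A₀ : DivAlg n₀ F₀) (a₀ : Ser (Matrix n₀ n₀ F₀) (Fin 2)) : Desc A₀ a₀ A₀ a₀ where
  j := RingHom.id _
  j_mem _ h := h
  k := Unit
  e := Equiv.prodUnique n₀ Unit
  U := 1
  Q := Unit
  b _ := 1
  b_mem _ := A₀.D.one_mem
  b_cent _ := ⟨1, (map_one _).symm⟩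
  b_indep := by
    refine Fintype.linearIndependent_iff.2 fun g hg l => ?_
    simp only [Finset.univ_unique, Finset.sum_singleton] at hg
    obtain ⟨i⟩ := ‹Nonempty n₀›
    simpa using congrFun₂ hg i i
  card_Q := by simp
  σ _ := 0
  σ_mem _ := A₀.D.zero_mem
  σ_cent _ := ⟨0, (map_zero _).symm⟩
  idx := Equiv.prodUnique (Fin 2) Unit
  Φ := RingHom.id _
  Φ_C x := by
    show Ser.C x = _
    congr 1
    ext a b
    simp [embConst_apply]
  Φ_X i := by simp
  Φ_mem _ h := h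
  approx P _ hdense k f hf := by
    obtain ⟨p, hp, hpf⟩ := hdense k f hf
    exact ⟨p, Submodule.subset_span ⟨p, hp, rfl⟩, hpf⟩
  conj := ⟨1, fun w => by
      cases w <;> simp [Ser.coeff_one, Series.const, A₀.D.one_mem, A₀.D.zero_mem],
    fun w => by
      cases w <;> simp [Ser.coeff_one, Series.const, A₀.D.one_mem, A₀.D.zero_mem],
    by simp⟩

end Desc

end Vale.Agent.P199
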