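import Vale.Agent.P199.DescFinishAux

/-!
# P199: generation of all matrices by the constants and their centraliser
-/

open Finset
open scoped Kronecker

noncomputable section

namespace Vale.Agent.P199

open Series

section Emb

variable {n₀ k n : Type} [Fintype n₀] [DecidableEq n₀] [Fintype k] [DecidableEq k] [Fintype n]
  [DecidableEq n] {F₀ F : Type} [Field F₀] [Field F]

/-- Every matrix is a combination of products of a constant and an element of the centraliser. -/
theorem exists_eq_sum_emb (j : F₀ →+* F) (e : n₀ × k ≃ n) (U : (Matrix n n F)ˣ)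
    (Y : Matrix n n F) : ∃ M : n₀ → n₀ → Matrix k k F,
      Y = ∑ a, ∑ b, embConst j e U (Matrix.single a b 1) * embCent e U (M a b) := by
  set Z : Matrix n n F := (↑U⁻¹ : Matrix n n F) * Y * (U : Matrix n n F) with hZ
  refine ⟨fun a b => Matrix.of fun x y => Z (e (a, x)) (e (b, y)), ?_⟩
  have h : Z = ∑ a, ∑ b, subHom e.symm ((Matrix.single a b (1 : F) : Matrix n₀ n₀ F) ⊗ₖ
      (Matrix.of fun x y => Z (e (a, x)) (e (b, y)))) := by
    ext u v
    simp only [Matrix.sum_apply, subHom_apply, Matrix.submatrix_apply]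
    rw [Finset.sum_eq_single (e.symm u).1, Finset.sum_eq_single (e.symm v).1]
    · simp
    · intro b _ hb
      simp [hb]
    · simp
    · intro a _ ha
      simp [ha]
    · simp
  have hY : Y = conjRing U Z := by
    simp [hZ, conjRing_apply, mul_assoc]
  conv_lhs => rw [hY, h, map_sum]
  refine sum_congr rfl fun a _ => ?_
  rw [map_sum]
  refine sum_congr rfl fun b _ => ?_
  rw [embConst, embCent, RingHom.comp_apply, RingHom.comp_apply, RingHom.comp_apply,
    RingHom.comp_apply, RingHom.comp_apply, ← map_mul, ← map_mul]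
  congr 2
  show _ = ((Matrix.single a b (1 : F₀)).map j ⊗ₖ (1 : Matrix k k F)) *
    ((1 : Matrix n₀ n₀ F) ⊗ₖ _)
  rw [← Matrix.mul_kronecker_mul, mul_one, one_mul]
  congr 1
  ext u v
  simp [Matrix.single_apply, apply_ite j]

/-- The centraliser embedding as an algebra homomorphism. -/
def embCentAlg (e : n₀ × k ≃ n) (U : (Matrix n n F)ˣ) : Matrix k k F →ₐ[F] Matrix n n F :=
  { embCent e U with
    commutes' := fun c => by
      show embCent e U _ = _
      rw [Algebra.algebraMap_eq_smul_one, embCent_smul, map_one, Algebra.algebraMap_eq_smul_one] }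

end Emb

namespace Desc

variable {n₀ : Type} [Fintype n₀] [DecidableEq n₀] {F₀ : Type} [Field F₀]
  {A₀ : DivAlg n₀ F₀} {a₀ : Ser (Matrix n₀ n₀ F₀) (Fin 2)}
  {n : Type} [Fintype n] [DecidableEq n] {F : Type} [Field F] {A : DivAlg n F}
  {ι : Type} [Fintype ι] [DecidableEq ι] {a : Ser (Matrix n n F) ι}

/-- The constants and the two values generate all matrices. -/
theorem adjoin_consts_eq_top (d : Desc A₀ a₀ A a) (hd : d.Gen) :
    Algebra.adjoin F
      (Set.range (Sum.elim (fun x => embConst d.j d.e d.U (A₀.b x)) d.σ)) = ⊤ := by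
  obtain ⟨N, hN, htop⟩ := hd
  set R := Algebra.adjoin F (Set.range (Sum.elim (fun x => embConst d.j d.e d.U (A₀.b x)) d.σ))
  have hcent : ∀ M, embCent d.e d.U M ∈ R := by
    intro M
    have hM : M ∈ R.comap (embCentAlg d.e d.U) := by
      refine (Algebra.adjoin_le ?_ : Algebra.adjoin F (Set.range N) ≤ _) (htop ▸ Algebra.mem_top)
      rintro _ ⟨i, rfl⟩
      show embCent d.e d.U (N i) ∈ R
      rw [← hN]
      exact Algebra.subset_adjoin ⟨Sum.inr i, rfl⟩
    exact hM
  have hconst : ∀ x, embConst d.j d.e d.U x ∈ R := by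
    intro x
    have hx : x ∈ Submodule.span F₀ (Set.range A₀.b) := by rw [A₀.span_b]; trivial
    induction hx using Submodule.span_induction with
    | mem y hy => obtain ⟨i, rfl⟩ := hy; exact Algebra.subset_adjoin ⟨Sum.inl i, rfl⟩
    | zero => rw [map_zero]; exact R.zero_mem
    | add y z _ _ hy hz => rw [map_add]; exact R.add_mem hy hz
    | smul c y _ hy =>
      rw [show c • y = Matrix.scalar n₀ c * y by ext u v; simp, map_mul, embConst_scalar]
      exact R.mul_mem (R.algebraMap_mem (d.j c)) hy
  refine eq_top_iff.2 fun Y _ => ?_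
  obtain ⟨M, rfl⟩ := exists_eq_sum_emb d.j d.e d.U Y
  exact R.sum_mem fun a _ => R.sum_mem fun b _ => R.mul_mem (hconst _) (hcent _)

end Desc

end Vale.Agent.P199
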