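import Mathlib
import Vale.Agent.P199.Frame

/-!
P199: a `DivAlg` as a finite-dimensional central division algebra over its field.
-/

open Module

namespace Vale.Agent.P199.DivAlg

variable {n : Type} [Fintype n] [DecidableEq n] {F : Type} [Field F] (E : DivAlg n F)

/-- The scalars inside the division algebra. -/
def scalarHom : E.K →+* E.D :=
  ((Matrix.scalar n).comp E.K.subtype).codRestrict E.D fun x => E.scalar_mem x x.2

theorem scalarHom_apply (x : E.K) : (E.scalarHom x : Matrix n n F) = Matrix.scalar n (x : F) := rfl

instance instAlgebra : Algebra E.K E.D :=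
  E.scalarHom.toAlgebra' fun x y => Subtype.ext <| by
    show Matrix.scalar n (x : F) * (y : Matrix n n F) = (y : Matrix n n F) * Matrix.scalar n (x : F)
    exact (Matrix.scalar_commute (x : F) (fun r' => Commute.all _ _) _).eq

theorem coe_smul (x : E.K) (y : E.D) :
    ((x • y : E.D) : Matrix n n F) = (x : F) • (y : Matrix n n F) := by
  rw [Algebra.smul_def]
  show Matrix.scalar n (x : F) * (y : Matrix n n F) = _
  ext i j
  simp [Matrix.scalar_apply, Matrix.diagonal_mul]

/-- The basis as elements of the algebra. -/
def bD (i : n × n) : E.D := ⟨E.b i, E.b_mem i⟩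

theorem coe_sum_smul (c : n × n → E.K) :
    ((∑ i, c i • E.bD i : E.D) : Matrix n n F) = ∑ i, (c i : F) • E.b i := by
  rw [AddSubmonoidClass.coe_finsetSum]
  exact Finset.sum_congr rfl fun i _ => E.coe_smul _ _

theorem bD_indep : LinearIndependent E.K E.bD := by
  refine Fintype.linearIndependent_iff.2 fun c hc i => ?_
  have h : ∑ j, (c j : F) • E.b j = 0 := by
    rw [← E.coe_sum_smul, hc]
    rfl
  exact Subtype.ext (Fintype.linearIndependent_iff.1 E.b_indep _ h i)

theorem bD_span : ⊤ ≤ Submodule.span E.K (Set.range E.bD) := by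
  intro y _
  obtain ⟨c, hc, hy⟩ := E.exists_coord y y.2
  have : y = ∑ i, (⟨c i, hc i⟩ : E.K) • E.bD i := Subtype.ext <| by rw [hy, E.coe_sum_smul]
  rw [this]
  exact Submodule.sum_mem _ fun i _ => Submodule.smul_mem _ _ (Submodule.subset_span ⟨i, rfl⟩)

/-- The basis of the algebra over its field. -/
noncomputable def basisK : Basis (n × n) E.K E.D := Basis.mk E.bD_indep E.bD_span

theorem basisK_apply (i : n × n) : (E.basisK i : Matrix n n F) = E.b i := by
  rw [basisK, Basis.mk_apply]
  rfl

instance finiteDimensional : FiniteDimensional E.K E.D := Module.Finite.of_basis E.basisK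

theorem span_b : Submodule.span F (Set.range E.b) = ⊤ :=
  E.b_indep.span_eq_top_of_card_eq_finrank' (by simp [Module.finrank_matrix])

variable [Nonempty n]

instance nontrivial : Nontrivial E.D :=
  ⟨⟨0, 1, fun h => zero_ne_one (congrArg Subtype.val h : (0 : Matrix n n F) = 1)⟩⟩

instance noZeroDivisors : NoZeroDivisors E.D where
  eq_zero_or_eq_zero_of_mul_eq_zero {x y} h := by
    rcases E.no_zero_div x x.2 y y.2 (congrArg Subtype.val h) with e | e
    · exact Or.inl (Subtype.ext e)
    · exact Or.inr (Subtype.ext e)

instance isDomain : IsDomain E.D := NoZeroDivisors.to_isDomain _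

/-- The division ring structure. -/
noncomputable instance divisionRing : DivisionRing E.D := divisionRingOfFiniteDimensional E.K E.D

/-- The centre is the field. -/
theorem central (z : E.D) (hz : ∀ a, a * z = z * a) : z ∈ (algebraMap E.K E.D).range := by
  obtain ⟨a, ha⟩ : ∃ a : F, (z : Matrix n n F) = Matrix.scalar n a := by
    have hcomm : ∀ M : Matrix n n F, Commute M (z : Matrix n n F) := by
      intro M
      have hM : M ∈ Submodule.span F (Set.range E.b) := by rw [E.span_b]; trivial
      induction hM using Submodule.span_induction with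
      | mem M hM =>
        obtain ⟨i, rfl⟩ := hM
        exact (congrArg Subtype.val (hz (E.bD i)) : _)
      | zero => exact Commute.zero_left _
      | add M N _ _ h h' => exact h.add_left h'
      | smul c M _ h => exact h.smul_left c
    obtain ⟨a, ha⟩ := Matrix.mem_range_scalar_of_commute_single (M := (z : Matrix n n F))
      fun i j _ => hcomm _
    exact ⟨a, ha.symm⟩
  obtain ⟨c, hc, hz'⟩ := E.exists_coord z z.2
  obtain ⟨e, he, h1⟩ := E.exists_coord 1 E.D.one_mem
  have hce : ∀ i, c i = a * e i := by
    have : ∑ i, (c i - a * e i) • E.b i = 0 := by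
      simp only [sub_smul, Finset.sum_sub_distrib, mul_smul, ← Finset.smul_sum, ← hz', ← h1, ha]
      rw [sub_eq_zero]
      ext i j
      simp [Matrix.scalar_apply, Matrix.diagonal_apply, Matrix.one_apply]
    exact fun i => sub_eq_zero.1 (Fintype.linearIndependent_iff.1 E.b_indep _ this i)
  obtain ⟨i, hi⟩ : ∃ i, e i ≠ 0 := by
    by_contra hall
    push Not at hall
    exact one_ne_zero (h1.trans (Finset.sum_eq_zero fun i _ => by rw [hall i, zero_smul]))
  have haK : a ∈ E.K := by
    have : a = c i / e i := by rw [hce, mul_div_assoc, div_self hi, mul_one]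
    rw [this]
    exact E.K.div_mem (hc i) (he i)
  exact ⟨⟨a, haK⟩, Subtype.ext ha.symm⟩

end Vale.Agent.P199.DivAlg
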