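import Vale.Agent.P199.Basic

/-!
P199: the algebra of `Ser`: vanishing orders, units, substitution as a ring hom, uniqueness of
order preserving homs, congruences.
-/

namespace Vale.Agent.P199

open Finset Series

namespace Series.Ser

variable {A B : Type*} [Ring A] [Ring B] {ι κ : Type*}

theorem coeff_one_if (w : List ι) : (1 : Ser A ι).coeff w = if w.length = 0 then 1 else 0 := by
  cases w <;> simp [coeff_one, const]

theorem coeff_C (x : A) (w : List ι) : (C x : Ser A ι).coeff w = if w.length = 0 then x else 0 := by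
  cases w <;> simp

theorem tail_C (x : A) (i : ι) : tail i (C x : Ser A ι) = 0 := by ext w; simp

theorem tail_add (i : ι) (a b : Ser A ι) : tail i (a + b) = tail i a + tail i b := rfl

/-- The Cauchy product as a sum over the ways of cutting a word. -/
theorem coeff_mul_sum (a b : Ser A ι) (w : List ι) :
    (a * b).coeff w = ∑ i ∈ range (w.length + 1), a.coeff (w.take i) * b.coeff (w.drop i) := by
  induction w generalizing a with
  | nil => simp
  | cons i w ih =>
    rw [coeff_mul_cons, ih, List.length_cons, sum_range_succ' _ (w.length + 1)]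
    simp only [List.take_succ_cons, List.drop_succ_cons, coeff_tail, List.take_zero, List.drop_zero]
    rw [add_comm]

theorem C_commute_of {c : A} (a : Ser A ι) (hc : ∀ w, Commute c (a.coeff w)) : Commute (C c) a := by
  ext w
  rw [coeff_C_mul, coeff_mul_C, hc w]

section X

variable [DecidableEq ι]

@[simp] theorem coeff_X_nil (i : ι) : (X i : Ser A ι).coeff [] = 0 := by simp [X_coeff]

theorem C_commute_X (c : A) (i : ι) : Commute (C c) (X i : Ser A ι) :=
  C_commute_of _ fun w => by
    rw [X_coeff]; split_ifs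
    · exact Commute.one_right c
    · exact Commute.zero_right c

end X

namespace LowVanish

variable {a b : Ser A ι} {m n : ℕ}

theorem of_zero (a : Ser A ι) : LowVanish 0 a := fun _ h => absurd h (Nat.not_lt_zero _)

theorem zero (n : ℕ) : LowVanish n (0 : Ser A ι) := fun _ _ => rfl

theorem mono (h : LowVanish n a) (hmn : m ≤ n) : LowVanish m a :=
  fun w hw => h w (hw.trans_le hmn)

theorem add (ha : LowVanish n a) (hb : LowVanish n b) : LowVanish n (a + b) :=
  fun w hw => by simp [ha w hw, hb w hw]

theorem neg (ha : LowVanish n a) : LowVanish n (-a) := fun w hw => by simp [ha w hw]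

theorem sub (ha : LowVanish n a) (hb : LowVanish n b) : LowVanish n (a - b) :=
  fun w hw => by simp [ha w hw, hb w hw]

theorem sum {α : Type*} {S : Finset α} {f : α → Ser A ι} (h : ∀ i ∈ S, LowVanish n (f i)) :
    LowVanish n (∑ i ∈ S, f i) :=
  fun w hw => by simp [sum_eq_zero fun i hi => h i hi w hw]

theorem mul (ha : LowVanish m a) (hb : LowVanish n b) : LowVanish (m + n) (a * b) := by
  intro w hw
  rw [coeff_mul_sum]
  refine sum_eq_zero fun i hi => ?_
  rw [mem_range] at hi
  by_cases h : i < m
  · rw [ha _ (by simp; omega), zero_mul]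
  · rw [hb _ (by simp; omega), mul_zero]

theorem mul_right (ha : LowVanish n a) (b : Ser A ι) : LowVanish n (a * b) :=
  (ha.mul (of_zero b)).mono le_rfl

theorem mul_left (a : Ser A ι) (hb : LowVanish n b) : LowVanish n (a * b) :=
  ((of_zero a).mul hb).mono (Nat.zero_add n).ge

theorem of_coeff_nil (h : a.coeff [] = 0) : LowVanish 1 a := fun w hw => by
  rwa [List.length_eq_zero_iff.1 (Nat.lt_one_iff.1 hw)]

theorem coeff_nil (h : LowVanish n a) (hn : 0 < n) : a.coeff [] = 0 := h [] hn

theorem list_prod {l : List (Ser A ι)} (h : ∀ x ∈ l, LowVanish n x) :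
    LowVanish (n * l.length) l.prod := by
  induction l with
  | nil => exact (of_zero _).mono (by simp)
  | cons x l ih =>
    rw [List.prod_cons]
    exact ((h x (by simp)).mul (ih fun y hy => h y (List.mem_cons_of_mem _ hy))).mono
      (by rw [List.length_cons, Nat.mul_succ, Nat.add_comm])

theorem eq_zero (h : ∀ n, LowVanish n a) : a = 0 := by
  ext w; exact h _ w (Nat.lt_succ_self _)

end LowVanish

theorem eq_of_lowVanish_sub {a b : Ser A ι} (h : ∀ n, LowVanish n (a - b)) : a = b :=
  sub_eq_zero.1 (LowVanish.eq_zero h)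

theorem lowVanish_sub_trans {a b c : Ser A ι} {n : ℕ} (h : LowVanish n (a - b))
    (h' : LowVanish n (b - c)) : LowVanish n (a - c) := by
  simpa using h.add h'

/-- Series with all coefficients in a subring. -/
def coeffIn (S : Subring A) : Subring (Ser A ι) where
  carrier := {a | ∀ w, a.coeff w ∈ S}
  one_mem' w := by rw [coeff_one_if]; split_ifs; exacts [S.one_mem, S.zero_mem]
  zero_mem' _ := S.zero_mem
  add_mem' ha hb w := S.add_mem (ha w) (hb w)
  neg_mem' ha w := S.neg_mem (ha w)
  mul_mem' ha hb w := by rw [coeff_mul_sum]; exact S.sum_mem fun _ _ => S.mul_mem (ha _) (hb _)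

theorem mem_coeffIn {S : Subring A} {a : Ser A ι} : a ∈ coeffIn S ↔ ∀ w, a.coeff w ∈ S := by
  simp [coeffIn]

theorem C_mem_coeffIn {S : Subring A} {x : A} (hx : x ∈ S) : (C x : Ser A ι) ∈ coeffIn S :=
  mem_coeffIn.2 fun w => by rw [coeff_C]; split_ifs; exacts [hx, S.zero_mem]

/-- The inverse of `1 - x` for `x` without constant term, as a geometric series. -/
def geom (x : Ser A ι) : Ser A ι := ⟨fun w => ∑ k ∈ range (w.length + 1), (x ^ k).coeff w⟩

theorem lowVanish_pow {x : Ser A ι} (hx : LowVanish 1 x) : ∀ k : ℕ, LowVanish k (x ^ k)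
  | 0 => LowVanish.of_zero _
  | k + 1 => by
    rw [pow_succ]
    exact (lowVanish_pow hx k).mul hx

theorem geom_sub {x : Ser A ι} (hx : LowVanish 1 x) (n : ℕ) :
    LowVanish n (geom x - ∑ k ∈ range n, x ^ k) := by
  intro w hw
  rw [coeff_sub, coeff_sum, sub_eq_zero]
  exact sum_subset (range_subset_range.2 hw) fun k _ hk =>
    lowVanish_pow hx k w (by rw [mem_range] at hk; omega)

theorem one_sub_mul_geom {x : Ser A ι} (hx : LowVanish 1 x) :
    (1 - x) * geom x = 1 ∧ geom x * (1 - x) = 1 := by
  refine ⟨eq_of_lowVanish_sub fun n => ?_, eq_of_lowVanish_sub fun n => ?_⟩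
  · have h : (1 - x) * geom x - 1 = (1 - x) * (geom x - ∑ k ∈ range n, x ^ k) - x ^ n := by
      rw [mul_sub, mul_neg_geom_sum]; abel
    rw [h]
    exact (LowVanish.mul_left _ (geom_sub hx n)).sub (lowVanish_pow hx n)
  · have h : geom x * (1 - x) - 1 = (geom x - ∑ k ∈ range n, x ^ k) * (1 - x) - x ^ n := by
      rw [sub_mul, geom_sum_mul_neg]; abel
    rw [h]
    exact ((geom_sub hx n).mul_right _).sub (lowVanish_pow hx n)

theorem isUnit_of_coeff_nil {a : Ser A ι} (h : IsUnit (a.coeff [])) : IsUnit a := by
  obtain ⟨u, hu⟩ := h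
  set x : Ser A ι := 1 - C (↑u⁻¹ : A) * a
  have hx : LowVanish 1 x := LowVanish.of_coeff_nil (by simp [x, coeff_one_if, ← hu])
  obtain ⟨h1, h2⟩ := one_sub_mul_geom hx
  have hb : IsUnit (C (↑u⁻¹ : A) * a) :=
    ⟨⟨_, geom x, by simpa [x] using h1, by simpa [x] using h2⟩, rfl⟩
  have hC : IsUnit (C (u : A) : Ser A ι) := u.isUnit.map C
  have : a = C (u : A) * (C (↑u⁻¹ : A) * a) := by rw [← mul_assoc, ← map_mul, u.mul_inv, map_one, one_mul]
  rw [this]
  exact hC.mul hb

theorem inv_mem_coeffIn {S : Subring A} {a b : Ser A ι} (ha : a ∈ coeffIn S) (u : Aˣ)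
    (hu : (u : A) = a.coeff []) (hinv : (↑u⁻¹ : A) ∈ S) (hab : a * b = 1) :
    b ∈ coeffIn S := by
  set x : Ser A ι := 1 - C (↑u⁻¹ : A) * a
  have hx : LowVanish 1 x := LowVanish.of_coeff_nil (by simp [x, coeff_one_if, ← hu])
  have h2 := (one_sub_mul_geom hx).2
  have hxm : x ∈ coeffIn S := sub_mem (one_mem _) (mul_mem (C_mem_coeffIn hinv) ha)
  have e : b = geom x * C (↑u⁻¹ : A) := by
    calc b = (geom x * (1 - x)) * b := by rw [h2, one_mul]
      _ = geom x * C (↑u⁻¹ : A) := by
        rw [mul_assoc]; simp only [x, sub_sub_cancel, mul_assoc, hab, mul_one]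
  rw [e]
  exact mul_mem (mem_coeffIn.2 fun w => by
    show ∑ k ∈ range (w.length + 1), (x ^ k).coeff w ∈ S
    exact S.sum_mem fun k _ => mem_coeffIn.1 (pow_mem hxm k) w) (C_mem_coeffIn hinv)

section Map

variable (f : A →+* B)

theorem map_C (x : A) : map f (C x : Ser A ι) = C (f x) := by
  ext w; simp [coeff_C, apply_ite f]

theorem map_X [DecidableEq ι] (i : ι) : map f (X i : Ser A ι) = X i := by
  ext w; simp [X_coeff, apply_ite f]

theorem LowVanish.map {a : Ser A ι} {n : ℕ} (h : LowVanish n a) :
    LowVanish n (Series.Ser.map f a) :=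
  fun w hw => by simp [h w hw]

end Map

end Series.Ser

section Words

variable {ι : Type*} [Fintype ι] [DecidableEq ι]

theorem mem_words {k : ℕ} {w : List ι} : w ∈ words ι k ↔ w.length = k := by
  simp only [words, mem_image, mem_univ, true_and]
  refine ⟨fun ⟨f, hf⟩ => by rw [← hf, List.length_ofFn], fun h => ?_⟩
  subst h
  exact ⟨fun i => w[i], List.ofFn_getElem⟩

theorem words_zero : words ι 0 = {[]} := by ext w; simp [mem_words]

theorem sum_words_succ {M : Type*} [AddCommMonoid M] (k : ℕ) (f : List ι → M) :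
    ∑ w ∈ words ι (k + 1), f w = ∑ i, ∑ w ∈ words ι k, f (i :: w) := by
  rw [← sum_product' univ (words ι k) fun i w => f (i :: w)]
  refine (sum_nbij (fun p => p.1 :: p.2) ?_ ?_ ?_ ?_).symm
  · intro p hp; simp_all [mem_words]
  · intro p _ q _ h; simp only [List.cons.injEq] at h; exact Prod.ext h.1 h.2
  · intro w hw
    rw [mem_coe, mem_words] at hw
    cases w with
    | nil => simp at hw
    | cons i w =>
      refine ⟨(i, w), ?_, rfl⟩
      simp_all [mem_words]
  · intro p _; rfl

theorem sum_words_one {M : Type*} [AddCommMonoid M] (f : List ι → M) :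
    ∑ w ∈ words ι 1, f w = ∑ i, f [i] := by
  rw [sum_words_succ, words_zero]; simp

/-- The part of degree less than `n`. -/
def Series.Ser.trunc {A : Type*} [Ring A] (n : ℕ) (a : Ser A ι) : Ser A ι :=
  ∑ k ∈ range n, ∑ w ∈ words ι k, Ser.C (a.coeff w) * (w.map Ser.X).prod

theorem Series.Ser.trunc_sub {A : Type*} [Ring A] (n : ℕ) (a : Ser A ι) :
    Ser.LowVanish n (a - Ser.trunc n a) := by
  intro u hu
  simp only [Ser.trunc, Ser.coeff_sub, Ser.coeff_sum, Ser.coeff_C_mul, Ser.coeff_prod_X, mul_ite,
    mul_one, mul_zero]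
  rw [sum_eq_single u.length]
  · rw [sum_eq_single_of_mem u (mem_words.2 rfl) fun w _ hw => if_neg (Ne.symm hw), if_pos rfl,
      sub_self]
  · intro k _ hk
    refine sum_eq_zero fun w hw => if_neg ?_
    rintro rfl
    exact hk (mem_words.1 hw).symm
  · intro h; exact absurd (mem_range.2 hu) h

end Words

namespace Series.Ser

variable {A B : Type*} [Ring A] [Ring B] {ι κ : Type*}

section Subst

variable [Fintype ι] [DecidableEq ι] (j : A →+* B) {v v' : ι → Ser B κ}

theorem coeff_subst (v : ι → Ser B κ) (a : Ser A ι) (W : List κ) :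
    (subst j v a).coeff W = ∑ k ∈ range (W.length + 1), ∑ w ∈ words ι k,
      j (a.coeff w) * ((w.map v).prod).coeff W := rfl

omit [Fintype ι] [DecidableEq ι] in
theorem lowVanish_prod (hv : ∀ i, (v i).coeff [] = 0) (w : List ι) :
    LowVanish w.length (w.map v).prod := by
  refine (LowVanish.list_prod (n := 1) fun x hx => ?_).mono (by simp)
  obtain ⟨i, _, rfl⟩ := List.mem_map.1 hx
  exact LowVanish.of_coeff_nil (hv i)

/-- Any bound above the length of the word gives the coefficient. -/
theorem coeff_subst_of_le (hv : ∀ i, (v i).coeff [] = 0) (a : Ser A ι) {W : List κ} {n : ℕ}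
    (hn : W.length < n) :
    (subst j v a).coeff W =
      ∑ k ∈ range n, ∑ w ∈ words ι k, j (a.coeff w) * ((w.map v).prod).coeff W := by
  refine sum_subset (range_subset_range.2 hn) fun k _ hk => sum_eq_zero fun w hw => ?_
  rw [lowVanish_prod hv w W (by rw [mem_words.1 hw]; simp only [mem_range] at hk; omega), mul_zero]

/-- The substitution is congruent to its polynomial approximations. -/
theorem subst_sub_sum (hv : ∀ i, (v i).coeff [] = 0) (a : Ser A ι) (n : ℕ) :
    LowVanish n (subst j v a -
      ∑ k ∈ range n, ∑ w ∈ words ι k, C (j (a.coeff w)) * (w.map v).prod) := by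
  intro W hW
  simp only [coeff_sub, coeff_sum, coeff_C_mul]
  rw [coeff_subst_of_le j hv a hW, sub_self]

theorem subst_add (a b : Ser A ι) : subst j v (a + b) = subst j v a + subst j v b := by
  ext W; simp [coeff_subst, add_mul, sum_add_distrib]

theorem subst_zero : subst j v (0 : Ser A ι) = 0 := by ext W; simp [coeff_subst]

theorem subst_C_mul (c : A) (a : Ser A ι) : subst j v (C c * a) = C (j c) * subst j v a := by
  ext W; simp [coeff_subst, coeff_C_mul, mul_sum, mul_assoc]

theorem subst_C (c : A) : subst j v (C c : Ser A ι) = C (j c) := by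
  ext W
  rw [coeff_subst, sum_eq_single 0 (fun k _ hk => sum_eq_zero fun w hw => ?_) (by simp),
    words_zero, sum_singleton]
  · cases W <;> simp [coeff_one_if]
  · rw [coeff_C, if_neg (by rw [mem_words.1 hw]; exact hk), map_zero, zero_mul]

theorem subst_X (hv : ∀ i, (v i).coeff [] = 0) (i : ι) : subst j v (X i : Ser A ι) = v i := by
  ext W
  rw [coeff_subst_of_le j hv _ (show W.length < W.length + 2 by omega),
    sum_eq_single 1 (fun k _ hk => sum_eq_zero fun w hw => ?_) (fun h => absurd h (by simp)),
    sum_words_one, sum_eq_single i (fun l _ hl => by simp [X_coeff, hl]) (by simp)]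
  · simp [X_coeff]
  · rw [X_coeff, if_neg, map_zero, zero_mul]
    rintro rfl
    exact hk (mem_words.1 hw).symm

theorem LowVanish.subst_of {a : Ser A ι} {n e : ℕ} (ha : LowVanish n a)
    (hv : ∀ i, LowVanish e (v i)) : LowVanish (e * n) (Vale.Agent.P199.subst j v a) := by
  intro W hW
  rw [coeff_subst]
  refine sum_eq_zero fun k _ => sum_eq_zero fun w hw => ?_
  by_cases hk : k < n
  · rw [ha w (by rwa [mem_words.1 hw]), map_zero, zero_mul]
  · have h := LowVanish.list_prod (l := w.map v) (n := e) fun x hx => by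
      obtain ⟨i, _, rfl⟩ := List.mem_map.1 hx
      exact hv i
    rw [h W (by
      rw [List.length_map, mem_words.1 hw]
      exact hW.trans_le (Nat.mul_le_mul_left e (by omega))), mul_zero]

theorem LowVanish.subst {a : Ser A ι} {n : ℕ} (ha : LowVanish n a)
    (hv : ∀ i, (v i).coeff [] = 0) : LowVanish n (Vale.Agent.P199.subst j v a) :=
  (ha.subst_of j (e := 1) fun i => LowVanish.of_coeff_nil (hv i)).mono (by simp)

theorem subst_coeff_mem {S : Subring B} {a : Ser A ι} (ha : ∀ w, j (a.coeff w) ∈ S)
    (hv : ∀ i, v i ∈ coeffIn S) : Vale.Agent.P199.subst j v a ∈ coeffIn S :=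
  mem_coeffIn.2 fun W => by
    rw [coeff_subst]
    exact S.sum_mem fun k _ => S.sum_mem fun w _ => S.mul_mem (ha w)
      (mem_coeffIn.1 (list_prod_mem (S := coeffIn S) fun x hx => by
        obtain ⟨i, _, rfl⟩ := List.mem_map.1 hx
        exact hv i) W)

theorem map_subst {B' : Type*} [Ring B'] (f : B →+* B') (a : Ser A ι) :
    map f (subst j v a) = subst (f.comp j) (fun i => map f (v i)) a := by
  ext W
  simp only [coeff_map, coeff_subst, map_sum, _root_.map_mul, RingHom.comp_apply]
  refine sum_congr rfl fun k _ => sum_congr rfl fun w _ => ?_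
  have h := map_list_prod (map (s := κ) f) (w.map v)
  simp only [List.map_map] at h
  rw [← coeff_map f (w.map v).prod, h]
  rfl

theorem subst_map {A' : Type*} [Ring A'] (f : A' →+* A) (a : Ser A' ι) :
    subst j v (map f a) = subst (j.comp f) v a := rfl

variable (hv : ∀ i, (v i).coeff [] = 0) (hc : ∀ x i u, Commute (j x) ((v i).coeff u))

include hv hc in
theorem subst_rec (a : Ser A ι) :
    subst j v a = C (j (a.coeff [])) + ∑ i, v i * subst j v (tail i a) := by
  refine eq_of_lowVanish_sub fun n => ?_
  refine lowVanish_sub_trans ((subst_sub_sum j hv a (n + 1)).mono (Nat.le_succ n)) ?_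
  rw [sum_range_succ', words_zero, sum_singleton]
  simp only [List.map_nil, List.prod_nil, mul_one]
  rw [add_comm, add_sub_add_left_eq_sub]
  have e : ∀ k, ∑ w ∈ words ι (k + 1), C (j (a.coeff w)) * (w.map v).prod =
      ∑ i, v i * ∑ w ∈ words ι k, C (j ((tail i a).coeff w)) * (w.map v).prod := by
    intro k
    rw [sum_words_succ]
    refine sum_congr rfl fun i _ => ?_
    rw [mul_sum]
    refine sum_congr rfl fun w _ => ?_
    rw [List.map_cons, List.prod_cons, ← mul_assoc, ← mul_assoc,
      (C_commute_of (v i) fun u => hc _ i u).eq, coeff_tail]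
  simp only [e]
  rw [sum_comm, ← sum_sub_distrib]
  refine LowVanish.sum fun i _ => ?_
  rw [← mul_sum, ← mul_sub]
  refine LowVanish.mul_left _ ?_
  rw [← neg_sub]
  exact (subst_sub_sum j hv (tail i a) n).neg

include hv hc in
theorem subst_mul (a b : Ser A ι) : subst j v (a * b) = subst j v a * subst j v b := by
  refine eq_of_lowVanish_sub fun n => ?_
  induction n generalizing a b with
  | zero => exact LowVanish.of_zero _
  | succ n ih =>
    have hC : ∀ c i, C (j c) * v i = v i * C (j c) := fun c i =>
      (C_commute_of (v i) fun u => hc c i u).eq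
    have e : subst j v (a * b) - subst j v a * subst j v b =
        ∑ i, v i * (subst j v (tail i a * b) - subst j v (tail i a) * subst j v b) := by
      conv_lhs =>
        rw [subst_rec j hv hc (a * b), subst_rec j hv hc a, add_mul, Finset.sum_mul]
        arg 2; arg 1
        rw [subst_rec j hv hc b]
      simp only [tail_mul, subst_add, subst_C_mul, coeff_mul_nil, _root_.map_mul, mul_add,
        sum_add_distrib, mul_sub, sum_sub_distrib, mul_sum, ← mul_assoc, hC]
      abel
    rw [e]
    refine LowVanish.sum fun i _ => ?_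
    exact ((LowVanish.of_coeff_nil (hv i)).mul (ih _ _)).mono (by omega)

/-- Substitution as a ring hom. -/
def substHom : Ser A ι →+* Ser B κ where
  toFun := Vale.Agent.P199.subst j v
  map_one' := by rw [← map_one (C : A →+* Ser A ι), subst_C, map_one, map_one]
  map_mul' := subst_mul j hv hc
  map_zero' := subst_zero j
  map_add' := subst_add j

@[simp] theorem substHom_apply (a : Ser A ι) : substHom j hv hc a = subst j v a := rfl

end Subst

section Ext

variable [Fintype ι] [DecidableEq ι]

/-- Two order preserving homs agreeing on constants and variables are equal. -/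
theorem hom_ext {φ ψ : Ser A ι →+* Ser B κ} (f : ℕ → ℕ) (hf : ∀ N, ∃ n, N ≤ f n)
    (hφ : ∀ n a, LowVanish n a → LowVanish (f n) (φ a))
    (hψ : ∀ n a, LowVanish n a → LowVanish (f n) (ψ a))
    (hC : ∀ x, φ (C x) = ψ (C x)) (hX : ∀ i, φ (X i) = ψ (X i)) : φ = ψ := by
  refine RingHom.ext fun a => eq_of_lowVanish_sub fun N => ?_
  obtain ⟨n, hn⟩ := hf N
  have h1 := (hφ n _ (trunc_sub n a)).sub (hψ n _ (trunc_sub n a))
  have h2 : φ (trunc n a) = ψ (trunc n a) := by
    simp only [trunc, map_sum, _root_.map_mul, map_list_prod, List.map_map, hC]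
    refine sum_congr rfl fun k _ => sum_congr rfl fun w _ => ?_
    congr 2
    exact List.map_congr_left fun i _ => hX i
  refine LowVanish.mono ?_ hn
  simpa [_root_.map_sub, h2] using h1

variable {T : Type*} [Ring T] {μ : Type*}

theorem subst_subst [Fintype κ] [DecidableEq κ] (j : A →+* B) {v : ι → Ser B κ} (j' : B →+* T)
    {v' : κ → Ser T μ} (hv : ∀ i, (v i).coeff [] = 0)
    (hc : ∀ x i u, Commute (j x) ((v i).coeff u)) (hv' : ∀ i, (v' i).coeff [] = 0)
    (hc' : ∀ x i u, Commute (j' x) ((v' i).coeff u)) (a : Ser A ι) :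
    subst j' v' (subst j v a) = subst (j'.comp j) (fun i => subst j' v' (v i)) a := by
  have hv'' : ∀ i, (subst j' v' (v i)).coeff [] = 0 := fun i =>
    ((LowVanish.of_coeff_nil (hv i)).subst j' hv').coeff_nil one_pos
  have hc'' : ∀ x i u, Commute ((j'.comp j) x) ((subst j' v' (v i)).coeff u) := by
    intro x i u
    rw [coeff_subst]
    refine Commute.sum_right _ _ _ fun k _ => Commute.sum_right _ _ _ fun w _ => ?_
    refine Commute.mul_right (((hc x i w).map j')) ?_
    have hmem : ∀ l : List (Ser T μ), (∀ y ∈ l, ∀ z, Commute (j' (j x)) (y.coeff z)) →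
        ∀ z, Commute (j' (j x)) (l.prod.coeff z) := by
      intro l hl
      induction l with
      | nil => intro z; rw [List.prod_nil, coeff_one_if]; split_ifs <;> simp
      | cons y l ih =>
        intro z
        rw [List.prod_cons, coeff_mul_sum]
        exact Commute.sum_right _ _ _ fun r _ => Commute.mul_right (hl y (by simp) _)
          (ih (fun y hy => hl y (List.mem_cons_of_mem _ hy)) _)
    refine hmem _ (fun y hy z => ?_) u
    obtain ⟨l, _, rfl⟩ := List.mem_map.1 hy
    exact hc' _ l z
  have key := hom_ext (φ := (substHom j' hv' hc').comp (substHom j hv hc))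
    (ψ := substHom (j'.comp j) hv'' hc'') id (fun N => ⟨N, le_rfl⟩)
    (fun n a ha => (ha.subst j hv).subst j' hv')
    (fun n a ha => ha.subst _ hv'') (fun x => by simp [subst_C])
    (fun i => by simp [subst_X _ hv, subst_X _ hv''])
  exact RingHom.congr_fun key a

end Ext

section Congr

variable [Fintype ι] [DecidableEq ι] (j : A →+* B) {v v' : ι → Ser B κ}

omit [Fintype ι] [DecidableEq ι] in
theorem lowVanish_prod_sub (hv : ∀ i, (v i).coeff [] = 0) (hv' : ∀ i, (v' i).coeff [] = 0) {k : ℕ}
    (h : ∀ i, LowVanish k (v i - v' i)) :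
    ∀ w : List ι, LowVanish (k + (w.length - 1)) ((w.map v).prod - (w.map v').prod)
  | [] => by simpa using LowVanish.zero (A := B) (ι := κ) k
  | [i] => by simpa using h i
  | i :: l :: w => by
    rw [List.map_cons, List.map_cons (f := v'), List.prod_cons, List.prod_cons]
    rw [show v i * ((l :: w).map v).prod - v' i * ((l :: w).map v').prod =
      (v i - v' i) * ((l :: w).map v).prod +
        v' i * (((l :: w).map v).prod - ((l :: w).map v').prod) by noncomm_ring]
    refine LowVanish.add (((h i).mul (lowVanish_prod hv (l :: w))).mono (by simp)) ?_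
    exact ((LowVanish.of_coeff_nil (hv' i)).mul
      (lowVanish_prod_sub hv hv' h (l :: w))).mono (by simp only [List.length_cons]; omega)

/-- Congruent substitutions give congruent results, one order better without linear terms. -/
theorem subst_congr (hv : ∀ i, (v i).coeff [] = 0) (hv' : ∀ i, (v' i).coeff [] = 0) {k : ℕ}
    (h : ∀ i, LowVanish k (v i - v' i)) (a : Ser A ι) :
    LowVanish k (subst j v a - subst j v' a) ∧
      ((∀ i, a.coeff [i] = 0) → LowVanish (k + 1) (subst j v a - subst j v' a)) := by
  have key : ∀ W : List κ, (subst j v a - subst j v' a).coeff W =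
      ∑ l ∈ range (W.length + 1), ∑ w ∈ words ι l,
        j (a.coeff w) * ((w.map v).prod - (w.map v').prod).coeff W := fun W => by
    simp only [coeff_sub, coeff_subst, mul_sub, sum_sub_distrib]
  refine ⟨fun W hW => ?_, fun h1 W hW => ?_⟩
  · rw [key]
    refine sum_eq_zero fun l _ => sum_eq_zero fun w _ => ?_
    rw [lowVanish_prod_sub hv hv' h w W (by omega), mul_zero]
  · rw [key]
    refine sum_eq_zero fun l _ => sum_eq_zero fun w _ => ?_
    match w with
    | [] => simp
    | [i] => rw [h1 i, map_zero, zero_mul]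
    | i :: i' :: w =>
      rw [lowVanish_prod_sub hv hv' h (i :: i' :: w) W (by simp only [List.length_cons]; omega),
        mul_zero]

end Congr

end Series.Ser

end Vale.Agent.P199
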