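import Vale.Agent.P199.AssembleStep
import Vale.Agent.P199.DensityBasic
import Vale.Agent.P199.DivAlgebra
import Vale.Agent.P199.SerHom

/-!
# P199: stages, and the statement from the step lemma
-/

namespace Vale.Agent.P199

open Series

/-- A division algebra inside matrices, with its index type and field. -/
structure Stg where
  n : Type
  [fintypeN : Fintype n]
  [decN : DecidableEq n]
  [nonemptyN : Nonempty n]
  F : Type
  [fieldF : Field F]
  [closedF : IsAlgClosed F]
  [charF : CharZero F]
  A : DivAlg n F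

attribute [instance] Stg.fintypeN Stg.decN Stg.nonemptyN Stg.fieldF Stg.closedF Stg.charF

/-- The complex numbers as a stage. -/
noncomputable def complexAlg : DivAlg Unit ℂ where
  K := ⊤
  D := ⊤
  scalar_mem _ _ := trivial
  b _ := 1
  b_mem _ := trivial
  b_indep := by
    rw [Fintype.linearIndependent_iff]
    intro g hg i
    have := congrFun (congrFun hg ()) ()
    simpa [Subsingleton.elim i default, Matrix.sum_apply, Fintype.sum_prod_type] using this
  exists_coord x _ := ⟨fun _ => x () (), fun _ => trivial, by ext i j; simp⟩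
  no_zero_div x _ y _ h := by
    have h' := congrFun (congrFun h ()) ()
    simp only [Matrix.mul_apply, Finset.univ_unique, Finset.sum_singleton,
      Matrix.zero_apply] at h'
    rcases mul_eq_zero.mp h' with e | e
    · exact Or.inl (by ext i j; exact e)
    · exact Or.inr (by ext i j; exact e)
  roots q hq :=
    have : NeZero q := ⟨hq⟩
    ⟨_, trivial, Complex.isPrimitiveRoot_exp q hq⟩

/-- The step lemma, as a property. -/
def StepLemma : Prop :=
  ∀ (s : Stg) (a : Ser s.A.D (Fin 2)), ¬ IsAlgebraic s.A.K a →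
    ∃ (s' : Stg) (g : s.A.K →+* s'.A.K) (φ : Ser s.A.D (Fin 2) →+* Ser s'.A.D (Fin 2)),
      (∀ c, φ (algebraMap s.A.K (Ser s.A.D (Fin 2)) c) =
        algebraMap s'.A.K (Ser s'.A.D (Fin 2)) (g c)) ∧
      IsAlgebraic s'.A.K (φ a) ∧
      ∀ P : Subalgebra s.A.K (Ser s.A.D (Fin 2)), DensityBasic.Dense (P : Set (Ser s.A.D (Fin 2))) →
        DensityBasic.Dense (Algebra.adjoin s'.A.K (φ '' (P : Set (Ser s.A.D (Fin 2)))) :
          Set (Ser s'.A.D (Fin 2)))

/-- Kurosh's question has a negative answer, given the step lemma. -/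
theorem kurosh_of_stepLemma (h : StepLemma) :
    ∃ (A : Type) (_ : DivisionRing A), Algebra.IsAlgebraic (Subring.center A) A ∧
      ∃ S : Finset A,
        ¬ Module.Finite (Subring.center A) (Algebra.adjoin (Subring.center A) (S : Set A)) := by
  let s₀ : Stg := { n := Unit, F := ℂ, A := complexAlg }
  refine Assemble.kurosh_of_abstract_step (St := Stg) (fun s => s.A.K)
    (fun s => Ser s.A.D (Fin 2)) (fun s P => DensityBasic.Dense (P : Set (Ser s.A.D (Fin 2))))
    (fun s P hP => DensityBasic.not_finite_of_dense P hP) s₀ (Ser.X 0) (Ser.X 1) ?_ h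
  have hC : ∀ c : s₀.A.D, (Ser.C c : Ser s₀.A.D (Fin 2)) ∈
      Algebra.adjoin s₀.A.K {Ser.X (0 : Fin 2), Ser.X 1} := by
    intro c
    have hc : c = algebraMap s₀.A.K s₀.A.D ⟨(c : Matrix Unit Unit ℂ) () (), trivial⟩ := by
      apply Subtype.ext
      ext i j
      show _ = Matrix.scalar Unit ((c : Matrix Unit Unit ℂ) () ()) i j
      rw [Subsingleton.elim i (), Subsingleton.elim j (), Matrix.scalar_apply,
        Matrix.diagonal_apply_eq]
    rw [hc, ← DensityBasic.algebraMap_eq']
    exact Subalgebra.algebraMap_mem _ _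
  refine DensityBasic.dense_of_gen
    (Algebra.adjoin s₀.A.K {Ser.X (0 : Fin 2), Ser.X 1}).toSubring hC fun i => ?_
  fin_cases i
  · exact Algebra.subset_adjoin (Or.inl rfl)
  · exact Algebra.subset_adjoin (Or.inr rfl)

end Vale.Agent.P199
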