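import Vale.Agent.P199.Basic

/-!
Second-order expansion of substitution under a small change of the substituted series.
-/

namespace Vale.Agent.P199.Solve

open Finset Series

variable {A : Type*} [Ring A] {ι κ : Type*}

/-- The product as a sum over cuts of the word. -/
lemma coeff_mul_sum (a b : Ser A κ) (W : List κ) :
    (a * b).coeff W = ∑ i ∈ range (W.length + 1), a.coeff (W.take i) * b.coeff (W.drop i) := by
  induction W generalizing a with
  | nil => simp
  | cons x W ih =>
    rw [Ser.coeff_mul_cons, ih, List.length_cons,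
      sum_range_succ' _ (W.length + 1), add_comm]
    simp

lemma lv_mono {a : Ser A κ} {p q : ℕ} (h : Ser.LowVanish p a) (hq : q ≤ p) : Ser.LowVanish q a :=
  fun w hw => h w (hw.trans_le hq)

lemma lv_mul {a b : Ser A κ} {p q : ℕ} (ha : Ser.LowVanish p a) (hb : Ser.LowVanish q b) :
    Ser.LowVanish (p + q) (a * b) := by
  intro W hW
  rw [coeff_mul_sum]
  refine sum_eq_zero fun i hi => ?_
  rw [mem_range] at hi
  by_cases hip : i < p
  · rw [ha _ (by rw [List.length_take]; omega), zero_mul]
  · rw [hb _ (by rw [List.length_drop]; omega), mul_zero]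

lemma lv_add {a b : Ser A κ} {p : ℕ} (ha : Ser.LowVanish p a) (hb : Ser.LowVanish p b) :
    Ser.LowVanish p (a + b) := fun w hw => by rw [Ser.coeff_add, ha w hw, hb w hw, add_zero]

lemma lv_one_iff {a : Ser A κ} : Ser.LowVanish 1 a ↔ a.coeff [] = 0 := by
  refine ⟨fun h => h [] (by simp), fun h w hw => ?_⟩
  obtain rfl : w = [] := List.eq_nil_of_length_eq_zero (by omega)
  exact h

lemma lv_prod (h : ι → Ser A κ) (h0 : ∀ i, (h i).coeff [] = 0) (w : List ι) :
    Ser.LowVanish w.length (w.map h).prod := by
  induction w with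
  | nil => exact fun W hW => absurd hW (Nat.not_lt_zero _)
  | cons i w ih =>
    rw [List.map_cons, List.prod_cons, List.length_cons, add_comm]
    exact lv_mul (lv_one_iff.2 (h0 i)) ih

/-- Changing the series in degrees at least `D` changes a word of `k` letters in degrees at least
`D + k - 1`. -/
lemma lv_prod_sub (h δ : ι → Ser A κ) (h0 : ∀ i, (h i).coeff [] = 0) {D : ℕ} (hD : 1 ≤ D)
    (hδ : ∀ i, Ser.LowVanish D (δ i)) (w : List ι) (hw : w ≠ []) :
    Ser.LowVanish (D + w.length - 1) ((w.map (h + δ)).prod - (w.map h).prod) := by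
  induction w with
  | nil => exact absurd rfl hw
  | cons i w ih =>
    have e : ((i :: w).map (h + δ)).prod - ((i :: w).map h).prod =
        δ i * (w.map (h + δ)).prod + h i * ((w.map (h + δ)).prod - (w.map h).prod) := by
      simp only [List.map_cons, List.prod_cons, Pi.add_apply, add_mul, mul_sub]
      abel
    have h0' : ∀ j, ((h + δ) j).coeff [] = 0 := fun j => by
      rw [Pi.add_apply, Ser.coeff_add, h0, lv_one_iff.1 (lv_mono (hδ j) hD), add_zero]
    rw [e, List.length_cons]
    refine lv_add (lv_mono (lv_mul (hδ i) (lv_prod _ h0' w)) (by omega)) ?_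
    rcases eq_or_ne w [] with rfl | hne
    · simp only [List.map_nil, List.prod_nil, sub_self, mul_zero]
      exact fun W _ => rfl
    · have := List.length_pos_of_ne_nil hne
      exact lv_mono (lv_mul (lv_one_iff.2 (h0 i)) (ih hne)) (by omega)

lemma coeff_mul_take_one {a b : Ser A κ} (ha : a.coeff [] = 0) {D : ℕ}
    (hb : Ser.LowVanish D b) {W : List κ} (hW : W.length ≤ D + 1) :
    (a * b).coeff W = a.coeff (W.take 1) * b.coeff (W.drop 1) := by
  rw [coeff_mul_sum]
  refine sum_eq_single 1 (fun i hi hi1 => ?_) fun h => ?_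
  · rw [mem_range] at hi
    rcases Nat.eq_zero_or_pos i with rfl | hpos
    · simp [ha]
    · rw [hb _ (by rw [List.length_drop]; omega), mul_zero]
  · obtain rfl : W = [] := List.eq_nil_of_length_eq_zero (by simpa [mem_range] using h)
    simp [ha]

lemma coeff_mul_drop_last {a b : Ser A κ} (hb : b.coeff [] = 0) {D : ℕ}
    (ha : Ser.LowVanish D a) {W : List κ} (hW : W.length ≤ D + 1) :
    (a * b).coeff W = a.coeff (W.take (W.length - 1)) * b.coeff (W.drop (W.length - 1)) := by
  rw [coeff_mul_sum]
  refine sum_eq_single (W.length - 1) (fun i hi hi1 => ?_) fun h => ?_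
  · rw [mem_range] at hi
    by_cases hl : i = W.length
    · simp [hl, hb]
    · rw [ha _ (by rw [List.length_take]; omega), zero_mul]
  · simp [mem_range] at h

section Field

variable {F : Type*} [Field F] [Fintype ι] [DecidableEq ι]

/-- The coefficient vector of a tuple of series at a word. -/
def vec (h : ι → Ser F κ) (W : List κ) : ι → F := fun i => (h i).coeff W

/-- The linear part of a series as a form. -/
def lin (y : Ser F ι) : (ι → F) →ₗ[F] F := ∑ i, y.coeff [i] • LinearMap.proj i

/-- The quadratic part of a series as a bilinear form. -/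
def quad (y : Ser F ι) : (ι → F) →ₗ[F] (ι → F) →ₗ[F] F :=
  LinearMap.mk₂ F (fun u v => ∑ i, ∑ j, y.coeff [i, j] * (u i * v j))
    (fun u u' v => by simp [mul_add, add_mul, sum_add_distrib])
    (fun c u v => by simp [mul_sum, mul_assoc, mul_left_comm])
    (fun u v v' => by simp [mul_add, sum_add_distrib])
    (fun c u v => by simp [mul_sum, mul_assoc, mul_left_comm])

lemma lin_apply (y : Ser F ι) (v : ι → F) : lin y v = ∑ i, y.coeff [i] * v i := by
  simp [lin]

lemma quad_apply (y : Ser F ι) (u v : ι → F) :
    quad y u v = ∑ i, ∑ j, y.coeff [i, j] * (u i * v j) := rfl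

lemma mem_words {k : ℕ} {w : List ι} : w ∈ words ι k ↔ w.length = k := by
  simp only [words, mem_image, mem_univ, true_and]
  refine ⟨by rintro ⟨f, rfl⟩; simp, fun h => ?_⟩
  subst h
  exact ⟨w.get, List.ofFn_get w⟩

lemma sum_words_one {M : Type*} [AddCommMonoid M] (g : List ι → M) :
    ∑ w ∈ words ι 1, g w = ∑ i, g [i] := by
  rw [words, sum_image (fun a _ b _ h => List.ofFn_injective h)]
  exact Fintype.sum_equiv (Equiv.funUnique (Fin 1) ι) _ _ fun f => by
    simp [List.ofFn_succ]

lemma sum_words_two {M : Type*} [AddCommMonoid M] (g : List ι → M) :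
    ∑ w ∈ words ι 2, g w = ∑ i, ∑ j, g [i, j] := by
  rw [words, sum_image (fun a _ b _ h => List.ofFn_injective h), ← Fintype.sum_prod_type']
  exact Fintype.sum_equiv (finTwoArrowEquiv ι) _ _ fun f => by
    simp [List.ofFn_succ]

lemma substS_coeff (h : ι → Ser F κ) (y : Ser F ι) (W : List κ) :
    (substS h y).coeff W =
      ∑ k ∈ range (W.length + 1), ∑ w ∈ words ι k, y.coeff w * ((w.map h).prod).coeff W := rfl

lemma substS_coeff_one (h : ι → Ser F κ) (y : Ser F ι) (hy : y.coeff [] = 0) (a : κ) :
    (substS h y).coeff [a] = lin y (vec h [a]) := by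
  rw [substS_coeff, sum_eq_single 1]
  · rw [sum_words_one, lin_apply]
    simp [vec]
  · intro k hk hk1
    rw [mem_range, List.length_singleton] at hk
    obtain rfl : k = 0 := by omega
    refine sum_eq_zero fun w hw => ?_
    obtain rfl := List.eq_nil_of_length_eq_zero (mem_words.1 hw)
    rw [hy, zero_mul]
  · simp

lemma substS_coeff_two (h : ι → Ser F κ) (h0 : ∀ i, (h i).coeff [] = 0) (y : Ser F ι)
    (hy : y.coeff [] = 0) (a b : κ) :
    (substS h y).coeff [a, b] = lin y (vec h [a, b]) + quad y (vec h [a]) (vec h [b]) := by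
  rw [substS_coeff, show [a, b].length + 1 = 3 from rfl, sum_range_succ, sum_range_succ,
    sum_range_succ, sum_range_zero, zero_add]
  have hz : ∑ w ∈ words ι 0, y.coeff w * ((w.map h).prod).coeff [a, b] = 0 := by
    refine sum_eq_zero fun w hw => ?_
    obtain rfl := List.eq_nil_of_length_eq_zero (mem_words.1 hw)
    rw [hy, zero_mul]
  rw [hz, zero_add, sum_words_one, sum_words_two, lin_apply, quad_apply]
  congr 1
  · exact sum_congr rfl fun i _ => by simp [vec]
  · refine sum_congr rfl fun i _ => sum_congr rfl fun j _ => ?_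
    congr 1
    simp [vec, coeff_mul_sum, sum_range_succ, h0]

/-- The change of a substitution in degrees at most `D + 1` under a change of degree at least
`D`. -/
theorem substS_change (h δ : ι → Ser F κ) (h0 : ∀ i, (h i).coeff [] = 0) {D : ℕ} (hD : 2 ≤ D)
    (hδ : ∀ i, Ser.LowVanish D (δ i)) (y : Ser F ι) {W : List κ} (hW : W.length ≤ D + 1) :
    (substS (h + δ) y).coeff W = (substS h y).coeff W + lin y (vec δ W) +
      quad y (vec h (W.take 1)) (vec δ (W.drop 1)) +
      quad y (vec δ (W.take (W.length - 1))) (vec h (W.drop (W.length - 1))) := by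
  have hδ0 : ∀ i, (δ i).coeff [] = 0 := fun i => lv_one_iff.1 (lv_mono (hδ i) (by omega))
  have hk : ∀ k, k ≠ 1 → k ≠ 2 → ∀ w ∈ words ι k,
      y.coeff w * ((w.map (h + δ)).prod).coeff W = y.coeff w * ((w.map h).prod).coeff W := by
    intro k h1 h2 w hw
    have hl := mem_words.1 hw
    rcases eq_or_ne w [] with rfl | hne
    · simp
    · have hlp := List.length_pos_of_ne_nil hne
      have h4 := lv_prod_sub h δ h0 (by omega) hδ w hne W (by omega)
      rw [Ser.coeff_sub, sub_eq_zero] at h4
      rw [h4]
  have main : ∀ n, W.length ≤ n →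
      ∀ g : ι → Ser F κ, (∀ i, (g i).coeff [] = 0) → (substS g y).coeff W =
        ∑ k ∈ range (n + 3), ∑ w ∈ words ι k, y.coeff w * ((w.map g).prod).coeff W := by
    intro n hn g hg
    rw [substS_coeff]
    refine sum_subset (range_mono (by omega)) fun k _ hk' => sum_eq_zero fun w hw => ?_
    rw [mem_range] at hk'
    rw [lv_prod g hg w W (by have := mem_words.1 hw; omega), mul_zero]
  have h0' : ∀ i, ((h + δ) i).coeff [] = 0 := fun i => by
    rw [Pi.add_apply, Ser.coeff_add, h0, hδ0, add_zero]
  rw [main W.length le_rfl (h + δ) h0', main W.length le_rfl h h0]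
  have hsplit : ∀ g : ι → Ser F κ,
      ∑ k ∈ range (W.length + 3), ∑ w ∈ words ι k, y.coeff w * ((w.map g).prod).coeff W =
      (∑ w ∈ words ι 1, y.coeff w * ((w.map g).prod).coeff W) +
      (∑ w ∈ words ι 2, y.coeff w * ((w.map g).prod).coeff W) +
      ∑ k ∈ ((range (W.length + 3)).erase 1).erase 2,
        ∑ w ∈ words ι k, y.coeff w * ((w.map g).prod).coeff W := by
    intro g
    rw [add_assoc, ← add_sum_erase (range (W.length + 3)) _ (mem_range.2 (by omega) : 1 ∈ _),
      ← add_sum_erase ((range (W.length + 3)).erase 1) _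
        (mem_erase.2 ⟨by omega, mem_range.2 (by omega)⟩ : 2 ∈ _)]
  rw [hsplit, hsplit]
  have hrest : ∑ k ∈ ((range (W.length + 3)).erase 1).erase 2,
      ∑ w ∈ words ι k, y.coeff w * ((w.map (h + δ)).prod).coeff W =
      ∑ k ∈ ((range (W.length + 3)).erase 1).erase 2,
        ∑ w ∈ words ι k, y.coeff w * ((w.map h).prod).coeff W :=
    sum_congr rfl fun k hk' => sum_congr rfl
      (hk k (ne_of_mem_erase (mem_of_mem_erase hk')) (ne_of_mem_erase hk'))
  rw [hrest, sum_words_one, sum_words_one, sum_words_two, sum_words_two, lin_apply, quad_apply,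
    quad_apply]
  have hpair : ∀ i j, ((([i, j] : List ι).map (h + δ)).prod).coeff W =
      ((([i, j] : List ι).map h).prod).coeff W +
        vec h (W.take 1) i * vec δ (W.drop 1) j +
        vec δ (W.take (W.length - 1)) i * vec h (W.drop (W.length - 1)) j := by
    intro i j
    simp only [List.map_cons, List.map_nil, List.prod_cons, List.prod_nil, mul_one, Pi.add_apply,
      add_mul, mul_add, Ser.coeff_add]
    rw [coeff_mul_take_one (h0 i) (hδ j) hW, coeff_mul_drop_last (h0 j) (hδ i) hW,
      lv_mul (hδ i) (hδ j) W (by omega)]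
    simp only [vec]
    abel
  simp only [hpair]
  simp only [List.map_cons, List.map_nil, List.prod_cons, List.prod_nil, mul_one,
    Pi.add_apply, Ser.coeff_add, vec, mul_add, sum_add_distrib]
  abel

/-- Coefficients in a subfield are preserved by substitution. -/
lemma substS_mem (K : Subfield F) (h : ι → Ser F κ) (hh : ∀ i W, (h i).coeff W ∈ K)
    (y : Ser F ι) (hy : ∀ w, y.coeff w ∈ K) (W : List κ) : (substS h y).coeff W ∈ K := by
  have hprod : ∀ (w : List ι) (V : List κ), ((w.map h).prod).coeff V ∈ K := by
    intro w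
    induction w with
    | nil =>
      intro V
      rw [List.map_nil, List.prod_nil, Ser.coeff_one]
      cases V
      · exact K.one_mem
      · exact K.zero_mem
    | cons i w ih =>
      intro V
      rw [List.map_cons, List.prod_cons, coeff_mul_sum]
      exact sum_mem fun k _ => K.mul_mem (hh i _) (ih _)
  rw [substS_coeff]
  exact sum_mem fun k _ => sum_mem fun w _ => K.mul_mem (hy w) (hprod w W)

end Field

end Vale.Agent.P199.Solve
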