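import Vale.Agent.P199.DescFinishAux
import Vale.Agent.P199.DescSpan
import Vale.Agent.P199.Final
import Vale.Agent.P199.SolveAux

/-!
# P199: a step from a descendant killed by a rational substitution
-/

open Finset Module

noncomputable section

namespace Vale.Agent.P199

open Series

namespace Finish

variable (s : Stg) (T : Frame) {a₀ : Ser (Matrix s.n s.n s.F) (Fin 2)}
  (d : Desc s.A a₀ T.alg T.ser) (h : T.ι → Ser T.F (Fin 2))
  (hK : ∀ i W, (h i).coeff W ∈ T.alg.K) (h0 : ∀ i, (h i).coeff [] = 0)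

/-- The new stage. -/
abbrev stg : Stg := { n := T.β × T.ρ, F := T.F, A := T.alg }

/-- The substitution. -/
abbrev vv (i : T.ι) : Ser (Matrix (T.β × T.ρ) (T.β × T.ρ) T.F) (Fin 2) :=
  Ser.map (Matrix.scalar (T.β × T.ρ)) (h i)

include h0 in
theorem vv_nil (i : T.ι) : (vv T h i).coeff [] = 0 := by simp [h0]

theorem vv_comm (x : Matrix (T.β × T.ρ) (T.β × T.ρ) T.F) (i : T.ι) (u : List (Fin 2)) :
    Commute (RingHom.id _ x) ((vv T h i).coeff u) :=
  (Matrix.scalar_commute _ (fun _ => Commute.all _ _) x).symm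

include hK in
theorem vv_mem (i : T.ι) : vv T h i ∈ Ser.coeffIn T.alg.D :=
  Ser.mem_coeffIn.2 fun u => by
    rw [Ser.coeff_map]
    exact T.alg.scalar_mem _ (hK i u)

/-- Substitution into series over the matrices. -/
def psi : Ser (Matrix (T.β × T.ρ) (T.β × T.ρ) T.F) T.ι →+*
    Ser (Matrix (T.β × T.ρ) (T.β × T.ρ) T.F) (Fin 2) :=
  Ser.substHom (RingHom.id _) (vv_nil T h h0) fun x i u => vv_comm T h x i u

include hK in
theorem psi_mem {f : Ser (Matrix (T.β × T.ρ) (T.β × T.ρ) T.F) T.ι}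
    (hf : ∀ w, f.coeff w ∈ T.alg.D) (w : List (Fin 2)) : (psi T h h0 f).coeff w ∈ T.alg.D :=
  Ser.mem_coeffIn.1 (Ser.subst_coeff_mem (RingHom.id _) hf (vv_mem T h hK)) w

/-- The new homomorphism. -/
def phi : Ser s.A.D (Fin 2) →+* Ser T.alg.D (Fin 2) :=
  liftHom T.alg ((psi T h h0).comp (d.Φ.comp s.A.serIncl)) fun x w =>
    psi_mem T h hK h0 (d.Φ_mem _ fun u => (x.coeff u).2) w

theorem incl_phi (f : Ser s.A.D (Fin 2)) :
    T.alg.serIncl (phi s T d h hK h0 f) = psi T h h0 (d.Φ (s.A.serIncl f)) :=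
  serIncl_liftHom _ _ _ f

theorem incl_phi_C (x : s.A.D) : T.alg.serIncl (phi s T d h hK h0 (Ser.C x)) =
    Ser.C (embConst d.j d.e d.U (x : Matrix s.n s.n s.F)) := by
  rw [incl_phi, show s.A.serIncl (Ser.C x) = Ser.C (x : Matrix s.n s.n s.F) from Ser.map_C _ x,
    d.Φ_C]
  exact Ser.subst_C _ _

theorem psi_smul (c : T.alg.K) (g : Ser (Matrix (T.β × T.ρ) (T.β × T.ρ) T.F) T.ι) :
    psi T h h0 (c • g) = c • psi T h h0 g := by
  rw [show c • g = Ser.C (algebraMap T.alg.K (Matrix (T.β × T.ρ) (T.β × T.ρ) T.F) c) * g from rfl,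
    map_mul]
  show Vale.Agent.P199.subst _ _ (Ser.C _) * _ = _
  rw [Ser.subst_C]
  rfl

/-- The restriction of the embedding of fields. -/
def g : s.A.K →+* T.alg.K := (d.j.comp s.A.K.subtype).codRestrict T.alg.K fun x => d.j_mem x x.2

theorem phi_algebraMap (c : s.A.K) :
    phi s T d h hK h0 (algebraMap s.A.K (Ser s.A.D (Fin 2)) c) =
      algebraMap T.alg.K (Ser T.alg.D (Fin 2)) (g s T d c) := by
  apply T.alg.serIncl_injective
  rw [DensityBasic.algebraMap_eq', DensityBasic.algebraMap_eq', incl_phi_C]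
  show Ser.C (embConst d.j d.e d.U (Matrix.scalar s.n (c : s.F))) = _
  rw [embConst_scalar]
  refine Eq.trans ?_ (Ser.map_C T.alg.D.subtype _).symm
  rfl

include hK in
theorem algebraic (hkill : ∀ r, substM h (T.X r) = 0) (a : Ser s.A.D (Fin 2))
    (ha : s.A.serIncl a = a₀) : IsAlgebraic T.alg.K (phi s T d h hK h0 a) := by
  obtain ⟨G, hG, hG', hGe⟩ := d.conj
  let θ : T.alg.D := ⟨_, T.root_mem⟩
  have hsub : psi T h h0 T.ser = Ser.C (θ : Matrix (T.β × T.ρ) (T.β × T.ρ) T.F) := by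
    show psi T h h0 (Ser.C _ + _) = _
    rw [map_add]
    show Vale.Agent.P199.subst (RingHom.id _) (vv T h) (Ser.C _) +
      Vale.Agent.P199.subst (RingHom.id _) (vv T h) _ = _
    rw [Ser.subst_C, subst_blockDiagonal_eq_zero h T.X hkill, add_zero]
    rfl
  let u : Ser T.alg.D (Fin 2) := ⟨fun w => ⟨_, psi_mem T h hK h0 hG w⟩⟩
  let u' : Ser T.alg.D (Fin 2) := ⟨fun w => ⟨_, psi_mem T h hK h0 hG' w⟩⟩
  have hu : T.alg.serIncl u = psi T h h0 G := serIncl_mk _ _ _
  have hu' : T.alg.serIncl u' = psi T h h0 (↑G⁻¹) := serIncl_mk _ _ _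
  have huu : u * u' = 1 := T.alg.serIncl_injective (by
    rw [map_mul, hu, hu', ← map_mul, Units.mul_inv, map_one, map_one])
  have hu'u : u' * u = 1 := T.alg.serIncl_injective (by
    rw [map_mul, hu, hu', ← map_mul, Units.inv_mul, map_one, map_one])
  let χ : T.alg.D →ₐ[T.alg.K] Ser T.alg.D (Fin 2) :=
    { toFun := fun x => u' * Ser.C x * u
      map_one' := by rw [map_one, mul_one, hu'u]
      map_mul' := fun x y => by
        rw [show u' * Ser.C x * u * (u' * Ser.C y * u) = u' * Ser.C x * (u * u') * Ser.C y * u by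
          simp only [mul_assoc], huu, mul_one, map_mul]
        simp only [mul_assoc]
      map_zero' := by simp
      map_add' := fun x y => by rw [map_add, mul_add, add_mul]
      commutes' := fun r => by
        rw [← DensityBasic.algebraMap_eq', ← Algebra.commutes, mul_assoc, hu'u, mul_one] }
  have e : phi s T d h hK h0 a = χ θ := by
    apply T.alg.serIncl_injective
    show _ = T.alg.serIncl (u' * Ser.C θ * u)
    have gen : ∀ x y : Ser (Matrix (T.β × T.ρ) (T.β × T.ρ) T.F) T.ι,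
        x = (G : Ser (Matrix (T.β × T.ρ) (T.β × T.ρ) T.F) T.ι) * y * ↑G⁻¹ →
          y = ↑G⁻¹ * x * ↑G := by
      rintro _ y rfl
      simp [mul_assoc]
    rw [incl_phi, ha, map_mul, map_mul, hu, hu',
      show T.alg.serIncl (Ser.C θ) = Ser.C (θ : Matrix (T.β × T.ρ) (T.β × T.ρ) T.F) from
        Ser.map_C _ θ, ← hsub, ← map_mul, ← map_mul, ← gen _ _ hGe]
  rw [e]
  exact (IsAlgebraic.of_finite T.alg.K θ).algHom χ

variable (hG : ∀ c c' : T.F, c • Solve.vec h [0] + c' • Solve.vec h [1] ∈ d.gSpace → c = 0 ∧ c' = 0)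

/-- The generators: constants and constant parts of the images of the variables. -/
def gens : (s.n × s.n) ⊕ Fin 2 → T.alg.D :=
  Sum.elim (fun x => (phi s T d h hK h0 (Ser.C ⟨s.A.b x, s.A.b_mem x⟩)).coeff [])
    fun i => (phi s T d h hK h0 (Ser.X i)).coeff []

theorem incl_gens (x : (s.n × s.n) ⊕ Fin 2) :
    ((gens s T d h hK h0 x : T.alg.D) : Matrix (T.β × T.ρ) (T.β × T.ρ) T.F) =
      Sum.elim (fun x => embConst d.j d.e d.U (s.A.b x)) d.σ x := by
  rcases x with x | i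
  · show (T.alg.serIncl (phi s T d h hK h0 _)).coeff [] = _
    rw [incl_phi_C, Ser.coeff_C_nil]
    rfl
  · show (T.alg.serIncl (phi s T d h hK h0 (Ser.X i))).coeff [] = d.σ i
    rw [incl_phi, show s.A.serIncl (Ser.X i) = Ser.X i from Ser.map_X _ i, d.Φ_X]
    rw [map_add, map_sum, Ser.coeff_add, Ser.coeff_sum]
    show (Vale.Agent.P199.subst (RingHom.id _) (vv T h) (Ser.C _)).coeff [] + _ = _
    rw [Ser.subst_C, Ser.coeff_C_nil, sum_eq_zero fun l _ => ?_, add_zero]
    · rfl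
    rw [map_mul]
    show (_ * Vale.Agent.P199.subst (RingHom.id _) (vv T h) (Ser.X _)).coeff [] = _
    rw [Ser.subst_X _ (vv_nil T h h0), Ser.coeff_mul_nil, vv_nil T h h0, mul_zero]

theorem gens_adjoin (hGen : d.Gen) :
    Algebra.adjoin T.alg.K (Set.range (gens s T d h hK h0)) = ⊤ := by
  set B := Algebra.adjoin T.alg.K (Set.range (gens s T d h hK h0))
  refine Subalgebra.toSubmodule_injective ?_
  rw [Algebra.top_toSubmodule]
  refine eq_top_of_span_image T.alg _ ?_
  rw [eq_top_iff, ← Algebra.top_toSubmodule, ← d.adjoin_consts_eq_top hGen,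
    Algebra.adjoin_eq_span]
  refine Submodule.span_mono ?_
  have hle : Submonoid.closure (Set.range
      (Sum.elim (fun x => embConst d.j d.e d.U (s.A.b x)) d.σ)) ≤
      B.toSubring.toSubmonoid.map T.alg.D.subtype.toMonoidHom := by
    refine Submonoid.closure_le.2 ?_
    rintro _ ⟨x, rfl⟩
    exact ⟨_, Algebra.subset_adjoin ⟨x, rfl⟩, incl_gens s T d h hK h0 x⟩
  exact hle

theorem coeff_phi_X (i : Fin 2) (j : Fin 2) :
    ((phi s T d h hK h0 (Ser.X i)).coeff [j] : Matrix (T.β × T.ρ) (T.β × T.ρ) T.F) =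
      d.velocity (Solve.vec h [j]) i := by
  show (T.alg.serIncl (phi s T d h hK h0 (Ser.X i))).coeff [j] = _
  rw [incl_phi, show s.A.serIncl (Ser.X i) = Ser.X i from Ser.map_X _ i, d.Φ_X, map_add, map_sum,
    Desc.velocity_apply, Ser.coeff_add, Ser.coeff_sum]
  show (Vale.Agent.P199.subst (RingHom.id _) (vv T h) (Ser.C _)).coeff [j] + _ = _
  rw [Ser.subst_C, Ser.coeff_C_cons, zero_add]
  refine sum_congr rfl fun l _ => ?_
  rw [map_mul]
  show (Vale.Agent.P199.subst (RingHom.id _) (vv T h) (Ser.C _) *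
    Vale.Agent.P199.subst (RingHom.id _) (vv T h) (Ser.X _)).coeff [j] = _
  rw [Ser.subst_C, Ser.subst_X _ (vv_nil T h h0), Ser.coeff_C_mul, Ser.coeff_map]
  show d.b l * Matrix.scalar _ _ = _
  rw [← (Matrix.scalar_commute _ (fun r => Commute.all _ _) (d.b l)).eq, Matrix.scalar_apply,
    ← Matrix.smul_eq_diagonal_mul]
  rfl

include hG in
theorem dense_image (hGen : d.Gen) : DensityBasic.Dense
    (Algebra.adjoin T.alg.K (Set.range (phi s T d h hK h0)) : Set (Ser T.alg.D (Fin 2))) := by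
  refine DensityBasic.dense_of_deform (fun z hz => T.alg.central z hz) (gens s T d h hK h0)
    (Sum.elim (fun x j => (phi s T d h hK h0 (Ser.C ⟨s.A.b x, s.A.b_mem x⟩)).coeff [j])
      fun i j => (phi s T d h hK h0 (Ser.X i)).coeff [j])
    (gens_adjoin s T d h hK h0 hGen) ?_ _
    (Sum.elim (fun x => phi s T d h hK h0 (Ser.C ⟨s.A.b x, s.A.b_mem x⟩))
      fun i => phi s T d h hK h0 (Ser.X i))
    (fun x => Algebra.subset_adjoin (by rcases x with x | i <;> exact ⟨_, rfl⟩))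
    (fun x => by rcases x with x | i <;> rfl) (fun x j => by rcases x with x | i <;> rfl)
  intro lam w hw
  have hV0 : ∀ x j, ((phi s T d h hK h0 (Ser.C ⟨s.A.b x, s.A.b_mem x⟩)).coeff [j] : T.alg.D) =
      0 := fun x j => Subtype.ext (by
    show (T.alg.serIncl (phi s T d h hK h0 (Ser.C ⟨s.A.b x, s.A.b_mem x⟩))).coeff [j] = _
    rw [incl_phi_C, Ser.coeff_C_cons]
    rfl)
  have hcomm : ∀ x, Commute (embConst d.j d.e d.U (s.A.b x))
      (w : Matrix (T.β × T.ρ) (T.β × T.ρ) T.F) := by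
    intro x
    have h1 := hw (Sum.inl x)
    simp only [Sum.elim_inl, hV0, smul_zero, sum_const_zero] at h1
    have h2 := congrArg Subtype.val (sub_eq_zero.1 h1.symm)
    rw [Subring.coe_mul, Subring.coe_mul, incl_gens] at h2
    exact h2
  obtain ⟨N, hN⟩ := exists_embCent_of_commute d.j d.e d.U s.A.b s.A.span_b hcomm
  obtain ⟨u, hu⟩ := mem_span_of_card d.e d.U d.b d.b_indep d.b_cent d.card_Q N
  have hwu := hN.trans hu
  have hin : (lam 0 : T.F) • Solve.vec h [0] + (lam 1 : T.F) • Solve.vec h [1] ∈ d.gSpace := by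
    refine (d.mem_gSpace _).2 ⟨u, funext fun i => ?_⟩
    have h1 := congrArg Subtype.val (hw (Sum.inr i))
    simp only [Fin.sum_univ_two, Sum.elim_inr, Subring.coe_add, DivAlg.coe_smul,
      AddSubgroupClass.coe_sub, Subring.coe_mul, coeff_phi_X, incl_gens] at h1
    rw [d.inner_apply, ← hwu, map_add, map_smul, map_smul]
    exact h1.symm
  obtain ⟨e0, e1⟩ := hG _ _ hin
  funext j
  fin_cases j
  · exact Subtype.ext e0
  · exact Subtype.ext e1

include hG in
theorem dense_step (hGen : d.Gen) (P : Subalgebra s.A.K (Ser s.A.D (Fin 2)))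
    (hP : DensityBasic.Dense (P : Set (Ser s.A.D (Fin 2)))) :
    DensityBasic.Dense (Algebra.adjoin T.alg.K
      (phi s T d h hK h0 '' (P : Set (Ser s.A.D (Fin 2)))) : Set (Ser T.alg.D (Fin 2))) := by
  set Q := Algebra.adjoin T.alg.K (phi s T d h hK h0 '' (P : Set (Ser s.A.D (Fin 2))))
  let P₀ : Set (Ser (Matrix s.n s.n s.F) (Fin 2)) := s.A.serIncl '' (P : Set _)
  have hP₀ : ∀ p ∈ P₀, ∀ w, p.coeff w ∈ s.A.D := by
    rintro _ ⟨p, -, rfl⟩ w
    exact (p.coeff w).2
  have hdense : ∀ k f, (∀ w, f.coeff w ∈ s.A.D) → ∃ p ∈ P₀, Ser.LowVanish k (p - f) := by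
    intro k f hf
    obtain ⟨p, hp, hpf⟩ := hP k ⟨fun w => ⟨f.coeff w, hf w⟩⟩
    refine ⟨_, ⟨p, hp, rfl⟩, fun w hw => ?_⟩
    exact congrArg Subtype.val (hpf w hw)
  have hlift : ∀ x ∈ Submodule.span T.alg.K (d.Φ '' P₀), ∃ q ∈ Q,
      T.alg.serIncl q = psi T h h0 x := by
    intro x hx
    induction hx using Submodule.span_induction with
    | mem x hx =>
      obtain ⟨_, ⟨p, hp, rfl⟩, rfl⟩ := hx
      exact ⟨_, Algebra.subset_adjoin ⟨p, hp, rfl⟩, incl_phi s T d h hK h0 p⟩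
    | zero => exact ⟨0, Q.zero_mem, by rw [map_zero, map_zero]⟩
    | add x y _ _ hx hy =>
      obtain ⟨q, hq, e⟩ := hx
      obtain ⟨r, hr, e'⟩ := hy
      exact ⟨q + r, Q.add_mem hq hr, by rw [map_add, map_add, e, e']⟩
    | smul c x _ hx =>
      obtain ⟨q, hq, e⟩ := hx
      exact ⟨c • q, Q.smul_mem hq c, by rw [T.alg.serIncl_smul, psi_smul, e]⟩
  intro k
  have hle : (Algebra.adjoin T.alg.K (Set.range (phi s T d h hK h0))).toSubring ≤
      DensityBasic.closureUpTo Q.toSubring k := by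
    rw [Algebra.adjoin_eq_ring_closure, Subring.closure_le]
    rintro z (⟨c, rfl⟩ | ⟨f, rfl⟩)
    · exact ⟨_, Q.algebraMap_mem c, fun w _ => by simp⟩
    · obtain ⟨x, hx, hxf⟩ := d.approx P₀ hP₀ hdense k (s.A.serIncl f) fun w => (f.coeff w).2
      obtain ⟨q, hq, e⟩ := hlift x hx
      refine ⟨q, hq, fun w hw => Subtype.ext ?_⟩
      have h1 : Ser.LowVanish k (psi T h h0 (x - d.Φ (s.A.serIncl f))) :=
        hxf.subst (RingHom.id _) (vv_nil T h h0)
      rw [map_sub, ← e, ← incl_phi s T d h hK h0] at h1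
      exact h1 w hw
  intro f
  obtain ⟨z, hz, hzf⟩ := dense_image s T d h hK h0 hG hGen k f
  obtain ⟨q, hq, hqz⟩ := hle hz
  exact ⟨q, hq, fun w hw => by
    rw [Ser.coeff_sub, DensityBasic.eq_of_sub_lowVanish hqz w hw,
      DensityBasic.eq_of_sub_lowVanish hzf w hw, sub_self]⟩

end Finish

/-- A frame descending from `a`, all of whose blocks are killed by a rational substitution with
linear part off the small subspace, makes a step. -/
theorem step_of_killed (s : Stg) (a : Ser s.A.D (Fin 2)) (T : Frame)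
    (hT : DescP s.A (Series.Ser.map s.A.D.subtype a) T) (h : T.ι → Ser T.F (Fin 2))
    (hK : ∀ i W, (h i).coeff W ∈ T.alg.K) (h0 : ∀ i, (h i).coeff [] = 0)
    (hG : ∀ c d : T.F, c • Solve.vec h [0] + d • Solve.vec h [1] ∈ descG T hT → c = 0 ∧ d = 0)
    (hkill : ∀ r, substM h (T.X r) = 0) :
    ∃ (s' : Stg) (g : s.A.K →+* s'.A.K) (φ : Ser s.A.D (Fin 2) →+* Ser s'.A.D (Fin 2)),
      (∀ c, φ (algebraMap s.A.K (Ser s.A.D (Fin 2)) c) =
        algebraMap s'.A.K (Ser s'.A.D (Fin 2)) (g c)) ∧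
      IsAlgebraic s'.A.K (φ a) ∧
      ∀ P : Subalgebra s.A.K (Ser s.A.D (Fin 2)), DensityBasic.Dense (P : Set (Ser s.A.D (Fin 2))) →
        DensityBasic.Dense (Algebra.adjoin s'.A.K (φ '' (P : Set (Ser s.A.D (Fin 2)))) :
          Set (Ser s'.A.D (Fin 2))) :=
  ⟨Finish.stg T, Finish.g s T hT.choose, Finish.phi s T hT.choose h hK h0,
    Finish.phi_algebraMap s T hT.choose h hK h0,
    Finish.algebraic s T hT.choose h hK h0 hkill a rfl,
    Finish.dense_step s T hT.choose h hK h0 hG hT.choose_spec⟩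

end Vale.Agent.P199
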