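import Vale.Agent.P199.DescFrame
import Vale.Agent.P199.SerHom
import Vale.Agent.P199.DivAlgebra
import Vale.Agent.P199.Inflate

/-!
# P199: lemmas for finishing a step from a descendant

Centraliser of the embedded constants, lifting homomorphisms to series over the division algebra,
and substitutions into block diagonal series.
-/

open Finset Module
open scoped Kronecker

noncomputable section

namespace Vale.Agent.P199

open Series

section Lift

variable {n : Type} [Fintype n] [DecidableEq n] {F : Type} [Field F] (A : DivAlg n F)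
  {κ : Type} {R : Type*} [Ring R]

/-- Series over `A.D` inside series over the matrices. -/
def DivAlg.serIncl : Ser A.D κ →+* Ser (Matrix n n F) κ := Ser.map A.D.subtype

theorem DivAlg.serIncl_coeff (x : Ser A.D κ) (w : List κ) :
    (A.serIncl x).coeff w = ((x.coeff w : A.D) : Matrix n n F) := rfl

theorem DivAlg.serIncl_injective : Function.Injective (A.serIncl (κ := κ)) := fun _ _ h =>
  Ser.ext (funext fun w => Subtype.ext (congrArg (fun f => Ser.coeff f w) h))

theorem DivAlg.serIncl_smul (c : A.K) (x : Ser A.D κ) : A.serIncl (c • x) = c • A.serIncl x := by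
  refine Ser.ext (funext fun w => ?_)
  rw [A.coeff_smul, A.serIncl_coeff, A.serIncl_coeff,
    show c • x = Ser.C (algebraMap A.K A.D c) * x from rfl, Ser.coeff_C_mul, Subring.coe_mul]
  show Matrix.scalar n (c : F) * _ = _
  rw [Matrix.scalar_apply, ← Matrix.smul_eq_diagonal_mul]

theorem serIncl_mk (f : Ser (Matrix n n F) κ) (hf : ∀ w, f.coeff w ∈ A.D) :
    A.serIncl (⟨fun w => ⟨f.coeff w, hf w⟩⟩ : Ser A.D κ) = f :=
  Ser.ext (funext fun _ => A.serIncl_coeff _ _)

/-- A homomorphism into series with coefficients in `A.D`, as one into series over `A.D`. -/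
def liftHom (χ : R →+* Ser (Matrix n n F) κ) (hχ : ∀ x w, (χ x).coeff w ∈ A.D) :
    R →+* Ser A.D κ where
  toFun x := ⟨fun w => ⟨(χ x).coeff w, hχ x w⟩⟩
  map_one' := A.serIncl_injective <|
    (serIncl_mk A _ _).trans ((map_one χ).trans (map_one A.serIncl).symm)
  map_mul' x y := A.serIncl_injective <| (serIncl_mk A _ _).trans ((map_mul χ x y).trans
    ((map_mul A.serIncl _ _).trans
      (congrArg₂ (· * ·) (serIncl_mk A _ _) (serIncl_mk A _ _))).symm)
  map_zero' := A.serIncl_injective <|
    (serIncl_mk A _ _).trans ((map_zero χ).trans (map_zero A.serIncl).symm)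
  map_add' x y := A.serIncl_injective <| (serIncl_mk A _ _).trans ((map_add χ x y).trans
    ((map_add A.serIncl _ _).trans
      (congrArg₂ (· + ·) (serIncl_mk A _ _) (serIncl_mk A _ _))).symm)

theorem serIncl_liftHom (χ : R →+* Ser (Matrix n n F) κ) (hχ : ∀ x w, (χ x).coeff w ∈ A.D)
    (x : R) : A.serIncl (liftHom A χ hχ x) = χ x := serIncl_mk A _ _

/-- A subspace of the algebra whose image spans all matrices is everything. -/
theorem eq_top_of_span_image (B : Submodule A.K A.D)
    (h : Submodule.span F (Subtype.val '' (B : Set A.D)) = ⊤) : B = ⊤ := by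
  let : Module A.K B := B.module
  have : Module.Free A.K B := Module.Free.of_divisionRing A.K B
  let bB := Module.finBasis A.K B
  have hle : (⊤ : Submodule F (Matrix n n F)) ≤
      Submodule.span F (Set.range fun i => ((bB i : A.D) : Matrix n n F)) := by
    rw [← h, Submodule.span_le]
    rintro _ ⟨z, hz, rfl⟩
    have e := congrArg (fun y : B => ((y : A.D) : Matrix n n F)) (bB.sum_repr ⟨z, hz⟩)
    simp only [AddSubmonoidClass.coe_finsetSum, SetLike.val_smul, DivAlg.coe_smul] at e
    rw [SetLike.mem_coe, ← e]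
    exact Submodule.sum_mem _ fun i _ => Submodule.smul_mem _ _ (Submodule.subset_span ⟨i, rfl⟩)
  have h1 := finrank_range_le_card (R := F) (fun i => ((bB i : A.D) : Matrix n n F))
  rw [Set.finrank, eq_top_iff.2 hle, finrank_top, Module.finrank_matrix, finrank_self, mul_one,
    Fintype.card_fin] at h1
  refine Submodule.eq_top_of_finrank_eq (le_antisymm (Submodule.finrank_le _) ?_)
  rw [DivAlg.finrank_D, sq]
  exact h1

theorem embConst_scalar {n₀ k : Type} [Fintype n₀] [DecidableEq n₀] [Fintype k] [DecidableEq k]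
    {F₀ : Type} [Field F₀] (j : F₀ →+* F) (e : n₀ × k ≃ n) (U : (Matrix n n F)ˣ) (c : F₀) :
    embConst j e U (Matrix.scalar n₀ c) = Matrix.scalar n (j c) := by
  rw [embConst_apply]
  have h1 : (Matrix.scalar n₀ c).map j = Matrix.scalar n₀ (j c) := by
    ext a b
    by_cases h : a = b <;> simp [h]
  have h2 : (Matrix.scalar (n₀ × k) (j c)).submatrix e.symm e.symm = Matrix.scalar n (j c) := by
    simp [Matrix.scalar_apply, Matrix.submatrix_diagonal_equiv]
  rw [h1, Translate.scalar_kron_one, h2,
    ← (Matrix.scalar_commute (j c) (fun r => Commute.all _ _) (U : Matrix n n F)).eq,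
    Matrix.mul_assoc, Units.mul_inv, Matrix.mul_one]

end Lift

section Centraliser

variable {n₀ k n : Type} [Fintype n₀] [DecidableEq n₀] [Nonempty n₀] [Fintype k] [DecidableEq k]
  [Fintype n] [DecidableEq n] {F₀ F : Type} [Field F₀] [Field F]

omit [Nonempty n₀] in
theorem kron_single_mul_apply (a b : n₀) (w : Matrix (n₀ × k) (n₀ × k) F) (p : n₀) (x : k)
    (z : n₀ × k) : ((Matrix.single a b (1 : F) ⊗ₖ (1 : Matrix k k F)) * w) (p, x) z =
      if p = a then w (b, x) z else 0 := by
  rw [Matrix.mul_apply, Fintype.sum_eq_single (b, x) fun y hy => ?_]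
  · by_cases h : p = a <;> simp [h, Ne.symm, Matrix.single_apply_of_ne]
  · rcases y with ⟨c, u⟩
    by_cases h1 : b = c
    · subst h1
      have : x ≠ u := fun h => hy (by rw [h])
      simp [Matrix.one_apply_ne this]
    · simp [Matrix.single_apply_of_ne, h1]

omit [Nonempty n₀] in
theorem mul_kron_single_apply (a b : n₀) (w : Matrix (n₀ × k) (n₀ × k) F) (c : n₀) (y : k)
    (z : n₀ × k) : (w * (Matrix.single a b (1 : F) ⊗ₖ (1 : Matrix k k F))) z (c, y) =
      if c = b then w z (a, y) else 0 := by
  rw [Matrix.mul_apply, Fintype.sum_eq_single (a, y) fun v hv => ?_]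
  · by_cases h : c = b <;> simp [h, Ne.symm, Matrix.single_apply_of_ne]
  · rcases v with ⟨p, u⟩
    by_cases h1 : a = p
    · subst h1
      have : u ≠ y := fun h => hv (by rw [h])
      simp [Matrix.one_apply_ne this]
    · simp [Matrix.single_apply_of_ne, h1]

/-- What commutes with all embedded constants is in the embedded complementary factor. -/
theorem exists_embCent_of_commute (j : F₀ →+* F) (e : n₀ × k ≃ n) (U : (Matrix n n F)ˣ)
    {I : Type} (b : I → Matrix n₀ n₀ F₀) (hb : Submodule.span F₀ (Set.range b) = ⊤)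
    {w : Matrix n n F} (hw : ∀ i, Commute (embConst j e U (b i)) w) :
    ∃ N, w = embCent e U N := by
  set w' : Matrix (n₀ × k) (n₀ × k) F :=
    ((↑U⁻¹ : Matrix n n F) * w * (U : Matrix n n F)).submatrix e e with hw'
  have hback : w = (U : Matrix n n F) * w'.submatrix e.symm e.symm * (↑U⁻¹ : Matrix n n F) := by
    rw [hw', Matrix.submatrix_submatrix, Equiv.self_comp_symm, Matrix.submatrix_id_id]
    simp [mul_assoc]
  have h1 : ∀ i, ((b i).map j ⊗ₖ (1 : Matrix k k F)) * w' =
      w' * ((b i).map j ⊗ₖ (1 : Matrix k k F)) := by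
    intro i
    have h := (hw i).eq
    rw [hback, embConst_apply] at h
    simp only [mul_assoc, Units.inv_mul_cancel_left] at h
    rw [Units.mul_right_inj] at h
    simp only [← mul_assoc] at h
    rw [Units.mul_left_inj, Matrix.submatrix_mul_equiv, Matrix.submatrix_mul_equiv] at h
    have h2 := congrArg (fun M : Matrix n n F => M.submatrix e e) h
    simpa [Matrix.submatrix_submatrix, Equiv.symm_comp_self] using h2
  have h2 : ∀ M : Matrix n₀ n₀ F, (M ⊗ₖ (1 : Matrix k k F)) * w' =
      w' * (M ⊗ₖ (1 : Matrix k k F)) := by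
    intro M
    have hM : M ∈ Submodule.span F (Set.range fun i => (b i).map j) :=
      span_map_matrix j b hb ▸ Submodule.mem_top
    induction hM using Submodule.span_induction with
    | mem y hy => obtain ⟨i, rfl⟩ := hy; exact h1 i
    | zero => simp
    | add x y _ _ hx hy => rw [Matrix.add_kronecker, add_mul, mul_add, hx, hy]
    | smul c x _ hx => rw [Matrix.smul_kronecker, Matrix.smul_mul, Matrix.mul_smul, hx]
  obtain ⟨a₀⟩ := ‹Nonempty n₀›
  have h3 : ∀ (a b : n₀) (x : k) (c : n₀) (y : k),
      w' (b, x) (c, y) = if c = b then w' (a, x) (a, y) else 0 := by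
    intro a b x c y
    have h := congrFun₂ (h2 (Matrix.single a b 1)) (a, x) (c, y)
    rwa [kron_single_mul_apply, mul_kron_single_apply, if_pos rfl] at h
  refine ⟨Matrix.of fun x y => w' (a₀, x) (a₀, y), ?_⟩
  rw [hback, embCent_apply]
  congr 2
  refine congrArg (fun M : Matrix (n₀ × k) (n₀ × k) F => M.submatrix e.symm e.symm)
    (Matrix.ext fun p q => ?_)
  rw [show w' p q = w' (p.1, p.2) (q.1, q.2) from rfl, h3 a₀]
  by_cases h : q.1 = p.1
  · simp [h, Matrix.one_apply]
  · simp [h, Ne.symm h]

omit [Nonempty n₀] in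
/-- An independent family of the right size in the centraliser spans it. -/
theorem mem_span_of_card (e : n₀ × k ≃ n) (U : (Matrix n n F)ˣ) {Q : Type} [Fintype Q]
    (b : Q → Matrix n n F) (hb : LinearIndependent F b) (hc : ∀ l, ∃ M, b l = embCent e U M)
    (hcard : Fintype.card Q = Fintype.card k * Fintype.card k) (M : Matrix k k F) :
    ∃ u : Q → F, embCent e U M = ∑ l, u l • b l := by
  let L : Matrix k k F →ₗ[F] Matrix n n F :=
    { toFun := embCent e U
      map_add' := map_add _
      map_smul' := embCent_smul e U }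
  have hle : Submodule.span F (Set.range b) ≤ LinearMap.range L := by
    rw [Submodule.span_le]
    rintro _ ⟨l, rfl⟩
    obtain ⟨N, hN⟩ := hc l
    exact ⟨N, hN.symm⟩
  have hdim : finrank F (LinearMap.range L) ≤ finrank F (Submodule.span F (Set.range b)) := by
    rw [finrank_span_eq_card hb, hcard]
    exact L.finrank_range_le.trans (by simp [Module.finrank_matrix])
  have heq := Submodule.eq_of_le_of_finrank_le hle hdim
  have hM : embCent e U M ∈ Submodule.span F (Set.range b) := heq ▸ ⟨M, rfl⟩
  obtain ⟨u, hu⟩ := Submodule.mem_span_range_iff_exists_fun F |>.1 hM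
  exact ⟨u, hu.symm⟩

end Centraliser

section Blocks

variable {β ρ ι κ : Type} [Fintype β] [DecidableEq β] [Fintype ρ] [DecidableEq ρ] [Fintype ι]
  [DecidableEq ι] {F : Type} [Field F]

/-- A substitution killing all blocks kills the block diagonal series. -/
theorem subst_blockDiagonal_eq_zero (h : ι → Ser F κ) (X : ρ → Ser (Matrix β β F) ι)
    (hX : ∀ r, substM h (X r) = 0) :
    Vale.Agent.P199.subst (RingHom.id _) (fun i => Ser.map (Matrix.scalar (β × ρ)) (h i))
      (⟨fun w => Matrix.blockDiagonal fun r => (X r).coeff w⟩ :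
        Ser (Matrix (β × ρ) (β × ρ) F) ι) = 0 := by
  let P : Ser (ρ → Matrix β β F) ι := ⟨fun w r => (X r).coeff w⟩
  let sc : F →+* ρ → Matrix β β F := RingHom.pi fun _ => Matrix.scalar β
  have h0 : Vale.Agent.P199.subst (RingHom.id _) (fun i => Ser.map sc (h i)) P = 0 := by
    refine Ser.ext (funext fun W => funext fun r => ?_)
    have h1 := congrArg (fun f => Ser.coeff f W) (Series.Ser.map_subst (RingHom.id _)
      (v := fun i => Ser.map sc (h i)) (Pi.evalRingHom (fun _ : ρ => Matrix β β F) r) P)
    have h2 := congrArg (fun f => Ser.coeff f W) (hX r)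
    simp only [substM, Ser.coeff_zero] at h2
    rw [RingHom.comp_id] at h1
    simp only [Ser.coeff_map] at h1
    exact h1.trans h2
  have h3 := Series.Ser.map_subst (RingHom.id _) (v := fun i => Ser.map sc (h i))
    (Matrix.blockDiagonalRingHom β ρ F) P
  rw [h0, map_zero, RingHom.comp_id] at h3
  refine Eq.trans ?_ h3.symm
  have hv : ∀ i, Ser.map (Matrix.blockDiagonalRingHom β ρ F) (Ser.map sc (h i)) =
      Ser.map (Matrix.scalar (β × ρ)) (h i) := fun i => Ser.ext (funext fun w => by
    simp only [Ser.coeff_map]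
    exact Matrix.blockDiagonal_diagonal fun (_ : ρ) (_ : β) => (h i).coeff w)
  simp only [hv]
  rfl

end Blocks

end Vale.Agent.P199
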