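import Mathlib
import Vale.Agent.P199.Desc

/-!
P199: descendants are stable under translation to `τ • c` and under change of coordinates.
-/

open Finset
open scoped Kronecker

noncomputable section

namespace Vale.Agent.P199

open Series

theorem span_map_semilinear {R R' M M' : Type*} [Semiring R] [Semiring R'] [AddCommGroup M]
    [AddCommGroup M'] [Module R M] [Module R' M'] (φ : M →+ M') (g : R → R')
    (hφ : ∀ c m, φ (c • m) = g c • φ m) (s : Set M) {m : M} (hm : m ∈ Submodule.span R s) :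
    φ m ∈ Submodule.span R' (φ '' s) := by
  induction hm using Submodule.span_induction with
  | mem x hx => exact Submodule.subset_span ⟨x, hx, rfl⟩
  | zero => rw [map_zero]; exact zero_mem _
  | add x y _ _ hx hy => rw [map_add]; exact add_mem hx hy
  | smul c x _ hx => rw [hφ]; exact Submodule.smul_mem _ _ hx

namespace Translate

variable {β p ι Q : Type} [Fintype β] [DecidableEq β] [Fintype p] [DecidableEq p] [Fintype ι]
  [DecidableEq ι] [Fintype Q] [DecidableEq Q] {F F₁ G : Type} [Field F] [Field F₁] [Field G]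

theorem scalar_kron_one {R : Type} [CommRing R] (x : R) :
    (Matrix.scalar β x) ⊗ₖ (1 : Matrix p p R) = Matrix.scalar (β × p) x := by
  simp [Matrix.scalar_apply, Matrix.diagonal_kronecker_diagonal, ← Matrix.diagonal_one]

theorem transl_scalar (c : ι → Matrix p p F₁) (E : Q → Matrix p p F₁) (κ : PowerSeries F₁ →+* G)
    (f : F →+* F₁) (x : F) :
    transl c E κ f (Ser.C (Matrix.scalar β x)) =
      Ser.C (Matrix.scalar (β × p) (κ (PowerSeries.C (f x)))) := by
  rw [transl_C]
  congr 1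
  rw [← scalar_kron_one]
  congr 1
  ext i j
  by_cases h : i = j <;> simp [h]

theorem transl_smul (c : ι → Matrix p p F₁) (E : Q → Matrix p p F₁) (κ : PowerSeries F₁ →+* G)
    (f : F →+* F₁) (A : DivAlg β F) (B' : DivAlg (β × p) G)
    (hK : ∀ x ∈ A.K, κ (PowerSeries.C (f x)) ∈ B'.K) (x : A.K) (g : Ser (Matrix β β F) ι) :
    transl c E κ f (x • g) =
      (⟨κ (PowerSeries.C (f (x : F))), hK x x.2⟩ : B'.K) • transl c E κ f g := by
  rw [show x • g = Ser.C (algebraMap A.K (Matrix β β F) x) * g from rfl, map_mul]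
  show _ = Ser.C (algebraMap B'.K (Matrix (β × p) (β × p) G)
    ⟨κ (PowerSeries.C (f (x : F))), hK x x.2⟩) * transl c E κ f g
  congr 1
  have e1 : algebraMap A.K (Matrix β β F) x = Matrix.scalar β (x : F) := rfl
  rw [e1, transl_scalar]
  rfl

/-- Translations of rational series are rational. -/
theorem cm_transl₀_map_mem (c : ι → Matrix p p F₁) (E : Q → Matrix p p F₁) (f : F →+* F₁)
    (A : DivAlg β F) (B : DivAlg (β × p) F₁)
    (hD : ∀ x ∈ A.D, x.map f ⊗ₖ (1 : Matrix p p F₁) ∈ B.D)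
    (hE : ∀ l, (1 : Matrix β β F₁) ⊗ₖ E l ∈ B.D)
    (hc : ∀ i, (1 : Matrix β β F₁) ⊗ₖ c i ∈ B.D) (g : Ser (Matrix β β F) ι)
    (hg : ∀ w, g.coeff w ∈ A.D) (W : List (ι × Q)) (k : ℕ) :
    cm k ((transl₀ c E (Ser.map f.mapMatrix g)).coeff W) ∈ B.D :=
  cm_transl₀_mem c E B.D _ (fun w => hD _ (hg w)) hc hE W k

theorem transl_mem (c : ι → Matrix p p F₁) (E : Q → Matrix p p F₁) (κ : PowerSeries F₁ →+* G)
    (f : F →+* F₁) (A : DivAlg β F) (B : DivAlg (β × p) F₁) (B' : DivAlg (β × p) G)
    (hD : ∀ x ∈ A.D, x.map f ⊗ₖ (1 : Matrix p p F₁) ∈ B.D)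
    (hE : ∀ l, (1 : Matrix β β F₁) ⊗ₖ E l ∈ B.D)
    (hc : ∀ i, (1 : Matrix β β F₁) ⊗ₖ c i ∈ B.D)
    (hB'D : ∀ M : Matrix (β × p) (β × p) (PowerSeries F₁), (∀ k, cm k M ∈ B.D) → M.map κ ∈ B'.D)
    (g : Ser (Matrix β β F) ι) (hg : ∀ w, g.coeff w ∈ A.D) (W : List (ι × Q)) :
    (transl c E κ f g).coeff W ∈ B'.D :=
  hB'D _ (cm_transl₀_map_mem c E f A B hD hE hc g hg W)

end Translate

/-- Laurent series over a subfield into a field receiving the power series. -/
def laurLift {F G : Type} [Field F] [Field G] (κ : PowerSeries F →+* G)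
    (hκ : Function.Injective κ) (K : Subfield F) : LaurentSeries K →+* G :=
  IsFractionRing.lift (A := PowerSeries K) (g := κ.comp (PowerSeries.map K.subtype))
    (hκ.comp (PowerSeries.map_injective K.subtype Subtype.val_injective))

theorem laurLift_coe {F G : Type} [Field F] [Field G] (κ : PowerSeries F →+* G)
    (hκ : Function.Injective κ) (K : Subfield F) (y : PowerSeries K) :
    laurLift κ hκ K (algebraMap (PowerSeries K) (LaurentSeries K) y) =
      κ (PowerSeries.map K.subtype y) :=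
  IsFractionRing.lift_algebraMap _ y

theorem laurLift_mem {F G : Type} [Field F] [Field G] (κ : PowerSeries F →+* G)
    (hκ : Function.Injective κ) (K : Subfield F) (K' : Subfield G)
    (h : ∀ y, (∀ n, PowerSeries.coeff n y ∈ K) → κ y ∈ K') (x : LaurentSeries K) :
    laurLift κ hκ K x ∈ K' := by
  obtain ⟨a, b, -, rfl⟩ := IsFractionRing.div_surjective (A := PowerSeries K) x
  rw [map_div₀, laurLift_coe, laurLift_coe]
  exact K'.div_mem (h _ fun n => by rw [PowerSeries.coeff_map]; exact Subtype.mem _)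
    (h _ fun n => by rw [PowerSeries.coeff_map]; exact Subtype.mem _)

theorem le_orderTop_ofPowerSeries {K : Type} [Field K] (y : PowerSeries K) (N : ℕ)
    (h : ∀ k < N, PowerSeries.coeff k y = 0) :
    ((N : ℤ) : WithTop ℤ) ≤ (algebraMap (PowerSeries K) (LaurentSeries K) y).orderTop := by
  set z := algebraMap (PowerSeries K) (LaurentSeries K) y with hz
  by_contra hlt
  obtain ⟨a, ha⟩ := WithTop.ne_top_iff_exists.1 (fun e => hlt (e.symm ▸ le_top) : z.orderTop ≠ ⊤)
  have hne := HahnSeries.coeff_orderTop_ne ha.symm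
  rw [← ha] at hlt
  have hlt' : a < (N : ℤ) := by
    by_contra h'
    exact hlt (WithTop.coe_le_coe.2 (not_lt.1 h'))
  apply hne
  rw [hz]
  show (HahnSeries.ofPowerSeries ℤ K y).coeff a = 0
  by_cases h0 : 0 ≤ a
  · lift a to ℕ using h0
    rw [HahnSeries.ofPowerSeries_apply_coeff]
    exact h a (by exact_mod_cast hlt')
  · rw [HahnSeries.ofPowerSeries_apply, HahnSeries.embDomain_of_notMem_range]
    rintro ⟨b, rfl⟩
    exact h0 (Int.natCast_nonneg b)

/-- The key closure: translating preserves approximation by spans. -/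
theorem exists_span_transl {β p ι Q : Type} [Fintype β] [DecidableEq β] [Fintype p] [DecidableEq p]
    [Fintype ι] [DecidableEq ι] [Fintype Q] [DecidableEq Q] {F F₁ G : Type} [Field F] [Field F₁]
    [Field G] (c : ι → Matrix p p F₁) (E : Q → Matrix p p F₁) (κ : PowerSeries F₁ →+* G)
    (hκ : Function.Injective κ) (f : F →+* F₁) (A : DivAlg β F) (B : DivAlg (β × p) F₁)
    (B' : DivAlg (β × p) G)
    (hD : ∀ x ∈ A.D, x.map f ⊗ₖ (1 : Matrix p p F₁) ∈ B.D)
    (hE : ∀ l, (1 : Matrix β β F₁) ⊗ₖ E l ∈ B.D)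
    (hc : ∀ i, (1 : Matrix β β F₁) ⊗ₖ c i ∈ B.D) (hfK : ∀ x ∈ A.K, f x ∈ B.K)
    (hB'K : ∀ y, (∀ n, PowerSeries.coeff n y ∈ B.K) → κ y ∈ B'.K)
    (S : Set (Ser (Matrix β β F) ι)) (hS : ∀ g ∈ S, ∀ w, g.coeff w ∈ A.D)
    (x : Ser (Matrix β β F) ι) (hx : ∀ w, x.coeff w ∈ A.D)
    (happ : ∀ M, ∃ g ∈ Submodule.span A.K S, Ser.LowVanish M (g - x)) (k : ℕ) :
    ∃ g ∈ Submodule.span B'.K (Translate.transl c E κ f '' S),
      Ser.LowVanish k (g - Translate.transl c E κ f x) := by
  classical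
  let Wk : Finset (List (ι × Q)) := (Finset.range k).biUnion fun n => words (ι × Q) n
  have hWk : ∀ W : List (ι × Q), W.length < k → W ∈ Wk := fun W hW => by
    simp only [Wk, Finset.mem_biUnion, Finset.mem_range]
    exact ⟨W.length, hW, mem_words.2 rfl⟩
  have hWk' : ∀ W ∈ Wk, W.length < k := fun W hW => by
    simp only [Wk, Finset.mem_biUnion, Finset.mem_range] at hW
    obtain ⟨n, hn, hW⟩ := hW
    rwa [mem_words.1 hW]
  let ι₁ := laurLift κ hκ B.K
  have hι₁ : ∀ y, ι₁ y ∈ B'.K := laurLift_mem κ hκ B.K B'.K hB'K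
  have hK' : ∀ x ∈ A.K, κ (PowerSeries.C (f x)) ∈ B'.K := fun x hx => hB'K _ fun n => by
    rw [PowerSeries.coeff_C]
    split_ifs
    · exact hfK _ hx
    · exact B.K.zero_mem
  let bmap : (β × p) × (β × p) → Matrix (β × p) (β × p) G := fun i =>
    (B.b i).map (κ.comp PowerSeries.C)
  let Lam : (Wk × ((β × p) × (β × p)) → LaurentSeries B.K) → Wk → Matrix (β × p) (β × p) G :=
    fun v W => ∑ i, ι₁ (v (W, i)) • bmap i
  -- the vectors represented by the span
  let V : Submodule (LaurentSeries B.K) (Wk × ((β × p) × (β × p)) → LaurentSeries B.K) :=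
    { carrier := {v | ∃ g ∈ Submodule.span B'.K (Translate.transl c E κ f '' S),
        ∀ W : Wk, g.coeff W.1 = Lam v W}
      zero_mem' := ⟨0, zero_mem _, fun W => by simp [Lam]⟩
      add_mem' := by
        rintro u v ⟨g, hg, hgu⟩ ⟨h, hh, hhv⟩
        exact ⟨g + h, add_mem hg hh, fun W => by
          simp [Lam, hgu W, hhv W, add_smul, Finset.sum_add_distrib]⟩
      smul_mem' := by
        rintro r v ⟨g, hg, hgv⟩
        refine ⟨(⟨ι₁ r, hι₁ r⟩ : B'.K) • g, Submodule.smul_mem _ _ hg, fun W => ?_⟩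
        rw [B'.coeff_smul, hgv W]
        simp [Lam, Finset.smul_sum, smul_smul] }
  -- coordinates of translated rational series
  have coord : ∀ g : Ser (Matrix β β F) ι, (∀ w, g.coeff w ∈ A.D) →
      ∃ cf : List (ι × Q) → ℕ → (β × p) × (β × p) → B.K,
        ∀ W n, cm n ((Translate.transl₀ c E (Ser.map f.mapMatrix g)).coeff W) =
          ∑ i, (cf W n i : F₁) • B.b i := by
    intro g hg
    choose d hd hd' using fun W n => B.exists_coord _
      (Translate.cm_transl₀_map_mem c E f A B hD hE hc g hg W n)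
    exact ⟨fun W n i => ⟨d W n i, hd W n i⟩, hd'⟩
  let vec : (List (ι × Q) → ℕ → (β × p) × (β × p) → B.K) →
      (Wk × ((β × p) × (β × p)) → LaurentSeries B.K) := fun cf x =>
    algebraMap (PowerSeries B.K) (LaurentSeries B.K) (PowerSeries.mk fun n => cf x.1.1 n x.2)
  have hvec : ∀ (g : Ser (Matrix β β F) ι) (cf : List (ι × Q) → ℕ → (β × p) × (β × p) → B.K),
      (∀ W n, cm n ((Translate.transl₀ c E (Ser.map f.mapMatrix g)).coeff W) =
        ∑ i, (cf W n i : F₁) • B.b i) →
      ∀ W : Wk, (Translate.transl c E κ f g).coeff W.1 = Lam (vec cf) W := by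
    intro g cf hcf W
    have e : (Translate.transl₀ c E (Ser.map f.mapMatrix g)).coeff W.1 =
        ∑ i, (PowerSeries.map B.K.subtype (PowerSeries.mk fun n => cf W.1 n i)) •
          (B.b i).map PowerSeries.C := by
      refine cm_ext fun n => ?_
      rw [hcf W.1 n, cm_sum]
      refine Finset.sum_congr rfl fun i _ => ?_
      ext a b
      simp [PowerSeries.coeff_mul_C]
    show ((Translate.transl₀ c E (Ser.map f.mapMatrix g)).coeff W.1).map κ = _
    rw [e]
    ext a b
    simp only [Lam, vec, ι₁, bmap, Matrix.map_apply, Matrix.sum_apply, map_sum, Matrix.smul_apply,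
      smul_eq_mul, map_mul, RingHom.comp_apply, laurLift_coe]
  -- the image of `x` is approximated inside `V`
  obtain ⟨cx, hcx⟩ := coord x hx
  have hxV : vec cx ∈ V := by
    refine Closed.mem_of_forall_approx V (vec cx) fun N => ?_
    obtain ⟨g, hg, hgx⟩ := happ (N.toNat + k)
    have hgD := A.coeff_mem_of_mem_span hS hg
    obtain ⟨cg, hcg⟩ := coord g hgD
    have hgspan : Translate.transl c E κ f g ∈
        Submodule.span B'.K (Translate.transl c E κ f '' S) :=
      span_map_semilinear (Translate.transl c E κ f).toAddMonoidHom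
        (fun x : A.K => (⟨κ (PowerSeries.C (f (x : F))), hK' x x.2⟩ : B'.K))
        (fun r m => Translate.transl_smul c E κ f A B' hK' r m) S hg
    refine ⟨vec cg, ⟨_, hgspan, hvec g cg hcg⟩, fun y => ?_⟩
    refine le_trans (WithTop.coe_le_coe.2 (Int.self_le_toNat N)) ?_
    simp only [vec, ← map_sub]
    refine le_orderTop_ofPowerSeries _ _ fun n hn => ?_
    rw [map_sub, PowerSeries.coeff_mk, PowerSeries.coeff_mk, sub_eq_zero]
    have hzero := Translate.van_transl₀ c E (a := Ser.map f.mapMatrix (g - x))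
      (M := N.toNat + k) (fun w hw => by rw [Ser.coeff_map, hgx w hw, map_zero]) y.1.1 n (by
        have := hWk' _ y.1.2
        omega)
    rw [map_sub, map_sub, Ser.coeff_sub, cm_sub, hcg, hcx, ← Finset.sum_sub_distrib] at hzero
    simp only [← sub_smul] at hzero
    have h2 := Fintype.linearIndependent_iff.1 B.b_indep _ hzero y.2
    rw [sub_eq_zero] at h2
    exact Subtype.ext h2.symm
  obtain ⟨g, hg, hgx⟩ := hxV
  refine ⟨g, hg, fun W hW => ?_⟩
  rw [Ser.coeff_sub, hgx ⟨W, hWk W hW⟩, hvec x cx hcx ⟨W, hWk W hW⟩, sub_self]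

theorem indep_map {n Q : Type} [Fintype n] [DecidableEq n] [Fintype Q] {F G : Type} [Field F] [Field G]
    (g : F →+* G) (b : Q → Matrix n n F) (hb : LinearIndependent F b) :
    LinearIndependent G fun l => (b l).map g := by
  classical
  obtain ⟨L, hL⟩ := LinearMap.exists_leftInverse_of_injective (Fintype.linearCombination F b)
    (LinearMap.ker_eq_bot'.2 fun v hv => funext fun i => Fintype.linearIndependent_iff.1 hb v
      (by simpa [Fintype.linearCombination_apply] using hv) i)
  refine Fintype.linearIndependent_iff.2 fun z hz l => ?_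
  have hco : ∀ m, ∑ a, ∑ c, b m a c * L (Matrix.single a c 1) l = if m = l then 1 else 0 := by
    intro m
    have h1 : L (b m) = Pi.single m 1 := by
      have := LinearMap.congr_fun hL (Pi.single m 1)
      simpa [Fintype.linearCombination_apply_single] using this
    have h2 : L (b m) l = ∑ a, ∑ c, b m a c * L (Matrix.single a c 1) l := by
      conv_lhs => rw [Matrix.matrix_eq_sum_single (b m)]
      simp only [map_sum, Finset.sum_apply]
      refine Finset.sum_congr rfl fun a _ => Finset.sum_congr rfl fun c _ => ?_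
      rw [show Matrix.single a c (b m a c) = b m a c • Matrix.single a c (1 : F) by simp, map_smul]
      rfl
    rw [← h2, h1]
    rcases eq_or_ne m l with rfl | h <;> simp [*]
  have h3 : ∑ a, ∑ c, (∑ m, z m • (b m).map g) a c * g (L (Matrix.single a c 1) l) = 0 := by
    simp [hz]
  simp only [Matrix.sum_apply, Matrix.smul_apply, Matrix.map_apply, smul_eq_mul, Finset.sum_mul,
    mul_assoc] at h3
  have h4 : ∑ m, z m * ∑ a, ∑ c, g (b m a c) * g (L (Matrix.single a c 1) l) = 0 := by
    simp only [Finset.mul_sum]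
    rw [Finset.sum_comm]
    refine Eq.trans ?_ h3
    refine Finset.sum_congr rfl fun a _ => ?_
    rw [Finset.sum_comm]
  simp only [← map_mul, ← map_sum, hco] at h4
  simpa [apply_ite g] using h4

theorem indep_kron {m p Q₁ Q₂ : Type} [Fintype m] [Fintype p] [Fintype Q₁] [Fintype Q₂]
    {G : Type} [Field G] (b : Q₁ → Matrix m m G) (E : Q₂ → Matrix p p G)
    (hb : LinearIndependent G b) (hE : LinearIndependent G E) :
    LinearIndependent G fun lr : Q₁ × Q₂ => b lr.1 ⊗ₖ E lr.2 := by
  refine Fintype.linearIndependent_iff.2 fun z hz ⟨l, r⟩ => ?_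
  have h : ∀ x y : m, ∀ r, ∑ l, z (l, r) * b l x y = 0 := fun x y =>
    Fintype.linearIndependent_iff.1 hE (fun r => ∑ l, z (l, r) * b l x y) (by
      ext u v
      have h' := congrFun₂ hz (x, u) (y, v)
      simp only [Matrix.sum_apply, Matrix.smul_apply, Matrix.kroneckerMap_apply, smul_eq_mul,
        Fintype.sum_prod_type, Matrix.zero_apply] at h'
      simp only [Matrix.sum_apply, Matrix.smul_apply, smul_eq_mul, Finset.sum_mul, Matrix.zero_apply]
      rw [Finset.sum_comm]
      simpa [mul_assoc] using h')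
  refine Fintype.linearIndependent_iff.1 hb (fun l => z (l, r)) ?_ l
  ext x y
  simpa [Matrix.sum_apply] using h x y r

section Pieces

variable {n₀ k n p : Type} [Fintype n₀] [DecidableEq n₀] [Fintype k] [DecidableEq k] [Fintype n]
  [DecidableEq n] [Fintype p] [DecidableEq p] {F G : Type} [Field F] [Field G]

/-- The unit of a translated descendant. -/
def translUnit (g : F →+* G) (U : (Matrix n n F)ˣ) : (Matrix (n × p) (n × p) G)ˣ :=
  Units.map ((kronOne (p := p)).comp g.mapMatrix).toMonoidHom U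

theorem translUnit_val (g : F →+* G) (U : (Matrix n n F)ˣ) :
    (translUnit (p := p) g U : Matrix (n × p) (n × p) G) = (U : Matrix n n F).map g ⊗ₖ (1 : Matrix p p G) :=
  rfl

theorem translUnit_inv_val (g : F →+* G) (U : (Matrix n n F)ˣ) :
    ((translUnit (p := p) g U)⁻¹ : (Matrix (n × p) (n × p) G)ˣ).val =
      (↑U⁻¹ : Matrix n n F).map g ⊗ₖ (1 : Matrix p p G) := rfl

/-- The index of a translated descendant. -/
def translIndex (e : n₀ × k ≃ n) : n₀ × (k × p) ≃ n × p :=
  (Equiv.prodAssoc n₀ k p).symm.trans (e.prodCongr (Equiv.refl p))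

theorem embConst_transl {F₀ : Type} [Field F₀] (j : F₀ →+* F) (g : F →+* G) (e : n₀ × k ≃ n)
    (U : (Matrix n n F)ˣ) (x : Matrix n₀ n₀ F₀) :
    embConst (g.comp j) (translIndex (p := p) e) (translUnit g U) x =
      (embConst j e U x).map g ⊗ₖ (1 : Matrix p p G) := by
  simp only [embConst_apply, Matrix.map_mul]
  have h : ((x.map ⇑(g.comp j)) ⊗ₖ (1 : Matrix (k × p) (k × p) G)).submatrix
      (translIndex e).symm (translIndex e).symm =
      ((x.map j ⊗ₖ (1 : Matrix k k F)).submatrix e.symm e.symm).map g ⊗ₖ (1 : Matrix p p G) := by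
    ext ⟨a, u⟩ ⟨c, v⟩
    by_cases h1 : (e.symm a).2 = (e.symm c).2 <;> by_cases h2 : u = v <;>
      simp [translIndex, Matrix.one_apply, h1, h2]
  rw [h, translUnit_val, translUnit_inv_val, ← Matrix.mul_kronecker_mul,
    ← Matrix.mul_kronecker_mul, Matrix.one_mul, Matrix.one_mul]

theorem embCent_transl (g : F →+* G) (e : n₀ × k ≃ n) (U : (Matrix n n F)ˣ) (M : Matrix k k F)
    (N : Matrix p p G) :
    embCent (translIndex (p := p) e) (translUnit g U) (M.map g ⊗ₖ N) =
      (embCent e U M).map g ⊗ₖ N := by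
  simp only [embCent_apply, Matrix.map_mul]
  have h : ((1 : Matrix n₀ n₀ G) ⊗ₖ (M.map g ⊗ₖ N)).submatrix
      (translIndex e).symm (translIndex e).symm =
      (((1 : Matrix n₀ n₀ F) ⊗ₖ M).submatrix e.symm e.symm).map g ⊗ₖ N := by
    ext ⟨a, u⟩ ⟨c, v⟩
    by_cases h1 : (e.symm a).1 = (e.symm c).1 <;> simp [translIndex, Matrix.one_apply, h1]
  rw [h, translUnit_val, translUnit_inv_val, ← Matrix.mul_kronecker_mul,
    ← Matrix.mul_kronecker_mul, Matrix.one_mul, Matrix.mul_one]

end Pieces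

namespace Translate

variable {β p ι Q : Type} [Fintype β] [DecidableEq β] [Fintype p] [DecidableEq p] [Fintype ι]
  [DecidableEq ι] [Fintype Q] [DecidableEq Q] {F F₁ G : Type} [Field F] [Field F₁] [Field G]

theorem kron_map_comp (M : Matrix p p (PowerSeries F₁)) (κ : PowerSeries F₁ →+* G) :
    ((1 : Matrix β β (PowerSeries F₁)) ⊗ₖ M).map κ = (1 : Matrix β β G) ⊗ₖ M.map κ :=
  Matrix.ext fun x y => by by_cases h : x.1 = y.1 <;> simp [Matrix.one_apply, h]

theorem transl_X (c : ι → Matrix p p F₁) (E : Q → Matrix p p F₁) (κ : PowerSeries F₁ →+* G)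
    (f : F →+* F₁) (u : ι) :
    transl c E κ f (Ser.X u : Ser (Matrix β β F) ι) =
      Ser.C ((1 : Matrix β β G) ⊗ₖ (tauPoint c u).map κ) +
        ∑ r, Ser.C ((1 : Matrix β β G) ⊗ₖ (E r).map (κ.comp PowerSeries.C)) * Ser.X (u, r) := by
  simp only [transl, RingHom.comp_apply, Ser.map_X, transl₀_X, point, map_add, map_sum, map_mul,
    Ser.map_C, RingHom.mapMatrix_apply, kron_map_comp, Matrix.map_map, RingHom.coe_comp]

theorem C_kron_mul (B : Matrix β β G) (N : Matrix p p G) :
    (Ser.C (B ⊗ₖ (1 : Matrix p p G)) : Ser (Matrix (β × p) (β × p) G) (ι × Q)) *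
      Ser.C ((1 : Matrix β β G) ⊗ₖ N) = Ser.C (B ⊗ₖ N) := by
  rw [← map_mul, ← Matrix.mul_kronecker_mul, Matrix.mul_one, Matrix.one_mul]

/-- The translation of a linear substitution. -/
theorem transl_linear {J : Type} [Fintype J] (c : ι → Matrix p p F₁) (E : Q → Matrix p p F₁)
    (κ : PowerSeries F₁ →+* G) (f : F →+* F₁) (σ : Matrix β β F) (b : J → Matrix β β F)
    (u : J → ι) :
    transl c E κ f (Ser.C σ + ∑ l, Ser.C (b l) * Ser.X (u l)) =
      Ser.C (σ.map (κ.comp (PowerSeries.C.comp f)) ⊗ₖ (1 : Matrix p p G) +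
          ∑ l, (b l).map (κ.comp (PowerSeries.C.comp f)) ⊗ₖ (tauPoint c (u l)).map κ) +
        ∑ lr : J × Q, Ser.C ((b lr.1).map (κ.comp (PowerSeries.C.comp f)) ⊗ₖ
          (E lr.2).map (κ.comp PowerSeries.C)) * Ser.X (u lr.1, lr.2) := by
  simp only [map_add, map_sum, map_mul, transl_C, transl_X, mul_add, Finset.mul_sum, ← mul_assoc,
    C_kron_mul, Finset.sum_add_distrib, Fintype.sum_prod_type]
  abel

theorem transl_linear_nil {J : Type} [Fintype J] (c : ι → Matrix p p F₁) (E : Q → Matrix p p F₁)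
    (κ : PowerSeries F₁ →+* G) (f : F →+* F₁) (σ : Matrix β β F) (b : J → Matrix β β F)
    (u : J → ι) :
    (transl c E κ f (Ser.C σ + ∑ l, Ser.C (b l) * Ser.X (u l))).coeff [] =
      σ.map (κ.comp (PowerSeries.C.comp f)) ⊗ₖ (1 : Matrix p p G) +
        ∑ l, (b l).map (κ.comp (PowerSeries.C.comp f)) ⊗ₖ (tauPoint c (u l)).map κ := by
  rw [transl_linear]
  simp [Ser.X_coeff]

end Translate

namespace Desc

variable {n₀ : Type} [Fintype n₀] [DecidableEq n₀] {F₀ : Type} [Field F₀]
  {A₀ : DivAlg n₀ F₀} {a₀ : Ser (Matrix n₀ n₀ F₀) (Fin 2)}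
  {n : Type} [Fintype n] [DecidableEq n] {F : Type} [Field F] {A : DivAlg n F}
  {ι : Type} [Fintype ι] [DecidableEq ι] {a : Ser (Matrix n n F) ι}

/-- Translation keeps the descendant relation. -/
def translate (d : Desc A₀ a₀ A a) {p Qp : Type} [Fintype p] [DecidableEq p] [Fintype Qp]
    [DecidableEq Qp] {F₁ G : Type} [Field F₁] [Field G] (c : ι → Matrix p p F₁)
    (E : Qp → Matrix p p F₁) (κ : PowerSeries F₁ →+* G) (hκ : Function.Injective κ)
    (f : F →+* F₁) (B : DivAlg (n × p) F₁) (B' : DivAlg (n × p) G)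
    (hD : ∀ x ∈ A.D, x.map f ⊗ₖ (1 : Matrix p p F₁) ∈ B.D)
    (hE : ∀ l, (1 : Matrix n n F₁) ⊗ₖ E l ∈ B.D)
    (hE_indep : LinearIndependent F₁ E) (hE_card : Fintype.card Qp = Fintype.card p * Fintype.card p)
    (hc : ∀ i, (1 : Matrix n n F₁) ⊗ₖ c i ∈ B.D) (hfK : ∀ x ∈ A.K, f x ∈ B.K)
    (hB'K : ∀ y, (∀ n, PowerSeries.coeff n y ∈ B.K) → κ y ∈ B'.K)
    (hB'D : ∀ M : Matrix (n × p) (n × p) (PowerSeries F₁), (∀ k, cm k M ∈ B.D) → M.map κ ∈ B'.D) :
    Desc A₀ a₀ B' (Translate.transl c E κ f a) where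
  j := (κ.comp (PowerSeries.C.comp f)).comp d.j
  j_mem x hx := hB'K _ fun m => by
    rw [RingHom.comp_apply, PowerSeries.coeff_C]
    split_ifs
    · exact hfK _ (d.j_mem x hx)
    · exact B.K.zero_mem
  k := d.k × p
  e := translIndex d.e
  U := translUnit (κ.comp (PowerSeries.C.comp f)) d.U
  Q := d.Q × Qp
  b lr := (d.b lr.1).map (κ.comp (PowerSeries.C.comp f)) ⊗ₖ (E lr.2).map (κ.comp PowerSeries.C)
  b_mem lr := by
    have h : ((d.b lr.1).map f ⊗ₖ E lr.2).map PowerSeries.C =
        (((d.b lr.1).map f ⊗ₖ (1 : Matrix p p F₁)) * ((1 : Matrix n n F₁) ⊗ₖ E lr.2)).map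
          PowerSeries.C := by
      rw [← Matrix.mul_kronecker_mul, Matrix.mul_one, Matrix.one_mul]
    have hm := hB'D (((d.b lr.1).map f ⊗ₖ E lr.2).map PowerSeries.C) fun k => by
      rw [h, cm_map_C]
      split_ifs
      · exact B.D.mul_mem (hD _ (d.b_mem lr.1)) (hE lr.2)
      · exact B.D.zero_mem
    have e : (((d.b lr.1).map f ⊗ₖ E lr.2).map PowerSeries.C).map κ =
        (d.b lr.1).map (κ.comp (PowerSeries.C.comp f)) ⊗ₖ
          (E lr.2).map (κ.comp PowerSeries.C) := by
      ext x y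
      simp
    rwa [e] at hm
  b_cent lr := by
    obtain ⟨M, hM⟩ := d.b_cent lr.1
    exact ⟨M.map (κ.comp (PowerSeries.C.comp f)) ⊗ₖ (E lr.2).map (κ.comp PowerSeries.C),
      by rw [embCent_transl, hM]⟩
  b_indep := indep_kron (fun l => (d.b l).map ⇑(κ.comp (PowerSeries.C.comp f)))
    (fun r => (E r).map ⇑(κ.comp PowerSeries.C))
    (indep_map (κ.comp (PowerSeries.C.comp f)) d.b d.b_indep)
    (indep_map (κ.comp PowerSeries.C) E hE_indep)
  card_Q := by
    simp only [Fintype.card_prod, d.card_Q, hE_card]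
    ring
  σ i := (Translate.transl c E κ f (d.Φ (Ser.X i))).coeff []
  σ_mem i := Translate.transl_mem c E κ f A B B' hD hE hc hB'D _
    (d.Φ_mem _ fun w => by
      rw [Ser.X_coeff]
      split_ifs
      · exact A₀.D.one_mem
      · exact A₀.D.zero_mem) []
  σ_cent i := by
    obtain ⟨M, hM⟩ := d.σ_cent i
    choose N hN using d.b_cent
    refine ⟨M.map (κ.comp (PowerSeries.C.comp f)) ⊗ₖ (1 : Matrix p p G) +
      ∑ l, (N l).map (κ.comp (PowerSeries.C.comp f)) ⊗ₖ (tauPoint c (d.idx (i, l))).map κ, ?_⟩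
    rw [d.Φ_X, Translate.transl_linear_nil, map_add, embCent_transl, map_sum]
    simp only [embCent_transl, ← hM, ← hN]
  idx := (Equiv.prodAssoc (Fin 2) d.Q Qp).symm.trans (d.idx.prodCongr (Equiv.refl Qp))
  Φ := (Translate.transl c E κ f).comp d.Φ
  Φ_C x := by
    rw [RingHom.comp_apply, d.Φ_C, Translate.transl_C, embConst_transl]
  Φ_X i := by
    rw [RingHom.comp_apply, d.Φ_X, Translate.transl_linear]
    congr 1
    · congr 1
      simp [Ser.X_coeff]
  Φ_mem g hg w := Translate.transl_mem c E κ f A B B' hD hE hc hB'D _ (d.Φ_mem g hg) w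
  approx P hP hdense k g hg := by
    have h := exists_span_transl c E κ hκ f A B B' hD hE hc hfK hB'K (d.Φ '' P)
      (by rintro _ ⟨x, hx, rfl⟩; exact d.Φ_mem x (hP x hx)) (d.Φ g) (d.Φ_mem g hg)
      (fun M => d.approx P hP hdense M g hg) k
    rw [Set.image_image] at h
    exact h
  conj := by
    obtain ⟨U, hU, hU', ha⟩ := d.conj
    refine ⟨Units.map (Translate.transl c E κ f).toMonoidHom U,
      fun w => Translate.transl_mem c E κ f A B B' hD hE hc hB'D _ hU w,
      fun w => ?_, ?_⟩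
    · rw [← map_inv]
      exact Translate.transl_mem c E κ f A B B' hD hE hc hB'D _ hU' w
    · refine (congrArg (Translate.transl c E κ f) ha).trans ?_
      rw [map_mul, map_mul]
      rfl

/-- Change of coordinates by a constant conjugation and a bijection of indices, followed by
conjugation with a unit series. -/
def transport (d : Desc A₀ a₀ A a) {n' : Type} [Fintype n'] [DecidableEq n'] (r : n' ≃ n)
    (V : (Matrix n' n' F)ˣ) (A' : DivAlg n' F) (hK : ∀ x ∈ A.K, x ∈ A'.K)
    (hmap : ∀ x ∈ A.D, conjRing V (subHom r x) ∈ A'.D) (H : (Ser (Matrix n' n' F) ι)ˣ)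
    (hH : ∀ w, (H : Ser (Matrix n' n' F) ι).coeff w ∈ A'.D)
    (hH' : ∀ w, (↑H⁻¹ : Ser (Matrix n' n' F) ι).coeff w ∈ A'.D) :
    Desc A₀ a₀ A' ((H : Ser (Matrix n' n' F) ι) * Ser.map ((conjRing V).comp (subHom r)) a *
      (↑H⁻¹ : Ser (Matrix n' n' F) ι)) where
  j := d.j
  j_mem x hx := hK _ (d.j_mem x hx)
  k := d.k
  e := d.e.trans r.symm
  U := V * Units.map (subHom r).toMonoidHom d.U
  Q := d.Q
  b l := conjRing V (subHom r (d.b l))
  b_mem l := hmap _ (d.b_mem l)
  b_cent l := by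
    obtain ⟨M, hM⟩ := d.b_cent l
    refine ⟨M, ?_⟩
    rw [hM, embCent_apply, embCent_apply, conjRing_apply, map_mul, map_mul, subHom_apply,
      subHom_apply, subHom_apply, Matrix.submatrix_submatrix]
    simp [mul_assoc, subHom_apply, Equiv.trans]
  b_indep := by
    refine Fintype.linearIndependent_iff.2 fun g hg => ?_
    refine Fintype.linearIndependent_iff.1 d.b_indep g ?_
    have h : conjRing V (subHom r (∑ l, g l • d.b l)) = 0 := by
      rw [map_sum, map_sum]
      refine Eq.trans ?_ hg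
      refine Finset.sum_congr rfl fun l _ => ?_
      simp [conjRing_apply, subHom_apply, Matrix.submatrix_smul, Matrix.mul_smul, Matrix.smul_mul]
    rw [conjRing_apply, Units.mul_left_eq_zero, Units.mul_right_eq_zero, subHom_apply] at h
    ext x y
    have := congrFun₂ h (r.symm x) (r.symm y)
    simpa using this
  card_Q := d.card_Q
  σ i := conjRing V (subHom r (d.σ i))
  σ_mem i := hmap _ (d.σ_mem i)
  σ_cent i := by
    obtain ⟨M, hM⟩ := d.σ_cent i
    refine ⟨M, ?_⟩
    rw [hM, embCent_apply, embCent_apply, conjRing_apply, map_mul, map_mul, subHom_apply,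
      subHom_apply, subHom_apply, Matrix.submatrix_submatrix]
    simp [mul_assoc, subHom_apply, Equiv.trans]
  idx := d.idx
  Φ := (Ser.map ((conjRing V).comp (subHom r))).comp d.Φ
  Φ_C x := by
    rw [RingHom.comp_apply, d.Φ_C, Ser.map_C]
    congr 1
    rw [RingHom.comp_apply, embConst_apply, embConst_apply, conjRing_apply, map_mul, map_mul,
      subHom_apply, subHom_apply, subHom_apply, Matrix.submatrix_submatrix]
    simp [mul_assoc, subHom_apply, Equiv.trans]
  Φ_X i := by
    simp [d.Φ_X, Ser.map_C, Ser.map_X]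
  Φ_mem g hg w := hmap _ (d.Φ_mem g hg w)
  approx P hP hdense k g hg := by
    obtain ⟨x, hx, hxg⟩ := d.approx P hP hdense k g hg
    refine ⟨Ser.map ((conjRing V).comp (subHom r)) x, ?_, fun w hw => ?_⟩
    · have := span_map_semilinear (Ser.map (s := ι) ((conjRing V).comp (subHom r))).toAddMonoidHom
        (fun c : A.K => (⟨(c : F), hK _ c.2⟩ : A'.K))
        (fun c m => by
          refine Ser.ext (funext fun w => ?_)
          show conjRing V (subHom r ((c • m).coeff w)) = _
          rw [A.coeff_smul, A'.coeff_smul]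
          simp [conjRing_apply, subHom_apply, Matrix.submatrix_smul, Matrix.mul_smul, Matrix.smul_mul]) _ hx
      rw [Set.image_image] at this
      exact this
    · rw [RingHom.comp_apply, ← map_sub, Ser.coeff_map, hxg w hw, map_zero]
  conj := by
    obtain ⟨U, hU, hU', ha⟩ := d.conj
    refine ⟨H * Units.map (Ser.map ((conjRing V).comp (subHom r))).toMonoidHom U, ?_, ?_, ?_⟩
    · intro w
      rw [Units.val_mul, Ser.coeff_mul_sum]
      exact A'.D.sum_mem fun i _ => A'.D.mul_mem (hH _) (hmap _ (hU _))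
    · intro w
      rw [mul_inv_rev, Units.val_mul, ← map_inv, Ser.coeff_mul_sum]
      exact A'.D.sum_mem fun i _ => A'.D.mul_mem (hmap _ (hU' _)) (hH' _)
    · simp [ha, mul_assoc, ← map_inv]

end Desc

end Vale.Agent.P199
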