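import Vale.Agent.P199.Desc

/-!
# P199: generation
-/

namespace Vale.Agent.P199.Desc

variable {n₀ : Type} [Fintype n₀] [DecidableEq n₀] {F₀ : Type} [Field F₀]
  {A₀ : DivAlg n₀ F₀} {a₀ : Series.Ser (Matrix n₀ n₀ F₀) (Fin 2)}
  {n : Type} [Fintype n] [DecidableEq n] {F : Type} [Field F] {A : DivAlg n F}
  {ι : Type} [Fintype ι] [DecidableEq ι] {a : Series.Ser (Matrix n n F) ι}

/-- The constant terms of the images of the two variables generate the centraliser of the
constants. -/
def Gen (d : Desc A₀ a₀ A a) : Prop :=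
  ∃ N : Fin 2 → Matrix d.k d.k F, (∀ i, d.σ i = embCent d.e d.U (N i)) ∧
    Algebra.adjoin F (Set.range N) = ⊤

end Vale.Agent.P199.Desc
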