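import Mathlib
import Vale.Agent.P199.DescTransl
import Vale.Agent.P199.Gen
import Vale.Agent.P199.Frame

/-!
P199: the class of frames descending from a given series, and the small subspace of linear parts
which a substitution has to avoid.
-/

open Finset

noncomputable section

namespace Vale.Agent.P199

open Series

namespace Desc

variable {n₀ : Type} [Fintype n₀] [DecidableEq n₀] {F₀ : Type} [Field F₀]
  {A₀ : DivAlg n₀ F₀} {a₀ : Ser (Matrix n₀ n₀ F₀) (Fin 2)}
  {n : Type} [Fintype n] [DecidableEq n] {F : Type} [Field F] {A : DivAlg n F}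
  {ι : Type} [Fintype ι] [DecidableEq ι] {a : Ser (Matrix n n F) ι}

/-- A tuple of coefficients as a pair of elements of the centraliser. -/
def velocity (d : Desc A₀ a₀ A a) : (ι → F) →ₗ[F] (Fin 2 → Matrix n n F) :=
  LinearMap.pi fun i => (Fintype.linearCombination F d.b).comp
    (LinearMap.funLeft F F fun l => d.idx (i, l))

theorem velocity_apply (d : Desc A₀ a₀ A a) (v : ι → F) (i : Fin 2) :
    d.velocity v i = ∑ l, v (d.idx (i, l)) • d.b l := by
  simp [velocity, Fintype.linearCombination_apply, LinearMap.funLeft_apply]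

/-- The inner velocities at `σ`. -/
def inner (d : Desc A₀ a₀ A a) : (d.Q → F) →ₗ[F] (Fin 2 → Matrix n n F) :=
  LinearMap.pi fun i =>
    (LinearMap.mulLeft F (d.σ i) - LinearMap.mulRight F (d.σ i)).comp
      (Fintype.linearCombination F d.b)

theorem inner_apply (d : Desc A₀ a₀ A a) (u : d.Q → F) (i : Fin 2) :
    d.inner u i = d.σ i * (∑ l, u l • d.b l) - (∑ l, u l • d.b l) * d.σ i := by
  simp [inner, Fintype.linearCombination_apply, Finset.mul_sum, Finset.sum_mul, smul_sub,
    Finset.sum_sub_distrib]

/-- The tuples whose velocities are inner. -/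
def gSpace (d : Desc A₀ a₀ A a) : Submodule F (ι → F) := (LinearMap.range d.inner).comap d.velocity

theorem mem_gSpace (d : Desc A₀ a₀ A a) (v : ι → F) :
    v ∈ d.gSpace ↔ ∃ u : d.Q → F, d.inner u = d.velocity v := Iff.rfl

theorem velocity_injective (d : Desc A₀ a₀ A a) : Function.Injective d.velocity := by
  refine (injective_iff_map_eq_zero _).2 fun v hv => funext fun x => ?_
  obtain ⟨⟨i, l⟩, rfl⟩ := d.idx.surjective x
  exact Fintype.linearIndependent_iff.1 d.b_indep (fun l => v (d.idx (i, l)))
    (by rw [← velocity_apply, hv]; rfl) l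

theorem two_mul_finrank_gSpace (d : Desc A₀ a₀ A a) :
    2 * Module.finrank F d.gSpace ≤ Fintype.card ι := by
  have h1 : Module.finrank F (d.gSpace.map d.velocity) = Module.finrank F d.gSpace :=
    (Submodule.equivMapOfInjective _ d.velocity_injective _).finrank_eq.symm
  have h2 : Module.finrank F (d.gSpace.map d.velocity) ≤ Module.finrank F (LinearMap.range d.inner) :=
    Submodule.finrank_mono (Submodule.map_comap_le _ _)
  have h3 := d.inner.finrank_range_le
  rw [Module.finrank_pi] at h3
  rw [← Fintype.card_congr d.idx, Fintype.card_prod, Fintype.card_fin]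
  omega

end Desc

section Class

variable {n₀ : Type} [Fintype n₀] [DecidableEq n₀] {F₀ : Type} [Field F₀]

/-- Frames descending from `a₀`, generated by the constants and the variables. -/
def DescP (A₀ : DivAlg n₀ F₀) (a₀ : Ser (Matrix n₀ n₀ F₀) (Fin 2)) (T : Frame) : Prop :=
  ∃ d : Desc A₀ a₀ T.alg T.ser, d.Gen

variable {A₀ : DivAlg n₀ F₀} {a₀ : Ser (Matrix n₀ n₀ F₀) (Fin 2)}

/-- The subspace to avoid, for the chosen descent. -/
def descG (T : Frame) (hT : DescP A₀ a₀ T) : Submodule T.F (T.ι → T.F) := hT.choose.gSpace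

theorem two_mul_finrank_descG (T : Frame) (hT : DescP A₀ a₀ T) :
    2 * Module.finrank T.F (descG T hT) ≤ Fintype.card T.ι :=
  hT.choose.two_mul_finrank_gSpace

end Class

end Vale.Agent.P199
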