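import Vale.Agent.P199.Series

/-!
P199: the gauge of a series. If `A` is the centraliser of `θ` plus the range of `ad θ`, a series
with constant term `θ` is conjugate to `θ + c`, with `c` in the centraliser. The condition holds in
finite dimension when the minimal polynomial of `θ` is squarefree.
-/

namespace Vale.Agent.P199.Gauge

open Series Series.Ser

variable {A : Type*} [Ring A] {s : Type*}

theorem coeff_mul_of_left_zero {f g : Ser A s} (w : List s)
    (hf : ∀ u : List s, u.length < w.length → f.coeff u = 0) :
    (f * g).coeff w = f.coeff w * g.coeff [] := by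
  have := coeff_mul_append (f := f) (g := g) w [] hf (by simp)
  rwa [List.append_nil] at this

theorem coeff_mul_of_right_zero {f g : Ser A s} (w : List s)
    (hg : ∀ u : List s, u.length < w.length → g.coeff u = 0) :
    (f * g).coeff w = f.coeff [] * g.coeff w := by
  have := coeff_mul_append (f := f) (g := g) [] w (by simp) hg
  rwa [List.nil_append] at this

/-- The diagonal of a sequence of series that grows one degree at a time. -/
def limit (P : ℕ → Ser A s) : Ser A s := ⟨fun w => (P w.length).coeff w⟩

omit [Ring A] in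
theorem coeff_eq_limit {P : ℕ → Ser A s}
    (h : ∀ n, ∀ w : List s, w.length ≤ n → (P (n + 1)).coeff w = (P n).coeff w) (n : ℕ)
    (w : List s) (hw : w.length ≤ n) : (P n).coeff w = (limit P).coeff w := by
  induction n, hw using Nat.le_induction with
  | base => rfl
  | succ n hn ih => exact (h n w hn).trans ih

/-- Series with constant term one are units. -/
theorem isUnit_of_coeff_nil {f : Ser A s} (hf : f.coeff [] = 1) : IsUnit f := by
  have right : ∀ f : Ser A s, f.coeff [] = 1 → ∃ h : Ser A s, h.coeff [] = 1 ∧ f * h = 1 := by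
    intro f hf
    let P : ℕ → Ser A s := fun n => n.rec (C 1) fun k p =>
      p - ⟨fun w => if w.length = k + 1 then (f * p - 1).coeff w else 0⟩
    have hP : ∀ n, ∀ w : List s, w.length ≤ n → (P (n + 1)).coeff w = (P n).coeff w := by
      intro n w hw
      show (P n).coeff w - (if w.length = n + 1 then _ else 0) = _
      rw [if_neg (by omega), sub_zero]
    have hnil : (limit P).coeff [] = 1 := rfl
    refine ⟨limit P, hnil, ?_⟩
    ext w
    rcases Nat.eq_zero_or_pos w.length with h0 | h0
    · rw [List.length_eq_zero_iff.1 h0, coeff_mul_nil, hf, hnil, one_mul]; rfl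
    obtain ⟨n, hn⟩ : ∃ n, w.length = n + 1 := ⟨w.length - 1, by omega⟩
    have e : (f * limit P).coeff w = (f * P (n + 1)).coeff w :=
      coeff_mul_congr w (fun _ _ => rfl) fun u hu =>
        (coeff_eq_limit hP (n + 1) u (by omega)).symm
    set d : Ser A s := ⟨fun u => if u.length = n + 1 then (f * P n - 1).coeff u else 0⟩ with hd
    have hd0 : ∀ u : List s, u.length < w.length → d.coeff u = 0 := fun u hu =>
      if_neg (by omega)
    have hdw : d.coeff w = (f * P n - 1).coeff w := if_pos hn
    rw [e, show P (n + 1) = P n - d from rfl, mul_sub, coeff_sub,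
      coeff_mul_of_right_zero w hd0, hf, one_mul, hdw, coeff_sub, sub_sub_cancel]
  obtain ⟨h, hh, hfh⟩ := right f hf
  obtain ⟨k, _, hhk⟩ := right h hh
  have : f = k := by rw [← mul_one f, ← hhk, ← mul_assoc, hfh, one_mul]
  exact ⟨⟨f, h, hfh, by rw [this]; exact hhk⟩, rfl⟩

/-- `A` is the centraliser of `θ` plus the range of `ad θ`. -/
def Splits (θ : A) : Prop := ∀ x : A, ∃ y : A, Commute θ (x - (θ * y - y * θ))

/-- The state after degree `n` of the gauge recursion with the choice `F` of preimages. -/
def step (θ : A) (F : A → A) (a : Ser A s) : ℕ → Ser A s × Ser A s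
  | 0 => (C 1, 0)
  | n + 1 =>
    let p := step θ F a n
    let r := p.1 * a - (C θ + p.2) * p.1
    (p.1 + ⟨fun w => if w.length = n + 1 then F (r.coeff w) else 0⟩,
      p.2 + ⟨fun w => if w.length = n + 1 then
        r.coeff w - (θ * F (r.coeff w) - F (r.coeff w) * θ) else 0⟩)

/-- Gauge: `g * a = (θ + c) * g`. -/
theorem exists_gauge {θ : A} (hθ : Splits θ) (a : Ser A s) (ha : a.coeff [] = θ) :
    ∃ g c : Ser A s, g.coeff [] = 1 ∧ IsUnit g ∧ c.coeff [] = 0 ∧
      (∀ w, Commute θ (c.coeff w)) ∧ g * a = (C θ + c) * g := by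
  choose F hF using hθ
  let g := limit fun n => (step θ F a n).1
  let c := limit fun n => (step θ F a n).2
  have hg : g.coeff [] = 1 := rfl
  have hc : c.coeff [] = 0 := rfl
  have hs1 : ∀ n, ∀ w : List s, w.length ≤ n →
      (step θ F a (n + 1)).1.coeff w = (step θ F a n).1.coeff w := by
    intro n w hw
    show (step θ F a n).1.coeff w + (if w.length = n + 1 then _ else 0) = _
    rw [if_neg (by omega), add_zero]
  have hs2 : ∀ n, ∀ w : List s, w.length ≤ n →
      (step θ F a (n + 1)).2.coeff w = (step θ F a n).2.coeff w := by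
    intro n w hw
    show (step θ F a n).2.coeff w + (if w.length = n + 1 then _ else 0) = _
    rw [if_neg (by omega), add_zero]
  have h0 : ∀ n, (step θ F a n).1.coeff [] = 1 ∧ (step θ F a n).2.coeff [] = 0 := fun n =>
    ⟨(coeff_eq_limit hs1 n [] (Nat.zero_le _)).trans hg,
      (coeff_eq_limit hs2 n [] (Nat.zero_le _)).trans hc⟩
  have hzero : ∀ n (w : List s), n < w.length → (step θ F a n).2.coeff w = 0 := by
    intro n
    induction n with
    | zero => intro w _; rfl
    | succ n ih =>
      intro w hw
      show (step θ F a n).2.coeff w + (if w.length = n + 1 then _ else 0) = 0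
      rw [ih w (by omega), if_neg (by omega), add_zero]
  refine ⟨g, c, hg, isUnit_of_coeff_nil hg, hc, ?_, ?_⟩
  · intro w
    rcases Nat.eq_zero_or_pos w.length with h | h
    · rw [List.length_eq_zero_iff.1 h, hc]; exact Commute.zero_right θ
    obtain ⟨n, hn⟩ : ∃ n, w.length = n + 1 := ⟨w.length - 1, by omega⟩
    rw [← coeff_eq_limit hs2 (n + 1) w hn.le]
    show Commute θ ((step θ F a n).2.coeff w + (if w.length = n + 1 then _ else 0))
    rw [hzero n w (by omega), zero_add, if_pos hn]
    exact hF _
  ext w
  rcases Nat.eq_zero_or_pos w.length with h | h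
  · rw [List.length_eq_zero_iff.1 h, coeff_mul_nil, coeff_mul_nil, coeff_add, coeff_C_nil, hg, hc,
      ha, one_mul, mul_one, add_zero]
  obtain ⟨n, hn⟩ : ∃ n, w.length = n + 1 := ⟨w.length - 1, by omega⟩
  set p := step θ F a n with hp
  set r := p.1 * a - (C θ + p.2) * p.1 with hr
  set dg : Ser A s := ⟨fun u => if u.length = n + 1 then F (r.coeff u) else 0⟩ with hdg
  set dc : Ser A s := ⟨fun u => if u.length = n + 1 then
    r.coeff u - (θ * F (r.coeff u) - F (r.coeff u) * θ) else 0⟩ with hdc
  have hg0 : ∀ u : List s, u.length < w.length → dg.coeff u = 0 := fun u hu => if_neg (by omega)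
  have hc0 : ∀ u : List s, u.length < w.length → dc.coeff u = 0 := fun u hu => if_neg (by omega)
  have hgw : dg.coeff w = F (r.coeff w) := if_pos hn
  have hcw : dc.coeff w = r.coeff w - (θ * F (r.coeff w) - F (r.coeff w) * θ) := if_pos hn
  have e1 : (g * a).coeff w = ((p.1 + dg) * a).coeff w :=
    coeff_mul_congr w (fun u hu => (coeff_eq_limit hs1 (n + 1) u (by omega)).symm) fun _ _ => rfl
  have e2 : ((C θ + c) * g).coeff w = ((C θ + (p.2 + dc)) * (p.1 + dg)).coeff w :=
    coeff_mul_congr w (fun u hu => by
      rw [coeff_add, coeff_add, ← coeff_eq_limit hs2 (n + 1) u (by omega)]; rfl)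
      fun u hu => (coeff_eq_limit hs1 (n + 1) u (by omega)).symm
  have hdd : (dc * dg).coeff w = 0 := by
    rw [coeff_mul_of_left_zero w hc0, hg0 [] (by simp; omega), mul_zero]
  have key : ((p.1 + dg) * a).coeff w - ((C θ + (p.2 + dc)) * (p.1 + dg)).coeff w =
      r.coeff w + dg.coeff w * θ - (θ * dg.coeff w + dc.coeff w) := by
    rw [← coeff_sub, show (p.1 + dg) * a - (C θ + (p.2 + dc)) * (p.1 + dg) =
      r + dg * a - ((C θ + p.2) * dg + dc * p.1 + dc * dg) by rw [hr]; noncomm_ring]
    simp only [coeff_sub, coeff_add, hdd, coeff_mul_of_left_zero w hg0, ha,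
      coeff_mul_of_right_zero w hg0, coeff_mul_of_left_zero w hc0, coeff_C_nil, h0 n, hp,
      mul_one, add_zero]
  rw [e1, e2, ← sub_eq_zero, key, hgw, hcw]
  abel

/-- The linear part of the gauged series. -/
theorem gauge_linear {θ : A} {a g c : Ser A s} (hg : g.coeff [] = 1) (hc : c.coeff [] = 0)
    (ha : a.coeff [] = θ) (h : g * a = (C θ + c) * g) (i : s) :
    c.coeff [i] = a.coeff [i] - (θ * g.coeff [i] - g.coeff [i] * θ) := by
  have h1 := congrArg (fun f => Ser.coeff f [i]) h
  simp only [coeff_mul_cons, coeff_mul_nil, coeff_tail, coeff_add, coeff_C_nil, coeff_C_cons,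
    hg, hc, ha, zero_add, add_zero, one_mul, mul_one] at h1
  rw [eq_sub_iff_add_eq'.2 h1.symm]
  abel

/-- A gauge maps to a gauge. -/
theorem map_gauge {B : Type*} [Ring B] (φ : A →+* B) {θ : A} {a g c : Ser A s}
    (h : g * a = (C θ + c) * g) :
    Ser.map φ g * Ser.map φ a = (C (φ θ) + Ser.map φ c) * Ser.map φ g := by
  have hC : (Ser.map φ (C θ) : Ser B s) = C (φ θ) := by
    ext w; cases w <;> simp
  rw [← map_mul, h, map_mul, map_add, hC]

variable {K : Type*} [Field K] [Algebra K A]

open Polynomial in
/-- A squarefree minimal polynomial in finite dimension splits `A`. -/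
theorem splits_of_squarefree [FiniteDimensional K A] [PerfectField K] {θ : A}
    (h : Squarefree (minpoly K θ)) : Splits θ := by
  set L : Module.End K A := LinearMap.mulLeft K θ
  set R : Module.End K A := LinearMap.mulRight K θ
  have hd := minpoly.aeval K θ
  have hL : L.IsSemisimple := Module.End.isSemisimple_of_squarefree_aeval_eq_zero h (by
    rw [show L = Algebra.lmul K A θ from rfl, aeval_algHom_apply, hd, map_zero])
  have hRe : ∀ (k : ℕ) (x : A), (R ^ k) x = x * θ ^ k := by
    intro k
    induction k with
    | zero => intro x; simp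
    | succ k ih => intro x; rw [pow_succ', Module.End.mul_apply, ih]; simp [R, mul_assoc, pow_succ]
  have hR : R.IsSemisimple := Module.End.isSemisimple_of_squarefree_aeval_eq_zero h (by
    refine LinearMap.ext fun x => ?_
    have e : ∀ P : K[X], aeval R P x = x * aeval θ P := by
      intro P
      induction P using Polynomial.induction_on' with
      | add p q hp hq => simp [hp, hq, mul_add]
      | monomial k t =>
        simp [aeval_monomial, hRe, Algebra.smul_def]
        rw [← mul_assoc, Algebra.commutes, mul_assoc]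
    rw [e, hd, mul_zero, LinearMap.zero_apply])
  have hf : (L - R).IsSemisimple := hL.sub_of_commute (LinearMap.ext fun x => by
    simp [L, R, mul_assoc]) hR
  intro x
  obtain ⟨q, hq, hc⟩ := Module.End.isSemisimple_iff.1 hf (LinearMap.ker (L - R))
    fun y hy => by simp [LinearMap.mem_ker.1 hy]
  obtain ⟨k, hk, v, hv, rfl⟩ := Submodule.mem_sup.1 (hc.codisjoint.eq_top ▸ Submodule.mem_top (x := x))
  have hinj : Function.Injective ((L - R).restrict hq) := by
    rw [injective_iff_map_eq_zero]
    intro y hy
    have : (y : A) ∈ LinearMap.ker (L - R) ⊓ q :=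
      ⟨LinearMap.mem_ker.2 (congrArg Subtype.val hy), y.2⟩
    rw [hc.disjoint.eq_bot, Submodule.mem_bot] at this
    exact Subtype.ext this
  obtain ⟨y, hy⟩ := LinearMap.injective_iff_surjective.1 hinj ⟨v, hv⟩
  have hy' : θ * (y : A) - y * θ = v := by
    have h1 : (L - R) (y : A) = v := congrArg Subtype.val hy
    simpa [L, R] using h1
  refine ⟨y, ?_⟩
  rw [hy', add_sub_cancel_right]
  have : θ * k - k * θ = 0 := by simpa [L, R] using hk
  exact sub_eq_zero.1 this

/-- In characteristic zero every element of a finite dimensional domain splits it. -/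
theorem splits_of_domain [FiniteDimensional K A] [CharZero K] [IsDomain A] (θ : A) : Splits θ :=
  splits_of_squarefree
    (minpoly.irreducible (Algebra.IsIntegral.isIntegral (R := K) θ)).squarefree

end Vale.Agent.P199.Gauge
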