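import Vale.Agent.P199.Facts
import Vale.Agent.P199.Gauge

/-!
# P199: every series over a division algebra is conjugate to a frame

`Gauged A a` packages the change of basis, the gauge and the identities for the charpoly of the
constant term and for the linear and quadratic normalised traces.
-/

open Polynomial Module Finset
open scoped Classical

noncomputable section

namespace Vale.Agent.P199

section Conj

variable {n m F : Type} [Fintype n] [DecidableEq n] [Fintype m] [DecidableEq m] [Field F]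

/-- Conjugation by a rectangular change of basis. -/
def conjEquiv (P : Matrix n m F) (Q : Matrix m n F) (hPQ : P * Q = 1) (hQP : Q * P = 1) :
    Matrix n n F ≃ₐ[F] Matrix m m F :=
  AlgEquiv.ofAlgHom
    { toFun := fun M => Q * M * P
      map_one' := by rw [Matrix.mul_one, hQP]
      map_mul' := fun M N => by
        rw [show Q * M * P * (Q * N * P) = Q * M * (P * Q) * N * P by simp only [Matrix.mul_assoc],
          hPQ, Matrix.mul_one, Matrix.mul_assoc Q M N]
      map_zero' := by simp
      map_add' := fun M N => by rw [Matrix.mul_add, Matrix.add_mul]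
      commutes' := fun c => by simp [Algebra.algebraMap_eq_smul_one, hQP] }
    { toFun := fun M => P * M * Q
      map_one' := by rw [Matrix.mul_one, hPQ]
      map_mul' := fun M N => by
        rw [show P * M * Q * (P * N * Q) = P * M * (Q * P) * N * Q by simp only [Matrix.mul_assoc],
          hQP, Matrix.mul_one, Matrix.mul_assoc P M N]
      map_zero' := by simp
      map_add' := fun M N => by rw [Matrix.mul_add, Matrix.add_mul]
      commutes' := fun c => by simp [Algebra.algebraMap_eq_smul_one, hPQ] }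
    (AlgHom.ext fun M => by
      show Q * (P * M * Q) * P = M
      rw [show Q * (P * M * Q) * P = Q * P * M * (Q * P) by simp only [Matrix.mul_assoc], hQP,
        Matrix.one_mul, Matrix.mul_one])
    (AlgHom.ext fun M => by
      show P * (Q * M * P) * Q = M
      rw [show P * (Q * M * P) * Q = P * Q * M * (P * Q) by simp only [Matrix.mul_assoc], hPQ,
        Matrix.one_mul, Matrix.mul_one])

theorem conjEquiv_apply (P : Matrix n m F) (Q : Matrix m n F) (hPQ : P * Q = 1) (hQP : Q * P = 1)
    (M : Matrix n n F) : conjEquiv P Q hPQ hQP M = Q * M * P := rfl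

theorem trace_conjEquiv (P : Matrix n m F) (Q : Matrix m n F) (hPQ : P * Q = 1) (hQP : Q * P = 1)
    (M : Matrix n n F) : (conjEquiv P Q hPQ hQP M).trace = M.trace := by
  rw [conjEquiv_apply, Matrix.trace_mul_comm, ← Matrix.mul_assoc, hPQ, Matrix.one_mul]

theorem card_eq_of_conj [CharZero F] (P : Matrix n m F) (Q : Matrix m n F) (hPQ : P * Q = 1)
    (hQP : Q * P = 1) : Fintype.card n = Fintype.card m := by
  have h := Matrix.trace_mul_comm P Q
  rw [hPQ, hQP, Matrix.trace_one, Matrix.trace_one] at h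
  exact_mod_cast h

/-- The image of a division algebra under an isomorphism of matrix algebras. -/
def DivAlg.transport (A : DivAlg n F) (φ : Matrix n n F ≃ₐ[F] Matrix m m F) (e : n ≃ m) :
    DivAlg m F where
  K := A.K
  D := A.D.map φ.toAlgHom.toRingHom
  scalar_mem x hx := ⟨Matrix.scalar n x, A.scalar_mem x hx, by
    show φ (algebraMap F (Matrix n n F) x) = algebraMap F (Matrix m m F) x
    exact φ.commutes x⟩
  b p := φ (A.b (e.symm p.1, e.symm p.2))
  b_mem p := ⟨_, A.b_mem _, rfl⟩
  b_indep := by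
    have h := A.b_indep.comp (fun p : m × m => (e.symm p.1, e.symm p.2)) fun p p' h =>
      Prod.ext (e.symm.injective (congrArg Prod.fst h)) (e.symm.injective (congrArg Prod.snd h))
    exact h.map' φ.toLinearMap (LinearMap.ker_eq_bot.2 φ.injective)
  exists_coord := by
    rintro _ ⟨x, hx, rfl⟩
    obtain ⟨c, hc, rfl⟩ := A.exists_coord x hx
    refine ⟨fun p => c (e.symm p.1, e.symm p.2), fun p => hc _, ?_⟩
    show φ (∑ i, c i • A.b i) = _
    rw [map_sum, ← (Equiv.prodCongr e.symm e.symm).sum_comp]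
    exact sum_congr rfl fun p _ => map_smul φ _ _
  no_zero_div := by
    rintro _ ⟨x, hx, rfl⟩ _ ⟨y, hy, rfl⟩ h
    have h0 : x * y = 0 := φ.injective (by rw [map_mul, map_zero]; exact h)
    rcases A.no_zero_div x hx y hy h0 with rfl | rfl
    · exact Or.inl (map_zero φ)
    · exact Or.inr (map_zero φ)
  roots := A.roots

/-- A matrix commuting with a block diagonal scalar matrix with distinct entries is block
diagonal. -/
theorem eq_blockDiagonal_of_commute {β ρ : Type} [Fintype β] [DecidableEq β] [Fintype ρ]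
    [DecidableEq ρ] {root : ρ → F} (hinj : Function.Injective root)
    {M : Matrix (β × ρ) (β × ρ) F}
    (h : Commute (Matrix.blockDiagonal fun r => Matrix.scalar β (root r)) M) :
    M = Matrix.blockDiagonal (Matrix.blockDiag M) := by
  ext ⟨a, r⟩ ⟨b, s⟩
  rw [Matrix.blockDiagonal_apply]
  split_ifs with hrs
  · cases hrs; rfl
  · have h1 := congrFun (congrFun h.eq (a, r)) (b, s)
    simp only [Matrix.scalar_apply, Matrix.blockDiagonal_diagonal, Matrix.diagonal_mul,
      Matrix.mul_diagonal] at h1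
    by_contra h0
    exact hrs (hinj (mul_right_cancel₀ h0 (h1.trans (mul_comm _ _))))

/-- An idempotent of trace `μ` factors through `F ^ μ`. -/
theorem exists_factor [CharZero F] {e : Matrix n n F} (he : IsIdempotentElem e) {μ : ℕ}
    (hμ : e.trace = μ) :
    ∃ (A : Matrix n (Fin μ) F) (B : Matrix (Fin μ) n F), A * B = e ∧ B * A = 1 := by
  let f : (n → F) →ₗ[F] (n → F) := Matrix.toLin' e
  have hf : IsIdempotentElem f := by
    change f * f = f
    rw [Module.End.mul_eq_comp, ← Matrix.toLin'_mul, he]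
  have hp := LinearMap.IsIdempotentElem.isProj_range f hf
  let b := Module.finBasis F (LinearMap.range f)
  let A : Matrix n (Fin (finrank F (LinearMap.range f))) F :=
    LinearMap.toMatrix b (Pi.basisFun F n) (LinearMap.range f).subtype
  let B : Matrix (Fin (finrank F (LinearMap.range f))) n F :=
    LinearMap.toMatrix (Pi.basisFun F n) b f.rangeRestrict
  have hAB : A * B = e := by
    rw [← LinearMap.toMatrix_comp, LinearMap.subtype_comp_codRestrict,
      LinearMap.toMatrix_eq_toMatrix', LinearMap.toMatrix'_toLin']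
  have hBA : B * A = 1 := by
    rw [← LinearMap.toMatrix_comp, ← LinearMap.toMatrix_id b]
    congr 1
    ext ⟨x, hx⟩ : 2
    exact hp.map_id x hx
  have hdim : finrank F (LinearMap.range f) = μ := by
    have h := congrArg Matrix.trace hBA
    rw [Matrix.trace_mul_comm, hAB, hμ, Matrix.trace_one, Fintype.card_fin] at h
    exact_mod_cast h.symm
  subst hdim
  exact ⟨A, B, hAB, hBA⟩

/-- A family of orthogonal idempotents of trace `μ` with sum one gives a change of basis. -/
theorem exists_eigenbasis [CharZero F] {ρ : Type} [Fintype ρ] [DecidableEq ρ] {μ : ℕ}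
    (E : ρ → Matrix n n F) (hEE : ∀ r s, E r * E s = if r = s then E r else 0)
    (hsum : ∑ r, E r = 1) (htr : ∀ r, (E r).trace = μ) :
    ∃ (P : Matrix n (Fin μ × ρ) F) (Q : Matrix (Fin μ × ρ) n F), P * Q = 1 ∧ Q * P = 1 ∧
      ∀ c : ρ → F, Q * (∑ r, c r • E r) * P =
        Matrix.blockDiagonal fun r => Matrix.scalar (Fin μ) (c r) := by
  choose L R hLR hRL using fun r => exists_factor (e := E r)
    (by simpa [IsIdempotentElem] using hEE r r) (htr r)
  let P : Matrix n (Fin μ × ρ) F := fun i x => L x.2 i x.1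
  let Q : Matrix (Fin μ × ρ) n F := fun x i => R x.2 x.1 i
  have hblock : ∀ (M : Matrix n n F) (x z : Fin μ × ρ),
      (Q * M * P) x z = (R x.2 * M * L z.2) x.1 z.1 := fun M x z => rfl
  have hRE : ∀ r s, R r * E s = if r = s then R r else 0 := by
    intro r s
    have h1 : R r = R r * E r := by rw [← hLR, ← Matrix.mul_assoc, hRL, Matrix.one_mul]
    conv_lhs => rw [h1, Matrix.mul_assoc, hEE]
    split_ifs with hrs
    · exact h1.symm
    · rw [Matrix.mul_zero]
  have hRL' : ∀ r s, R r * L s = if r = s then 1 else 0 := by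
    intro r s
    have h1 : L s = E s * L s := by rw [← hLR, Matrix.mul_assoc, hRL, Matrix.mul_one]
    rw [h1, ← Matrix.mul_assoc, hRE]
    split_ifs with hrs
    · subst hrs; exact hRL r
    · rw [Matrix.zero_mul]
  have hPQ : P * Q = 1 := by
    rw [← hsum]
    refine Matrix.ext fun i k => ?_
    simp only [Matrix.sum_apply, ← hLR, Matrix.mul_apply, P, Q]
    exact Fintype.sum_prod_type_right _
  refine ⟨P, Q, hPQ, ?_, fun c => ?_⟩
  · refine Matrix.ext fun x z => ?_
    have h1 := hblock 1 x z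
    rw [Matrix.mul_one, Matrix.mul_one, hRL'] at h1
    rw [h1]
    by_cases h2 : x.2 = z.2
    · rw [if_pos h2, Matrix.one_apply, Matrix.one_apply]
      exact if_congr ⟨fun h3 => Prod.ext h3 h2, congrArg Prod.fst⟩ rfl rfl
    · rw [if_neg h2, Matrix.zero_apply, Matrix.one_apply_ne fun h3 => h2 (congrArg Prod.snd h3)]
  · refine Matrix.ext fun x z => ?_
    rw [hblock, Matrix.mul_sum, Finset.sum_eq_single x.2 (fun s _ hs => by
      rw [Matrix.mul_smul, hRE, if_neg hs.symm, smul_zero]) (by simp), Matrix.mul_smul, hRE,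
      if_pos rfl, Matrix.smul_mul, hRL', Matrix.blockDiagonal_apply]
    by_cases h2 : x.2 = z.2
    · rw [if_pos h2, if_pos h2, Matrix.scalar_apply, Matrix.smul_one_eq_diagonal]
    · simp [h2]

/-- The trace of the degree two part of a gauged series against an eigenprojection. -/
theorem quad_trace {ρ : Type} [Fintype ρ] [DecidableEq ρ] {root : ρ → F}
    (hinj : Function.Injective root) {T : Matrix n n F} {E : ρ → Matrix n n F}
    (hEE : ∀ r s, E r * E s = if r = s then E r else 0) (hsum : ∑ r, E r = 1)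
    (hET : ∀ r, E r * T = root r • E r ∧ T * E r = root r • E r)
    {g gj g₂ ci a aj a₂ c₂ y yj : Matrix n n F} (hg : g = T * y - y * T)
    (hgj : gj = T * yj - yj * T) (hci : ci = a - (T * g - g * T))
    (hcomm : ∀ r, Commute (E r) ci)
    (h2 : g₂ * T + g * aj + a₂ = T * g₂ + ci * gj + c₂) (r : ρ) :
    (E r * c₂).trace = (E r * a₂).trace +
      ∑ s ∈ univ.erase r, (root r - root s)⁻¹ * (E r * a * E s * aj).trace := by
  have hadj : ∀ M : Matrix n n F, (E r * (T * M)).trace = (E r * (M * T)).trace := by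
    intro M
    rw [← Matrix.mul_assoc (E r) M, Matrix.trace_mul_comm (E r * M), ← Matrix.mul_assoc,
      ← Matrix.mul_assoc, (hET r).1, (hET r).2]
  have hmid : ∀ (s : ρ) (M : Matrix n n F),
      E r * (T * M - M * T) * E s = (root r - root s) • (E r * M * E s) := by
    intro s M
    rw [Matrix.mul_sub, Matrix.sub_mul, ← Matrix.mul_assoc, (hET r).1,
      Matrix.mul_assoc (E r) (M * T), Matrix.mul_assoc M, (hET s).2, sub_smul]
    simp only [Matrix.smul_mul, Matrix.mul_smul, Matrix.mul_assoc]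
  have h0 : (E r * (ci * gj)).trace = 0 := by
    have e1 : E r * gj * E r = 0 := by rw [hgj, hmid, sub_self, zero_smul]
    have hE : E r = E r * E r := by rw [hEE, if_pos rfl]
    calc (E r * (ci * gj)).trace = (E r * (E r * ci * gj)).trace := by
          conv_lhs => rw [hE]
          simp only [Matrix.mul_assoc]
      _ = (ci * E r * gj * E r).trace := by rw [Matrix.trace_mul_comm, (hcomm r).eq]
      _ = 0 := by
          rw [show ci * E r * gj * E r = ci * (E r * gj * E r) by simp only [Matrix.mul_assoc],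
            e1, Matrix.mul_zero, Matrix.trace_zero]
  have h1 : ∀ s, s ≠ r → E r * g * E s = (root r - root s)⁻¹ • (E r * a * E s) := by
    intro s hs
    have e1 : E r * ci * E s = 0 := by
      rw [(hcomm r).eq, Matrix.mul_assoc, hEE, if_neg (Ne.symm hs), Matrix.mul_zero]
    rw [hci, Matrix.mul_sub, Matrix.sub_mul, hmid, sub_eq_zero] at e1
    rw [e1, inv_smul_smul₀ (sub_ne_zero.2 fun h => hs (hinj h).symm)]
  have h3 : E r * g * E r = 0 := by rw [hg, hmid, sub_self, zero_smul]
  have e : c₂ = a₂ + g * aj - ci * gj - (T * g₂ - g₂ * T) := by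
    have h := sub_eq_zero.2 h2
    rw [← sub_eq_zero, ← neg_eq_zero, ← h]
    abel
  have h4 : E r * (g * aj) = ∑ s, E r * g * E s * aj := by
    rw [← Matrix.sum_mul, ← Matrix.mul_sum, hsum, Matrix.mul_one, Matrix.mul_assoc]
  rw [e, Matrix.mul_sub, Matrix.mul_sub, Matrix.mul_add, Matrix.mul_sub, Matrix.trace_sub,
    Matrix.trace_sub, Matrix.trace_add, Matrix.trace_sub, hadj, sub_self, sub_zero, h0, sub_zero,
    h4, ← Finset.add_sum_erase _ _ (mem_univ r), h3, Matrix.zero_mul, zero_add, Matrix.trace_sum]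
  congr 1
  refine sum_congr rfl fun s hs => ?_
  rw [h1 s (ne_of_mem_erase hs), Matrix.smul_mul, Matrix.trace_smul, smul_eq_mul]

end Conj

/-- A change of basis and a gauge turning `a` into a frame over the conjugate of `A`. -/
structure Gauged {n F ι : Type} [Fintype n] [DecidableEq n] [Field F] (A : DivAlg n F)
    (a : Ser (Matrix n n F) ι) where
  ρ : Type
  [fintypeρ : Fintype ρ]
  [decρ : DecidableEq ρ]
  [nonemptyρ : Nonempty ρ]
  β : Type
  [fintypeβ : Fintype β]
  [decβ : DecidableEq β]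
  [nonemptyβ : Nonempty β]
  P : Matrix n (β × ρ) F
  Q : Matrix (β × ρ) n F
  PQ : P * Q = 1
  QP : Q * P = 1
  root : ρ → F
  root_injective : Function.Injective root
  G : (Ser (Matrix n n F) ι)ˣ
  G_nil : (G : Ser (Matrix n n F) ι).coeff [] = 1
  G_mem : ∀ w, (G : Ser (Matrix n n F) ι).coeff w ∈ A.D
  Ginv_mem : ∀ w, (↑G⁻¹ : Ser (Matrix n n F) ι).coeff w ∈ A.D
  mem : ∀ w, ((G : Ser (Matrix n n F) ι) * a * ↑G⁻¹).coeff w ∈ A.D
  X : ρ → Ser (Matrix β β F) ι
  X_nil : ∀ r, (X r).coeff [] = 0
  conj_nil : conjEquiv P Q PQ QP (a.coeff []) =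
    Matrix.blockDiagonal fun r => Matrix.scalar β (root r)
  conj_cons : ∀ i w, conjEquiv P Q PQ QP (((G : Ser (Matrix n n F) ι) * a * ↑G⁻¹).coeff (i :: w)) =
    Matrix.blockDiagonal fun r => (X r).coeff (i :: w)
  charpoly_eq : (a.coeff []).charpoly =
    ∏ r, (Polynomial.X - Polynomial.C (root r)) ^ Fintype.card β
  trace_eq : ∀ (g : Polynomial F) (i : ι), Matrix.trace (aeval (a.coeff []) g * a.coeff [i]) =
    ∑ r, g.eval (root r) * (Fintype.card β : F) * lf (X r) i
  quad_eq : ∀ (r : ρ) (i j : ι), (Fintype.card β : F) * (yser (X r)).coeff [i, j] =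
    Matrix.trace (aeval (a.coeff []) (Lagrange.basis univ root r) * a.coeff [i, j]) +
      ∑ s ∈ univ.erase r, (root r - root s)⁻¹ * Matrix.trace
        (aeval (a.coeff []) (Lagrange.basis univ root r) * a.coeff [i] *
          aeval (a.coeff []) (Lagrange.basis univ root s) * a.coeff [j])

attribute [instance] Gauged.fintypeρ Gauged.decρ Gauged.nonemptyρ Gauged.fintypeβ Gauged.decβ
  Gauged.nonemptyβ

namespace Gauged

variable {n F ι : Type} [Fintype n] [DecidableEq n] [Field F] [IsAlgClosed F] [CharZero F]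
  [Fintype ι] [DecidableEq ι] {A : DivAlg n F} {a : Ser (Matrix n n F) ι} (d : Gauged A a)

/-- The change of basis. -/
def conj : Matrix n n F ≃ₐ[F] Matrix (d.β × d.ρ) (d.β × d.ρ) F := conjEquiv d.P d.Q d.PQ d.QP

/-- The index sets have the same size. -/
def e : n ≃ d.β × d.ρ :=
  Fintype.equivOfCardEq (card_eq_of_conj d.P d.Q d.PQ d.QP)

omit [IsAlgClosed F] [CharZero F] [Fintype ι] [DecidableEq ι] in
theorem trace_conj (M : Matrix n n F) : (d.conj M).trace = M.trace := trace_conjEquiv _ _ _ _ M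

omit [IsAlgClosed F] [Fintype ι] [DecidableEq ι] in
/-- The change of basis is a reindexing followed by a conjugation. -/
theorem exists_conj_unit : ∃ V : (Matrix (d.β × d.ρ) (d.β × d.ρ) F)ˣ, ∀ M : Matrix n n F,
    d.conj M = (V : Matrix (d.β × d.ρ) (d.β × d.ρ) F) * M.submatrix d.e.symm d.e.symm *
      (↑V⁻¹ : Matrix (d.β × d.ρ) (d.β × d.ρ) F) := by
  refine ⟨⟨d.Q.submatrix id d.e.symm, d.P.submatrix d.e.symm id, ?_, ?_⟩, fun M => ?_⟩
  · rw [Matrix.submatrix_mul_equiv, d.QP, Matrix.submatrix_id_id]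
  · rw [← Matrix.submatrix_mul _ _ _ _ _ Function.bijective_id, d.PQ, Matrix.submatrix_one_equiv]
  · show d.Q * M * d.P = _
    rw [Units.inv_mk, Matrix.submatrix_mul_equiv, Matrix.submatrix_mul_equiv, Matrix.submatrix_id_id]

/-- The gauged series. -/
def gauged : Ser (Matrix n n F) ι := (d.G : Ser (Matrix n n F) ι) * a * ↑d.G⁻¹

omit [IsAlgClosed F] [CharZero F] [Fintype ι] [DecidableEq ι] in
theorem coeff_gauged_nil : d.gauged.coeff [] = a.coeff [] := by
  have h : ((d.G : Ser (Matrix n n F) ι) * ↑d.G⁻¹).coeff [] = 1 := by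
    rw [Units.mul_inv, Series.Ser.coeff_one]; rfl
  rw [Series.Ser.coeff_mul_nil, d.G_nil, one_mul] at h
  simp [gauged, d.G_nil, h]

/-- The frame. -/
@[reducible] def frame : Frame where
  F := F
  ρ := d.ρ
  β := d.β
  ι := ι
  alg := A.transport d.conj d.e
  root := d.root
  root_injective := d.root_injective
  root_mem := ⟨a.coeff [], d.coeff_gauged_nil ▸ d.mem [], d.conj_nil⟩
  X := d.X
  X_nil := d.X_nil
  X_mem w := by
    cases w with
    | nil =>
      refine ⟨0, A.D.zero_mem, ?_⟩
      simp only [map_zero, d.X_nil]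
      exact Matrix.blockDiagonal_zero.symm
    | cons i w => exact ⟨_, d.mem _, d.conj_cons i w⟩

/-- The series of the frame is the conjugate of the gauged series. -/
theorem ser_eq : (d.frame.ser : Ser (Matrix (d.β × d.ρ) (d.β × d.ρ) F) ι) =
    Series.Ser.map d.conj.toAlgHom.toRingHom d.gauged := by
  show Series.Ser.C (Matrix.blockDiagonal fun r => Matrix.scalar d.β (d.root r)) +
    (⟨fun w => Matrix.blockDiagonal fun r => (d.X r).coeff w⟩ :
      Ser (Matrix (d.β × d.ρ) (d.β × d.ρ) F) ι) = _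
  refine Series.Ser.ext (funext fun w => ?_)
  rw [Series.Ser.coeff_map, Series.Ser.coeff_add]
  cases w with
  | nil =>
    rw [Series.Ser.coeff_C_nil, d.coeff_gauged_nil]
    simp only [d.X_nil]
    rw [show (fun r : d.ρ => (0 : Matrix d.β d.β F)) = 0 from rfl, Matrix.blockDiagonal_zero,
      add_zero]
    exact d.conj_nil.symm
  | cons i w =>
    rw [Series.Ser.coeff_C_cons, zero_add]
    exact (d.conj_cons i w).symm

end Gauged

section Normal

open Series

variable {R : Type} [Ring R] {ι : Type}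

/-- A gauge whose linear part lies in the range of `ad θ`. -/
theorem exists_normal_gauge {θ : R} (hsplit : Gauge.Splits θ) (a : Ser R ι)
    (ha : a.coeff [] = θ) :
    ∃ (v : (Ser R ι)ˣ) (c : Ser R ι) (y : ι → R), (↑v : Ser R ι).coeff [] = 1 ∧ c.coeff [] = 0 ∧
      (∀ w, Commute θ (c.coeff w)) ∧ (↑v : Ser R ι) * a * (↑v⁻¹ : Ser R ι) = Ser.C θ + c ∧
      (∀ i, (↑v : Ser R ι).coeff [i] = θ * y i - y i * θ) ∧
      (∀ i, c.coeff [i] =
        a.coeff [i] - (θ * (↑v : Ser R ι).coeff [i] - (↑v : Ser R ι).coeff [i] * θ)) ∧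
      ∀ i j, (↑v : Ser R ι).coeff [i, j] * θ + (↑v : Ser R ι).coeff [i] * a.coeff [j] +
          a.coeff [i, j] =
        θ * (↑v : Ser R ι).coeff [i, j] + c.coeff [i] * (↑v : Ser R ι).coeff [j] +
          c.coeff [i, j] := by
  obtain ⟨g₀, c₀, hg₀, ⟨u₀, rfl⟩, hc₀, hcomm₀, heq₀⟩ := Gauge.exists_gauge hsplit a ha
  choose y hy using fun i => hsplit ((↑u₀ : Ser R ι).coeff [i])
  let h : Ser R ι := ⟨fun w => match w with
    | [] => 1
    | [i] => -((↑u₀ : Ser R ι).coeff [i] - (θ * y i - y i * θ))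
    | _ :: _ :: _ => 0⟩
  obtain ⟨u, hu⟩ := Gauge.isUnit_of_coeff_nil (f := h) rfl
  have hCh : Commute (Ser.C θ) (↑u : Ser R ι) := by
    rw [hu]
    refine Ser.ext (funext fun w => ?_)
    rw [Ser.coeff_C_mul, Ser.coeff_mul_C]
    match w with
    | [] => exact (Commute.one_right θ).eq
    | [i] => exact (hy i).neg_right.eq
    | _ :: _ :: _ => show θ * 0 = 0 * θ; simp
  have hCc₀ : Commute (Ser.C θ) c₀ := by
    refine Ser.ext (funext fun w => ?_)
    rw [Ser.coeff_C_mul, Ser.coeff_mul_C]
    exact (hcomm₀ w).eq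
  let c : Ser R ι := (↑u : Ser R ι) * c₀ * (↑u⁻¹ : Ser R ι)
  have hCc : Commute (Ser.C θ) c := (hCh.mul_right hCc₀).mul_right hCh.units_inv_right
  have hgauge : (↑(u * u₀) : Ser R ι) * a * (↑(u * u₀)⁻¹ : Ser R ι) = Ser.C θ + c := by
    have e1 : (↑(u * u₀) : Ser R ι) * a * (↑(u * u₀)⁻¹ : Ser R ι) =
        (↑u : Ser R ι) * ((↑u₀ : Ser R ι) * a) * (↑u₀⁻¹ : Ser R ι) * (↑u⁻¹ : Ser R ι) := by
      simp [mul_assoc]
    rw [e1, heq₀]
    rw [show (↑u : Ser R ι) * ((Ser.C θ + c₀) * ↑u₀) * (↑u₀⁻¹ : Ser R ι) =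
      (↑u : Ser R ι) * (Ser.C θ + c₀) by simp [mul_assoc]]
    rw [mul_add, add_mul, ← hCh.eq, Units.mul_inv_cancel_right]
  have hv : (↑(u * u₀) : Ser R ι).coeff [] = 1 := by
    rw [Units.val_mul, Ser.coeff_mul_nil, hu, hg₀, mul_one]
  have hc : c.coeff [] = 0 := by simp [c, hc₀]
  have hga : (↑(u * u₀) : Ser R ι) * a = (Ser.C θ + c) * (↑(u * u₀) : Ser R ι) := by
    rw [← hgauge, Units.inv_mul_cancel_right]
  refine ⟨u * u₀, c, y, hv, hc, fun w => ?_, hgauge, fun i => ?_,
    fun i => Gauge.gauge_linear hv hc ha hga i, fun i j => ?_⟩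
  · have h1 := congrArg (fun f => Ser.coeff f w) hCc.eq
    simp only [Ser.coeff_C_mul, Ser.coeff_mul_C] at h1
    exact h1
  · rw [Units.val_mul, hu, Ser.coeff_mul_cons, Ser.coeff_mul_nil]
    show (1 : R) * (↑u₀ : Ser R ι).coeff [i] +
      (-((↑u₀ : Ser R ι).coeff [i] - (θ * y i - y i * θ))) * (↑u₀ : Ser R ι).coeff [] = _
    rw [hg₀, one_mul, mul_one]
    abel
  · have h1 := congrArg (fun f => Ser.coeff f [i, j]) hga
    simp only [Ser.coeff_mul_cons, Ser.coeff_mul_nil, Ser.coeff_tail, Ser.coeff_add,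
      Ser.coeff_C_nil, Ser.coeff_C_cons, hv, hc, ha, zero_add, add_zero, one_mul, mul_one] at h1
    rw [← sub_eq_zero] at h1 ⊢
    rw [← h1]
    abel

end Normal

section Exists

variable {n F ι : Type} [Fintype n] [DecidableEq n] [Nonempty n] [Field F] [IsAlgClosed F]
  [CharZero F]

/-- Every series with coefficients in a division algebra is gauged. -/
theorem exists_gauged (A : DivAlg n F) (a : Ser (Matrix n n F) ι) (ha : ∀ w, a.coeff w ∈ A.D) :
    Nonempty (Gauged A a) := by
  let a' : Ser A.D ι := ⟨fun w => ⟨a.coeff w, ha w⟩⟩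
  let θ : A.D := ⟨a.coeff [], ha []⟩
  obtain ⟨v, c, y, hv, hc, hcomm, hgauge, hv1, hlin, hquad⟩ :=
    exists_normal_gauge (Gauge.splits_of_domain (K := A.K) θ) a' rfl
  obtain ⟨μ, hμ, hcard, htr⟩ := Split.exists_trace_idem_eq A.io_span A.finrank_eq (θ := θ)
  obtain ⟨μ', hμ', hcard', hcp⟩ := Split.exists_charpoly_eq A.io_span A.finrank_eq (θ := θ)
  obtain rfl : μ' = μ := Nat.eq_of_mul_eq_mul_right
    (Split.minpoly_irreducible (K := A.K) θ).natDegree_pos (hcard'.trans hcard.symm)
  let ρ := {α // α ∈ Split.rts A.K F θ}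
  have : Nonempty ρ := (Split.rts_nonempty (K := A.K) (F := F) θ).to_subtype
  have : Nonempty (Fin μ') := ⟨⟨0, hμ⟩⟩
  let E : ρ → Matrix n n F := fun r => Split.idem A.io θ r.1
  have hEE : ∀ r s : ρ, E r * E s = if r = s then E r else 0 := fun r s => by
    simp only [E, Split.idem_mul r.2 s.2]
    by_cases hrs : r = s
    · rw [if_pos hrs, if_pos (congrArg Subtype.val hrs)]
    · rw [if_neg hrs, if_neg fun h => hrs (Subtype.ext h)]
  have hsum : ∑ r, E r = 1 := by
    rw [← Split.sum_idem (io := A.io) (θ := θ), ← Finset.sum_coe_sort (Split.rts A.K F θ)]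
  obtain ⟨P, Q, hPQ, hQP, hdiag⟩ := exists_eigenbasis E hEE hsum fun r => htr r.1 r.2
  have hEθ : ∀ r : ρ, E r * a.coeff [] = r.1 • E r ∧ a.coeff [] * E r = r.1 • E r := by
    intro r
    have h1 : a.coeff [] * E r = r.1 • E r := by
      have h := Split.aeval_mul_idem (io := A.io) Polynomial.X r.2
      rw [aeval_X, eval_X] at h
      exact h
    exact ⟨((Split.commute_idem (io := A.io) (Commute.refl _) r.1).eq).trans h1, h1⟩
  have hEc : ∀ (r : ρ) w, Commute (E r) ((c.coeff w : A.D) : Matrix n n F) := fun r w =>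
    Split.commute_idem (io := A.io) ((hcomm w).map A.D.subtype) r.1
  have hθ : a.coeff [] = ∑ r : ρ, r.1 • E r := by
    conv_lhs => rw [← Matrix.mul_one (a.coeff []), ← hsum, Matrix.mul_sum]
    exact sum_congr rfl fun r _ => (hEθ r).2
  have hφθ : Q * a.coeff [] * P =
      Matrix.blockDiagonal fun r : ρ => Matrix.scalar (Fin μ') r.1 := hθ ▸ hdiag _
  let X : ρ → Ser (Matrix (Fin μ') (Fin μ') F) ι := fun r =>
    ⟨fun w => Matrix.blockDiag (Q * ((c.coeff w : A.D) : Matrix n n F) * P) r⟩
  have hXc : ∀ w, Q * ((c.coeff w : A.D) : Matrix n n F) * P =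
      Matrix.blockDiagonal fun r => (X r).coeff w := by
    intro w
    refine eq_blockDiagonal_of_commute (root := fun r : ρ => r.1) Subtype.val_injective ?_
    rw [← hφθ]
    exact ((hcomm w).map A.D.subtype).map (conjEquiv P Q hPQ hQP)
  have htrX : ∀ r w, (Fintype.card (Fin μ') : F) * (yser (X r)).coeff w =
      (E r * ((c.coeff w : A.D) : Matrix n n F)).trace := by
    intro r w
    have e1 : E r = ∑ s, (if s = r then (1 : F) else 0) • E s := by simp
    rw [← trace_conjEquiv P Q hPQ hQP, map_mul, conjEquiv_apply, conjEquiv_apply, e1, hdiag, hXc,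
      ← Matrix.blockDiagonal_mul, Matrix.trace_blockDiagonal,
      Finset.sum_eq_single r (fun s _ hs => by simp [hs]) (by simp), if_pos rfl, map_one, one_mul]
    exact mul_inv_cancel_left₀ (Nat.cast_ne_zero.2 Fintype.card_ne_zero) _
  have hlin' : ∀ i, ((c.coeff [i] : A.D) : Matrix n n F) = a.coeff [i] -
      (a.coeff [] * (↑v : Ser A.D ι).coeff [i] - (↑v : Ser A.D ι).coeff [i] * a.coeff []) :=
    fun i => congrArg Subtype.val (hlin i)
  have hlinT : ∀ r i, (E r * ((c.coeff [i] : A.D) : Matrix n n F)).trace =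
      (E r * a.coeff [i]).trace := by
    intro r i
    rw [hlin' i, Matrix.mul_sub, Matrix.mul_sub, Matrix.trace_sub, Matrix.trace_sub,
      ← Matrix.mul_assoc, ← Matrix.mul_assoc, (hEθ r).1,
      Matrix.trace_mul_comm (E r * _) (a.coeff []), ← Matrix.mul_assoc, (hEθ r).2, sub_self,
      sub_zero]
  have hLag : ∀ r : ρ, aeval (a.coeff []) (Lagrange.basis univ (fun s : ρ => s.1) r) = E r := by
    intro r
    refine Split.aeval_congr (io := A.io) θ fun α hα => ?_
    rw [Split.eval_basis θ r.2 hα]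
    split_ifs with h1
    · subst h1
      exact Lagrange.eval_basis_self Subtype.val_injective.injOn (mem_univ r)
    · exact Lagrange.eval_basis_of_ne (F := F) (s := (univ : Finset ρ))
        (v := fun s : ρ => s.1) (i := r) (j := (⟨α, hα⟩ : ρ))
        (fun h2 => h1 (congrArg Subtype.val h2).symm)
        (mem_univ _)
  let incl : A.D →+* Matrix n n F := A.D.subtype
  let G := Units.map (Series.Ser.map (s := ι) incl).toMonoidHom v
  have hGa : (↑G : Ser (Matrix n n F) ι) * a * (↑G⁻¹ : Ser (Matrix n n F) ι) =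
      Series.Ser.map incl (Series.Ser.C θ + c) := by
    rw [← hgauge, map_mul, map_mul]
    rfl
  exact ⟨{
    ρ := ρ
    β := Fin μ'
    P := P
    Q := Q
    PQ := hPQ
    QP := hQP
    root := fun r => r.1
    root_injective := Subtype.val_injective
    G := G
    G_nil := congrArg Subtype.val hv
    G_mem := fun w => ((↑v : Ser A.D ι).coeff w).2
    Ginv_mem := fun w => ((↑v⁻¹ : Ser A.D ι).coeff w).2
    mem := fun w => by
      rw [hGa, Series.Ser.coeff_map]
      exact ((Series.Ser.C θ + c).coeff w).2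
    X := X
    X_nil := fun r => by
      show Matrix.blockDiag (Q * ((c.coeff [] : A.D) : Matrix n n F) * P) r = 0
      rw [hc, ZeroMemClass.coe_zero, Matrix.mul_zero, Matrix.zero_mul]
      rfl
    conj_nil := hφθ
    conj_cons := fun i w => by
      rw [hGa, conjEquiv_apply, ← hXc]
      simp [incl]
    charpoly_eq := by
      show (A.io θ).charpoly = _
      rw [hcp, Split.minpoly_map_eq_prod θ, Fintype.card_fin, ← Finset.prod_pow,
        ← Finset.prod_coe_sort (Split.rts A.K F θ)]
    trace_eq := fun g i => by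
      show (aeval (A.io θ) g * a.coeff [i]).trace = _
      rw [Split.aeval_eq_sum, ← Finset.sum_coe_sort (Split.rts A.K F θ), Finset.sum_mul,
        Matrix.trace_sum]
      refine sum_congr rfl fun r _ => ?_
      rw [Matrix.smul_mul, Matrix.trace_smul, smul_eq_mul, mul_assoc, lf, htrX, hlinT]
    quad_eq := fun r i j => by
      rw [htrX]
      simp only [hLag]
      exact quad_trace (root := fun s : ρ => s.1) Subtype.val_injective hEE hsum hEθ
        (congrArg Subtype.val (hv1 i)) (congrArg Subtype.val (hv1 j)) (hlin' i)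
        (fun s => hEc s [i]) (congrArg Subtype.val (hquad i j)) r }⟩

end Exists

end Vale.Agent.P199
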