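import Mathlib
import Vale.Agent.P199.Final
import Vale.Agent.P199.Gauged
import Vale.Agent.P199.Desc

/-!
P199: the gauge of a transcendental series has a nonzero block.
-/

open Finset

noncomputable section

namespace Vale.Agent.P199

open Series

/-- A series conjugate to a constant of the division algebra is algebraic over the centre. -/
theorem DivAlg.isAlgebraic_of_conj {n : Type} [Fintype n] [DecidableEq n] [Nonempty n] {F : Type}
    [Field F] (A : DivAlg n F) {ι : Type} (x : Ser A.D ι) (θ : A.D)
    (W : (Ser (Matrix n n F) ι)ˣ)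
    (h : Ser.map A.D.subtype x = (↑W : Ser (Matrix n n F) ι) *
      Ser.C (θ : Matrix n n F) * (↑W⁻¹ : Ser (Matrix n n F) ι)) : IsAlgebraic A.K x := by
  obtain ⟨p, hp, hp'⟩ := Algebra.IsAlgebraic.isAlgebraic (R := A.K) θ
  refine ⟨p, hp, ?_⟩
  let incl : Ser A.D ι →+* Ser (Matrix n n F) ι := Ser.map A.D.subtype
  have hinj : Function.Injective incl := fun f g e => Ser.ext (funext fun w =>
    Subtype.ext (congrArg (fun s => Ser.coeff s w) e))
  refine hinj ?_
  have hW : (Polynomial.aeval x p : Ser A.D ι) = Polynomial.eval₂ (algebraMap A.K _) x p := rfl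
  rw [map_zero, hW, Polynomial.hom_eval₂]
  have hconj : ∀ c : A.K, conjRing W (incl (algebraMap A.K _ c)) = incl (algebraMap A.K _ c) := by
    intro c
    rw [conjRing_apply]
    have hc : Commute (incl (algebraMap A.K _ c)) (↑W : Ser (Matrix n n F) ι) := by
      show Commute (Ser.map A.D.subtype (Ser.C (algebraMap A.K A.D c))) _
      rw [Ser.map_C]
      refine Ser.C_commute (A := Matrix n n F) (fun d => ?_) _
      exact (Matrix.scalar_commute (c : F) (fun r' => Commute.all _ _) d).eq
    rw [← hc.eq, Units.mul_inv_cancel_right]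
  have hx : incl x = conjRing W (Ser.map A.D.subtype (Ser.C θ)) := by
    rw [conjRing_apply, Ser.map_C]
    exact h
  have hcomp : incl.comp (algebraMap A.K (Ser A.D ι)) =
      (conjRing W).comp (incl.comp (algebraMap A.K (Ser A.D ι))) :=
    RingHom.ext fun c => (hconj c).symm
  have h0 : Polynomial.eval₂ (algebraMap A.K (Ser A.D ι)) (Ser.C θ) p = 0 := by
    have := congrArg (Ser.C : A.D →+* Ser A.D ι) hp'
    rw [map_zero, Polynomial.aeval_def, Polynomial.hom_eval₂] at this
    exact this
  rw [hcomp, hx, ← Polynomial.hom_eval₂ p (incl.comp (algebraMap A.K (Ser A.D ι))),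
    ← Polynomial.hom_eval₂, h0, map_zero, map_zero]

/-- If a transcendental series is gauged, some block is nonzero. -/
theorem exists_block_ne_zero (s : Stg) (a : Ser s.A.D (Fin 2)) (ha : ¬ IsAlgebraic s.A.K a)
    (g : Gauged s.A (Series.Ser.map s.A.D.subtype a)) : ∃ r, g.frame.X r ≠ 0 := by
  by_contra! hall
  refine ha (s.A.isAlgebraic_of_conj a ⟨(Ser.map s.A.D.subtype a).coeff [], ?_⟩ g.G⁻¹ ?_)
  · rw [Ser.coeff_map]
    exact (a.coeff []).2
  · have hga : g.gauged = Ser.C ((Ser.map s.A.D.subtype a).coeff []) := by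
      refine Ser.ext (funext fun w => g.conj.injective ?_)
      cases w with
      | nil => rw [g.coeff_gauged_nil, Ser.coeff_C_nil]
      | cons i w =>
        rw [Ser.coeff_C_cons, map_zero]
        refine (g.conj_cons i w).trans ?_
        simp only [show ∀ r, g.X r = 0 from hall, Ser.coeff_zero]
        exact Matrix.blockDiagonal_zero
    show _ = (↑g.G⁻¹ : Ser (Matrix s.n s.n s.F) (Fin 2)) *
      Ser.C ((Ser.map s.A.D.subtype a).coeff []) * (↑g.G⁻¹⁻¹ : Ser (Matrix s.n s.n s.F) (Fin 2))
    rw [← hga, Gauged.gauged, inv_inv, mul_assoc, Units.inv_mul_cancel_right, ← mul_assoc]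
    simp

end Vale.Agent.P199
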