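import Mathlib
import Vale.Agent.P199.DescTransl
import Vale.Agent.P199.Gen

/-!
# P199: generation of the centraliser is kept by translation and change of coordinates

At `T = 1` the translated pair of constant terms is an arbitrary pair of matrices, in particular
a diagonal matrix with distinct entries and the matrix of ones, which give all matrix units.
Hence the determinant of these matrix units is a nonzero polynomial in `T` and the point.
-/

open Finset
open scoped Kronecker

noncomputable section

namespace Vale.Agent.P199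

open Series

namespace GenProof

theorem map_eval₂_matrix {F R S : Type*} [Field F] [CommRing R] [CommRing S] {m : Type*}
    [Fintype m] [DecidableEq m] (φ : R →+* S) (g : F →+* R) (M : Matrix m m R) (p : Polynomial F) :
    (Polynomial.aeval M (p.map g)).map φ = Polynomial.aeval (M.map φ) (p.map (φ.comp g)) := by
  induction p using Polynomial.induction_on' with
  | add p p' hp hp' =>
    rw [Polynomial.map_add, Polynomial.map_add, map_add, map_add, ← hp, ← hp',
      Matrix.map_add _ (map_add φ)]
  | monomial k a =>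
    rw [Polynomial.map_monomial, Polynomial.map_monomial, Polynomial.aeval_monomial,
      Polynomial.aeval_monomial, ← Algebra.smul_def, ← Algebra.smul_def,
      ← RingHom.mapMatrix_apply, ← RingHom.mapMatrix_apply, ← map_pow]
    ext x y
    simp

variable {m : Type} [Fintype m] [DecidableEq m]

/-- Distinct scalars indexed by `m`. -/
def node (F : Type*) [Field F] (x : m) : F := (Fintype.equivFin m x : ℕ)

theorem node_injective {F : Type*} [Field F] [CharZero F] :
    Function.Injective (node F : m → F) := fun a b h => by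
  have h' : (Fintype.equivFin m a : ℕ) = Fintype.equivFin m b := Nat.cast_injective h
  exact (Fintype.equivFin m).injective (Fin.val_injective h')

/-- The candidates for matrix units built from a pair of matrices. -/
def unit' {F R : Type*} [Field F] [CommRing R] (g : F →+* R) (M₀ M₁ : Matrix m m R) (xy : m × m) :
    Matrix m m R :=
  Polynomial.aeval M₀ ((Lagrange.basis univ (node F) xy.1).map g) * M₁ *
    Polynomial.aeval M₀ ((Lagrange.basis univ (node F) xy.2).map g)

/-- The matrix of the coordinates of the candidates. -/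
def unitMat {F R : Type*} [Field F] [CommRing R] (g : F →+* R) (M₀ M₁ : Matrix m m R) :
    Matrix (m × m) (m × m) R :=
  Matrix.of fun xy uv => unit' g M₀ M₁ xy uv.1 uv.2

theorem unitMat_map {F R S : Type*} [Field F] [CommRing R] [CommRing S] (φ : R →+* S)
    (g : F →+* R) (M₀ M₁ : Matrix m m R) :
    (unitMat g M₀ M₁).map φ = unitMat (φ.comp g) (M₀.map φ) (M₁.map φ) := by
  ext xy uv
  show φ (unit' g M₀ M₁ xy uv.1 uv.2) = _
  show ((unit' g M₀ M₁ xy).map φ) uv.1 uv.2 = _
  rw [unit', Matrix.map_mul, Matrix.map_mul, map_eval₂_matrix, map_eval₂_matrix]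
  rfl

theorem aeval_diagonal {R : Type*} [CommRing R] (v : m → R) (p : Polynomial R) :
    Polynomial.aeval (Matrix.diagonal v) p = Matrix.diagonal fun i => p.eval (v i) := by
  have h := Polynomial.aeval_algHom_apply (Matrix.diagonalAlgHom R) v p
  rw [show Polynomial.aeval v p = fun i => p.eval (v i) from funext fun i => by
    rw [Polynomial.aeval_fn_apply, Polynomial.coe_aeval_eq_eval]] at h
  exact h

theorem unit'_diag {F : Type*} [Field F] [CharZero F] (xy : m × m) :
    unit' (RingHom.id F) (Matrix.diagonal (node F)) (Matrix.of fun _ _ => (1 : F)) xy =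
      Matrix.single xy.1 xy.2 1 := by
  have h : ∀ x i : m, (Lagrange.basis univ (node F) x).eval (node F i) =
      if i = x then 1 else 0 := fun x i => by
    rcases eq_or_ne i x with rfl | hne
    · rw [if_pos rfl]
      exact Lagrange.eval_basis_self node_injective.injOn (mem_univ _)
    · rw [if_neg hne]
      exact Lagrange.eval_basis_of_ne hne.symm (mem_univ _)
  rw [unit', Polynomial.map_id, Polynomial.map_id, aeval_diagonal, aeval_diagonal]
  ext a b
  rw [Matrix.mul_diagonal, Matrix.diagonal_mul, h, h]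
  rcases eq_or_ne a xy.1 with rfl | ha <;> rcases eq_or_ne b xy.2 with rfl | hb <;>
    simp [*, Ne.symm]

theorem unitMat_diag {F : Type*} [Field F] [CharZero F] :
    unitMat (RingHom.id F) (Matrix.diagonal (node F : m → F)) (Matrix.of fun _ _ => (1 : F)) =
      1 := by
  ext ⟨x, y⟩ ⟨u, v⟩
  show unit' _ _ _ (x, y) u v = _
  rw [unit'_diag]
  by_cases hx : x = u <;> by_cases hy : y = v <;> simp [hx, hy, Matrix.one_apply]

/-- If the coordinates of the candidates are independent, the pair generates. -/
theorem adjoin_eq_top {F G : Type*} [Field F] [Field G] (g : F →+* G)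
    (N : Fin 2 → Matrix m m G) (h : (unitMat g (N 0) (N 1)).det ≠ 0) :
    Algebra.adjoin G (Set.range N) = ⊤ := by
  set S := Algebra.adjoin G (Set.range N)
  have hmem : ∀ xy, unit' g (N 0) (N 1) xy ∈ S := by
    intro xy
    have h0 : ∀ p : Polynomial G, Polynomial.aeval (N 0) p ∈ S := fun p =>
      Algebra.adjoin_mono (Set.singleton_subset_iff.2 (Set.mem_range_self 0))
        (Polynomial.aeval_mem_adjoin_singleton G (N 0))
    exact S.mul_mem (S.mul_mem (h0 _) (Algebra.subset_adjoin (Set.mem_range_self 1))) (h0 _)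
  refine eq_top_iff.2 fun M _ => ?_
  set U := unitMat g (N 0) (N 1)
  let v : m × m → G := Matrix.vecMul (fun uv => M uv.1 uv.2) U⁻¹
  have hv : M = ∑ xy, v xy • unit' g (N 0) (N 1) xy := by
    have h1 : Matrix.vecMul v U = fun uv => M uv.1 uv.2 := by
      rw [Matrix.vecMul_vecMul, Matrix.nonsing_inv_mul _ (isUnit_iff_ne_zero.2 h),
        Matrix.vecMul_one]
    ext a b
    have h2 := congrFun h1 (a, b)
    rw [Matrix.sum_apply]
    simpa [Matrix.vecMul, dotProduct, U, unitMat] using h2.symm
  rw [hv]
  exact S.sum_mem fun xy _ => S.smul_mem (hmem xy) _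

end GenProof

namespace Desc

variable {n₀ : Type} [Fintype n₀] [DecidableEq n₀] {F₀ : Type} [Field F₀]
  {A₀ : DivAlg n₀ F₀} {a₀ : Ser (Matrix n₀ n₀ F₀) (Fin 2)}
  {n : Type} [Fintype n] [DecidableEq n] {F : Type} [Field F] {A : DivAlg n F}
  {ι : Type} [Fintype ι] [DecidableEq ι] {a : Ser (Matrix n n F) ι}

/-- The first stage generates. -/
theorem gen_start [Nonempty n₀] (A₀ : DivAlg n₀ F₀) (a₀ : Ser (Matrix n₀ n₀ F₀) (Fin 2)) :
    (Desc.start A₀ a₀).Gen := by
  refine ⟨fun _ => 0, fun i => (map_zero _).symm, eq_top_iff.2 fun (M : Matrix Unit Unit F₀) _ => ?_⟩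
  have h : M = algebraMap F₀ (Matrix Unit Unit F₀) (M () ()) := by
    ext u v
    simp [Matrix.algebraMap_matrix_apply]
  rw [h]
  exact Subalgebra.algebraMap_mem _ _

/-- Change of coordinates keeps generation. -/
theorem gen_transport (d : Desc A₀ a₀ A a) (hd : d.Gen) {n' : Type} [Fintype n'] [DecidableEq n']
    (r : n' ≃ n) (V : (Matrix n' n' F)ˣ) (A' : DivAlg n' F) (hK : ∀ x ∈ A.K, x ∈ A'.K)
    (hmap : ∀ x ∈ A.D, conjRing V (subHom r x) ∈ A'.D) (H : (Ser (Matrix n' n' F) ι)ˣ)
    (hH : ∀ w, (H : Ser (Matrix n' n' F) ι).coeff w ∈ A'.D)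
    (hH' : ∀ w, (↑H⁻¹ : Ser (Matrix n' n' F) ι).coeff w ∈ A'.D) :
    (d.transport r V A' hK hmap H hH hH').Gen := by
  obtain ⟨N, hN, htop⟩ := hd
  refine ⟨N, fun i => ?_, htop⟩
  show conjRing V (subHom r (d.σ i)) =
    embCent (d.e.trans r.symm) (V * Units.map (subHom r).toMonoidHom d.U) (N i)
  rw [hN, embCent_apply, embCent_apply, conjRing_apply, map_mul, map_mul, subHom_apply,
    subHom_apply, subHom_apply, Matrix.submatrix_submatrix]
  simp [mul_assoc, subHom_apply, Equiv.trans]

/-- A general translation generates. -/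
theorem gen_translate [CharZero F] (d : Desc A₀ a₀ A a) (p : Type) [Fintype p] [DecidableEq p] :
    ∃ P : MvPolynomial (ι × p × p) F, P ≠ 0 ∧
      ∀ (Qp : Type) [Fintype Qp] [DecidableEq Qp] (F₁ G : Type) [Field F₁] [Field G]
        (c : ι → Matrix p p F₁) (E : Qp → Matrix p p F₁) (κ : PowerSeries F₁ →+* G)
        (hκ : Function.Injective κ) (f : F →+* F₁) (B : DivAlg (n × p) F₁) (B' : DivAlg (n × p) G)
        (hD : ∀ x ∈ A.D, x.map f ⊗ₖ (1 : Matrix p p F₁) ∈ B.D)
        (hE : ∀ l, (1 : Matrix n n F₁) ⊗ₖ E l ∈ B.D)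
        (hE_indep : LinearIndependent F₁ E)
        (hE_card : Fintype.card Qp = Fintype.card p * Fintype.card p)
        (hc : ∀ i, (1 : Matrix n n F₁) ⊗ₖ c i ∈ B.D) (hfK : ∀ x ∈ A.K, f x ∈ B.K)
        (hB'K : ∀ y, (∀ n, PowerSeries.coeff n y ∈ B.K) → κ y ∈ B'.K)
        (hB'D : ∀ M : Matrix (n × p) (n × p) (PowerSeries F₁),
          (∀ k, cm k M ∈ B.D) → M.map κ ∈ B'.D),
        MvPolynomial.eval₂ f (fun x => c x.1 x.2.1 x.2.2) P ≠ 0 →
          (d.translate c E κ hκ f B B' hD hE hE_indep hE_card hc hfK hB'K hB'D).Gen := by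
  classical
  choose N hN using d.σ_cent
  choose Bl hBl using d.b_cent
  have hindep : LinearIndependent F Bl := by
    refine Fintype.linearIndependent_iff.2 fun z hz => Fintype.linearIndependent_iff.1 d.b_indep z ?_
    have := congrArg (embCent d.e d.U) hz
    rw [map_sum, map_zero] at this
    simpa only [embCent_smul, ← hBl] using this
  have hcard : Fintype.card d.Q = Module.finrank F (Matrix d.k d.k F) := by
    rw [d.card_Q, Module.finrank_matrix, Module.finrank_self, mul_one]
  have hsol : ∀ M : Matrix d.k d.k F, ∃ z : d.Q → F, ∑ l, z l • Bl l = M := fun M =>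
    (Submodule.mem_span_range_iff_exists_fun F).1
      (hindep.span_eq_top_of_card_eq_finrank' hcard ▸ Submodule.mem_top)
  -- the generic pair over `F[C][T]`
  let CC : F →+* Polynomial (MvPolynomial (ι × p × p) F) := Polynomial.C.comp MvPolynomial.C
  let X : ι → Matrix p p (Polynomial (MvPolynomial (ι × p × p) F)) := fun u =>
    Matrix.of fun x y => Polynomial.C (MvPolynomial.X (u, x, y))
  let gen : Fin 2 → Matrix (d.k × p) (d.k × p) (Polynomial (MvPolynomial (ι × p × p) F)) := fun i =>
    (N i).map CC ⊗ₖ (1 : Matrix p p _) +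
      ∑ l, (Bl l).map CC ⊗ₖ ((Polynomial.X : Polynomial (MvPolynomial (ι × p × p) F)) • X (d.idx (i, l)))
  have hmap : ∀ {S : Type} [CommRing S] (φ : Polynomial (MvPolynomial (ι × p × p) F) →+* S) (i),
      (gen i).map φ = (N i).map (φ.comp CC) ⊗ₖ (1 : Matrix p p S) +
        ∑ l, (Bl l).map (φ.comp CC) ⊗ₖ (φ Polynomial.X • (X (d.idx (i, l))).map φ) := by
    intro S _ φ i
    ext x y
    by_cases h : x.2 = y.2 <;> simp [gen, Matrix.sum_apply, h, Matrix.one_apply]
  have hdet : (GenProof.unitMat CC (gen 0) (gen 1)).det ≠ 0 := by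
    -- a point at which the pair is the standard one
    let tgt : Fin 2 → Matrix (d.k × p) (d.k × p) F :=
      ![Matrix.diagonal (GenProof.node F), Matrix.of fun _ _ => 1]
    choose z hz using fun (i : Fin 2) (x y : p) =>
      hsol (Matrix.of fun a b => tgt i (a, x) (b, y) - (N i ⊗ₖ (1 : Matrix p p F)) (a, x) (b, y))
    let c₀ : ι × p × p → F := fun v => z (d.idx.symm v.1).1 v.2.1 v.2.2 (d.idx.symm v.1).2
    let φ : Polynomial (MvPolynomial (ι × p × p) F) →+* F :=
      Polynomial.eval₂RingHom (MvPolynomial.eval₂Hom (RingHom.id F) c₀) 1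
    have hφC : φ.comp CC = RingHom.id F := by
      ext x
      simp [φ, CC]
    have hgen : ∀ i, (gen i).map φ = tgt i := by
      intro i
      rw [hmap, hφC]
      ext ⟨a, x⟩ ⟨b, y⟩
      have h := congrFun₂ (hz i x y) a b
      simp only [Matrix.sum_apply, Matrix.smul_apply, smul_eq_mul, Matrix.of_apply] at h
      rw [← sub_add_cancel (tgt i (a, x) (b, y)) ((N i ⊗ₖ (1 : Matrix p p F)) (a, x) (b, y)), ← h]
      simp [Matrix.sum_apply, X, φ, c₀, mul_comm, add_comm]
    intro e
    have h := congrArg φ e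
    rw [map_zero, RingHom.map_det, RingHom.mapMatrix_apply, GenProof.unitMat_map, hgen, hgen,
      hφC] at h
    simp only [tgt, Matrix.cons_val_zero, Matrix.cons_val_one, GenProof.unitMat_diag,
      Matrix.det_one] at h
    exact one_ne_zero h
  set D := (GenProof.unitMat CC (gen 0) (gen 1)).det with hD'
  obtain ⟨j, hj⟩ : ∃ j, D.coeff j ≠ 0 := by
    by_contra hc
    simp only [not_exists, not_not] at hc
    exact hdet (Polynomial.ext fun j => by simp [hc j])
  refine ⟨D.coeff j, hj, ?_⟩
  intro Qp _ _ F₁ G _ _ c E κ hκ f B B' hD hE hE_indep hE_card hc hfK hB'K hB'D hP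
  let φ₁ : Polynomial (MvPolynomial (ι × p × p) F) →+* PowerSeries F₁ :=
    Polynomial.coeToPowerSeries.ringHom.comp
      (Polynomial.mapRingHom (MvPolynomial.eval₂Hom f fun x => c x.1 x.2.1 x.2.2))
  let φ : Polynomial (MvPolynomial (ι × p × p) F) →+* G := κ.comp φ₁
  have hDne : φ D ≠ 0 := by
    intro e
    have h := congrArg (PowerSeries.coeff j) (hκ (e.trans (map_zero κ).symm))
    refine hP ?_
    simpa [φ₁] using h
  let g : F →+* G := κ.comp (PowerSeries.C.comp f)
  have hφC : φ.comp CC = g := by
    ext x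
    simp [φ, φ₁, CC, g]
  have hX : ∀ u, φ Polynomial.X • (X u).map φ = (tauPoint c u).map κ := by
    intro u
    ext x y
    simp [φ, φ₁, X, tauPoint]
  refine ⟨fun i => (gen i).map φ, fun i => ?_, ?_⟩
  · show (Translate.transl c E κ f (d.Φ (Ser.X i))).coeff [] =
      embCent (translIndex d.e) (translUnit g d.U) ((gen i).map φ)
    rw [d.Φ_X, Translate.transl_linear_nil, hmap, hφC, map_add, embCent_transl, map_sum, ← hN]
    simp only [embCent_transl, ← hBl, hX]
    rfl
  · refine GenProof.adjoin_eq_top g _ ?_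
    rw [hD', RingHom.map_det, RingHom.mapMatrix_apply, GenProof.unitMat_map, hφC] at hDne
    exact hDne

end Desc

end Vale.Agent.P199
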