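import Vale.Agent.P199.InflExists
import Vale.Agent.P199.DescFrame
import Vale.Agent.P199.GenProof

/-!
# P199: frames descending from a series, with generation
-/

open scoped Kronecker

noncomputable section

namespace Vale.Agent.P199

open Series

variable {n₀ : Type} [Fintype n₀] [DecidableEq n₀] {F₀ : Type} [Field F₀]

variable {A₀ : DivAlg n₀ F₀} {a₀ : Ser (Matrix n₀ n₀ F₀) (Fin 2)}
  {n F ι : Type} [Fintype n] [DecidableEq n] [Field F] [IsAlgClosed F] [CharZero F] [Fintype ι]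
  [DecidableEq ι] {A : DivAlg n F} {a : Ser (Matrix n n F) ι}

/-- Gauging keeps descendants and generation. -/
theorem Gauged.descends (g : Gauged A a) (d : Desc A₀ a₀ A a) (hd : d.Gen) :
    DescP A₀ a₀ g.frame := by
  have hmap : ∀ x ∈ A.D, conjRing g.frameUnit (subHom g.e.symm x) ∈ g.frame.alg.D := fun x hx =>
    ⟨x, hx, congrArg (fun φ : Matrix n n F →+* Matrix (g.β × g.ρ) (g.β × g.ρ) F => φ x) g.conj_eq⟩
  have hH : ∀ w, (g.frameGauge : Ser (Matrix (g.β × g.ρ) (g.β × g.ρ) F) ι).coeff w ∈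
      g.frame.alg.D := fun w => ⟨_, g.G_mem w, (Ser.coeff_map _ _ _).symm⟩
  have hH' : ∀ w, (↑g.frameGauge⁻¹ : Ser (Matrix (g.β × g.ρ) (g.β × g.ρ) F) ι).coeff w ∈
      g.frame.alg.D := fun w => ⟨_, g.Ginv_mem w, (Ser.coeff_map _ _ _).symm⟩
  have hgen := Desc.gen_transport d hd g.e.symm g.frameUnit g.frame.alg (fun _ h => h) hmap
    g.frameGauge hH hH'
  unfold DescP
  rw [show g.frame.ser = _ from g.frame_ser]
  exact ⟨_, hgen⟩

/-- The first descendant. -/
theorem exists_descends [IsAlgClosed F₀] [CharZero F₀] [Nonempty n₀] (g : Gauged A₀ a₀) :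
    DescP A₀ a₀ g.frame :=
  g.descends (Desc.start A₀ a₀) (Desc.gen_start A₀ a₀)

/-- Descendants form an inflatable class. -/
theorem inflatable_descends [Nonempty n₀] : Inflatable (DescP A₀ a₀) := by
  refine inflatable_of fun S ⟨d, hd⟩ q _ => ?_
  obtain ⟨R, hR, hR'⟩ := Desc.gen_translate d (Fin q)
  refine ⟨R, hR, fun c hc g => ?_⟩
  exact g.descends (d.translate c.c (S.alg.symE q) DivAlg.psEmb DivAlg.psEmb_injective DivAlg.embF
    (S.alg.symAlg q) (S.alg.inflAlg q) (fun _ hx => S.alg.kron_one_mem q hx)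
    (S.alg.one_kron_symE_mem q) (S.alg.symE_indep q)
    (by rw [Fintype.card_prod, Fintype.card_fin]) c.mem (fun _ hx => S.alg.embF_mem_symK q hx)
    (fun _ hy => (S.alg.symAlg q).psEmb_mem hy) (fun _ hM => S.alg.map_psEmb_mem q hM))
    (hR' _ _ _ c.c (S.alg.symE q) DivAlg.psEmb DivAlg.psEmb_injective DivAlg.embF (S.alg.symAlg q)
      (S.alg.inflAlg q) (fun _ hx => S.alg.kron_one_mem q hx) (S.alg.one_kron_symE_mem q)
      (S.alg.symE_indep q) (by rw [Fintype.card_prod, Fintype.card_fin]) c.mem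
      (fun _ hx => S.alg.embF_mem_symK q hx) (fun _ hy => (S.alg.symAlg q).psEmb_mem hy)
      (fun _ hM => S.alg.map_psEmb_mem q hM) hc)

end Vale.Agent.P199
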