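import Mathlib

/-!
P199: consequences of a splitting `io : D →ₐ[K] Matrix n n F` of a division algebra whose range
spans the matrix algebra.

The centre is `K`, traces lie in `K`, the eigenprojections of every element have the same trace,
the trace of an element against an eigenprojection is the image of one element of `K(θ)`, the
`F`-span of a centraliser is the centraliser, and the proportionality classes of the conjugates of
one vector of forms all have the same size.
-/

open Polynomial Module
open scoped IntermediateField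

noncomputable section

namespace Vale.Agent.P199.Split

variable {K : Type*} [Field K] {F : Type*} [Field F] [Algebra K F]
  {D : Type*} [Ring D] [Algebra K D] {n : Type*} [Fintype n] [DecidableEq n]
  {io : D →ₐ[K] Matrix n n F}

/-- The determinant of `1 + t • e` for an idempotent `e` of trace `μ`. -/
theorem det_one_add_smul {n : Type*} [Fintype n] [DecidableEq n] {F : Type*} [Field F] [CharZero F]
    {e : Matrix n n F} (he : IsIdempotentElem e) {μ : ℕ} (hμ : e.trace = μ) (t : F) :
    (1 + t • e).det = (1 + t) ^ μ := by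
  let f : (n → F) →ₗ[F] (n → F) := Matrix.toLin' e
  have hf : IsIdempotentElem f := by
    change f * f = f
    rw [Module.End.mul_eq_comp, ← Matrix.toLin'_mul, he]
  have hp := LinearMap.IsIdempotentElem.isProj_range f hf
  let b := Module.finBasis F (LinearMap.range f)
  let A : Matrix n (Fin (finrank F (LinearMap.range f))) F :=
    LinearMap.toMatrix b (Pi.basisFun F n) (LinearMap.range f).subtype
  let B : Matrix (Fin (finrank F (LinearMap.range f))) n F :=
    LinearMap.toMatrix (Pi.basisFun F n) b f.rangeRestrict
  have hAB : A * B = e := by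
    rw [← LinearMap.toMatrix_comp, LinearMap.subtype_comp_codRestrict,
      LinearMap.toMatrix_eq_toMatrix', LinearMap.toMatrix'_toLin']
  have hBA : B * A = 1 := by
    rw [← LinearMap.toMatrix_comp, ← LinearMap.toMatrix_id b]
    congr 1
    ext ⟨x, hx⟩ : 2
    exact hp.map_id x hx
  have hdim : finrank F (LinearMap.range f) = μ := by
    have h := congrArg Matrix.trace hBA
    rw [Matrix.trace_mul_comm, hAB, hμ, Matrix.trace_one, Fintype.card_fin] at h
    exact_mod_cast h.symm
  rw [← hAB, ← Matrix.smul_mul, Matrix.det_one_add_mul_comm, Matrix.mul_smul, hBA]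
  rw [show (1 : Matrix (Fin (finrank F (LinearMap.range f))) (Fin (finrank F (LinearMap.range f))) F)
      + t • 1 = (1 + t) • 1 by rw [add_smul, one_smul], Matrix.det_smul, Matrix.det_one, mul_one,
    Fintype.card_fin, hdim]

section Basis

variable (hspan : Submodule.span F (Set.range io) = ⊤)
  (hdim : finrank K D = Fintype.card n ^ 2)

include hspan hdim

variable [Module.Finite K D]

/-- A basis of `D` maps to a basis of the matrix algebra. -/
def basis {ι : Type*} [Fintype ι] (b : Module.Basis ι K D) : Module.Basis ι F (Matrix n n F) := by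
  refine basisOfTopLeSpanOfCardEqFinrank (fun i => io (b i)) ?_ ?_
  · rw [← hspan, Submodule.span_le]
    rintro _ ⟨d, rfl⟩
    rw [← b.sum_repr d, map_sum]
    refine Submodule.sum_mem _ fun i _ => ?_
    rw [map_smul, algebra_compatible_smul F]
    exact Submodule.smul_mem _ _ (Submodule.subset_span ⟨i, rfl⟩)
  · rw [← finrank_eq_card_basis b, hdim, Module.finrank_matrix, finrank_self]
    ring

omit [Module.Finite K D] in
theorem basis_apply {ι : Type*} [Fintype ι] (b : Module.Basis ι K D) (i : ι) :
    basis hspan hdim b i = io (b i) := by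
  rw [basis, coe_basisOfTopLeSpanOfCardEqFinrank]

omit [Module.Finite K D] in
theorem basis_repr_io {ι : Type*} [Fintype ι] (b : Module.Basis ι K D) (d : D) (i : ι) :
    (basis hspan hdim b).repr (io d) i = algebraMap K F (b.repr d i) := by
  classical
  have h : io d = ∑ j, algebraMap K F (b.repr d j) • basis hspan hdim b j := by
    conv_lhs => rw [← b.sum_repr d]
    rw [map_sum]
    refine Finset.sum_congr rfl fun j _ => ?_
    rw [basis_apply, map_smul, algebra_compatible_smul F]
  rw [h, Module.Basis.repr_sum_self]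

/-- Independence over `K` becomes independence over `F`. -/
theorem linearIndependent_io {ι : Type*} {v : ι → D} (hv : LinearIndependent K v) :
    LinearIndependent F fun i => io (v i) := by
  classical
  have : Fintype (Basis.ofVectorSpaceIndex K D) := Fintype.ofFinite _
  let b := hv.linearIndepOn_id
  let B := Module.Basis.extend b
  have : Fintype (b.extend (Set.subset_univ _)) := Fintype.ofFinite _
  have h := ((basis hspan hdim B).linearIndependent).comp
    (fun i => (⟨v i, b.subset_extend _ ⟨i, rfl⟩⟩ : b.extend (Set.subset_univ _)))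
    fun i j hij => hv.injective (congrArg Subtype.val hij)
  convert h using 1
  funext i
  simp [B, basis_apply, Module.Basis.extend_apply_self]

theorem io_injective : Function.Injective io := fun x y h => by
  by_contra hne
  have h1 : LinearIndependent K ![x - y] := LinearIndependent.of_subsingleton 0
    (by simpa [sub_eq_zero] using hne)
  exact (linearIndependent_io hspan hdim h1).ne_zero 0 (by simp [h])

/-- An element with scalar image lies in `K`. -/
theorem exists_algebraMap_of_scalar {x : D} {a : F} (hx : io x = a • 1) :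
    ∃ c : K, x = algebraMap K D c := by
  by_contra h
  push Not at h
  by_cases hn : (1 : D) = 0
  · exact h 0 (by rw [map_zero, ← mul_one x, hn, mul_zero])
  have h1 : LinearIndependent K ![(1 : D), x] := by
    rw [linearIndependent_fin2]
    refine ⟨fun hx0 : x = 0 => h 0 (by rw [hx0, map_zero]), fun c hc => ?_⟩
    have hc : c • x = 1 := hc
    by_cases h0 : c = 0
    · exact hn (by rw [← hc, h0, zero_smul])
    · exact h c⁻¹ (by rw [Algebra.algebraMap_eq_smul_one, ← hc, inv_smul_smul₀ h0])
  have h2 := Fintype.linearIndependent_iff.1 (linearIndependent_io hspan hdim h1) ![a, -1]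
    (by simp [Fin.sum_univ_two, hx]) 1
  simp at h2

/-- The centre is `K`. -/
theorem exists_algebraMap_of_central {x : D} (hx : ∀ y, x * y = y * x) :
    ∃ c : K, x = algebraMap K D c := by
  have h : ∀ M : Matrix n n F, io x * M = M * io x := by
    intro M
    have hM : M ∈ Submodule.span F (Set.range io) := hspan ▸ Submodule.mem_top
    induction hM using Submodule.span_induction with
    | mem _ h => obtain ⟨y, rfl⟩ := h; rw [← map_mul, ← map_mul, hx]
    | zero => simp
    | add _ _ _ _ h1 h2 => rw [mul_add, add_mul, h1, h2]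
    | smul _ _ _ h1 => rw [mul_smul_comm, smul_mul_assoc, h1]
  have : io x ∈ Set.range (Matrix.scalar n) :=
    Matrix.mem_range_scalar_of_commute_single fun i j _ => (h _).symm
  obtain ⟨a, ha⟩ := this
  exact exists_algebraMap_of_scalar hspan hdim
    (a := a) (by rw [← ha, Matrix.scalar_apply, Matrix.smul_one_eq_diagonal])

/-- The `F`-span of the centraliser of `θ` is the centraliser of `io θ`. -/
theorem mem_span_centralizer {θ : D} {M : Matrix n n F} (hM : Commute (io θ) M) :
    M ∈ Submodule.span F (io '' {y | Commute θ y}) := by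
  classical
  let ad : D →ₗ[K] D := LinearMap.mulLeft K θ - LinearMap.mulRight K θ
  obtain ⟨W, hW⟩ := (LinearMap.ker ad).exists_isCompl
  let bC := Module.finBasis K (LinearMap.ker ad)
  let bW := Module.finBasis K W
  let b := (bC.prod bW).map (Submodule.prodEquivOfIsCompl _ _ hW)
  let B := basis hspan hdim b
  have hb : ∀ j, b (Sum.inl j) = (bC j : D) := by simp [b]
  have hw : ∀ j, b (Sum.inr j) = (bW j : D) := by simp [b]
  have hind : LinearIndependent K fun j => ad (bW j) := by
    refine (bW.linearIndependent.map' (ad.domRestrict W) ?_)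
    rw [LinearMap.ker_domRestrict, ← Submodule.disjoint_iff_comap_eq_bot]
    exact hW.disjoint.symm
  have hF := Fintype.linearIndependent_iff.1 (linearIndependent_io hspan hdim hind)
    (fun j => B.repr M (Sum.inr j))
  have hzero : ∀ j, B.repr M (Sum.inr j) = 0 := by
    refine hF ?_
    have h0 : io θ * M - M * io θ = 0 := sub_eq_zero.2 hM
    conv_lhs at h0 => rw [← B.sum_repr M]
    rw [Finset.mul_sum, Finset.sum_mul, ← Finset.sum_sub_distrib] at h0
    simp only [Fintype.sum_sum_type,
      B, basis_apply, mul_smul_comm, smul_mul_assoc, ← smul_sub, ← map_mul, ← map_sub,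
      hb, hw] at h0
    have hz : ∀ j, θ * (bC j : D) - (bC j : D) * θ = 0 := fun j => (bC j).2
    simpa [hz, ad] using h0
  rw [← B.sum_repr M, Fintype.sum_sum_type]
  simp only [hzero, zero_smul, Finset.sum_const_zero, add_zero]
  refine Submodule.sum_mem _ fun j _ => Submodule.smul_mem _ _ (Submodule.subset_span ?_)
  refine ⟨bC j, sub_eq_zero.1 (bC j).2, ?_⟩
  rw [basis_apply, hb]

/-- Left multiplication has trace `card n * trace`. -/
theorem trace_mulLeft (x : D) :
    algebraMap K F (LinearMap.trace K D (LinearMap.mulLeft K x)) =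
      (Fintype.card n : F) * (io x).trace := by
  classical
  let b := Module.finBasis K D
  have h1 : algebraMap K F (LinearMap.trace K D (LinearMap.mulLeft K x)) =
      LinearMap.trace F (Matrix n n F) (LinearMap.mulLeft F (io x)) := by
    rw [LinearMap.trace_eq_matrix_trace K b, LinearMap.trace_eq_matrix_trace F (basis hspan hdim b),
      Matrix.trace, Matrix.trace, map_sum]
    refine Finset.sum_congr rfl fun i _ => ?_
    simp only [Matrix.diag_apply, LinearMap.toMatrix_apply, LinearMap.mulLeft_apply]
    rw [basis_apply, ← map_mul, basis_repr_io]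
  rw [h1, LinearMap.trace_eq_matrix_trace F (Matrix.stdBasis F n n), Matrix.trace,
    Fintype.sum_prod_type, Matrix.trace, Finset.mul_sum]
  refine Finset.sum_congr rfl fun i _ => ?_
  have hd : ∀ j, (LinearMap.toMatrix (Matrix.stdBasis F n n) (Matrix.stdBasis F n n)
      (LinearMap.mulLeft F (io x))).diag (i, j) = io x i i := fun j => by
    rw [Matrix.diag_apply, LinearMap.toMatrix_apply, LinearMap.mulLeft_apply,
      Matrix.stdBasis_eq_single]
    simp [Matrix.stdBasis, Matrix.mul_apply, Matrix.single_apply]
  simp only [hd, Finset.sum_const, Finset.card_univ, nsmul_eq_mul, Matrix.diag_apply]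

/-- Traces lie in `K`. -/
theorem exists_trace_eq [CharZero F] (x : D) : ∃ c : K, algebraMap K F c = (io x).trace := by
  cases isEmpty_or_nonempty n
  · exact ⟨0, by simp [Matrix.trace]⟩
  refine ⟨LinearMap.trace K D (LinearMap.mulLeft K x) / Fintype.card n, ?_⟩
  rw [map_div₀, trace_mulLeft hspan hdim, map_natCast, mul_div_cancel_left₀]
  exact Nat.cast_ne_zero.2 Fintype.card_ne_zero

end Basis

section Roots

open scoped Classical

/-- The conjugates of `θ` in `F`. -/
def rts (K F : Type*) [Field K] [Field F] [Algebra K F] {D : Type*} [Ring D] [Algebra K D]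
    (θ : D) : Finset F :=
  ((minpoly K θ).aroots F).toFinset

theorem mem_rts {θ : D} (h : minpoly K θ ≠ 0) {α : F} :
    α ∈ rts K F θ ↔ aeval α (minpoly K θ) = 0 := by
  classical
  rw [rts, Multiset.mem_toFinset, mem_aroots]
  exact and_iff_right h

variable (io) in
/-- The eigenprojection of `io θ` at `α`. -/
def idem (θ : D) (α : F) : Matrix n n F :=
  aeval (io θ) (Lagrange.basis (rts K F θ) id α)

variable [IsDomain D] [Module.Finite K D] (θ : D)

omit [IsDomain D] in
theorem minpoly_ne_zero : minpoly K θ ≠ 0 :=
  minpoly.ne_zero (IsIntegral.of_finite K θ)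

theorem minpoly_irreducible : Irreducible (minpoly K θ) :=
  minpoly.irreducible (IsIntegral.of_finite K θ)

omit [IsDomain D] [Module.Finite K D] in
theorem indep_pow : LinearIndependent K fun j : Fin (minpoly K θ).natDegree => θ ^ (j : ℕ) :=
  linearIndependent_pow θ

variable [CharZero K] [IsAlgClosed F]

omit [IsAlgClosed F] in
theorem aroots_nodup : ((minpoly K θ).aroots F).Nodup :=
  nodup_roots ((minpoly_irreducible θ).separable.map)

theorem card_rts : (rts K F θ).card = (minpoly K θ).natDegree := by
  classical
  rw [rts, Multiset.toFinset_card_of_nodup (aroots_nodup θ)]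
  exact IsAlgClosed.card_aroots_eq_natDegree

theorem rts_nonempty : (rts K F θ).Nonempty := by
  rw [← Finset.card_pos, card_rts θ]
  exact (minpoly_irreducible θ).natDegree_pos

theorem minpoly_map_eq_prod :
    (minpoly K θ).map (algebraMap K F) = ∏ α ∈ rts K F θ, (X - C α) := by
  classical
  have h := (IsAlgClosed.splits ((minpoly K θ).map (algebraMap K F))).eq_prod_roots_of_monic
    ((minpoly.monic (IsIntegral.of_finite K θ)).map _)
  rw [Finset.prod_eq_multiset_prod, rts, Multiset.toFinset_val,
    Multiset.dedup_eq_self.2 (aroots_nodup θ)]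
  exact h

theorem aeval_eq_zero_of_eval {P : F[X]} (hP : ∀ α ∈ rts K F θ, P.eval α = 0) :
    aeval (io θ) P = 0 := by
  classical
  have hdvd : (minpoly K θ).map (algebraMap K F) ∣ P := by
    rw [minpoly_map_eq_prod θ]
    exact Finset.prod_dvd_of_coprime
      (fun a _ b _ hab => isCoprime_X_sub_C_of_isUnit_sub (sub_ne_zero.2 hab).isUnit)
      fun α hα => dvd_iff_isRoot.2 (hP α hα)
  obtain ⟨Q, rfl⟩ := hdvd
  rw [map_mul, aeval_map_algebraMap, aeval_algHom_apply, minpoly.aeval, map_zero, zero_mul]

theorem aeval_congr {P Q : F[X]} (h : ∀ α ∈ rts K F θ, P.eval α = Q.eval α) :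
    aeval (io θ) P = aeval (io θ) Q :=
  sub_eq_zero.1 (by
    rw [← map_sub]
    exact aeval_eq_zero_of_eval θ fun α hα => by simp [h α hα])

omit [IsDomain D] [Module.Finite K D] [CharZero K] [IsAlgClosed F] in
theorem eval_basis {α β : F} (hα : α ∈ rts K F θ) (hβ : β ∈ rts K F θ) :
    (Lagrange.basis (rts K F θ) id α).eval β = if β = α then 1 else 0 := by
  split_ifs with h
  · subst h; simpa using Lagrange.eval_basis_self (s := rts K F θ) (v := id)
      (Function.injective_id.injOn) hα
  · simpa using Lagrange.eval_basis_of_ne (s := rts K F θ) (v := id) (Ne.symm h) hβ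

variable {θ}

theorem idem_mul {α β : F} (hα : α ∈ rts K F θ) (hβ : β ∈ rts K F θ) :
    idem io θ α * idem io θ β = if α = β then idem io θ α else 0 := by
  have h : ∀ γ ∈ rts K F θ, (Lagrange.basis (rts K F θ) id α * Lagrange.basis (rts K F θ) id β).eval γ
      = (if α = β then Lagrange.basis (rts K F θ) id α else 0).eval γ := by
    intro γ hγ
    rw [eval_mul, eval_basis θ hα hγ, eval_basis θ hβ hγ]
    by_cases hab : α = β
    · subst hab
      rw [if_pos rfl, eval_basis θ hα hγ]
      split_ifs <;> simp
    · rw [if_neg hab, eval_zero]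
      split_ifs with h1 h2 <;> simp_all
  have h2 := aeval_congr (io := io) θ h
  rw [map_mul] at h2
  unfold idem
  rw [h2]
  split_ifs <;> simp

theorem sum_idem : ∑ α ∈ rts K F θ, idem io θ α = 1 := by
  classical
  have h := congrArg (aeval (io θ)) (Lagrange.sum_basis (s := rts K F θ) (v := id)
    Function.injective_id.injOn (rts_nonempty θ))
  rw [map_sum, map_one] at h
  exact h

/-- A polynomial in `io θ` acts on an eigenprojection by its value. -/
theorem aeval_mul_idem (P : F[X]) {α : F} (hα : α ∈ rts K F θ) :
    aeval (io θ) P * idem io θ α = P.eval α • idem io θ α := by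
  have h : ∀ γ ∈ rts K F θ, (P * Lagrange.basis (rts K F θ) id α).eval γ
      = (C (P.eval α) * Lagrange.basis (rts K F θ) id α).eval γ := by
    intro γ hγ
    rw [eval_mul, eval_mul, eval_C, eval_basis θ hα hγ]
    split_ifs with he
    · rw [he]
    · simp
  have h2 := aeval_congr (io := io) θ h
  rw [map_mul, map_mul, aeval_C, ← Algebra.smul_def] at h2
  exact h2

theorem map_aeval_mul_idem (p : K[X]) {α : F} (hα : α ∈ rts K F θ) :
    io (aeval θ p) * idem io θ α = aeval α p • idem io θ α := by
  have h := aeval_mul_idem (io := io) (p.map (algebraMap K F)) hα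
  rwa [aeval_map_algebraMap, aeval_algHom_apply, eval_map_algebraMap] at h

omit [IsDomain D] [Module.Finite K D] [CharZero K] [IsAlgClosed F] in
theorem commute_idem {M : Matrix n n F} (hM : Commute (io θ) M) (α : F) :
    Commute (idem io θ α) M :=
  (Algebra.commute_of_mem_adjoin_singleton_of_commute (aeval_mem_adjoin_singleton F (io θ)) hM.symm).symm

theorem aeval_eq_sum (P : F[X]) :
    aeval (io θ) P = ∑ α ∈ rts K F θ, P.eval α • idem io θ α := by
  rw [← Finset.sum_congr rfl fun α hα => aeval_mul_idem (io := io) P hα, ← Finset.mul_sum,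
    sum_idem, mul_one]

end Roots

section Blocks

open scoped Classical

variable [IsDomain D] [Module.Finite K D] [CharZero K] [IsAlgClosed F]
  (hspan : Submodule.span F (Set.range io) = ⊤)
  (hdim : finrank K D = Fintype.card n ^ 2) {θ : D}

include hspan hdim

omit [IsDomain D] [CharZero K] [IsAlgClosed F] in
theorem eq_zero_of_aeval {P : F[X]} (hP : P.natDegree < (minpoly K θ).natDegree)
    (h : aeval (io θ) P = 0) : P = 0 := by
  have hi := linearIndependent_io hspan hdim (indep_pow (K := K) θ)
  rw [aeval_eq_sum_range' hP, Finset.sum_range] at h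
  have h' := Fintype.linearIndependent_iff.1 hi (fun j => P.coeff j) (by simpa using h)
  ext i
  rw [coeff_zero]
  by_cases hj : i < (minpoly K θ).natDegree
  · exact h' ⟨i, hj⟩
  · exact coeff_eq_zero_of_natDegree_lt (by omega)

theorem idem_ne_zero {α : F} (hα : α ∈ rts K F θ) : idem io θ α ≠ 0 := by
  intro h
  have h1 := eq_zero_of_aeval hspan hdim (θ := θ)
    (P := Lagrange.basis (rts K F θ) id α) (by
      rw [Lagrange.natDegree_basis Function.injective_id.injOn hα, ← card_rts (F := F) θ]
      exact Nat.sub_lt (Finset.card_pos.2 ⟨α, hα⟩) one_pos) h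
  simpa [h1] using eval_basis θ hα hα

/-- `e α` times an independent family of the module over `K(θ)` stays independent. -/
theorem block_indep {κ : Type*} [Fintype κ] {b : κ → D}
    (hb : LinearIndependent K fun p : κ × Fin (minpoly K θ).natDegree => θ ^ (p.2 : ℕ) * b p.1)
    {α : F} (hα : α ∈ rts K F θ) :
    LinearIndependent F fun k => idem io θ α * io (b k) := by
  rw [Fintype.linearIndependent_iff]
  intro g hg k
  have hdeg : (Lagrange.basis (rts K F θ) id α).natDegree < (minpoly K θ).natDegree := by
    rw [Lagrange.natDegree_basis Function.injective_id.injOn hα, ← card_rts (F := F) θ]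
    exact Nat.sub_lt (Finset.card_pos.2 ⟨α, hα⟩) one_pos
  have hF := Fintype.linearIndependent_iff.1 (linearIndependent_io hspan hdim hb)
    (fun p => g p.1 * (Lagrange.basis (rts K F θ) id α).coeff p.2) (by
      rw [← hg, Fintype.sum_prod_type]
      refine Finset.sum_congr rfl fun k _ => ?_
      rw [idem, aeval_eq_sum_range' hdeg, Finset.sum_range, Finset.sum_mul, Finset.smul_sum]
      refine Finset.sum_congr rfl fun j _ => ?_
      rw [smul_mul_assoc, smul_smul, map_mul, map_pow])
  by_contra hk
  have h1 : Lagrange.basis (rts K F θ) id α = 0 := by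
    ext i
    rw [coeff_zero]
    by_cases hj : i < (minpoly K θ).natDegree
    · simpa [hk] using hF (k, ⟨i, hj⟩)
    · exact coeff_eq_zero_of_natDegree_lt (by omega)
  simpa [h1] using eval_basis θ hα hα

theorem idem_mul_io_ne_zero {α : F} (hα : α ∈ rts K F θ) {y : D} (hy : y ≠ 0) :
    idem io θ α * io y ≠ 0 := by
  intro h
  obtain ⟨z, hz⟩ : ∃ z, y * z = 1 := by
    let _ := divisionRingOfFiniteDimensional K D
    exact ⟨y⁻¹, mul_inv_cancel₀ hy⟩
  apply idem_ne_zero hspan hdim hα
  rw [← mul_one (idem io θ α), ← map_one io, ← hz, map_mul, ← mul_assoc, h, zero_mul]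

/-- An element of the centraliser nilpotent on one block is zero. -/
theorem eq_zero_of_block_nilpotent {α : F} (hα : α ∈ rts K F θ) {y : D} (hy : Commute θ y)
    {k : ℕ} (h : (idem io θ α * io y) ^ k = 0) : y = 0 := by
  by_contra h0
  have hc : Commute (idem io θ α) (io y) := commute_idem (hy.map io) α
  have he : IsIdempotentElem (idem io θ α) := by
    simpa [IsIdempotentElem] using idem_mul (io := io) hα hα
  rcases Nat.eq_zero_or_pos k with rfl | hk
  · apply idem_ne_zero hspan hdim hα
    rw [← mul_one (idem io θ α), ← pow_zero (idem io θ α * io y), h, mul_zero]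
  · rw [hc.mul_pow, he.pow_eq hk.ne', ← map_pow] at h
    exact idem_mul_io_ne_zero hspan hdim hα (pow_ne_zero _ h0) h

/-- The block of `α` is spanned by the centraliser. -/
theorem mem_span_block {α : F} (hα : α ∈ rts K F θ) (M : Matrix n n F) :
    idem io θ α * M * idem io θ α ∈
      Submodule.span F ((fun y => idem io θ α * io y) '' {y | Commute θ y}) := by
  have he : idem io θ α * idem io θ α = idem io θ α := by
    simpa using idem_mul (io := io) hα hα
  have h1 : io θ * idem io θ α = α • idem io θ α := by
    simpa using aeval_mul_idem (io := io) X hα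
  have h2 : idem io θ α * io θ = α • idem io θ α := by
    rw [← h1]; exact commute_idem (Commute.refl _) α
  have hcomm : Commute (io θ) (idem io θ α * M * idem io θ α) := by
    change _ * _ = _ * _
    rw [mul_assoc _ (idem io θ α) (io θ), h2, ← mul_assoc, ← mul_assoc, h1,
      mul_smul_comm, smul_mul_assoc, smul_mul_assoc]
  have hmem := Submodule.mem_map_of_mem (f := LinearMap.mulLeft F (idem io θ α))
    (mem_span_centralizer hspan hdim hcomm)
  rw [Submodule.map_span, LinearMap.mulLeft_apply, ← mul_assoc, ← mul_assoc, he,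
    Set.image_image] at hmem
  exact hmem

variable [CharZero F]

/-- The trace against an eigenprojection is the value of one polynomial over `K`. -/
theorem exists_trace_idem (c : D) :
    ∃ p : K[X], ∀ α ∈ rts K F θ, (idem io θ α * io c).trace = aeval α p := by
  rcases isEmpty_or_nonempty n with hn | hn
  · exact ⟨0, fun α _ => by simp [Matrix.trace]⟩
  set m := minpoly K θ with hm
  have : Fact (Irreducible m) := ⟨minpoly_irreducible θ⟩
  have hm0 : m ≠ 0 := minpoly_ne_zero θ
  have : Module.Finite K (AdjoinRoot m) := (AdjoinRoot.powerBasis hm0).finite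
  have hmon : m.Monic := minpoly.monic (IsIntegral.of_finite K θ)
  let ι' : AdjoinRoot m →ₗ[K] D :=
    (aeval θ).toLinearMap ∘ₗ AdjoinRoot.modByMonicHom hmon
  let ψ : AdjoinRoot m →ₗ[K] K := (Fintype.card n : K)⁻¹ •
    (LinearMap.trace K D ∘ₗ LinearMap.mul K D ∘ₗ LinearMap.mulRight K c ∘ₗ ι')
  have hψ : ∀ z, algebraMap K F (ψ z) = (io (ι' z * c)).trace := fun z => by
    rw [LinearMap.smul_apply, smul_eq_mul, map_mul, map_inv₀, map_natCast]
    change (Fintype.card n : F)⁻¹ *
      algebraMap K F (LinearMap.trace K D (LinearMap.mulLeft K (ι' z * c))) = _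
    rw [trace_mulLeft hspan hdim, inv_mul_cancel_left₀]
    exact Nat.cast_ne_zero.2 Fintype.card_ne_zero
  have hnd := traceForm_nondegenerate K (AdjoinRoot m)
  obtain ⟨p, hp⟩ := AdjoinRoot.mk_surjective ((LinearMap.BilinForm.toDual _ hnd).symm ψ)
  refine ⟨p, fun α hα => ?_⟩
  have key : ∀ P : F[X], (aeval (io θ) P * io c).trace =
      ∑ β ∈ rts K F θ, P.eval β * aeval β p := by
    intro P
    induction P using Polynomial.induction_on' with
    | add P Q hP hQ =>
      simp only [map_add, add_mul, Matrix.trace_add, hP, hQ, eval_add, Finset.sum_add_distrib]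
    | monomial j a =>
      have hj : algebraMap K F (ψ (AdjoinRoot.mk m (X ^ j))) =
          ∑ β ∈ rts K F θ, β ^ j * aeval β p := by
        rw [← LinearMap.BilinForm.apply_toDual_symm_apply (hB := hnd) ψ, ← hp,
          Algebra.traceForm_apply, trace_eq_sum_embeddings (E := F), ← map_mul]
        let _ : Fintype {x // x ∈ m.aroots F} := Fintype.ofEquiv _ (AdjoinRoot.equiv F K m hm0)
        rw [Fintype.sum_equiv (AdjoinRoot.equiv F K m hm0) _
          (fun x : {x // x ∈ m.aroots F} => x.1 ^ j * aeval x.1 p) fun σ => ?_]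
        · exact (Finset.sum_subtype (p := fun x => x ∈ m.aroots F) (rts K F θ)
            (fun x => Multiset.mem_toFinset) (fun x => x ^ j * aeval x p)).symm
        · rw [← AdjoinRoot.aeval_eq, ← aeval_algHom_apply, map_mul, map_pow, aeval_X]
          exact mul_comm _ _
      rw [hψ] at hj
      have hX : ι' (AdjoinRoot.mk m (X ^ j)) = θ ^ j := by
        simp only [ι', LinearMap.comp_apply, AdjoinRoot.modByMonicHom_mk, AlgHom.toLinearMap_apply]
        rw [aeval_modByMonic_eq_self_of_root (minpoly.aeval K θ), map_pow, aeval_X]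
      rw [hX, map_mul, map_pow] at hj
      rw [aeval_monomial, ← Algebra.smul_def, smul_mul_assoc, Matrix.trace_smul, hj,
        smul_eq_mul, Finset.mul_sum]
      exact Finset.sum_congr rfl fun β _ => by rw [eval_monomial, mul_assoc]
  rw [idem, key, Finset.sum_eq_single α (fun β hβ hne => by simp [eval_basis θ hα hβ, hne])
    (fun h => absurd hα h), eval_basis θ hα hα, if_pos rfl, one_mul]

/-- All eigenprojections have the same trace `μ`, and `μ * deg = card n`. -/
theorem exists_trace_idem_eq [Nonempty n] :
    ∃ μ : ℕ, 0 < μ ∧ μ * (minpoly K θ).natDegree = Fintype.card n ∧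
      ∀ α ∈ rts K F θ, (idem io θ α).trace = μ := by
  obtain ⟨p, hp⟩ := exists_trace_idem hspan hdim (θ := θ) 1
  simp only [map_one, mul_one] at hp
  obtain ⟨α₀, hα₀⟩ := rts_nonempty (K := K) (F := F) θ
  have he : IsIdempotentElem (Matrix.toLinAlgEquiv' (idem io θ α₀)) :=
    (show IsIdempotentElem (idem io θ α₀) by
      simpa [IsIdempotentElem] using idem_mul (io := io) hα₀ hα₀).map _
  set μ := finrank F (LinearMap.range (Matrix.toLinAlgEquiv' (idem io θ α₀))) with hμ
  have htr : (idem io θ α₀).trace = μ := by
    rw [hμ, ← (LinearMap.IsIdempotentElem.isProj_range _ he).trace, LinearMap.trace_eq_matrix_trace F (Pi.basisFun F n)]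
    rw [LinearMap.toMatrix_eq_toMatrix']
    exact congrArg Matrix.trace (LinearMap.toMatrixAlgEquiv'_toLinAlgEquiv' _).symm
  have hμ0 : 0 < μ := by
    refine Nat.pos_of_ne_zero fun h => idem_ne_zero hspan hdim hα₀ ?_
    have := LinearMap.IsIdempotentElem.eq_zero_of_trace_eq_zero he (by
      rw [(LinearMap.IsIdempotentElem.isProj_range _ he).trace, ← hμ, h, Nat.cast_zero])
    exact Matrix.toLinAlgEquiv'.injective (by rw [this, map_zero])
  have hdvd : minpoly K θ ∣ p - (μ : K[X]) := by
    rw [minpoly.eq_of_irreducible_of_monic (minpoly_irreducible θ)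
      ((mem_rts (minpoly_ne_zero θ)).1 hα₀) (minpoly.monic (IsIntegral.of_finite K θ))]
    exact minpoly.dvd K α₀ (by rw [map_sub, map_natCast, ← hp α₀ hα₀, htr, sub_self])
  have hall : ∀ α ∈ rts K F θ, (idem io θ α).trace = μ := fun α hα => by
    rw [hp α hα]
    obtain ⟨Q, hQ⟩ := hdvd
    have := congrArg (aeval α) hQ
    rw [map_mul, (mem_rts (minpoly_ne_zero θ)).1 hα, zero_mul, map_sub, map_natCast,
      sub_eq_zero] at this
    exact this
  refine ⟨μ, hμ0, ?_, hall⟩
  have h1 : (1 : Matrix n n F).trace = (rts K F θ).card * μ := by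
    rw [← sum_idem (io := io) (θ := θ), Matrix.trace_sum, Finset.sum_congr rfl hall,
      Finset.sum_const, nsmul_eq_mul]
  rw [Matrix.trace_one, card_rts θ, mul_comm] at h1
  exact_mod_cast h1.symm

/-- An element of the centraliser with one eigenvalue on one block lies in `K[θ]`. -/
theorem exists_eq_aeval_of_block {α : F} (hα : α ∈ rts K F θ) {y : D} (hy : Commute θ y)
    {lam : F} {k : ℕ} (h : (idem io θ α * (io y - lam • 1)) ^ k = 0) :
    ∃ q : K[X], aeval α q = lam ∧ y = aeval θ q := by
  have : Nonempty n := by
    by_contra hn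
    rw [not_nonempty_iff] at hn
    exact idem_ne_zero hspan hdim hα (Matrix.ext fun i => hn.elim i)
  obtain ⟨p, hp⟩ := exists_trace_idem hspan hdim (θ := θ) y
  obtain ⟨μ, hμ, -, hμe⟩ := exists_trace_idem_eq hspan hdim (θ := θ)
  have h0 : (idem io θ α * (io y - lam • 1)).trace = 0 :=
    (Matrix.isNilpotent_trace_of_isNilpotent ⟨k, h⟩).eq_zero
  rw [mul_sub, mul_smul_comm, mul_one, Matrix.trace_sub, Matrix.trace_smul, hp α hα, hμe α hα,
    smul_eq_mul, sub_eq_zero] at h0
  refine ⟨C (μ : K)⁻¹ * p, ?_, ?_⟩
  · rw [map_mul, aeval_C, map_inv₀, map_natCast, h0, mul_comm lam,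
      inv_mul_cancel_left₀ (Nat.cast_ne_zero.2 hμ.ne')]
  · refine sub_eq_zero.1 (eq_zero_of_block_nilpotent hspan hdim hα
      (hy.sub_right ?_) (k := k) ?_)
    · exact Algebra.commute_of_mem_adjoin_singleton_of_commute (aeval_mem_adjoin_singleton K θ)
        (Commute.refl θ)
    · rw [map_sub, mul_sub, (commute_idem ((Algebra.commute_of_mem_adjoin_singleton_of_commute
        (aeval_mem_adjoin_singleton K θ) (Commute.refl θ)).map io) α).eq,
        map_aeval_mul_idem _ hα]
      rw [mul_sub, mul_smul_comm, mul_one] at h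
      convert h using 4
      rw [map_mul, aeval_C, map_inv₀, map_natCast, h0, mul_comm lam,
        inv_mul_cancel_left₀ (Nat.cast_ne_zero.2 hμ.ne')]

/-- The characteristic polynomial is a power of the minimal polynomial. -/
theorem exists_charpoly_eq [Nonempty n] : ∃ μ : ℕ, 0 < μ ∧
    μ * (minpoly K θ).natDegree = Fintype.card n ∧
    (io θ).charpoly = ((minpoly K θ).map (algebraMap K F)) ^ μ := by
  obtain ⟨μ, hμ, hcard, htr⟩ := exists_trace_idem_eq hspan hdim (θ := θ)
  refine ⟨μ, hμ, hcard, Polynomial.funext fun z => ?_⟩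
  rw [Matrix.eval_charpoly, eval_pow, minpoly_map_eq_prod θ, eval_prod, ← Finset.prod_pow]
  have key : ∀ S : Finset F, S ⊆ rts K F θ →
      (1 + ∑ α ∈ S, (z - α - 1) • idem io θ α).det = ∏ α ∈ S, ((X - C α).eval z) ^ μ := by
    intro S
    induction S using Finset.induction_on with
    | empty => simp
    | insert a S ha ih =>
      intro hS
      rw [Finset.insert_subset_iff] at hS
      rw [Finset.prod_insert ha, ← ih hS.2]
      have hmul : ((1 : Matrix n n F) + (z - a - 1) • idem io θ a) *
          (1 + ∑ α ∈ S, (z - α - 1) • idem io θ α) =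
          1 + ∑ α ∈ insert a S, (z - α - 1) • idem io θ α := by
        have h0 : ((z - a - 1) • idem io θ a) * ∑ α ∈ S, (z - α - 1) • idem io θ α = 0 := by
          rw [Finset.mul_sum]
          refine Finset.sum_eq_zero fun α hα => ?_
          rw [smul_mul_smul_comm, idem_mul hS.1 (hS.2 hα), if_neg (fun h : a = α => ha (h ▸ hα)),
            smul_zero]
        rw [mul_add, add_mul, add_mul, mul_one, one_mul, mul_one, h0, add_zero,
          Finset.sum_insert ha, add_assoc]
      rw [← hmul, Matrix.det_mul, det_one_add_smul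
        (by simpa [IsIdempotentElem] using idem_mul (io := io) hS.1 hS.1) (htr a hS.1),
        eval_sub, eval_X, eval_C, add_sub_cancel]
  rw [← key _ subset_rfl]
  congr 1
  have hid : io θ = ∑ α ∈ rts K F θ, α • idem io θ α := by
    simpa using aeval_eq_sum (io := io) (θ := θ) X
  simp only [sub_smul, one_smul, Finset.sum_sub_distrib, ← Finset.smul_sum, sum_idem, ← hid]
  rw [Matrix.scalar_apply, Matrix.smul_one_eq_diagonal]
  abel

end Blocks

section Classes

open scoped Classical

variable [CharZero K] [IsAlgClosed F]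

/-- Embeddings of a separable extension agreeing on a subextension: one per degree. -/
theorem card_agree {L : Type*} [Field L] [Algebra K L] [FiniteDimensional K L]
    (E : IntermediateField K L) (σ : L →ₐ[K] F) :
    (Finset.univ.filter fun τ : L →ₐ[K] F => ∀ x ∈ E, τ x = σ x).card = finrank E L := by
  let a : Algebra E F := (σ.comp E.val).toRingHom.toAlgebra
  have ht : IsScalarTower K E F := IsScalarTower.of_algebraMap_eq fun x =>
    (σ.commutes x).symm
  rw [← AlgHom.card E L F, ← Fintype.card_subtype]
  refine Fintype.card_congr ?_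
  exact {
    toFun := fun τ => { toRingHom := τ.1.toRingHom, commutes' := fun x => τ.2 x x.2 }
    invFun := fun g => ⟨g.restrictScalars K, fun x hx => g.commutes ⟨x, hx⟩⟩
    left_inv := fun τ => Subtype.ext (AlgHom.ext fun _ => rfl)
    right_inv := fun g => AlgHom.ext fun _ => rfl }

variable [IsDomain D] [Module.Finite K D] {θ : D}

omit [CharZero K] [IsAlgClosed F] in
/-- Conjugates of a nonzero vector of forms do not vanish. -/
theorem form_ne_zero {κ : Type*} {p : κ → K[X]} {i : κ} (hi : ¬ minpoly K θ ∣ p i)
    {α : F} (hα : α ∈ rts K F θ) : aeval α (p i) ≠ 0 := fun h => hi <| by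
  rw [minpoly.eq_of_irreducible_of_monic (minpoly_irreducible θ)
    ((mem_rts (minpoly_ne_zero θ)).1 hα) (minpoly.monic (IsIntegral.of_finite K θ))]
  exact minpoly.dvd K α h

/-- The proportionality classes of the conjugates of a vector of forms have equal size. -/
theorem classes {κ : Type*} {p : κ → K[X]} {i₀ : κ} (hi : ¬ minpoly K θ ∣ p i₀) :
    ∃ cl : ℕ, 0 < cl ∧ cl ∣ (minpoly K θ).natDegree ∧ ∀ α ∈ rts K F θ,
      ((rts K F θ).filter fun β =>
        ∃ c : F, ∀ i, aeval β (p i) = c * aeval α (p i)).card = cl := by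
  set m := minpoly K θ with hm
  have : Fact (Irreducible m) := ⟨minpoly_irreducible θ⟩
  have hm0 : m ≠ 0 := minpoly_ne_zero θ
  have : Module.Finite K (AdjoinRoot m) := (AdjoinRoot.powerBasis hm0).finite
  let r : κ → AdjoinRoot m := fun i => AdjoinRoot.mk m (p i) / AdjoinRoot.mk m (p i₀)
  let E : IntermediateField K (AdjoinRoot m) := IntermediateField.adjoin K (Set.range r)
  refine ⟨finrank E (AdjoinRoot m), finrank_pos,
    ⟨finrank K E, by
      rw [mul_comm, Module.finrank_mul_finrank, (AdjoinRoot.powerBasis hm0).finrank,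
        AdjoinRoot.powerBasis_dim]⟩, fun α hα => ?_⟩
  have hmem : ∀ {β}, β ∈ rts K F θ → β ∈ m.aroots F := fun h => Multiset.mem_toFinset.1 h
  let e := AdjoinRoot.equiv F K m hm0
  have hσ : ∀ (β : {x // x ∈ m.aroots F}) (q : K[X]),
      (e.symm β) (AdjoinRoot.mk m q) = aeval β.1 q := fun β q => by
    have h : (e.symm β) (AdjoinRoot.root m) = β.1 := congrArg Subtype.val (e.apply_symm_apply β)
    rw [← AdjoinRoot.aeval_eq, ← aeval_algHom_apply, h]
  rw [← card_agree E (e.symm ⟨α, hmem hα⟩)]
  refine Finset.card_bij (fun β hβ => e.symm ⟨β, hmem (Finset.mem_filter.1 hβ).1⟩) ?_ ?_ ?_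
  · intro β hβ
    obtain ⟨hβ, c, hc⟩ := Finset.mem_filter.1 hβ
    refine Finset.mem_filter.2 ⟨Finset.mem_univ _, fun x hx => ?_⟩
    induction hx using IntermediateField.adjoin_induction with
    | mem x hx =>
      obtain ⟨i, rfl⟩ := hx
      rw [map_div₀, map_div₀, hσ, hσ, hσ, hσ]
      change aeval β (p i) / aeval β (p i₀) = aeval α (p i) / aeval α (p i₀)
      have h0 := form_ne_zero hi hβ
      rw [hc i₀] at h0
      rw [hc i, hc i₀, mul_div_mul_left _ _ (left_ne_zero_of_mul h0)]
    | algebraMap x => rw [AlgHom.commutes, AlgHom.commutes]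
    | add x y _ _ hx hy => rw [map_add, map_add, hx, hy]
    | inv x _ hx => rw [map_inv₀, map_inv₀, hx]
    | mul x y _ _ hx hy => rw [map_mul, map_mul, hx, hy]
  · intro β hβ γ hγ h
    exact congrArg Subtype.val (e.symm.injective h)
  · intro τ hτ
    have hβ : (e τ).1 ∈ rts K F θ := Multiset.mem_toFinset.2 (e τ).2
    refine ⟨(e τ).1, Finset.mem_filter.2 ⟨hβ, aeval (e τ).1 (p i₀) / aeval α (p i₀),
      fun i => ?_⟩, e.symm_apply_apply τ⟩
    have h := (Finset.mem_filter.1 hτ).2 (r i) (IntermediateField.subset_adjoin K _ ⟨i, rfl⟩)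
    rw [← e.symm_apply_apply τ, map_div₀, map_div₀, hσ, hσ, hσ, hσ,
      div_eq_div_iff (form_ne_zero hi hβ) (form_ne_zero hi hα)] at h
    rw [div_mul_eq_mul_div, eq_div_iff (form_ne_zero hi hα)]
    exact h.trans (mul_comm _ _)

end Classes

end Vale.Agent.P199.Split
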