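import Vale.Agent.P199.DivAlgebra
import Vale.Agent.P199.Split

/-!
# P199: the basic facts on a frame

Linear forms are nonzero for all or no eigenvalues, their proportionality classes have equal
size, and every block lies in a division algebra over the field of its eigenvalue.
-/

open Polynomial Module
open scoped IntermediateField Classical

noncomputable section

namespace Vale.Agent.P199

namespace DivAlg

variable {n : Type} [Fintype n] [DecidableEq n] {F : Type} [Field F] (A : DivAlg n F)

/-- The inclusion in the matrices. -/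
def io : A.D →ₐ[A.K] Matrix n n F :=
  { A.D.subtype with
    commutes' := fun x => by
      show Matrix.scalar n (x : F) = algebraMap A.K (Matrix n n F) x
      rw [IsScalarTower.algebraMap_apply A.K F (Matrix n n F),
        Matrix.algebraMap_eq_diagonal]
      rfl }

@[simp] theorem io_apply (y : A.D) : A.io y = (y : Matrix n n F) := rfl

theorem io_span : Submodule.span F (Set.range A.io) = ⊤ := by
  rw [eq_top_iff, ← A.span_b, Submodule.span_le]
  rintro _ ⟨i, rfl⟩
  exact Submodule.subset_span ⟨⟨A.b i, A.b_mem i⟩, rfl⟩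

theorem finrank_eq : finrank A.K A.D = Fintype.card n ^ 2 := by
  rw [finrank_eq_card_basis A.basisK, Fintype.card_prod, sq]

end DivAlg

namespace Frame

variable (S : Frame)

/-- The constant term, in the algebra. -/
def theta : S.alg.D := ⟨_, S.root_mem⟩

/-- Block diagonal matrices as a function of the blocks. -/
def bd : (S.ρ → Matrix S.β S.β S.F) →ₐ[S.F] Matrix (S.β × S.ρ) (S.β × S.ρ) S.F where
  toRingHom := Matrix.blockDiagonalRingHom S.β S.ρ S.F
  commutes' c := by
    show Matrix.blockDiagonal _ = _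
    simp only [Pi.algebraMap_def, Matrix.algebraMap_eq_diagonal]
    exact Matrix.blockDiagonal_diagonal _

theorem bd_apply (M : S.ρ → Matrix S.β S.β S.F) : S.bd M = Matrix.blockDiagonal M := rfl

theorem aeval_theta (P : S.F[X]) :
    aeval (S.alg.io S.theta) P =
      Matrix.blockDiagonal fun r => Matrix.scalar S.β (P.eval (S.root r)) := by
  have h : S.alg.io S.theta = S.bd (algebraMap (S.ρ → S.F) _ S.root) := by
    rw [DivAlg.io_apply, bd_apply]
    rfl
  rw [h, aeval_algHom_apply, ← bd_apply]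
  congr 1
  funext r
  rw [aeval_pi_apply]
  show aeval (algebraMap S.F (Matrix S.β S.β S.F) (S.root r)) P = _
  rw [aeval_algebraMap_apply_eq_algebraMap_eval]
  rfl

theorem eval_map_aeval (P : S.alg.K[X]) (x : S.F) :
    (P.map (algebraMap S.alg.K S.F)).eval x = aeval x P := eval_map_algebraMap _ _

theorem aeval_theta' (P : S.alg.K[X]) :
    ((aeval S.theta P : S.alg.D) : Matrix (S.β × S.ρ) (S.β × S.ρ) S.F) =
      Matrix.blockDiagonal fun r => Matrix.scalar S.β (aeval (S.root r) P) := by
  rw [← DivAlg.io_apply, ← aeval_algHom_apply, ← aeval_map_algebraMap S.F, aeval_theta]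
  simp only [eval_map_algebraMap]

theorem scalar_eq_zero {x : S.F} (h : Matrix.scalar S.β x = 0) : x = 0 := by
  obtain ⟨a⟩ := (inferInstance : Nonempty S.β)
  simpa using congrFun (congrFun h a) a

theorem root_mem_rts (r : S.ρ) : S.root r ∈ Split.rts S.alg.K S.F S.theta := by
  rw [Split.mem_rts (Split.minpoly_ne_zero _)]
  have h := S.aeval_theta' (minpoly S.alg.K S.theta)
  rw [minpoly.aeval, ZeroMemClass.coe_zero, ← Matrix.blockDiagonal_zero] at h
  exact S.scalar_eq_zero (congrFun (Matrix.blockDiagonal_injective h) r).symm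

theorem rts_eq : Split.rts S.alg.K S.F S.theta = Finset.univ.image S.root := by
  refine (Finset.eq_of_subset_of_card_le (fun x hx => ?_) ?_).symm
  · obtain ⟨r, -, rfl⟩ := Finset.mem_image.1 hx
    exact S.root_mem_rts r
  rw [Finset.card_image_of_injective _ S.root_injective, Finset.card_univ, Split.card_rts]
  by_contra hlt
  have hP : (∏ r, (Polynomial.X - C (S.root r))).natDegree = Fintype.card S.ρ := by
    rw [natDegree_prod _ _ fun r _ => X_sub_C_ne_zero _]
    simp
  have h0 := Split.eq_zero_of_aeval S.alg.io_span S.alg.finrank_eq (θ := S.theta)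
    (P := ∏ r, (Polynomial.X - C (S.root r))) (by rw [hP]; omega) (by
      rw [aeval_theta, ← Matrix.blockDiagonal_zero]
      congr 1
      funext r
      rw [Pi.zero_apply, eval_prod, Finset.prod_eq_zero (Finset.mem_univ r) (by simp), map_zero])
  exact Finset.prod_ne_zero_iff.2 (fun r _ => X_sub_C_ne_zero (S.root r)) h0

theorem idem_theta (r : S.ρ) :
    Split.idem S.alg.io S.theta (S.root r) =
      Matrix.blockDiagonal fun s => Matrix.scalar S.β (if s = r then 1 else 0) := by
  rw [Split.idem, aeval_theta]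
  congr 1
  funext s
  congr 1
  classical
  rw [Split.eval_basis S.theta (S.root_mem_rts r) (S.root_mem_rts s)]
  simp [S.root_injective.eq_iff, eq_comm]

theorem trace_idem_mul (r : S.ρ) (M : S.ρ → Matrix S.β S.β S.F) :
    (Split.idem S.alg.io S.theta (S.root r) * Matrix.blockDiagonal M).trace = (M r).trace := by
  rw [idem_theta, ← Matrix.blockDiagonal_mul, Matrix.trace_blockDiagonal,
    Finset.sum_eq_single r (fun s _ hs => by rw [if_neg hs, map_zero, zero_mul, Matrix.trace_zero])
      (by simp), if_pos rfl, map_one, one_mul]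

/-- The linear forms are values at the eigenvalues of polynomials over `K`. -/
theorem exists_form : ∃ p : S.ι → S.alg.K[X],
    ∀ r i, S.l r i = (S.mu : S.F)⁻¹ * aeval (S.root r) (p i) := by
  choose p hp using fun i => Split.exists_trace_idem S.alg.io_span S.alg.finrank_eq
    (θ := S.theta) (⟨_, S.X_mem [i]⟩ : S.alg.D)
  refine ⟨p, fun r i => ?_⟩
  rw [← hp i _ (S.root_mem_rts r), DivAlg.io_apply, trace_idem_mul]
  rfl

theorem mu_ne_zero : (S.mu : S.F) ≠ 0 := Nat.cast_ne_zero.2 Fintype.card_ne_zero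

theorem not_dvd_form (hS : S.Pos) {p : S.ι → S.alg.K[X]}
    (hp : ∀ r i, S.l r i = (S.mu : S.F)⁻¹ * aeval (S.root r) (p i)) :
    ∃ i₀, ¬ minpoly S.alg.K S.theta ∣ p i₀ := by
  obtain ⟨r, hr⟩ := hS
  obtain ⟨i, hi⟩ := Function.ne_iff.1 hr
  refine ⟨i, fun hd => hi ?_⟩
  obtain ⟨Q, hQ⟩ := hd
  rw [hp, hQ, map_mul, (Split.mem_rts (Split.minpoly_ne_zero _)).1 (S.root_mem_rts r)]
  simp

/-- The linear forms of a frame with a nonzero form do not vanish. -/
theorem l_ne_zero (hS : S.Pos) (r : S.ρ) : S.l r ≠ 0 := by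
  obtain ⟨p, hp⟩ := S.exists_form
  obtain ⟨i, hi⟩ := S.not_dvd_form hS hp
  intro h
  have h1 := congrFun h i
  rw [hp, Pi.zero_apply, mul_eq_zero, inv_eq_zero] at h1
  exact Split.form_ne_zero hi (S.root_mem_rts r) (h1.resolve_left S.mu_ne_zero)

theorem rel_iff {r r' : S.ρ} (hr : S.l r ≠ 0) :
    S.Rel r r' ↔ ∃ c : S.F, ∀ i, S.l r' i = c * S.l r i := by
  obtain ⟨j, hj⟩ := Function.ne_iff.1 hr
  constructor
  · refine fun h => ⟨S.l r' j / S.l r j, fun i => ?_⟩
    rw [div_mul_eq_mul_div, eq_div_iff hj]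
    linear_combination h j i
  · rintro ⟨c, hc⟩ i k
    rw [hc, hc]
    ring

/-- Proportionality is an equivalence. -/
theorem rel_equivalence (hS : S.Pos) : Equivalence S.Rel := by
  refine ⟨fun r i j => mul_comm _ _, fun {r r'} h i j => ?_, fun {r s t} h h' => ?_⟩
  · linear_combination -(h i j)
  · obtain ⟨c, hc⟩ := (S.rel_iff (S.l_ne_zero hS r)).1 h
    obtain ⟨d, hd⟩ := (S.rel_iff (S.l_ne_zero hS s)).1 h'
    exact (S.rel_iff (S.l_ne_zero hS r)).2 ⟨d * c, fun i => by rw [hd, hc]; ring⟩

/-- The classes have equal sizes. -/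
theorem rel_card (hS : S.Pos) (r r' : S.ρ) :
    Nat.card {s // S.Rel r s} = Nat.card {s // S.Rel r' s} := by
  classical
  obtain ⟨p, hp⟩ := S.exists_form
  obtain ⟨i, hi⟩ := S.not_dvd_form hS hp
  obtain ⟨cl, -, -, hcl⟩ := Split.classes (F := S.F) hi
  have key : ∀ r, Nat.card {s // S.Rel r s} = cl := by
    intro r
    rw [← hcl _ (S.root_mem_rts r), Nat.card_eq_fintype_card, Fintype.card_subtype, rts_eq,
      Finset.filter_image, Finset.card_image_of_injective _ S.root_injective]
    congr 1
    refine Finset.filter_congr fun s _ => ?_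
    rw [S.rel_iff (S.l_ne_zero hS r)]
    refine exists_congr fun c => forall_congr' fun j => ?_
    rw [hp, hp, mul_left_comm, mul_right_inj' (inv_ne_zero S.mu_ne_zero)]
  rw [key, key]

theorem eq_blockDiagonal {M : Matrix (S.β × S.ρ) (S.β × S.ρ) S.F}
    (h : Commute (Matrix.blockDiagonal fun r => Matrix.scalar S.β (S.root r)) M) :
    M = Matrix.blockDiagonal (Matrix.blockDiag M) := by
  ext ⟨a, r⟩ ⟨b, s⟩
  rw [Matrix.blockDiagonal_apply]
  split_ifs with hrs
  · cases hrs; rfl
  · have h1 := congrFun (congrFun h.eq (a, r)) (b, s)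
    simp only [Matrix.scalar_apply, Matrix.blockDiagonal_diagonal, Matrix.diagonal_mul,
      Matrix.mul_diagonal] at h1
    by_contra h0
    exact hrs (S.root_injective (mul_right_cancel₀ h0 (h1.trans (mul_comm _ _))))

/-- Every block lies in a division algebra over the field of its eigenvalue. -/
theorem exists_blockAlg (r : S.ρ) :
    ∃ B : BlockAlg S.β S.F, ∀ w, (S.X r).coeff w ∈ B.C := by
  classical
  have hblk : ∀ y : S.alg.D, Commute S.theta y →
      (y : Matrix (S.β × S.ρ) (S.β × S.ρ) S.F) =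
        Matrix.blockDiagonal (Matrix.blockDiag (y : Matrix (S.β × S.ρ) (S.β × S.ρ) S.F)) :=
    fun y hy => S.eq_blockDiagonal (congrArg Subtype.val hy.eq)
  have hscal : ∀ (P : S.alg.K[X]), Matrix.blockDiag
      ((aeval S.theta P : S.alg.D) : Matrix (S.β × S.ρ) (S.β × S.ρ) S.F) r =
        Matrix.scalar S.β (aeval (S.root r) P) := fun P => by
    rw [aeval_theta', Matrix.blockDiag_blockDiagonal]
  have hcomm : ∀ P : S.alg.K[X], Commute S.theta (aeval S.theta P) := fun P =>
    Algebra.commute_of_mem_adjoin_singleton_of_commute (aeval_mem_adjoin_singleton _ _)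
      (Commute.refl _)
  let C : Subring (Matrix S.β S.β S.F) :=
    { carrier := {M | ∃ y : S.alg.D, Commute S.theta y ∧
        Matrix.blockDiag (y : Matrix (S.β × S.ρ) (S.β × S.ρ) S.F) r = M}
      mul_mem' := by
        rintro _ _ ⟨y, hy, rfl⟩ ⟨z, hz, rfl⟩
        refine ⟨y * z, hy.mul_right hz, ?_⟩
        show Matrix.blockDiag ((y : Matrix (S.β × S.ρ) (S.β × S.ρ) S.F) *
          (z : Matrix (S.β × S.ρ) (S.β × S.ρ) S.F)) r = _
        conv_lhs => rw [hblk y hy, hblk z hz, ← Matrix.blockDiagonal_mul,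
          Matrix.blockDiag_blockDiagonal]
      one_mem' := ⟨1, Commute.one_right _, by rw [OneMemClass.coe_one, Matrix.blockDiag_one]; rfl⟩
      add_mem' := by
        rintro _ _ ⟨y, hy, rfl⟩ ⟨z, hz, rfl⟩
        exact ⟨y + z, hy.add_right hz, rfl⟩
      zero_mem' := ⟨0, Commute.zero_right _, rfl⟩
      neg_mem' := by
        rintro _ ⟨y, hy, rfl⟩
        exact ⟨-y, hy.neg_right, rfl⟩ }
  have halg : IsAlgebraic S.alg.K (S.root r) :=
    ⟨minpoly S.alg.K S.theta, Split.minpoly_ne_zero _,
      (Split.mem_rts (Split.minpoly_ne_zero _)).1 (S.root_mem_rts r)⟩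
  refine ⟨{ L := (S.alg.K⟮S.root r⟯).toSubfield
            C := C
            scalar_mem := ?_
            trace_mem := ?_
            unit_of_ne := ?_ }, fun w => ?_⟩
  · intro x hx
    have hx' : x ∈ (S.alg.K⟮S.root r⟯).toSubalgebra := hx
    rw [IntermediateField.adjoin_simple_toSubalgebra_of_isAlgebraic halg,
      Algebra.adjoin_singleton_eq_range_aeval] at hx'
    obtain ⟨P, rfl⟩ := hx'
    exact ⟨aeval S.theta P, hcomm P, hscal P⟩
  · rintro _ ⟨y, hy, rfl⟩
    obtain ⟨p, hp⟩ := Split.exists_trace_idem S.alg.io_span S.alg.finrank_eq (θ := S.theta) y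
    have h := hp _ (S.root_mem_rts r)
    rw [DivAlg.io_apply, hblk y hy, trace_idem_mul] at h
    rw [h]
    have : aeval (S.root r) p ∈ (S.alg.K⟮S.root r⟯).toSubalgebra := by
      rw [IntermediateField.adjoin_simple_toSubalgebra_of_isAlgebraic halg,
        Algebra.adjoin_singleton_eq_range_aeval]
      exact ⟨p, rfl⟩
    exact this
  · rintro _ ⟨y, hy, rfl⟩ h0
    have hy0 : y ≠ 0 := fun e => h0 (by rw [e]; rfl)
    have hz : Commute S.theta y⁻¹ := hy.inv_right₀
    have h1 := congrArg (fun u : S.alg.D =>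
        Matrix.blockDiag (u : Matrix (S.β × S.ρ) (S.β × S.ρ) S.F) r)
      (mul_inv_cancel₀ hy0)
    simp only [MulMemClass.coe_mul, OneMemClass.coe_one, Matrix.blockDiag_one] at h1
    conv_lhs at h1 => rw [hblk y hy, hblk y⁻¹ hz, ← Matrix.blockDiagonal_mul,
      Matrix.blockDiag_blockDiagonal]
    exact IsUnit.of_mul_eq_one _ h1
  · refine ⟨⟨_, S.X_mem w⟩, Subtype.ext ?_, ?_⟩
    · rw [MulMemClass.coe_mul, MulMemClass.coe_mul, theta]
      dsimp only
      rw [← Matrix.blockDiagonal_mul, ← Matrix.blockDiagonal_mul]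
      congr 1
      funext s
      exact (Matrix.scalar_commute _ (fun x => Commute.all _ x) _).eq
    · rw [Matrix.blockDiag_blockDiagonal]

end Frame

end Vale.Agent.P199
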