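import Mathlib.LinearAlgebra.Dimension.Finrank
import Mathlib.LinearAlgebra.FiniteDimensional.Lemmas
import Mathlib.LinearAlgebra.Matrix.Polynomial
import Mathlib.LinearAlgebra.Matrix.NonsingularInverse
import Mathlib.LinearAlgebra.Matrix.ToLinearEquiv
import Mathlib.Algebra.Polynomial.Roots
import Mathlib.Tactic.Module

/-!
A space of linear maps in which every nonzero element has rank at least its dimension
has an injective evaluation.
-/

namespace Vale.Agent.P199.Greedy

open Module

variable {K V W ι : Type*} [Field K] [AddCommGroup V] [Module K V] [AddCommGroup W] [Module K W]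

/-- A perturbation of an independent family stays independent for some nonzero parameter. -/
lemma exists_ne_zero_linearIndependent [Infinite K] [Fintype ι] {x : ι → W} (y : ι → W)
    (hx : LinearIndependent K x) :
    ∃ e : K, e ≠ 0 ∧ LinearIndependent K (fun i => x i + e • y i) := by
  classical
  obtain ⟨L, hL⟩ := LinearMap.exists_leftInverse_of_injective
    (Fintype.linearCombination K x) (LinearMap.ker_eq_bot.2 hx.fintypeLinearCombination_injective)
  have hLx : ∀ i, L (x i) = Pi.single i (1 : K) := fun i => by
    simpa [Fintype.linearCombination_apply_single] using LinearMap.congr_fun hL (Pi.single i (1 : K))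
  let A : Matrix ι ι K := fun i j => L (y i) j
  let p : Polynomial K := (1 + (Polynomial.X : Polynomial K) • A.map Polynomial.C).det
  have hp : p.eval 0 = 1 := by
    simp only [p, ← Polynomial.coe_evalRingHom, RingHom.map_det]
    convert Matrix.det_one (n := ι) (R := K)
    ext i j
    simp [Matrix.one_apply, apply_ite (Polynomial.eval (0 : K))]
  have hp0 : p ≠ 0 := fun h => by simp [h] at hp
  obtain ⟨e, he⟩ := Set.Infinite.nonempty
    ((Set.infinite_univ (α := K)).diff ((Polynomial.finite_setOf_isRoot hp0).union
      (Set.finite_singleton 0)))
  simp only [Set.mem_sdiff, Set.mem_univ, true_and, Set.mem_union, Set.mem_setOf_eq,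
    Set.mem_singleton_iff, not_or] at he
  refine ⟨e, he.2, LinearIndependent.of_comp L ?_⟩
  have hev : p.eval e = (1 + e • A).det := by
    simp only [p, ← Polynomial.coe_evalRingHom, RingHom.map_det]
    congr 1
    ext i j
    simp [Matrix.one_apply, apply_ite (Polynomial.eval e)]
    exact mul_comm _ _
  have hdet : (1 + e • A).det ≠ 0 := hev ▸ he.1
  have heq : (L ∘ fun i => x i + e • y i) = (1 + e • A).row := by
    funext i j
    simp only [Function.comp_apply, map_add, map_smul, hLx, Pi.add_apply, Pi.smul_apply,
      Matrix.row, Matrix.add_apply, Matrix.one_apply, Pi.single_apply, eq_comm (a := j)]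
    rfl
  rw [heq]
  exact Matrix.linearIndependent_rows_of_det_ne_zero hdet

/-- If every nonzero combination of the maps has rank at least their number, some vector
has independent images. -/
theorem exists_linearIndependent_apply [Infinite K] [FiniteDimensional K W] [Fintype ι]
    (T : ι → V →ₗ[K] W)
    (hT : ∀ c : ι → K, c ≠ 0 → Fintype.card ι ≤ finrank K (LinearMap.range (∑ i, c i • T i))) :
    ∃ u : V, LinearIndependent K (fun i => T i u) := by
  classical
  obtain ⟨S, hS, hmax⟩ :=
    (Finset.univ.filter fun S : Finset ι =>
      ∃ u : V, LinearIndependent K (fun i : S => T i u)).exists_max_image Finset.card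
      ⟨∅, Finset.mem_filter.2 ⟨Finset.mem_univ _, 0, linearIndependent_empty_type⟩⟩
  obtain ⟨u, hu⟩ := (Finset.mem_filter.1 hS).2
  by_cases hfull : S = Finset.univ
  · subst hfull
    exact ⟨u, hu.comp (fun i => ⟨i, Finset.mem_univ i⟩) fun a b h => congrArg Subtype.val h⟩
  exfalso
  obtain ⟨j, hj⟩ : ∃ j, j ∉ S := by
    by_contra h; push Not at h
    exact hfull (Finset.eq_univ_of_forall h)
  -- a combination of the maps killing `u`
  have hjs : T j u ∈ Submodule.span K (Set.range fun i : S => T i u) := by
    by_contra hn
    have hins : LinearIndependent K (fun i : ↥(insert j S) => T i u) := by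
      have h2 := hu.option (x := T j u) hn
      convert h2.comp (Finset.subtypeInsertEquivOption hj) (Equiv.injective _) using 1
      ext ⟨i, hi⟩
      simp only [Finset.subtypeInsertEquivOption, Equiv.coe_fn_mk, Function.comp]
      split_ifs with h
      · simp [h]
      · simp
    have := hmax (insert j S) (Finset.mem_filter.2 ⟨Finset.mem_univ _, u, hins⟩)
    rw [Finset.card_insert_of_notMem hj] at this
    omega
  obtain ⟨d, hd⟩ := (Submodule.mem_span_range_iff_exists_fun K).1 hjs
  let c : ι → K := fun i => if h : i ∈ S then -d ⟨i, h⟩ else if i = j then 1 else 0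
  have hcj : c j = 1 := by simp [c, hj]
  have hc : c ≠ 0 := fun h => one_ne_zero (hcj ▸ congrFun h j)
  have hsum : ∀ v, (∑ i, c i • T i) v = T j v - ∑ i : S, d i • T i v := by
    intro v
    rw [LinearMap.sum_apply, ← Finset.sum_add_sum_compl S,
      Finset.sum_eq_single (s := Sᶜ) j (fun b hb hbj => by
        simp [c, Finset.mem_compl.1 hb, hbj]) (fun h => absurd (Finset.mem_compl.2 hj) h),
      ← Finset.sum_coe_sort S]
    simp only [LinearMap.smul_apply, hcj, one_smul]
    have : ∀ i : S, c i = -d i := fun i => by simp [c, i.2]
    simp [this]
    abel
  -- some value of the combination lies outside the span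
  have hlt : finrank K (Submodule.span K (Set.range fun i : S => T i u)) <
      finrank K (LinearMap.range (∑ i, c i • T i)) := by
    refine lt_of_lt_of_le ?_ (hT c hc)
    rw [finrank_span_eq_card hu, Fintype.card_coe]
    exact (Finset.card_lt_card (Finset.ssubset_univ_iff.2 hfull)).trans_eq (Finset.card_univ)
  obtain ⟨z, ⟨w, rfl⟩, hz⟩ : ∃ z, z ∈ LinearMap.range (∑ i, c i • T i) ∧
      z ∉ Submodule.span K (Set.range fun i : S => T i u) := by
    by_contra h; push Not at h
    exact absurd (Submodule.finrank_mono h) (not_le.2 hlt)
  -- perturb `u` in the direction `w`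
  have hind := hu.option hz
  obtain ⟨e, he, hpert⟩ :=
    exists_ne_zero_linearIndependent (fun o => o.elim 0 fun i : S => T i w) hind
  have hnew : LinearIndependent K (fun i : ↥(insert j S) => T i (u + e • w)) := by
    have hsplit : LinearIndependent K
        (fun o : Option S => o.elim (T j (u + e • w)) fun i => T i (u + e • w)) := by
      rw [Fintype.linearIndependent_iff] at hpert ⊢
      intro g hg
      -- rewrite the relation in the perturbed family
      let g' : Option S → K := fun o => o.elim (g none * e) fun i => g (some i) + g none * d i
      have key : ∑ o, g' o • ((o.casesOn' ((∑ i, c i • T i) w)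
          (fun i : S => T i u)) + e • o.elim 0 fun i : S => T i w) = 0 := by
        refine Eq.trans ?_ hg
        rw [Fintype.sum_option, Fintype.sum_option]
        simp only [g', Option.elim_none, Option.elim_some, Option.casesOn'_none, Option.casesOn'_some,
          smul_zero, add_zero, hsum w, map_add, map_smul]
        rw [← hd]
        simp only [smul_sub, smul_add, Finset.smul_sum, smul_smul, add_smul, add_mul,
          Finset.sum_add_distrib]
        have h1 : ∀ i : S, g none * d i * e = g none * e * d i := fun i => by ring
        simp only [h1]
        module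
      have h0 := hpert g' key
      have hnone : g none = 0 := by
        simpa [g', he] using h0 none
      intro o
      cases o with
      | none => exact hnone
      | some i => simpa [g', hnone] using h0 (some i)
    convert hsplit.comp (Finset.subtypeInsertEquivOption hj) (Equiv.injective _) using 1
    ext ⟨i, hi⟩
    simp only [Finset.subtypeInsertEquivOption, Equiv.coe_fn_mk, Function.comp]
    split_ifs with h
    · simp [h]
    · simp
  have := hmax (insert j S) (Finset.mem_filter.2 ⟨Finset.mem_univ _, _, hnew⟩)
  rw [Finset.card_insert_of_notMem hj] at this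
  omega

end Vale.Agent.P199.Greedy
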