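import Mathlib

/-!
# P199: eigenvalues of polynomials of a matrix and the Hankel criterion
-/

namespace Vale.Agent.P199.InflCount

open Polynomial

variable {L : Type*} [Field L] [IsAlgClosed L] {n : Type*} [Fintype n] [DecidableEq n]

/-- The determinant of a polynomial in a matrix. -/
theorem det_aeval (A : Matrix n n L) (f : L[X]) :
    (aeval A f).det = (A.charpoly.roots.map fun z => f.eval z).prod := by
  have hcard : Multiset.card A.charpoly.roots = Fintype.card n := by
    rw [← (IsAlgClosed.splits A.charpoly).natDegree_eq_card_roots, A.charpoly_natDegree_eq_dim]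
  have hC : ∀ a : L, (aeval A (C a)).det = (A.charpoly.roots.map fun z => (C a).eval z).prod := by
    intro a
    simp [aeval_C, Matrix.algebraMap_eq_diagonal, Matrix.det_diagonal, hcard]
  have hlin : ∀ w : L, (aeval A (X - C w)).det =
      (A.charpoly.roots.map fun z => (X - C w : L[X]).eval z).prod := by
    intro w
    have h1 : (aeval A (X - C w)).det = (-(Matrix.scalar n w - A)).det := by
      rw [map_sub, aeval_X, aeval_C, neg_sub]
      rfl
    rw [h1, Matrix.det_neg, ← Matrix.eval_charpoly]
    conv_lhs => rw [(IsAlgClosed.splits A.charpoly).eq_prod_roots_of_monic A.charpoly_monic]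
    rw [eval_multiset_prod, Multiset.map_map, ← hcard, ← Multiset.prod_replicate,
      ← Multiset.map_const', ← Multiset.prod_map_mul]
    exact congrArg Multiset.prod (Multiset.map_congr rfl fun z _ => by simp)
  conv_lhs => rw [(IsAlgClosed.splits f).eq_prod_roots]
  conv_rhs => rw [(IsAlgClosed.splits f).eq_prod_roots]
  simp only [map_mul, Matrix.det_mul, hC, eval_mul, Multiset.prod_map_mul]
  congr 1
  induction f.roots using Multiset.induction_on with
  | empty => simp
  | cons w s ih =>
    simp only [Multiset.map_cons, Multiset.prod_cons, map_mul, Matrix.det_mul, hlin, ih, eval_mul,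
      Multiset.prod_map_mul]

/-- The characteristic polynomial of a polynomial in a matrix. -/
theorem charpoly_aeval [Infinite L] (A : Matrix n n L) (f : L[X]) :
    (aeval A f).charpoly = ((A.charpoly.roots.map fun z => f.eval z).map fun z => X - C z).prod := by
  refine Polynomial.funext fun x => ?_
  have h : (aeval A f).charpoly.eval x = (aeval A (C x - f)).det := by
    rw [Matrix.eval_charpoly, map_sub, aeval_C]
    rfl
  rw [h, det_aeval, eval_multiset_prod, Multiset.map_map, Multiset.map_map]
  simp [Function.comp_def]

/-- The trace of a polynomial in a matrix. -/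
theorem trace_aeval [Infinite L] (A : Matrix n n L) (f : L[X]) :
    (aeval A f).trace = (A.charpoly.roots.map fun z => f.eval z).sum := by
  rw [Matrix.trace_eq_sum_roots_charpoly, charpoly_aeval, roots_multiset_prod_X_sub_C]

/-- The Hankel matrix of the traces of powers. -/
def hankel {R : Type*} [CommRing R] (A : Matrix n n R) (k : ℕ) : Matrix (Fin k) (Fin k) R :=
  Matrix.of fun a b => (A ^ ((a : ℕ) + b)).trace

omit [DecidableEq n] in
theorem map_pow' [DecidableEq n] {R S : Type*} [CommRing R] [CommRing S] (φ : R →+* S)
    (A : Matrix n n R) (j : ℕ) : (A ^ j).map φ = (A.map φ) ^ j :=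
  (RingHom.mapMatrix φ).map_pow A j

theorem hankel_map {R S : Type*} [CommRing R] [CommRing S] (φ : R →+* S) (A : Matrix n n R)
    (k : ℕ) : (hankel A k).map φ = hankel (A.map φ) k := by
  ext a b
  simp [hankel, ← map_pow', AddMonoidHom.map_trace]

theorem hankel_mulVec [CharZero L] [DecidableEq L] (A : Matrix n n L) (k : ℕ) (v : Fin k → L) (a : Fin k) :
    (hankel A k).mulVec v a = ∑ z ∈ A.charpoly.roots.toFinset,
      (A.charpoly.roots.count z : L) * (z ^ (a : ℕ) * (∑ b, C (v b) * X ^ (b : ℕ)).eval z) := by
  have h : (hankel A k).mulVec v a =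
      (aeval A (X ^ (a : ℕ) * ∑ b, C (v b) * X ^ (b : ℕ))).trace := by
    simp only [Matrix.mulVec, dotProduct, hankel, Matrix.of_apply, map_mul, map_sum, map_pow,
      aeval_X, aeval_C, Finset.mul_sum, Matrix.trace_sum]
    refine Finset.sum_congr rfl fun b _ => ?_
    rw [← Algebra.smul_def, mul_smul_comm, Matrix.trace_smul, ← pow_add, smul_eq_mul, mul_comm]
  rw [h, trace_aeval, Finset.sum_multiset_map_count]
  simp

/-- More points than distinct eigenvalues: the Hankel determinant vanishes. -/
theorem hankel_det_eq_zero [CharZero L] [DecidableEq L] (A : Matrix n n L) {k : ℕ}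
    (hk : A.charpoly.roots.toFinset.card < k) : (hankel A k).det = 0 := by
  classical
  set Z := A.charpoly.roots.toFinset
  set P : L[X] := ∏ z ∈ Z, (X - C z) with hP
  have hmon : P.Monic := monic_prod_of_monic _ _ fun z _ => monic_X_sub_C z
  have hdeg : P.natDegree = Z.card := by
    rw [hP, natDegree_prod_of_monic _ _ fun z _ => monic_X_sub_C z]; simp
  refine Matrix.exists_mulVec_eq_zero_iff.1 ⟨fun b : Fin k => P.coeff b, ?_, ?_⟩
  · intro h
    have h1 : P.coeff P.natDegree = 0 := congrFun h ⟨P.natDegree, by omega⟩
    rw [hmon.coeff_natDegree] at h1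
    exact one_ne_zero h1
  · funext a
    have hsum : (∑ b : Fin k, C (P.coeff b) * X ^ (b : ℕ)) = P := by
      rw [Fin.sum_univ_eq_sum_range (fun b => C (P.coeff b) * X ^ b)]
      exact (as_sum_range_C_mul_X_pow' P (by omega)).symm
    rw [hankel_mulVec, hsum]
    refine Finset.sum_eq_zero fun z hz => ?_
    rw [hP, eval_prod, Finset.prod_eq_zero hz (by simp)]
    simp

/-- As many points as distinct eigenvalues: the Hankel determinant is nonzero. -/
theorem hankel_det_ne_zero [CharZero L] [DecidableEq L] (A : Matrix n n L) :
    (hankel A A.charpoly.roots.toFinset.card).det ≠ 0 := by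
  classical
  set Z := A.charpoly.roots.toFinset
  intro h
  obtain ⟨v, hv, hv0⟩ := Matrix.exists_mulVec_eq_zero_iff.2 h
  set p : L[X] := ∑ b, C (v b) * X ^ (b : ℕ) with hp
  have hker : ∀ g : L[X], g.natDegree < Z.card →
      ∑ z ∈ Z, (A.charpoly.roots.count z : L) * (g.eval z * p.eval z) = 0 := by
    intro g hg
    calc ∑ z ∈ Z, (A.charpoly.roots.count z : L) * (g.eval z * p.eval z)
        = ∑ a : Fin Z.card, g.coeff a * ((hankel A Z.card).mulVec v a) := by
          simp only [hankel_mulVec, Finset.mul_sum, ← hp]
          rw [Finset.sum_comm]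
          refine Finset.sum_congr rfl fun z _ => ?_
          rw [eval_eq_sum_range' hg, Finset.sum_mul, Finset.mul_sum,
            ← Fin.sum_univ_eq_sum_range
              (fun a => (A.charpoly.roots.count z : L) * (g.coeff a * z ^ a * p.eval z))]
          exact Finset.sum_congr rfl fun a _ => by ring
      _ = 0 := by simp [hv0]
  have hroot : ∀ z ∈ Z, p.eval z = 0 := by
    intro z hz
    have hdeg : (Lagrange.basis Z id z).natDegree < Z.card := by
      rw [Lagrange.natDegree_basis (Function.injective_id.injOn) hz]
      exact Nat.sub_lt (Finset.card_pos.2 ⟨z, hz⟩) one_pos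
    have h1 := hker _ hdeg
    have hs : ∑ y ∈ Z, (A.charpoly.roots.count y : L) *
        ((Lagrange.basis Z id z).eval y * p.eval y) = (A.charpoly.roots.count z : L) * p.eval z := by
      rw [Finset.sum_eq_single_of_mem z hz fun y hy hne => by
        rw [show (Lagrange.basis Z id z).eval y = 0 from
          Lagrange.eval_basis_of_ne (v := id) hne.symm hy, zero_mul, mul_zero]]
      rw [show (Lagrange.basis Z id z).eval z = 1 from
        Lagrange.eval_basis_self (v := id) (Function.injective_id.injOn) hz, one_mul]
    rw [hs] at h1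
    refine (mul_eq_zero.1 h1).resolve_left ?_
    exact_mod_cast (Multiset.count_pos.2 (Multiset.mem_toFinset.1 hz)).ne'
  have hp0 : p ≠ 0 := by
    intro e
    refine hv (funext fun b => ?_)
    have : p.coeff b = v b := by
      simp [hp, finsetSum_coeff, coeff_X_pow, Fin.val_inj]
    rw [← this, e, coeff_zero, Pi.zero_apply]
  have hlt : p.natDegree < Z.card := by
    rw [natDegree_lt_iff_degree_lt hp0, hp]
    exact degree_sum_fin_lt v
  have := Polynomial.eq_zero_of_natDegree_lt_card_of_eval_eq_zero' p Z hroot hlt
  exact hp0 this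

end Vale.Agent.P199.InflCount
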