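import Vale.Agent.P199.InflCountEv
import Vale.Agent.P199.InflCountEig

/-!
# P199: blocks of an inflation

The eigenvalues of different blocks are different, so every new root belongs to one block; a new
frame of a positive frame is positive; the multiplicity does not increase at a generic point.
-/

namespace Vale.Agent.P199

open Finset
open Polynomial (aeval)
open scoped Kronecker

namespace InflCount

/-- Ring maps commute with polynomials in a matrix. -/
theorem map_aeval_matrix {R T : Type*} [CommRing R] [CommRing T] {n : Type*} [Fintype n]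
    [DecidableEq n] (φ : R →+* T) (M : Matrix n n R) (p : Polynomial R) :
    (aeval M p).map φ = aeval (M.map φ) (p.map φ) := by
  induction p using Polynomial.induction_on' with
  | add p p' hp hp' =>
    rw [Polynomial.map_add, map_add, map_add, ← hp, ← hp', Matrix.map_add _ (map_add φ)]
  | monomial k a =>
    rw [Polynomial.map_monomial, Polynomial.aeval_monomial, Polynomial.aeval_monomial,
      ← map_pow', ← Algebra.smul_def, ← Algebra.smul_def]
    ext x y
    simp

/-- A constant minus a scalar shift of a matrix. -/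
theorem charpoly_scalar {R : Type*} [CommRing R] {n : Type*} [Fintype n] [DecidableEq n] (a : R) :
    (Matrix.scalar n a).charpoly = (Polynomial.X - Polynomial.C a) ^ Fintype.card n := by
  rw [Matrix.scalar_apply, Matrix.charpoly_diagonal, Finset.prod_const, Finset.card_univ]

theorem aeval_scalar {R : Type*} [CommRing R] {n : Type*} [Fintype n] [DecidableEq n] (a : R)
    (p : Polynomial R) : aeval (Matrix.scalar n a) p = Matrix.scalar n (p.eval a) := by
  have h : ∀ x : R, Matrix.scalar n x = algebraMap R (Matrix n n R) x := fun x => by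
    rw [Matrix.scalar_apply, Matrix.algebraMap_eq_diagonal]; rfl
  rw [h, h, Polynomial.aeval_algebraMap_apply_eq_algebraMap_eval]

end InflCount

open InflCount

namespace InflData

variable {S S' : Frame} {q : ℕ} (d : InflData S S' q)

/-- The series part of a block at the point. -/
noncomputable def evM (r : S.ρ) : Matrix (S.β × Fin q) (S.β × Fin q) (PowerSeries d.F₀) :=
  ev (tauPoint d.c) (d.XF r)

/-- The centre of a block. -/
noncomputable def centre (r : S.ρ) : S'.F := d.κ (PowerSeries.C (d.f (S.root r)))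

/-- The new roots lying in a block. -/
noncomputable def blkSet (r : S.ρ) : Finset S'.ρ :=
  open Classical in Finset.univ.filter fun r' => (d.blk r).charpoly.IsRoot (S'.root r')

theorem mem_blkSet {r : S.ρ} {r' : S'.ρ} :
    r' ∈ d.blkSet r ↔ (d.blk r).charpoly.IsRoot (S'.root r') := by simp [blkSet]

theorem XF_nil (r : S.ρ) : (d.XF r).coeff [] = 0 := by simp [XF, S.X_nil r]

theorem XF_coeff (r : S.ρ) (w : List S.ι) : (d.XF r).coeff w = ((S.X r).coeff w).map d.f := by
  simp [XF]

theorem evM_constantCoeff (r : S.ρ) : (d.evM r).map (PowerSeries.constantCoeff) = 0 := by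
  ext x y
  exact constantCoeff_ev_tauPoint d.c _ (d.XF_nil r) x y

theorem blk_eq (r : S.ρ) :
    d.blk r = Matrix.scalar _ (d.centre r) + (d.evM r).map d.κ := by
  rw [blk, Matrix.map_add _ (map_add d.κ), Matrix.scalar_apply, Matrix.scalar_apply,
    Matrix.diagonal_map (map_zero d.κ)]
  rfl

theorem centre_inj {r s : S.ρ} (h : d.f (S.root r) = d.f (S.root s)) : r = s :=
  S.root_injective (d.f.injective h)

/-- The characteristic polynomial of one block has no zero at an eigenvalue of another. -/
theorem eval_ne_zero_of_root {r s : S.ρ} (hrs : r ≠ s) {z : S'.F}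
    (hz : (d.blk r).charpoly.IsRoot z) : (d.blk s).charpoly.eval z ≠ 0 := by
  intro h0
  set B : S.ρ → Matrix (S.β × Fin q) (S.β × Fin q) (PowerSeries d.F₀) := fun t =>
    Matrix.scalar _ (PowerSeries.C (d.f (S.root t))) + d.evM t with hB
  have hblk : ∀ t, d.blk t = (B t).map d.κ := fun t => rfl
  have hcc : ∀ t, (B t).map PowerSeries.constantCoeff = Matrix.scalar _ (d.f (S.root t)) := by
    intro t
    rw [hB, Matrix.map_add _ (map_add PowerSeries.constantCoeff), d.evM_constantCoeff, add_zero,
      Matrix.scalar_apply, Matrix.scalar_apply, Matrix.diagonal_map (map_zero _)]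
    simp
  have hdet : (aeval (B r) (B s).charpoly).det ≠ 0 := by
    intro e
    have h1 := congrArg PowerSeries.constantCoeff e
    rw [map_zero, RingHom.map_det, RingHom.mapMatrix_apply, map_aeval_matrix, ← Matrix.charpoly_map,
      hcc, hcc, charpoly_scalar, aeval_scalar, Matrix.scalar_apply, Matrix.det_diagonal,
      Finset.prod_const, Polynomial.eval_pow, Polynomial.eval_sub, Polynomial.eval_X,
      Polynomial.eval_C] at h1
    exact hrs (d.centre_inj (sub_eq_zero.1 (pow_eq_zero_iff'.1 (pow_eq_zero_iff'.1 h1).1).1))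
  have h2 : (aeval (d.blk r) (d.blk s).charpoly).det ≠ 0 := by
    rw [hblk, hblk, Matrix.charpoly_map, ← map_aeval_matrix, ← RingHom.mapMatrix_apply,
      ← RingHom.map_det]
    exact fun e => hdet (d.κ_injective (e.trans (map_zero _).symm))
  refine h2 ?_
  rw [det_aeval, Multiset.prod_eq_zero_iff, Multiset.mem_map]
  exact ⟨z, (Polynomial.mem_roots (Matrix.charpoly_monic _).ne_zero).2 hz, h0⟩

/-- Different blocks have coprime characteristic polynomials. -/
theorem root_disjoint {r s : S.ρ} (hrs : r ≠ s) :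
    IsCoprime (d.blk r).charpoly (d.blk s).charpoly := by
  refine isCoprime_of_dvd _ _ (fun h => (Matrix.charpoly_monic _).ne_zero h.1) ?_
  intro p hp hp0 h1 h2
  obtain ⟨z, hz⟩ := IsAlgClosed.exists_root p (fun e => hp (Polynomial.isUnit_iff_degree_eq_zero.2 e))
  exact d.eval_ne_zero_of_root hrs (hz.dvd h1) (hz.dvd h2)

theorem charpoly_prod :
    ∏ r, (d.blk r).charpoly = ∏ r', (Polynomial.X - Polynomial.C (S'.root r')) ^ S'.mu :=
  d.charpoly_eq

theorem mu_pos (T : Frame) : 0 < T.mu := Fintype.card_pos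

/-- Every new root lies in exactly one block. -/
theorem exists_block (r' : S'.ρ) : ∃! r, r' ∈ d.blkSet r := by
  have h : (∏ r, (d.blk r).charpoly).eval (S'.root r') = 0 := by
    rw [d.charpoly_prod, Polynomial.eval_prod]
    refine Finset.prod_eq_zero (Finset.mem_univ r') ?_
    simp [(mu_pos S').ne']
  rw [Polynomial.eval_prod, Finset.prod_eq_zero_iff] at h
  obtain ⟨r, -, hr⟩ := h
  refine ⟨r, d.mem_blkSet.2 hr, fun s hs => ?_⟩
  by_contra hne
  exact d.eval_ne_zero_of_root (Ne.symm hne) hr (d.mem_blkSet.1 hs)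

/-- A polynomial cutting out one block. -/
theorem exists_idem (r : S.ρ) : ∃ g : Polynomial S'.F, aeval (d.blk r) g = 1 ∧
    (∀ s, s ≠ r → aeval (d.blk s) g = 0) ∧ (∀ r' ∈ d.blkSet r, g.eval (S'.root r') = 1) ∧
      ∀ r', r' ∉ d.blkSet r → g.eval (S'.root r') = 0 := by
  classical
  obtain ⟨u, v, huv⟩ := IsCoprime.prod_right (t := Finset.univ.erase r)
    (x := (d.blk r).charpoly) (s := fun s => (d.blk s).charpoly)
    fun s hs => d.root_disjoint (Finset.ne_of_mem_erase hs).symm
  refine ⟨v * ∏ s ∈ Finset.univ.erase r, (d.blk s).charpoly, ?_, fun s hs => ?_, fun r' hr' => ?_,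
    fun r' hr' => ?_⟩
  · have := congrArg (aeval (d.blk r)) huv
    rwa [map_add, map_mul _ u, Matrix.aeval_self_charpoly, mul_zero, zero_add, map_one] at this
  · rw [← Finset.mul_prod_erase _ _ (Finset.mem_erase.2 ⟨hs, Finset.mem_univ s⟩), map_mul,
      map_mul, Matrix.aeval_self_charpoly, zero_mul, mul_zero]
  · have := congrArg (Polynomial.eval (S'.root r')) huv
    rwa [Polynomial.eval_add, Polynomial.eval_mul, (d.mem_blkSet.1 hr').eq_zero, mul_zero,
      zero_add, Polynomial.eval_one] at this
  · obtain ⟨s, hs, -⟩ := d.exists_block r'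
    rw [Polynomial.eval_mul, Polynomial.eval_prod,
      Finset.prod_eq_zero (Finset.mem_erase.2 ⟨fun e : s = r => hr' (e ▸ hs), Finset.mem_univ s⟩)
        (d.mem_blkSet.1 hs).eq_zero, mul_zero]

/-- The trace identity of one block. -/
theorem trace_block (r : S.ρ) (g : Polynomial S'.F) (l : S'.ι) :
    d.κ PowerSeries.X * ∑ r' ∈ d.blkSet r, g.eval (S'.root r') * (S'.mu : S'.F) * S'.l r' l =
      Matrix.trace (aeval (d.blk r) g *
        (dev (tauPoint d.c) (tauPoint (d.e l)) (d.XF r)).map d.κ) := by
  classical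
  obtain ⟨gr, h1, h0, e1, e0⟩ := d.exists_idem r
  have h := d.trace_eq (gr * g) l
  have hl : ∑ r', Polynomial.eval (S'.root r') (gr * g) * (S'.mu : S'.F) * S'.l r' l =
      ∑ r' ∈ d.blkSet r, g.eval (S'.root r') * (S'.mu : S'.F) * S'.l r' l := by
    rw [← Finset.sum_subset (Finset.subset_univ (d.blkSet r)) fun r' _ hr' => by
      rw [Polynomial.eval_mul, e0 r' hr']; ring]
    exact Finset.sum_congr rfl fun r' hr' => by rw [Polynomial.eval_mul, e1 r' hr', one_mul]
  rw [hl] at h
  rw [h]
  show ∑ s, Matrix.trace (aeval (d.blk s) (gr * g) *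
    (dev (tauPoint d.c) (tauPoint (d.e l)) (d.XF s)).map d.κ) = _
  rw [Finset.sum_eq_single r]
  · rw [map_mul, h1, one_mul]
  · intro s _ hs
    rw [map_mul, h0 s hs, zero_mul, zero_mul, Matrix.trace_zero]
  · simp

/-- The linear forms in a block. -/
theorem forms_block (r : S.ρ) (l : S'.ι) :
    d.κ PowerSeries.X * ((S'.mu : S'.F) * ∑ r' ∈ d.blkSet r, S'.l r' l) =
      d.κ (Matrix.trace (dev (tauPoint d.c) (tauPoint (d.e l)) (d.XF r))) := by
  have h := d.trace_block r 1 l
  rw [map_one, one_mul, AddMonoidHom.map_trace d.κ] at *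
  rw [← h, Finset.mul_sum (a := (S'.mu : S'.F))]
  simp

/-- All the derivative traces vanish when all the new forms do. -/
theorem trace_pow_dev_eq_zero (h0 : ∀ r', S'.l r' = 0) (r : S.ρ) (j : ℕ)
    (V : S.ι → Matrix (Fin q) (Fin q) d.F₀) :
    (d.evM r ^ j * dev (tauPoint d.c) (tauPoint V) (d.XF r)).trace = 0 := by
  have hbase : ∀ l, (d.evM r ^ j * dev (tauPoint d.c) (tauPoint (d.e l)) (d.XF r)).trace = 0 := by
    intro l
    apply d.κ_injective
    have h := d.trace_block r ((Polynomial.X - Polynomial.C (d.centre r)) ^ j) l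
    simp only [h0, Pi.zero_apply, mul_zero, Finset.sum_const_zero] at h
    rw [map_zero, AddMonoidHom.map_trace d.κ, h]
    congr 1
    rw [map_pow, map_sub, Polynomial.aeval_X, Polynomial.aeval_C, d.blk_eq,
      Matrix.algebraMap_eq_diagonal, Matrix.scalar_apply]
    simp only [Pi.algebraMap_def, Algebra.algebraMap_self, RingHom.id_apply, add_sub_cancel_left]
    rw [← map_pow', Matrix.map_mul]
  obtain ⟨b, hb⟩ : ∃ b : S'.ι → d.F₀, ∑ l, b l • d.e l = V :=
    (Submodule.mem_span_range_iff_exists_fun d.F₀).1 (d.e_span ▸ Submodule.mem_top)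
  rw [← hb, InflCount.dev_combination, Finset.mul_sum, Matrix.trace_sum]
  refine Finset.sum_eq_zero fun l _ => ?_
  rw [mul_smul_comm, Matrix.trace_smul, hbase, smul_zero]

include d in
/-- An inflation of a frame with nonzero forms is positive. -/
theorem pos (hq : 0 < q) (hl : ∀ r, S.l r ≠ 0) : S'.Pos := by
  classical
  by_contra hc
  have h0 : ∀ r', S'.l r' = 0 := fun r' => by_contra fun h => hc ⟨r', h⟩
  obtain ⟨r⟩ := S.nonemptyρ
  obtain ⟨i, hi⟩ := Function.ne_iff.1 (hl r)
  have : NeZero q := ⟨by omega⟩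
  have h := d.trace_pow_dev_eq_zero h0 r 0 (Pi.single i (Matrix.single 0 0 1))
  rw [pow_zero, one_mul] at h
  have h1 := congrArg (PowerSeries.coeff 1) h
  rw [map_zero, coeff_one_trace_dev, Finset.sum_eq_single i (fun j _ hj => by
    rw [Pi.single_eq_of_ne hj, Matrix.trace_zero, mul_zero]) (by simp), Pi.single_eq_same,
    Matrix.trace_single_eq_same, mul_one, d.XF_coeff, ← AddMonoidHom.map_trace,
    map_eq_zero] at h1
  refine hi ?_
  show (Fintype.card S.β : S.F)⁻¹ * Matrix.trace ((S.X r).coeff [i]) = 0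
  rw [h1, mul_zero]

/-- If all the new forms vanish, all traces of powers of the blocks vanish at the point. -/
theorem zero (h0 : ∀ r', S'.l r' = 0) (r : S.ρ) (k : ℕ) (hk : 1 ≤ k) :
    Matrix.trace ((ev (tauPoint d.c) (d.XF r)) ^ k) = 0 := by
  obtain ⟨j, rfl⟩ : ∃ j, k = j + 1 := ⟨k - 1, by omega⟩
  change (d.evM r ^ (j + 1)).trace = 0
  have h := d.trace_pow_dev_eq_zero h0 r j d.c
  rw [dev_self, mul_smul_comm, Matrix.trace_smul, smul_eq_zero] at h
  have hd : (d.evM r ^ j * (d.evM r).map (PowerSeries.derivative d.F₀)).trace = 0 :=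
    h.resolve_left PowerSeries.X_ne_zero
  have hc : PowerSeries.constantCoeff (d.evM r ^ (j + 1)).trace = 0 := by
    rw [AddMonoidHom.map_trace, map_pow', d.evM_constantCoeff, zero_pow (Nat.succ_ne_zero j),
      Matrix.trace_zero]
  have : IsAddTorsionFree d.F₀ := inferInstance
  refine PowerSeries.derivative.ext ?_ ?_
  · rw [derivative_trace_pow, hd, mul_zero, map_zero]
  · rw [hc, map_zero]

open Classical in
theorem roots_blk (r : S.ρ) :
    (d.blk r).charpoly.roots = S'.mu • (d.blkSet r).val.map S'.root := by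
  refine Multiset.ext.2 fun z => ?_
  rw [Multiset.count_nsmul]
  by_cases hz : (d.blk r).charpoly.IsRoot z
  · have hsum : ∑ s, (d.blk s).charpoly.roots.count z = (d.blk r).charpoly.roots.count z :=
      Finset.sum_eq_single r (fun s _ hs => Multiset.count_eq_zero.2 fun hm =>
        d.eval_ne_zero_of_root hs.symm hz ((Polynomial.mem_roots'.1 hm).2)) (by simp)
    have h := congrArg (fun p : Polynomial S'.F => p.roots.count z) d.charpoly_prod
    rw [Polynomial.roots_prod _ _ (Finset.prod_ne_zero_iff.2 fun s _ =>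
        (Matrix.charpoly_monic _).ne_zero),
      Polynomial.roots_prod _ _ (Finset.prod_ne_zero_iff.2 fun s _ =>
        pow_ne_zero _ (Polynomial.X_sub_C_ne_zero _)),
      Multiset.count_bind, Multiset.count_bind] at h
    rw [← hsum]
    refine h.trans ?_
    simp only [Polynomial.roots_pow, Polynomial.roots_X_sub_C, Multiset.count_nsmul]
    show ∑ r', S'.mu * Multiset.count z {S'.root r'} = _
    rw [← Finset.mul_sum, Multiset.count_map]
    congr 1
    simp only [Multiset.count_singleton, Finset.sum_boole, Nat.cast_id]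
    show _ = (Finset.filter _ (d.blkSet r)).card
    congr 1
    ext r'
    simp only [Finset.mem_filter, Finset.mem_univ, true_and]
    exact ⟨fun e => ⟨d.mem_blkSet.2 (e ▸ hz), e⟩, fun e => e.2⟩
  · rw [Multiset.count_eq_zero.2 fun hm => hz (Polynomial.mem_roots'.1 hm).2,
      Multiset.count_eq_zero.2 fun hm => ?_, mul_zero]
    obtain ⟨r', hr', rfl⟩ := Multiset.mem_map.1 hm
    exact hz (d.mem_blkSet.1 hr')

/-- Degrees: a block has `μ q / μ'` new roots. -/
theorem card_blkSet (r : S.ρ) : S'.mu * (d.blkSet r).card = S.mu * q := by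
  classical
  have h := (IsAlgClosed.splits (d.blk r).charpoly).natDegree_eq_card_roots
  rw [d.roots_blk, Multiset.card_nsmul, Multiset.card_map, Matrix.charpoly_natDegree_eq_dim,
    Fintype.card_prod, Fintype.card_fin] at h
  exact h.symm

theorem charpoly_blk (r : S.ρ) :
    (d.blk r).charpoly = (∏ r' ∈ d.blkSet r, (Polynomial.X - Polynomial.C (S'.root r'))) ^ S'.mu := by
  classical
  conv_lhs => rw [(IsAlgClosed.splits (d.blk r).charpoly).eq_prod_roots_of_monic (Matrix.charpoly_monic _)]
  rw [d.roots_blk, Multiset.map_nsmul, Multiset.prod_nsmul, Multiset.map_map]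
  rfl

/-- A shift of `evM` by one degree. -/
noncomputable def evN (r : S.ρ) : Matrix (S.β × Fin q) (S.β × Fin q) (PowerSeries d.F₀) :=
  Matrix.of fun x y => PowerSeries.mk fun k => PowerSeries.coeff (k + 1) (d.evM r x y)

theorem evM_eq (r : S.ρ) : d.evM r = (PowerSeries.X : PowerSeries d.F₀) • d.evN r := by
  refine Matrix.ext fun x y => PowerSeries.ext fun k => ?_
  rw [Matrix.smul_apply, smul_eq_mul]
  cases k with
  | zero =>
    rw [PowerSeries.coeff_zero_X_mul, PowerSeries.coeff_zero_eq_constantCoeff_apply]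
    exact congrFun (congrFun (d.evM_constantCoeff r) x) y
  | succ k => simp [evN, PowerSeries.coeff_succ_X_mul]

theorem evN_constantCoeff (r : S.ρ) :
    (d.evN r).map PowerSeries.constantCoeff = ∑ i, ((S.X r).coeff [i]).map d.f ⊗ₖ d.c i := by
  have h : (d.evN r).map PowerSeries.constantCoeff = (d.evM r).map (PowerSeries.coeff 1) := by
    ext x y
    simp [evN, ← PowerSeries.coeff_zero_eq_constantCoeff_apply]
  rw [h]
  simp only [evM, coeff_one_ev_tauPoint, d.XF_coeff]

open Classical in
/-- Distinct leading eigenvalues give distinct new roots of the block. -/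
theorem card_le_blkSet (r : S.ρ) (k : ℕ)
    (hdet : (hankel ((d.evN r).map PowerSeries.constantCoeff) k).det ≠ 0) :
    k ≤ (d.blkSet r).card := by
  set Nk := (d.evN r).map d.κ with hNk
  have hk : (hankel Nk k).det ≠ 0 := by
    rw [hNk, ← hankel_map, ← RingHom.mapMatrix_apply, ← RingHom.map_det]
    intro e
    refine hdet ?_
    rw [← hankel_map, ← RingHom.mapMatrix_apply, ← RingHom.map_det,
      d.κ_injective (e.trans (map_zero _).symm), map_zero]
  refine le_trans (Nat.le_of_not_lt fun h => hk (hankel_det_eq_zero Nk h)) ?_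
  have hX : d.κ PowerSeries.X ≠ 0 := fun e =>
    PowerSeries.X_ne_zero (d.κ_injective (e.trans (map_zero _).symm))
  refine le_trans (Finset.card_le_card_of_injOn (fun z => d.centre r + d.κ PowerSeries.X * z)
    (t := (d.blkSet r).image S'.root) (fun z hz => ?_) fun a _ b _ e => mul_left_cancel₀ hX
      (add_left_cancel e)) Finset.card_image_le
  have hz' : (Nk.charpoly).eval z = 0 := (Polynomial.mem_roots'.1 (Multiset.mem_toFinset.1 hz)).2
  have hroot : (d.blk r).charpoly.IsRoot (d.centre r + d.κ PowerSeries.X * z) := by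
    rw [Matrix.eval_charpoly] at hz'
    rw [Polynomial.IsRoot, Matrix.eval_charpoly, d.blk_eq, d.evM_eq]
    rw [show Matrix.scalar (S.β × Fin q) (d.centre r + d.κ PowerSeries.X * z) -
        (Matrix.scalar _ (d.centre r) + ((PowerSeries.X : PowerSeries d.F₀) • d.evN r).map d.κ) =
        d.κ PowerSeries.X • (Matrix.scalar _ z - Nk) by
      ext x y
      rcases eq_or_ne x y with rfl | hxy
      · simp [hNk, mul_sub]
      · simp [hNk, hxy]]
    rw [Matrix.det_smul, hz', mul_zero]
  have hm : d.centre r + d.κ PowerSeries.X * z ∈ (d.blk r).charpoly.roots :=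
    (Polynomial.mem_roots (Matrix.charpoly_monic _).ne_zero).2 hroot
  rw [d.roots_blk, Multiset.mem_nsmul] at hm
  obtain ⟨r', hr', he⟩ := Multiset.mem_map.1 hm.2
  exact Finset.mem_coe.2 (Finset.mem_image.2 ⟨r', hr', he⟩)

theorem isPow_of_card (r : S.ρ) (hmu : S'.mu = S.mu) :
    IsPow S.mu q ((ev (tauPoint d.c) (d.XF r)).charpoly.map d.κ) := by
  classical
  have hcard : (d.blkSet r).card = q := by
    have h := d.card_blkSet r
    rw [hmu] at h
    exact Nat.eq_of_mul_eq_mul_left (mu_pos S) h
  refine ⟨∏ r' ∈ d.blkSet r, (Polynomial.X - Polynomial.C (S'.root r' - d.centre r)), ?_, ?_, ?_⟩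
  · exact Polynomial.monic_prod_of_monic _ _ fun r' _ => Polynomial.monic_X_sub_C _
  · rw [Polynomial.natDegree_prod_of_monic _ _ fun r' _ => Polynomial.monic_X_sub_C _]
    simp only [Polynomial.natDegree_X_sub_C, Finset.sum_const, smul_eq_mul, mul_one, hcard]
  · have e : (d.evM r).map d.κ = d.blk r - Matrix.scalar _ (d.centre r) := by
      rw [d.blk_eq, add_sub_cancel_left]
    show (d.evM r).charpoly.map d.κ = _
    rw [← Matrix.charpoly_map, e, Matrix.charpoly_sub_scalar, d.charpoly_blk, hmu,
      Polynomial.pow_comp, Polynomial.prod_comp]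
    congr 1
    refine Finset.prod_congr rfl fun r' _ => ?_
    rw [Polynomial.sub_comp, Polynomial.X_comp, Polynomial.C_comp, map_sub]
    ring

end InflData

namespace Frame

open InflCount

variable (S : Frame) (q : ℕ)

/-- The leading matrix of a block at the generic point. -/
noncomputable def leadGen (r : S.ρ) :
    Matrix (S.β × Fin q) (S.β × Fin q) (MvPolynomial (S.ι × Fin q × Fin q) S.F) :=
  ∑ i, ((S.X r).coeff [i]).map MvPolynomial.C ⊗ₖ Matrix.of fun x y => MvPolynomial.X (i, x, y)

theorem leadGen_map {F₀ : Type*} [CommRing F₀] (f : S.F →+* F₀)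
    (c : S.ι → Matrix (Fin q) (Fin q) F₀) (r : S.ρ) :
    (S.leadGen q r).map (MvPolynomial.eval₂Hom f fun x => c x.1 x.2.1 x.2.2) =
      ∑ i, ((S.X r).coeff [i]).map f ⊗ₖ c i := by
  ext x y
  simp [leadGen, Matrix.sum_apply]

open Classical in
/-- At some point there are at least `q` distinct leading eigenvalues. -/
theorem exists_lead (r : S.ρ) (hl : S.l r ≠ 0) :
    ∃ (c : S.ι → Matrix (Fin q) (Fin q) S.F) (k : ℕ), q ≤ k ∧
      (hankel (∑ i, (S.X r).coeff [i] ⊗ₖ c i) k).det ≠ 0 := by
  obtain ⟨i, hi⟩ := Function.ne_iff.1 hl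
  set A := (S.X r).coeff [i] with hA
  have htr : A.trace ≠ 0 := fun e => hi (by
    show (Fintype.card S.β : S.F)⁻¹ * Matrix.trace A = 0
    rw [e, mul_zero])
  obtain ⟨α, hα, hα0⟩ : ∃ α ∈ A.charpoly.roots, α ≠ 0 := by
    by_contra hc
    simp only [not_exists, not_and, not_not] at hc
    rw [Matrix.trace_eq_sum_roots_charpoly] at htr
    exact htr (Multiset.sum_eq_zero hc)
  have hev : (Matrix.scalar S.β α - A).det = 0 := by
    rw [← Matrix.eval_charpoly]; exact (Polynomial.mem_roots'.1 hα).2
  obtain ⟨v, hv, hvA⟩ := Matrix.exists_mulVec_eq_zero_iff.2 hev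
  let c : S.ι → Matrix (Fin q) (Fin q) S.F :=
    Pi.single i (Matrix.diagonal fun j : Fin q => ((j : ℕ) : S.F) + 1)
  have hsum : ∑ j, (S.X r).coeff [j] ⊗ₖ c j =
      A ⊗ₖ Matrix.diagonal fun j : Fin q => ((j : ℕ) : S.F) + 1 := by
    rw [Finset.sum_eq_single i (fun j _ hj => by
      rw [show c j = 0 from Pi.single_eq_of_ne hj _]; exact Matrix.kronecker_zero _) (by simp)]
    simp [c, hA]
  set M := A ⊗ₖ Matrix.diagonal fun j : Fin q => ((j : ℕ) : S.F) + 1 with hM
  refine ⟨c, M.charpoly.roots.toFinset.card, ?_, hsum ▸ hankel_det_ne_zero M⟩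
  have hinj : Function.Injective fun j : Fin q => α * (((j : ℕ) : S.F) + 1) := fun a b e => by
    simpa [Fin.val_inj] using mul_left_cancel₀ hα0 e
  calc q = (Finset.univ.image fun j : Fin q => α * (((j : ℕ) : S.F) + 1)).card := by
        rw [Finset.card_image_of_injective _ hinj]; simp
    _ ≤ _ := Finset.card_le_card fun z hz => by
        obtain ⟨j, -, rfl⟩ := Finset.mem_image.1 hz
        rw [Multiset.mem_toFinset, Polynomial.mem_roots (Matrix.charpoly_monic _).ne_zero,
          Polynomial.IsRoot, Matrix.eval_charpoly]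
        refine Matrix.exists_mulVec_eq_zero_iff.1
          ⟨fun x => v x.1 * if x.2 = j then 1 else 0, ?_, ?_⟩
        · obtain ⟨b, hb⟩ := Function.ne_iff.1 hv
          exact Function.ne_iff.2 ⟨(b, j), by simpa using hb⟩
        · funext x
          obtain ⟨x1, x2⟩ := x
          have h1 := congrFun hvA x1
          simp only [Matrix.mulVec, dotProduct, Matrix.sub_apply, Matrix.scalar_apply,
            Matrix.diagonal_apply, Pi.zero_apply, sub_mul, Finset.sum_sub_distrib, ite_mul,
            zero_mul, Finset.sum_ite_eq, Finset.mem_univ, if_true] at h1 ⊢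
          simp only [hM, Matrix.kronecker_apply, Fintype.sum_prod_type, Matrix.diagonal_apply,
            mul_ite, mul_one, mul_zero, ite_mul, zero_mul, Finset.sum_ite_eq',
            Finset.mem_univ, if_true]
          by_cases hx : x2 = j
          · subst hx
            simp only [if_true]
            have hs : ∑ b, A x1 b * (((x2 : ℕ) : S.F) + 1) * v b =
                (((x2 : ℕ) : S.F) + 1) * ∑ b, A x1 b * v b := by
              rw [Finset.mul_sum]; exact Finset.sum_congr rfl fun b _ => by ring
            rw [hs]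
            linear_combination (((x2 : ℕ) : S.F) + 1) * h1
          · simp [hx]

/-- The multiplicity does not increase at a generic point. -/
theorem count (hl : ∀ r, S.l r ≠ 0) :
    ∃ P : MvPolynomial (S.ι × Fin q × Fin q) S.F, P ≠ 0 ∧
      ∀ (S' : Frame) (d : InflData S S' q), 0 < q → d.evalPoint P ≠ 0 → S'.mu ≤ S.mu ∧
        (S'.mu = S.mu → ∀ r, IsPow S.mu q ((ev (tauPoint d.c) (d.XF r)).charpoly.map d.κ)) := by
  classical
  choose c k hk hdet using fun r => S.exists_lead q r (hl r)
  refine ⟨∏ r, (hankel (S.leadGen q r) (k r)).det, Finset.prod_ne_zero_iff.2 fun r _ e => ?_, ?_⟩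
  · have h := congrArg (MvPolynomial.eval₂Hom (RingHom.id S.F) fun x : S.ι × Fin q × Fin q =>
      c r x.1 x.2.1 x.2.2) e
    rw [map_zero, RingHom.map_det, RingHom.mapMatrix_apply, hankel_map, S.leadGen_map] at h
    simp only [RingHom.coe_id, Matrix.map_id] at h
    exact hdet r h
  intro S' d hq hne
  change MvPolynomial.eval₂Hom d.f (fun x : S.ι × Fin q × Fin q => d.c x.1 x.2.1 x.2.2) _ ≠ 0 at hne
  rw [map_prod, Finset.prod_ne_zero_iff] at hne
  refine ⟨?_, fun hmu r => d.isPow_of_card r hmu⟩
  obtain ⟨r⟩ := S.nonemptyρ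
  have h := hne r (Finset.mem_univ r)
  rw [RingHom.map_det, RingHom.mapMatrix_apply, hankel_map, S.leadGen_map,
    ← d.evN_constantCoeff] at h
  have hle : q ≤ (d.blkSet r).card := (hk r).trans (d.card_le_blkSet r (k r) h)
  exact Nat.le_of_mul_le_mul_right ((Nat.mul_le_mul_left S'.mu hle).trans_eq (d.card_blkSet r)) hq

end Frame

end Vale.Agent.P199
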