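import Vale.Agent.P199.Frame

/-!
# P199: evaluation and derivative at a point `τ • c`

Coefficientwise formulas, linearity of the derivative in the direction, and the Euler identity
for traces of powers.
-/

namespace Vale.Agent.P199.InflCount

open Finset
open scoped Kronecker
open Series (Ser)

section Coeff

variable {A : Type*} [CommRing A] {ι p β : Type*} [Fintype ι] [DecidableEq ι] [Fintype β]
  [DecidableEq β] [Fintype p] [DecidableEq p]

omit [Fintype ι] [DecidableEq ι] in
theorem prod_ofH_tauPoint (c : ι → Matrix p p A) : ∀ (w : List ι) (k : ℕ),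
    ((w.map (ofH (β := β) (tauPoint c))).prod).coeff (List.replicate k ()) =
      if w.length = k then (1 : Matrix β β A) ⊗ₖ (w.map c).prod else 0 := by
  intro w
  induction w with
  | nil =>
    intro k
    cases k with
    | zero => simp [Series.Ser.coeff_one, Series.const, Matrix.one_kronecker_one]
    | succ k => simp [Series.Ser.coeff_one, Series.const, List.replicate_succ]
  | cons i w ih =>
    intro k
    have hcoef : ∀ W : List Unit, (ofH (β := β) (tauPoint c) i).coeff W =
        if W.length = 1 then (1 : Matrix β β A) ⊗ₖ c i else 0 := by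
      intro W
      simp only [ofH]
      split_ifs with h
      · rw [h]
        congr 1
        ext x y
        rw [Matrix.map_apply, tauPoint, show (1 : ℕ) = 0 + 1 from rfl,
          PowerSeries.coeff_succ_X_mul, PowerSeries.coeff_C, if_pos rfl]
      · rw [show (tauPoint c i).map (PowerSeries.coeff W.length) = 0 from ?_, Matrix.kronecker_zero]
        ext x y
        rw [Matrix.map_apply, Matrix.zero_apply, tauPoint]
        rcases Nat.eq_zero_or_pos W.length with h0 | h0
        · rw [h0]; simp
        · obtain ⟨j, hj⟩ : ∃ j, W.length = j + 2 := ⟨W.length - 2, by omega⟩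
          rw [hj, show j + 2 = j + 1 + 1 from rfl, PowerSeries.coeff_succ_X_mul,
            PowerSeries.coeff_C, if_neg (by omega)]
    rw [List.map_cons, List.prod_cons]
    cases k with
    | zero => simp [hcoef, List.replicate]
    | succ k =>
      rw [List.replicate_succ, Series.Ser.coeff_mul_cons, hcoef]
      have ht : Series.Ser.tail () (ofH (β := β) (tauPoint c) i) =
          Series.Ser.C ((1 : Matrix β β A) ⊗ₖ c i) := by
        refine Series.Ser.ext (funext fun W => ?_)
        rw [Series.Ser.coeff_tail, hcoef]
        cases W <;> simp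
      rw [ht, Series.Ser.coeff_C_mul, ih k]
      simp only [List.length_nil, zero_ne_one, if_false, zero_mul, zero_add, List.length_cons,
        List.map_cons, List.prod_cons, add_left_inj]
      split_ifs with h
      · rw [← Matrix.mul_kronecker_mul, one_mul]
      · rw [mul_zero]

/-- The coefficients of the evaluation at `τ • c`. -/
theorem coeff_ev_tauPoint (c : ι → Matrix p p A) (a : Ser (Matrix β β A) ι) (k : ℕ)
    (x y : β × p) :
    PowerSeries.coeff k (ev (tauPoint c) a x y) =
      ∑ w ∈ words ι k, a.coeff w x.1 y.1 * (w.map c).prod x.2 y.2 := by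
  have e : PowerSeries.coeff k (ev (tauPoint c) a x y) =
      (subst kronOne (ofH (β := β) (tauPoint c)) a).coeff (List.replicate k ()) x y := by
    simp [ev, toPS]
  rw [e]
  have e2 : (subst kronOne (ofH (β := β) (tauPoint c)) a).coeff (List.replicate k ()) =
      ∑ j ∈ range (k + 1), ∑ w ∈ words ι j,
        kronOne (a.coeff w) * (if w.length = k then (1 : Matrix β β A) ⊗ₖ (w.map c).prod else 0) := by
    simp only [subst, prod_ofH_tauPoint, List.length_replicate]
  have hlen : ∀ j, ∀ w ∈ words ι j, w.length = j := by
    intro j w hw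
    obtain ⟨f, -, rfl⟩ := Finset.mem_image.1 hw
    simp
  rw [e2, Finset.sum_eq_single k (fun j hj hne => Finset.sum_eq_zero fun w hw => by
    rw [if_neg (by rw [hlen j w hw]; exact hne), mul_zero]) (by simp)]
  rw [Matrix.sum_apply]
  refine Finset.sum_congr rfl fun w hw => ?_
  rw [if_pos (hlen k w hw)]
  simp only [kronOne, RingHom.coe_mk, MonoidHom.coe_mk, OneHom.coe_mk]
  rw [← Matrix.mul_kronecker_mul, mul_one, one_mul, Matrix.kronecker_apply]

theorem dblPoint_tauPoint (c v : ι → Matrix p p A) :
    dblPoint (tauPoint c) (tauPoint v) = tauPoint fun i => Matrix.fromBlocks (c i) (v i) 0 (c i) := by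
  funext i
  ext (x | x) (y | y) : 1 <;> simp [dblPoint, tauPoint]

/-- The derivative of a word along `v`. -/
def dWord (c v : ι → Matrix p p A) : List ι → Matrix p p A
  | [] => 0
  | i :: w => c i * dWord c v w + v i * (w.map c).prod

omit [Fintype ι] [DecidableEq ι] in
theorem prod_fromBlocks (c v : ι → Matrix p p A) : ∀ w : List ι,
    (w.map fun i => Matrix.fromBlocks (c i) (v i) 0 (c i)).prod =
      Matrix.fromBlocks (w.map c).prod (dWord c v w) 0 (w.map c).prod
  | [] => by simp [dWord, Matrix.fromBlocks_one]
  | i :: w => by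
    simp only [List.map_cons, List.prod_cons, prod_fromBlocks c v w, Matrix.fromBlocks_multiply,
      dWord, Matrix.mul_zero, Matrix.zero_mul, add_zero, zero_add]

/-- The coefficients of the derivative at `τ • c` along `τ • v`. -/
theorem coeff_dev_tauPoint (c v : ι → Matrix p p A) (a : Ser (Matrix β β A) ι) (k : ℕ)
    (x y : β × p) :
    PowerSeries.coeff k (dev (tauPoint c) (tauPoint v) a x y) =
      ∑ w ∈ words ι k, a.coeff w x.1 y.1 * dWord c v w x.2 y.2 := by
  simp only [dev]
  rw [dblPoint_tauPoint, coeff_ev_tauPoint]
  simp only [prod_fromBlocks, Matrix.fromBlocks_apply₁₂]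

omit [Fintype ι] [DecidableEq ι] in
theorem dWord_self (c : ι → Matrix p p A) : ∀ w : List ι,
    dWord c c w = (w.length : A) • (w.map c).prod
  | [] => by simp [dWord]
  | i :: w => by
    simp only [dWord, dWord_self c w, List.map_cons, List.prod_cons, List.length_cons,
      Matrix.mul_smul, Nat.cast_add, Nat.cast_one, add_smul, one_smul]

omit [Fintype ι] [DecidableEq ι] in
theorem dWord_combination {l : Type*} (s : Finset l) (c : ι → Matrix p p A) (b : l → A)
    (v : l → ι → Matrix p p A) : ∀ w : List ι,
    dWord c (∑ j ∈ s, b j • v j) w = ∑ j ∈ s, b j • dWord c (v j) w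
  | [] => by simp [dWord]
  | i :: w => by
    simp only [dWord, dWord_combination s c b v w, Matrix.mul_sum, Matrix.mul_smul, Finset.sum_apply,
      Pi.smul_apply, Matrix.sum_mul, Matrix.smul_mul, smul_add, Finset.sum_add_distrib]

/-- Linearity of the derivative in the direction. -/
theorem dev_combination {l : Type*} (s : Finset l) (c : ι → Matrix p p A) (b : l → A)
    (v : l → ι → Matrix p p A) (a : Ser (Matrix β β A) ι) :
    dev (tauPoint c) (tauPoint (∑ j ∈ s, b j • v j)) a =
      ∑ j ∈ s, PowerSeries.C (b j) • dev (tauPoint c) (tauPoint (v j)) a := by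
  refine Matrix.ext fun x y => PowerSeries.ext fun k => ?_
  simp only [coeff_dev_tauPoint, Matrix.sum_apply, Matrix.smul_apply, smul_eq_mul, map_sum,
    PowerSeries.coeff_C_mul, dWord_combination, Finset.mul_sum]
  rw [Finset.sum_comm]
  exact Finset.sum_congr rfl fun j _ => Finset.sum_congr rfl fun w _ => mul_left_comm _ _ _

/-- Along `τ • c` itself the derivative is the Euler derivative. -/
theorem dev_self (c : ι → Matrix p p A) (a : Ser (Matrix β β A) ι) :
    dev (tauPoint c) (tauPoint c) a =
      (PowerSeries.X : PowerSeries A) • (ev (tauPoint c) a).map (PowerSeries.derivative A) := by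
  refine Matrix.ext fun x y => PowerSeries.ext fun k => ?_
  rw [coeff_dev_tauPoint, Matrix.smul_apply, smul_eq_mul, Matrix.map_apply]
  cases k with
  | zero =>
    rw [PowerSeries.coeff_zero_X_mul]
    refine Finset.sum_eq_zero fun w hw => ?_
    obtain ⟨f, -, rfl⟩ := Finset.mem_image.1 hw
    simp [dWord]
  | succ k =>
    rw [PowerSeries.coeff_succ_X_mul, PowerSeries.coeff_derivative, coeff_ev_tauPoint,
      Finset.sum_mul]
    refine Finset.sum_congr rfl fun w hw => ?_
    obtain ⟨f, -, rfl⟩ := Finset.mem_image.1 hw
    rw [dWord_self, Matrix.smul_apply, smul_eq_mul, List.length_ofFn]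
    push_cast
    ring

omit [Fintype p] [DecidableEq p] [Fintype β] [DecidableEq β] in
theorem sum_words_one {M : Type*} [AddCommMonoid M] (F : List ι → M) :
    ∑ w ∈ words ι 1, F w = ∑ i, F [i] := by
  have h : words ι 1 = Finset.univ.image fun i : ι => [i] := by
    ext w
    simp only [words, Finset.mem_image, Finset.mem_univ, true_and]
    exact ⟨fun ⟨f, hf⟩ => ⟨f 0, by rw [← hf]; simp⟩, fun ⟨i, hi⟩ => ⟨fun _ => i, by rw [← hi]; simp⟩⟩
  rw [h, Finset.sum_image fun a _ b _ e => List.singleton_injective e]

theorem constantCoeff_ev_tauPoint (c : ι → Matrix p p A) (a : Ser (Matrix β β A) ι)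
    (h0 : a.coeff [] = 0) (x y : β × p) : PowerSeries.constantCoeff (ev (tauPoint c) a x y) = 0 := by
  rw [← PowerSeries.coeff_zero_eq_constantCoeff_apply, coeff_ev_tauPoint]
  refine Finset.sum_eq_zero fun w hw => ?_
  obtain ⟨f, -, rfl⟩ := Finset.mem_image.1 hw
  simp [h0]

/-- The linear coefficient of the evaluation. -/
theorem coeff_one_ev_tauPoint (c : ι → Matrix p p A) (a : Ser (Matrix β β A) ι) :
    (ev (tauPoint c) a).map (PowerSeries.coeff 1) = ∑ i, a.coeff [i] ⊗ₖ c i := by
  ext x y
  rw [Matrix.map_apply, coeff_ev_tauPoint, sum_words_one, Matrix.sum_apply]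
  exact Finset.sum_congr rfl fun i _ => by simp [Matrix.kronecker_apply]

/-- The linear coefficient of the trace of the derivative. -/
theorem coeff_one_trace_dev (c v : ι → Matrix p p A) (a : Ser (Matrix β β A) ι) :
    PowerSeries.coeff 1 (dev (tauPoint c) (tauPoint v) a).trace =
      ∑ i, (a.coeff [i]).trace * (v i).trace := by
  simp only [Matrix.trace, Matrix.diag_apply, map_sum, coeff_dev_tauPoint, sum_words_one]
  rw [Finset.sum_comm]
  refine Finset.sum_congr rfl fun i _ => ?_
  rw [Fintype.sum_prod_type, Finset.sum_mul_sum]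
  simp [dWord]

end Coeff

section Euler

variable {A : Type*} [CommRing A] {n : Type*} [Fintype n] [DecidableEq n]

omit [DecidableEq n] in
theorem derivative_mul (M N : Matrix n n (PowerSeries A)) :
    (M * N).map (PowerSeries.derivative A) =
      M.map (PowerSeries.derivative A) * N + M * N.map (PowerSeries.derivative A) := by
  ext1 x y
  simp only [Matrix.map_apply, Matrix.mul_apply, Matrix.add_apply, map_sum, Derivation.leibniz,
    smul_eq_mul, ← Finset.sum_add_distrib]
  exact Finset.sum_congr rfl fun z _ => by ring

theorem trace_pow_derivative (M : Matrix n n (PowerSeries A)) : ∀ j i : ℕ,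
    (M ^ i * (M ^ (j + 1)).map (PowerSeries.derivative A)).trace =
      ((j + 1 : ℕ) : PowerSeries A) * (M ^ (i + j) * M.map (PowerSeries.derivative A)).trace
  | 0, i => by simp
  | j + 1, i => by
    rw [pow_succ M (j + 1), derivative_mul, mul_add, Matrix.trace_add]
    have h1 : (M ^ i * ((M ^ (j + 1)).map (PowerSeries.derivative A) * M)).trace =
        (M ^ (i + 1) * (M ^ (j + 1)).map (PowerSeries.derivative A)).trace := by
      rw [← mul_assoc, Matrix.trace_mul_comm, ← mul_assoc, pow_succ' M i]
    rw [h1, trace_pow_derivative M j (i + 1), ← mul_assoc (M ^ i), ← pow_add,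
      show i + 1 + j = i + (j + 1) by omega]
    push_cast
    ring

/-- If every `tr (M ^ j dM)` vanishes then the traces of powers are constant. -/
theorem derivative_trace_pow (M : Matrix n n (PowerSeries A)) (j : ℕ) :
    PowerSeries.derivative A (M ^ (j + 1)).trace =
      ((j + 1 : ℕ) : PowerSeries A) * (M ^ j * M.map (PowerSeries.derivative A)).trace := by
  have h := trace_pow_derivative M j 0
  rw [pow_zero, one_mul, zero_add] at h
  rw [← h]
  simp [Matrix.trace, map_sum]

end Euler

end Vale.Agent.P199.InflCount
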