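import Vale.Agent.P199.Inflate
import Vale.Agent.P199.Translate

/-!
# P199: the translated series lies in the inflated division algebra
-/

open scoped Kronecker

noncomputable section

namespace Vale.Agent.P199.DivAlg

open Series

variable {n : Type} [Fintype n] [DecidableEq n] [Nonempty n] {F : Type} [Field F] (A : DivAlg n F)
  (q : ℕ) [NeZero q] {ι : Type} [Fintype ι] [DecidableEq ι]

/-- The translated series with the field, point and directions of the inflation. -/
def inflSer (c : ι → Matrix (Fin q) (Fin q) (SymF F)) (a : Ser (Matrix n n F) ι) :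
    Ser (Matrix (n × Fin q) (n × Fin q) (LaurF (SymF F))) (ι × (Fin q × Fin q)) :=
  Translate.transl c (A.symE q) psEmb embF a

/-- Rational coefficients stay rational under translation to a rational point. -/
theorem inflSer_mem {c : ι → Matrix (Fin q) (Fin q) (SymF F)}
    (hc : ∀ i, (1 : Matrix n n (SymF F)) ⊗ₖ c i ∈ (A.symAlg q).D)
    {a : Ser (Matrix n n F) ι} (ha : ∀ w, a.coeff w ∈ A.D) (W : List (ι × (Fin q × Fin q))) :
    (A.inflSer q c a).coeff W ∈ (A.inflAlg q).D :=
  A.map_psEmb_mem q fun k => Translate.cm_transl₀_mem c (A.symE q) (A.symAlg q).D _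
    (fun w => A.kron_one_mem q (ha w)) hc (A.one_kron_symE_mem q) W k

omit [Fintype ι] [DecidableEq ι] in
/-- A rational point outside a given hypersurface over `F`. -/
theorem exists_point [CharZero F] {P : MvPolynomial (ι × Fin q × Fin q) F} (hP : P ≠ 0) :
    ∃ c : ι → Matrix (Fin q) (Fin q) (SymF F),
      (∃ a : ι → Fin q × Fin q → SymF F, (∀ i l, a i l ∈ A.symK q) ∧
        ∀ i, c i = ∑ l, a i l • A.symE q l) ∧
      (∀ i, (1 : Matrix n n (SymF F)) ⊗ₖ c i ∈ (A.symAlg q).D) ∧
      MvPolynomial.eval₂ (embF (F := F)) (fun x => c x.1 x.2.1 x.2.2) P ≠ 0 := by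
  obtain ⟨a, ha, h⟩ := A.exists_coords q hP
  exact ⟨fun i => ∑ l, a i l • A.symE q l, ⟨a, ha, fun i => rfl⟩,
    fun i => A.one_kron_sum_mem q (ha i), h⟩

end Vale.Agent.P199.DivAlg
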