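import Vale.Agent.P199.Defects
import Vale.Agent.P199.Kernels

/-!
# P199: the notions used by the selection
-/

namespace Vale.Agent.P199

open Finset Series

variable {P : Frame → Prop}

/-- The class is closed under inflation at points avoiding a given hypersurface. -/
def Inflatable (P : Frame → Prop) : Prop :=
  ∀ S, P S → ∀ q, 0 < q → ∀ Q : MvPolynomial (S.ι × Fin q × Fin q) S.F, Q ≠ 0 →
    ∃ (S' : Frame) (d : InflData S S' q), P S' ∧ d.evalPoint Q ≠ 0 ∧ d.Quad

/-- Minimal multiplicity. -/
structure MinMu (P : Frame → Prop) (S : Frame) : Prop where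
  mem : P S
  pos : S.Pos
  mu_le : ∀ T, P T → T.Pos → S.mu ≤ T.mu

/-- Then minimal class size. -/
structure MinCl (P : Frame → Prop) (S : Frame) : Prop extends MinMu P S where
  cl_le : ∀ T, P T → T.Pos → T.mu = S.mu → S.clSize ≤ T.clSize

/-- Then minimal defect among frames with independent squares. -/
structure Best (P : Frame → Prop) (S : Frame) : Prop extends MinCl P S where
  sqs : S.SQS
  defect_le : ∀ T, P T → T.Pos → T.mu = S.mu → T.clSize = S.clSize → T.SQS →
    S.defect ≤ T.defect

namespace InflData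

variable {S S' : Frame} {q : ℕ}

/-- The statement about the new roots and forms. -/
def Forms (d : InflData S S' q) (φ : S.ρ × Fin q ≃ S'.ρ) (lam : S.ρ → Fin q → d.F₀)
    (x : S.ρ × Fin q → PowerSeries d.F₀) (L : S.ρ × Fin q → S'.ι → PowerSeries d.F₀) : Prop :=
  (∀ r, Function.Injective (lam r) ∧ (Kernels.M (fun r i => d.f (S.l r i)) r d.c).charpoly =
      ∏ k, (Polynomial.X - Polynomial.C (lam r k))) ∧
  (∀ p, PowerSeries.constantCoeff (x p) = lam p.1 p.2) ∧
  (∀ p, S'.root (φ p) = d.κ (PowerSeries.C (d.f (S.root p.1)) + PowerSeries.X * x p)) ∧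
  (∀ p i, S'.l (φ p) i = d.κ (L p i)) ∧
  (∀ p i, PowerSeries.constantCoeff (L p i) = Matrix.trace
    (Polynomial.aeval (Kernels.M (fun r i => d.f (S.l r i)) p.1 d.c)
        (Lagrange.basis Finset.univ (lam p.1) p.2) * ∑ j, d.f (S.l p.1 j) • d.e i j)) ∧
  (∀ r (g : Polynomial (PowerSeries d.F₀)) i,
    row (d.XF r) g (tauPoint d.c) (tauPoint (d.e i)) = PowerSeries.X * (S.mu : PowerSeries d.F₀) *
      ∑ k, g.eval (PowerSeries.X * x (r, k)) * L (r, k) i)

end InflData

/-- The second order form of a relation at a point with simple spectra, in terms of projectors. -/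
noncomputable def PsiP {F : Type} [Field F] {ι Cls : Type} [Fintype ι] [Fintype Cls] {q : ℕ}
    (l : Cls → ι → F) (c : ι → Matrix (Fin q) (Fin q) F) (lam : Cls → Fin q → F) (w : Cls → F)
    (U V : ι → Matrix (Fin q) (Fin q) F) : F :=
  ∑ C, w C * ∑ k, ∑ k' ∈ univ.erase k,
    Matrix.trace (SelectLin.proj (Kernels.M l C c) (lam C) k * Kernels.M l C U *
      SelectLin.proj (Kernels.M l C c) (lam C) k' * Kernels.M l C V) / (lam C k - lam C k')

end Vale.Agent.P199
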