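import Vale.Agent.P199.InflMake
import Vale.Agent.P199.InflPoint
import Vale.Agent.P199.Gauged
import Vale.Agent.P199.DescTransl
import Vale.Agent.P199.SelectDefs

/-!
# P199: inflation exists

A frame is inflated at a rational point outside a given hypersurface by translating its series
and gauging the result.  The descendant relation survives the step.
-/

open scoped Kronecker

noncomputable section

namespace Vale.Agent.P199

open Series

instance instCharZeroSymF {F : Type} [Field F] [CharZero F] : CharZero (DivAlg.SymF F) :=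
  DivAlg.charZero_symF

instance instCharZeroLaurF {F : Type} [Field F] [CharZero F] : CharZero (DivAlg.LaurF F) :=
  DivAlg.charZero_laurF

namespace Frame

variable (S : Frame) (q : ℕ) [NeZero q]

theorem coeff_ser_mem (w : List S.ι) : S.ser.coeff w ∈ S.alg.D := by
  rw [Frame.ser, Ser.coeff_add]
  refine S.alg.D.add_mem ?_ (S.X_mem w)
  cases w with
  | nil => rw [Ser.coeff_C_nil]; exact S.root_mem
  | cons i w => rw [Ser.coeff_C_cons]; exact S.alg.D.zero_mem

/-- A point with coordinates in the centre of the symbol step. -/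
structure Point where
  c : S.ι → Matrix (Fin q) (Fin q) (DivAlg.SymF S.F)
  coord : S.ι → Fin q × Fin q → DivAlg.SymF S.F
  coord_mem : ∀ i l, coord i l ∈ S.alg.symK q
  c_eq : ∀ i, c i = ∑ l, coord i l • S.alg.symE q l

namespace Point

variable {S q} (c : S.Point q)

theorem mem (i : S.ι) :
    (1 : Matrix (S.β × S.ρ) (S.β × S.ρ) (DivAlg.SymF S.F)) ⊗ₖ c.c i ∈ (S.alg.symAlg q).D := by
  rw [c.c_eq]
  exact S.alg.one_kron_sum_mem q (c.coord_mem i)

/-- The value of a polynomial at the point. -/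
def eval (P : MvPolynomial (S.ι × Fin q × Fin q) S.F) : DivAlg.SymF S.F :=
  MvPolynomial.eval₂ (DivAlg.embF (F := S.F)) (fun x => c.c x.1 x.2.1 x.2.2) P

/-- The translated series. -/
def ser : Ser (Matrix ((S.β × S.ρ) × Fin q) ((S.β × S.ρ) × Fin q)
    (DivAlg.LaurF (DivAlg.SymF S.F))) (S.ι × (Fin q × Fin q)) :=
  S.alg.inflSer q c.c S.ser

theorem ser_mem (w : List (S.ι × (Fin q × Fin q))) : c.ser.coeff w ∈ (S.alg.inflAlg q).D :=
  S.alg.inflSer_mem q c.mem S.coeff_ser_mem w

theorem nonempty_gauged : Nonempty (Gauged (S.alg.inflAlg q) c.ser) :=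
  exists_gauged _ _ c.ser_mem

/-- The inflation data of a gauge of the translated series. -/
def data (g : Gauged (S.alg.inflAlg q) c.ser) : InflData S g.frame q :=
  InflMake.inflData S g.frame (DivAlg.embF (F := S.F)) DivAlg.psEmb c.c (S.alg.symE q)
    (Equiv.refl _) DivAlg.psEmb_injective (S.alg.symE_indep q) (S.alg.span_symE q)
    g.charpoly_eq g.trace_eq

theorem evalPoint_data (g : Gauged (S.alg.inflAlg q) c.ser)
    (P : MvPolynomial (S.ι × Fin q × Fin q) S.F) : (c.data g).evalPoint P = c.eval P := rfl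

theorem data_quad (g : Gauged (S.alg.inflAlg q) c.ser) : (c.data g).Quad :=
  InflMake.inflData_quad S g.frame (DivAlg.embF (F := S.F)) DivAlg.psEmb c.c (S.alg.symE q)
    (Equiv.refl _) DivAlg.psEmb_injective (S.alg.symE_indep q) (S.alg.span_symE q)
    g.charpoly_eq g.trace_eq g.quad_eq

end Point

theorem exists_point {P : MvPolynomial (S.ι × Fin q × Fin q) S.F} (hP : P ≠ 0) :
    ∃ c : S.Point q, c.eval P ≠ 0 := by
  obtain ⟨a, ha, h⟩ := S.alg.exists_coords q hP
  exact ⟨⟨_, a, ha, fun i => rfl⟩, h⟩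

end Frame

/-- Inflation exists outside every hypersurface. -/
theorem exists_inflData (S : Frame) {q : ℕ} (hq : 0 < q)
    {P : MvPolynomial (S.ι × Fin q × Fin q) S.F} (hP : P ≠ 0) :
    ∃ (S' : Frame) (d : InflData S S' q), d.evalPoint P ≠ 0 ∧ d.Quad := by
  have : NeZero q := ⟨hq.ne'⟩
  obtain ⟨c, hc⟩ := S.exists_point q hP
  obtain ⟨g⟩ := c.nonempty_gauged
  exact ⟨g.frame, c.data g, hc, c.data_quad g⟩

/-- A class kept by gauged translations at generic points is inflatable. -/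
theorem inflatable_of {P : Frame → Prop}
    (h : ∀ (S : Frame), P S → ∀ (q : ℕ) [NeZero q],
      ∃ R : MvPolynomial (S.ι × Fin q × Fin q) S.F, R ≠ 0 ∧
        ∀ c : S.Point q, c.eval R ≠ 0 → ∀ g : Gauged (S.alg.inflAlg q) c.ser, P g.frame) :
    Inflatable P := by
  intro S hS q hq Q hQ
  have : NeZero q := ⟨hq.ne'⟩
  obtain ⟨R, hR, hP⟩ := h S hS q
  obtain ⟨c, hc⟩ := S.exists_point q (mul_ne_zero hQ hR)
  rw [Frame.Point.eval, MvPolynomial.eval₂_mul] at hc
  obtain ⟨g⟩ := c.nonempty_gauged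
  exact ⟨g.frame, c.data g, hP c (right_ne_zero_of_mul hc) g, left_ne_zero_of_mul hc, c.data_quad g⟩

namespace Gauged

variable {n F ι : Type} [Fintype n] [DecidableEq n] [Field F] [IsAlgClosed F] [CharZero F]
  [Fintype ι] [DecidableEq ι] {A : DivAlg n F} {a : Ser (Matrix n n F) ι} (g : Gauged A a)

/-- The change of basis as a unit of square matrices. -/
def frameUnit : (Matrix (g.β × g.ρ) (g.β × g.ρ) F)ˣ where
  val := g.Q.submatrix id g.e.symm
  inv := g.P.submatrix g.e.symm id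
  val_inv := by rw [Matrix.submatrix_mul_equiv, g.QP, Matrix.submatrix_id_id]
  inv_val := by
    rw [← Matrix.submatrix_mul _ _ g.e.symm id g.e.symm Function.bijective_id, g.PQ,
      Matrix.submatrix_one_equiv]

omit [IsAlgClosed F] [Fintype ι] [DecidableEq ι] in
theorem conj_eq : g.conj.toAlgHom.toRingHom = (conjRing g.frameUnit).comp (subHom g.e.symm) := by
  refine RingHom.ext fun M => ?_
  show g.Q * M * g.P = g.Q.submatrix id g.e.symm * M.submatrix g.e.symm g.e.symm *
    g.P.submatrix g.e.symm id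
  rw [Matrix.submatrix_mul_equiv, Matrix.submatrix_mul_equiv, Matrix.submatrix_id_id]

/-- The gauge as a unit over the new index. -/
def frameGauge : (Ser (Matrix (g.β × g.ρ) (g.β × g.ρ) F) ι)ˣ :=
  Units.map (Ser.map g.conj.toAlgHom.toRingHom).toMonoidHom g.G

theorem frame_ser : (g.frame.ser : Ser (Matrix (g.β × g.ρ) (g.β × g.ρ) F) ι) =
    (g.frameGauge : Ser (Matrix (g.β × g.ρ) (g.β × g.ρ) F) ι) *
      Ser.map ((conjRing g.frameUnit).comp (subHom g.e.symm)) a *
      (↑g.frameGauge⁻¹ : Ser (Matrix (g.β × g.ρ) (g.β × g.ρ) F) ι) := by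
  rw [g.ser_eq, gauged, map_mul, map_mul, ← conj_eq]
  rfl

/-- Gauging keeps the descendant relation. -/
theorem desc {n₀ : Type} [Fintype n₀] [DecidableEq n₀] {F₀ : Type} [Field F₀]
    {A₀ : DivAlg n₀ F₀} {a₀ : Ser (Matrix n₀ n₀ F₀) (Fin 2)} (d : Desc A₀ a₀ A a) :
    Nonempty (Desc A₀ a₀ g.frame.alg g.frame.ser) := by
  rw [show g.frame.ser = _ from g.frame_ser]
  refine ⟨d.transport g.e.symm g.frameUnit g.frame.alg (fun x hx => hx) (fun x hx => ⟨x, hx, ?_⟩)
    g.frameGauge (fun w => ⟨_, g.G_mem w, ?_⟩) (fun w => ⟨_, g.Ginv_mem w, ?_⟩)⟩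
  · exact congrArg (fun φ : Matrix n n F →+* Matrix (g.β × g.ρ) (g.β × g.ρ) F => φ x) g.conj_eq
  · exact (Ser.coeff_map _ _ _).symm
  · exact (Ser.coeff_map _ _ _).symm

end Gauged

/-- A gauged translation of a descendant is a descendant. -/
theorem Desc.infl {n₀ : Type} [Fintype n₀] [DecidableEq n₀] {F₀ : Type} [Field F₀]
    {A₀ : DivAlg n₀ F₀} {a₀ : Ser (Matrix n₀ n₀ F₀) (Fin 2)} {S : Frame}
    (d : Desc A₀ a₀ S.alg S.ser) {q : ℕ} [NeZero q] (c : S.Point q)
    (g : Gauged (S.alg.inflAlg q) c.ser) : Nonempty (Desc A₀ a₀ g.frame.alg g.frame.ser) :=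
  g.desc (d.translate c.c (S.alg.symE q) DivAlg.psEmb DivAlg.psEmb_injective DivAlg.embF
    (S.alg.symAlg q) (S.alg.inflAlg q) (fun _ hx => S.alg.kron_one_mem q hx)
    (S.alg.one_kron_symE_mem q) (S.alg.symE_indep q)
    (by rw [Fintype.card_prod, Fintype.card_fin]) c.mem (fun _ hx => S.alg.embF_mem_symK q hx)
    (fun _ hy => (S.alg.symAlg q).psEmb_mem hy) (fun _ hM => S.alg.map_psEmb_mem q hM))

/-- Descendants of a series form an inflatable class. -/
theorem inflatable_desc {n₀ : Type} [Fintype n₀] [DecidableEq n₀] {F₀ : Type} [Field F₀]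
    (A₀ : DivAlg n₀ F₀) (a₀ : Ser (Matrix n₀ n₀ F₀) (Fin 2)) :
    Inflatable fun T => Nonempty (Desc A₀ a₀ T.alg T.ser) :=
  inflatable_of fun _ ⟨d⟩ _ _ => ⟨1, one_ne_zero, fun c _ g => d.infl c g⟩

end Vale.Agent.P199
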