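import Vale.Agent.P199.Translate
import Vale.Agent.P199.Eval2

/-!
# P199: inflation data from a translated series

The translation of the series of a frame is block diagonal.  If a frame carries the characteristic
polynomial, the linear and the quadratic trace identities of the translated series, it gives
`InflData` with the quadratic property.
-/

open Finset
open scoped Kronecker

noncomputable section

namespace Vale.Agent.P199.InflMake

open Series

section Block

variable {A : Type*} [CommRing A] {β ρ p ι : Type*} [Fintype β] [DecidableEq β] [Fintype ρ]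
  [DecidableEq ρ] [Fintype p] [DecidableEq p] [Fintype ι] [DecidableEq ι]

/-- The index bijection. -/
def bEquiv (β ρ p : Type*) : (β × ρ) × p ≃ (β × p) × ρ where
  toFun x := ((x.1.1, x.2), x.1.2)
  invFun x := ((x.1.1, x.2), x.1.2)
  left_inv _ := rfl
  right_inv _ := rfl

/-- The block diagonal series. -/
def bdSer (Y : ρ → Ser (Matrix β β A) ι) : Ser (Matrix (β × ρ) (β × ρ) A) ι :=
  ⟨fun w => Matrix.blockDiagonal fun r => (Y r).coeff w⟩

theorem ev_bdSer (H : ι → Matrix p p (PowerSeries A)) (Y : ρ → Ser (Matrix β β A) ι) :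
    ev H (bdSer Y) =
      (Matrix.blockDiagonal fun r => ev H (Y r)).submatrix (bEquiv β ρ p) (bEquiv β ρ p) := by
  refine Matrix.ext fun ⟨⟨b, r⟩, u⟩ ⟨⟨b', r'⟩, v⟩ => PowerSeries.ext fun k => ?_
  have h := congrFun₂ (cm_ev H (bdSer Y) k) ((b, r), u) ((b', r'), v)
  rw [cm_apply] at h
  rw [h]
  rcases eq_or_ne r r' with rfl | hne
  · have h' := congrFun₂ (cm_ev H (Y r) k) (b, u) (b', v)
    rw [cm_apply] at h'
    simp [bEquiv, h', Matrix.sum_apply, bdSer]
  · simp [bEquiv, Matrix.blockDiagonal_apply, hne, Matrix.sum_apply, bdSer]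

theorem dev_bdSer (H V : ι → Matrix p p (PowerSeries A)) (Y : ρ → Ser (Matrix β β A) ι) :
    dev H V (bdSer Y) =
      (Matrix.blockDiagonal fun r => dev H V (Y r)).submatrix (bEquiv β ρ p) (bEquiv β ρ p) := by
  refine Matrix.ext fun ⟨⟨b, r⟩, u⟩ ⟨⟨b', r'⟩, v⟩ => ?_
  show ev (dblPoint H V) (bdSer Y) ((b, r), Sum.inl u) ((b', r'), Sum.inr v) = _
  rw [ev_bdSer]
  rcases eq_or_ne r r' with rfl | hne
  · simp [bEquiv, dev]
  · simp [bEquiv, Matrix.blockDiagonal_apply, hne]

theorem dev2_bdSer (H V V' : ι → Matrix p p (PowerSeries A)) (Y : ρ → Ser (Matrix β β A) ι) :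
    dev2 H V V' (bdSer Y) =
      (Matrix.blockDiagonal fun r => dev2 H V V' (Y r)).submatrix
        (bEquiv β ρ p) (bEquiv β ρ p) := by
  refine Matrix.ext fun ⟨⟨b, r⟩, u⟩ ⟨⟨b', r'⟩, v⟩ => ?_
  show ev (tripPoint H V V') (bdSer Y) ((b, r), Sum.inl (Sum.inl u)) ((b', r'), Sum.inr v) = _
  rw [ev_bdSer]
  rcases eq_or_ne r r' with rfl | hne
  · simp [bEquiv, dev2]
  · simp [bEquiv, Matrix.blockDiagonal_apply, hne]

theorem dev2_add_C (H V V' : ι → Matrix p p (PowerSeries A)) (hH : SmallAt H) (hV : SmallAt V)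
    (hV' : SmallAt V') (M : Matrix β β A) (a : Ser (Matrix β β A) ι) :
    dev2 H V V' (Ser.C M + a) = dev2 H V V' a := by
  refine Matrix.ext fun x y => ?_
  show ev (tripPoint H V V') (Ser.C M + a) _ _ = ev (tripPoint H V V') a _ _
  rw [ev_add (Translate.smallAt_tripPoint hH hV hV'), ev_C]
  simp

end Block

section Diag

variable {G : Type*} [Field G] {ρ m : Type*} [Fintype ρ] [DecidableEq ρ] [Fintype m] [DecidableEq m]
  {n : Type*} [Fintype n] [DecidableEq n] (e : n ≃ m × ρ)

/-- Block diagonal matrices in a reindexed matrix algebra. -/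
def diagHom : (ρ → Matrix m m G) →ₐ[G] Matrix n n G where
  toRingHom := (Matrix.reindexAlgEquiv G G e.symm).toRingEquiv.toRingHom.comp
    (Matrix.blockDiagonalRingHom m ρ G)
  commutes' a := by
    ext i j
    obtain ⟨⟨x, r⟩, rfl⟩ := e.symm.surjective i
    obtain ⟨⟨y, s⟩, rfl⟩ := e.symm.surjective j
    rcases eq_or_ne r s with rfl | hne
    · rcases eq_or_ne x y with rfl | hxy <;>
        simp [Matrix.algebraMap_matrix_apply, Pi.algebraMap_apply, *]
    · simp [Matrix.algebraMap_matrix_apply, Matrix.blockDiagonal_apply, hne]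

theorem diagHom_apply (Z : ρ → Matrix m m G) :
    diagHom e Z = (Matrix.blockDiagonal Z).submatrix e e := rfl

theorem trace_diagHom (Z : ρ → Matrix m m G) :
    (diagHom e Z).trace = ∑ r, (Z r).trace := by
  rw [diagHom_apply, Matrix.trace, Fintype.sum_equiv e _ (fun x : m × ρ => Z x.2 x.1 x.1)
    (fun i => by simp [Matrix.blockDiagonal_apply]), Fintype.sum_prod_type_right]
  rfl

theorem charpoly_diagHom (Z : ρ → Matrix m m G) :
    (diagHom e Z).charpoly = ∏ r, (Z r).charpoly := by
  rw [diagHom_apply]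
  have h := Matrix.charpoly_reindex e.symm (Matrix.blockDiagonal Z)
  rw [Matrix.reindex_apply, Equiv.symm_symm] at h
  rw [h, Matrix.charpoly, show (Matrix.blockDiagonal Z).charmatrix =
    Matrix.blockDiagonal fun r => (Z r).charmatrix from Matrix.ext fun ⟨x, r⟩ ⟨y, s⟩ => by
      rcases eq_or_ne r s with rfl | hne <;>
        rcases eq_or_ne x y with rfl | hxy <;>
          simp [Matrix.blockDiagonal_apply, *],
    Matrix.det_blockDiagonal]
  rfl

end Diag

section Make

variable (S S' : Frame) {q : ℕ} {F₀ : Type} [Field F₀]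
  (f : S.F →+* F₀) (κ : PowerSeries F₀ →+* S'.F)
  (c : S.ι → Matrix (Fin q) (Fin q) F₀) (E : Fin q × Fin q → Matrix (Fin q) (Fin q) F₀)
  (eι : S'.ι ≃ S.ι × (Fin q × Fin q))

/-- The translated series of the frame. -/
def trSer : Ser (Matrix ((S.β × S.ρ) × Fin q) ((S.β × S.ρ) × Fin q) S'.F)
    (S.ι × (Fin q × Fin q)) :=
  Translate.transl c E κ f S.ser

/-- The block of the series with constant term. -/
def rootSer (r : S.ρ) : Ser (Matrix S.β S.β F₀) S.ι :=
  Ser.C (Matrix.scalar S.β (f (S.root r))) + Ser.map f.mapMatrix (S.X r)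

theorem map_ser : Ser.map f.mapMatrix S.ser = bdSer (rootSer S f) := by
  refine Ser.ext (funext fun w => ?_)
  rw [Frame.ser, map_add, Ser.map_C, Ser.coeff_add]
  refine Matrix.ext fun ⟨x, r⟩ ⟨y, s⟩ => ?_
  cases w <;> rcases eq_or_ne r s with rfl | hne <;> rcases eq_or_ne x y with rfl | hxy <;>
    simp [bdSer, rootSer, Ser.coeff_map, Matrix.blockDiagonal_apply, *]

/-- The block matrix at the point. -/
def blkMat (r : S.ρ) : Matrix (S.β × Fin q) (S.β × Fin q) S'.F :=
  (Matrix.scalar (S.β × Fin q) (PowerSeries.C (f (S.root r))) +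
    ev (tauPoint c) (Ser.map f.mapMatrix (S.X r))).map κ

theorem trSer_nil : (trSer S S' f κ c E).coeff [] =
    diagHom (bEquiv S.β S.ρ (Fin q)) (blkMat S S' f κ c) := by
  rw [trSer, Translate.transl_coeff_nil, map_ser, ev_bdSer, diagHom_apply]
  refine Matrix.ext fun i j => ?_
  obtain ⟨⟨x, r⟩, rfl⟩ := (bEquiv S.β S.ρ (Fin q)).symm.surjective i
  obtain ⟨⟨y, s⟩, rfl⟩ := (bEquiv S.β S.ρ (Fin q)).symm.surjective j
  rcases eq_or_ne r s with rfl | hne
  · have hb : ev (tauPoint c) (rootSer S f r) =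
        Matrix.scalar (S.β × Fin q) (PowerSeries.C (f (S.root r))) +
          ev (tauPoint c) (Ser.map f.mapMatrix (S.X r)) := by
      rw [rootSer, ev_add (Translate.smallAt_tauPoint c), ev_C]
      congr 1
      ext ⟨a, u⟩ ⟨b, v⟩ : 1
      rcases eq_or_ne a b with rfl | hab <;> rcases eq_or_ne u v with rfl | huv <;> simp [*]
    simp [blkMat, hb]
  · simp [bEquiv, Matrix.blockDiagonal_apply, hne]

theorem trSer_single (l : S'.ι) : κ PowerSeries.X • (trSer S S' f κ c E).coeff [eι l] =
    diagHom (bEquiv S.β S.ρ (Fin q)) fun r =>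
      (dev (tauPoint c) (tauPoint (Translate.dir E (eι l))) (Ser.map f.mapMatrix (S.X r))).map κ := by
  rw [trSer, Translate.transl_coeff_single, map_ser, dev_bdSer, diagHom_apply]
  refine Matrix.ext fun i j => ?_
  obtain ⟨⟨x, r⟩, rfl⟩ := (bEquiv S.β S.ρ (Fin q)).symm.surjective i
  obtain ⟨⟨y, s⟩, rfl⟩ := (bEquiv S.β S.ρ (Fin q)).symm.surjective j
  rcases eq_or_ne r s with rfl | hne
  · have hb : ∀ V : S.ι → Matrix (Fin q) (Fin q) (PowerSeries F₀), SmallAt V →
        dev (tauPoint c) V (rootSer S f r) = dev (tauPoint c) V (Ser.map f.mapMatrix (S.X r)) := by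
      intro V hV
      rw [rootSer, dev_add (Translate.smallAt_tauPoint c) hV, dev_C, zero_add]
    simp [hb _ (Translate.smallAt_tauPoint _)]
  · simp [bEquiv, Matrix.blockDiagonal_apply, hne]

theorem trSer_pair (l l' : S'.ι) :
    κ PowerSeries.X ^ 2 • (trSer S S' f κ c E).coeff [eι l, eι l'] =
      diagHom (bEquiv S.β S.ρ (Fin q)) fun r =>
        (dev2 (tauPoint c) (tauPoint (Translate.dir E (eι l))) (tauPoint (Translate.dir E (eι l')))
          (Ser.map f.mapMatrix (S.X r))).map κ := by
  rw [trSer, Translate.transl_coeff_pair, map_ser, dev2_bdSer, diagHom_apply]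
  refine Matrix.ext fun i j => ?_
  obtain ⟨⟨x, r⟩, rfl⟩ := (bEquiv S.β S.ρ (Fin q)).symm.surjective i
  obtain ⟨⟨y, s⟩, rfl⟩ := (bEquiv S.β S.ρ (Fin q)).symm.surjective j
  rcases eq_or_ne r s with rfl | hne
  · simp [rootSer, dev2_add_C _ _ _ (Translate.smallAt_tauPoint c) (Translate.smallAt_tauPoint _)
      (Translate.smallAt_tauPoint _)]
  · simp [bEquiv, Matrix.blockDiagonal_apply, hne]

theorem aeval_diagHom (g : Polynomial S'.F) (Z : S.ρ → Matrix (S.β × Fin q) (S.β × Fin q) S'.F) :
    Polynomial.aeval (diagHom (bEquiv S.β S.ρ (Fin q)) Z) g =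
      diagHom (bEquiv S.β S.ρ (Fin q)) fun r => Polynomial.aeval (Z r) g := by
  rw [Polynomial.aeval_algHom_apply, Polynomial.aeval_pi]
  rfl

variable (hκ : Function.Injective κ) (hE : LinearIndependent F₀ E)
  (hEs : Submodule.span F₀ (Set.range E) = ⊤)
  (hchar : ((trSer S S' f κ c E).coeff []).charpoly =
    ∏ r', (Polynomial.X - Polynomial.C (S'.root r')) ^ S'.mu)
  (htr : ∀ (g : Polynomial S'.F) (l : S'.ι),
    Matrix.trace (Polynomial.aeval ((trSer S S' f κ c E).coeff []) g *
        (trSer S S' f κ c E).coeff [eι l]) =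
      ∑ r', Polynomial.eval (S'.root r') g * (S'.mu : S'.F) * S'.l r' l)

include hE in
theorem dir_indep : LinearIndependent F₀ fun l => Translate.dir E (eι l) := by
  rw [Fintype.linearIndependent_iff]
  intro g hg l
  obtain ⟨⟨i, k⟩, rfl⟩ := eι.symm.surjective l
  refine Fintype.linearIndependent_iff.1 hE (fun k => g (eι.symm (i, k))) ?_ k
  have h := congrFun hg i
  rw [Finset.sum_apply, ← eι.symm.sum_comp, Fintype.sum_prod_type,
    Finset.sum_eq_single i (fun j _ hj => Finset.sum_eq_zero fun k _ => by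
      simp [Translate.dir, Ne.symm hj]) (by simp)] at h
  simpa [Translate.dir] using h

include hEs in
theorem dir_span : Submodule.span F₀ (Set.range fun l => Translate.dir E (eι l)) = ⊤ := by
  rw [eq_top_iff]
  intro v _
  rw [show v = ∑ i, Pi.single i (v i) from (Finset.univ_sum_single v).symm]
  refine Submodule.sum_mem _ fun i _ => ?_
  have hv : v i ∈ Submodule.span F₀ (Set.range E) := hEs ▸ Submodule.mem_top
  have h := Submodule.mem_map_of_mem
    (f := LinearMap.single F₀ (fun _ : S.ι => Matrix (Fin q) (Fin q) F₀) i) hv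
  rw [Submodule.map_span, ← Set.range_comp] at h
  refine Submodule.span_mono ?_ h
  rintro _ ⟨k, rfl⟩
  exact ⟨eι.symm (i, k), by simp [Translate.dir]⟩

include hchar in
theorem charpoly_blocks : ∏ r, (blkMat S S' f κ c r).charpoly =
    ∏ r', (Polynomial.X - Polynomial.C (S'.root r')) ^ S'.mu := by
  rw [← hchar, trSer_nil, charpoly_diagHom]

include htr in
theorem trace_blocks (g : Polynomial S'.F) (l : S'.ι) :
    κ PowerSeries.X * ∑ r', Polynomial.eval (S'.root r') g * (S'.mu : S'.F) * S'.l r' l =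
      ∑ r, Matrix.trace (Polynomial.aeval (blkMat S S' f κ c r) g *
        (dev (tauPoint c) (tauPoint (Translate.dir E (eι l)))
          (Ser.map f.mapMatrix (S.X r))).map κ) := by
  rw [← htr g l, ← smul_eq_mul, ← Matrix.trace_smul, ← mul_smul_comm, trSer_single, trSer_nil,
    aeval_diagHom, ← map_mul, trace_diagHom]
  rfl

variable [IsAlgClosed F₀] [CharZero F₀]

/-- The inflation data of a translated series. -/
def inflData : InflData S S' q where
  F₀ := F₀
  f := f
  κ := κ
  κ_injective := hκ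
  c := c
  e l := Translate.dir E (eι l)
  e_indep := dir_indep S S' E eι hE
  e_span := dir_span S S' E eι hEs
  charpoly_eq := charpoly_blocks S S' f κ c E hchar
  trace_eq := trace_blocks S S' f κ c E eι htr

theorem inflData_c : (inflData S S' f κ c E eι hκ hE hEs hchar htr).c = c := rfl

theorem inflData_evalPoint (P : MvPolynomial (S.ι × Fin q × Fin q) S.F) :
    (inflData S S' f κ c E eι hκ hE hEs hchar htr).evalPoint P =
      MvPolynomial.eval₂ f (fun x => c x.1 x.2.1 x.2.2) P := rfl

theorem inflData_quad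
    (hquad : ∀ (r' : S'.ρ) (l l' : S'.ι),
      (S'.mu : S'.F) * (yser (S'.X r')).coeff [l, l'] =
        Matrix.trace (Polynomial.aeval ((trSer S S' f κ c E).coeff [])
            (Lagrange.basis Finset.univ S'.root r') * (trSer S S' f κ c E).coeff [eι l, eι l']) +
          ∑ s ∈ Finset.univ.erase r', (S'.root r' - S'.root s)⁻¹ * Matrix.trace
            (Polynomial.aeval ((trSer S S' f κ c E).coeff [])
                (Lagrange.basis Finset.univ S'.root r') *
              (trSer S S' f κ c E).coeff [eι l] *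
              Polynomial.aeval ((trSer S S' f κ c E).coeff [])
                (Lagrange.basis Finset.univ S'.root s) *
              (trSer S S' f κ c E).coeff [eι l'])) :
    (inflData S S' f κ c E eι hκ hE hEs hchar htr).Quad := by
  intro r' l l'
  show κ PowerSeries.X ^ 2 * (S'.mu : S'.F) * _ = _
  rw [mul_assoc, hquad, mul_add, Finset.sum_add_distrib]
  congr 1
  · rw [← smul_eq_mul, ← Matrix.trace_smul, ← mul_smul_comm, trSer_pair, trSer_nil,
      aeval_diagHom, ← map_mul, trace_diagHom]
    rfl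
  · rw [Finset.sum_comm, Finset.mul_sum]
    refine Finset.sum_congr rfl fun s _ => ?_
    rw [← Finset.mul_sum, mul_left_comm, ← smul_eq_mul (κ PowerSeries.X ^ 2), ← Matrix.trace_smul,
      sq, ← smul_mul_smul_comm, ← smul_mul_assoc, ← mul_smul_comm,
      trSer_single, trSer_single, trSer_nil, aeval_diagHom, aeval_diagHom, ← map_mul, ← map_mul,
      ← map_mul, trace_diagHom]
    rfl

end Make

end Vale.Agent.P199.InflMake
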