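import Mathlib

/-!
# P199: information sets, Weyl pair independence, Vandermonde support lemma
-/

namespace Vale.Agent.P199

open Finset

section InfoSets

variable {K C : Type*} [Field K] [Fintype C] [DecidableEq C]

/-- A set of coordinates that determines `W` contains one of size `dim W` that does. -/
theorem exists_infoSet (W : Submodule K (C → K)) (S : Finset C)
    (hS : ∀ w ∈ W, (∀ c ∈ S, w c = 0) → w = 0) :
    ∃ I ⊆ S, I.card = Module.finrank K W ∧ ∀ w ∈ W, (∀ c ∈ I, w c = 0) → w = 0 := by
  induction hn : Module.finrank K W using Nat.strong_induction_on generalizing W with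
  | _ n ih =>
    subst hn
    by_cases hW : W = ⊥
    · subst hW
      exact ⟨∅, empty_subset _, by simp, fun w hw _ => by simpa using hw⟩
    obtain ⟨w, hwW, hw0⟩ := Submodule.exists_mem_ne_zero_of_ne_bot hW
    obtain ⟨c, hcS, hwc⟩ : ∃ c ∈ S, w c ≠ 0 := by
      by_contra h
      push Not at h
      exact hw0 (hS w hwW h)
    let W' := W ⊓ LinearMap.ker (LinearMap.proj c : (C → K) →ₗ[K] K)
    have hlt : W' < W := lt_of_le_of_ne inf_le_left fun h => hwc (h.symm ▸ hwW : w ∈ W').2
    obtain ⟨I, hIS, hIcard, hI⟩ := ih _ (Submodule.finrank_lt_finrank_of_lt hlt) W'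
      (fun v hv => hS v hv.1) rfl
    have hdet : ∀ v ∈ W, (∀ d ∈ insert c I, v d = 0) → v = 0 := fun v hv h =>
      hI v ⟨hv, h c (mem_insert_self c I)⟩ fun d hd => h d (mem_insert_of_mem hd)
    refine ⟨insert c I, insert_subset hcS hIS, le_antisymm ?_ ?_, hdet⟩
    · have := Submodule.finrank_lt_finrank_of_lt hlt
      have := card_insert_le c I
      omega
    · let f : W →ₗ[K] (↥(insert c I) → K) :=
        LinearMap.pi fun d => (LinearMap.proj d.1).comp W.subtype
      have hf : Function.Injective f := by
        rw [injective_iff_map_eq_zero]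
        intro v hv
        exact Subtype.ext (hdet v v.2 fun d hd => congrFun hv ⟨d, hd⟩)
      have h := LinearMap.finrank_le_finrank_of_injective hf
      rwa [Module.finrank_fintype_fun_eq_card, Fintype.card_coe] at h

/-- Minimum support above twice the dimension gives three disjoint information sets. -/
theorem exists_three_infoSets (W : Submodule K (C → K))
    (hW : ∀ w ∈ W, w ≠ 0 → ∀ T : Finset C, (∀ c, w c ≠ 0 → c ∈ T) →
      2 * Module.finrank K W < T.card) :
    ∃ I₁ I₂ I₃ : Finset C, Disjoint I₁ I₂ ∧ Disjoint I₁ I₃ ∧ Disjoint I₂ I₃ ∧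
      (I₁.card = Module.finrank K W ∧ ∀ w ∈ W, (∀ c ∈ I₁, w c = 0) → w = 0) ∧
      (I₂.card = Module.finrank K W ∧ ∀ w ∈ W, (∀ c ∈ I₂, w c = 0) → w = 0) ∧
      (I₃.card = Module.finrank K W ∧ ∀ w ∈ W, (∀ c ∈ I₃, w c = 0) → w = 0) := by
  have key : ∀ J : Finset C, J.card ≤ 2 * Module.finrank K W →
      ∀ w ∈ W, (∀ c ∈ Jᶜ, w c = 0) → w = 0 := by
    intro J hJ w hw h
    by_contra hne
    have := hW w hw hne J fun c hc => by
      by_contra hcJ
      exact hc (h c (mem_compl.mpr hcJ))
    omega
  obtain ⟨I₁, -, c1, h1⟩ := exists_infoSet W (∅ : Finset C)ᶜ (key ∅ (by simp))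
  obtain ⟨I₂, s2, c2, h2⟩ := exists_infoSet W I₁ᶜ (key I₁ (by omega))
  obtain ⟨I₃, s3, c3, h3⟩ := exists_infoSet W (I₁ ∪ I₂)ᶜ
    (key (I₁ ∪ I₂) (by have := card_union_le I₁ I₂; omega))
  refine ⟨I₁, I₂, I₃, ?_, ?_, ?_, ⟨c1, h1⟩, ⟨c2, h2⟩, ⟨c3, h3⟩⟩
  · exact (disjoint_compl_left.mono_left s2).symm
  · exact ((disjoint_compl_left.mono_left s3).mono_right subset_union_left).symm
  · exact ((disjoint_compl_left.mono_left s3).mono_right subset_union_right).symm

end InfoSets

section Weyl

variable {K : Type*} [Field K]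

/-- Weighted cyclic shift with slope `s`. -/
def weyl (q : ℕ) (ζ : K) (s : ℕ) : Matrix (ZMod q) (ZMod q) K :=
  fun i k => if k = i + 1 then ζ ^ (s * i.val) else 0

theorem weyl_pow_apply (q : ℕ) [NeZero q] {ζ : K} (hζ : ζ ^ q = 1) (s j : ℕ) (i k : ZMod q) :
    (weyl q ζ s ^ j) i k =
      if k = i + j then ζ ^ (s * (j * i.val + j.choose 2)) else 0 := by
  induction j generalizing i with
  | zero =>
    simp [Matrix.one_apply, eq_comm]
  | succ j ih =>
    rw [pow_succ', Matrix.mul_apply, sum_eq_single (i + 1)]
    · rw [ih, weyl, if_pos rfl, Nat.cast_succ, show i + 1 + (j : ZMod q) = i + ((j : ZMod q) + 1)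
        by ring]
      split_ifs with h
      · rw [← pow_add]
        refine pow_eq_pow_of_modEq ?_ hζ
        rw [← ZMod.natCast_eq_natCast_iff]
        simp only [Nat.cast_add, Nat.cast_mul, ZMod.natCast_zmod_val, Nat.choose_succ_succ',
          Nat.choose_one_right]
        push_cast
        ring
      · exact mul_zero _
    · intro b _ hb
      simp [weyl, hb]
    · simp

/-- For prime `q` the traceless polynomials in distinct weighted shifts are independent. -/
theorem weyl_independent {q : ℕ} [Fact q.Prime] {ζ : K} (hζ : IsPrimitiveRoot ζ q) {k : ℕ}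
    (hk : k ≤ q) (c : Fin k → ℕ → K) (a : K)
    (h : ∑ s : Fin k, ∑ j ∈ Ico 1 q, c s j • weyl q ζ s ^ j = a • 1) :
    a = 0 ∧ ∀ s : Fin k, ∀ j ∈ Ico 1 q, c s j = 0 := by
  have hq : q.Prime := Fact.out
  have : NeZero q := ⟨hq.ne_zero⟩
  have hne : ∀ j ∈ Ico 1 q, (j : ZMod q) ≠ 0 := by
    intro j hj hj0
    rw [ZMod.natCast_eq_zero_iff] at hj0
    obtain ⟨h1, h2⟩ := mem_Ico.mp hj
    exact absurd (Nat.le_of_dvd h1 hj0) (by omega)
  constructor
  · have h0 := congrFun (congrFun h 0) 0
    simp only [Matrix.sum_apply, Matrix.smul_apply, weyl_pow_apply q hζ.pow_eq_one,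
      Matrix.one_apply_eq, smul_eq_mul, mul_one] at h0
    rw [← h0]
    refine sum_eq_zero fun s _ => sum_eq_zero fun j hj => ?_
    rw [if_neg (by simpa using (hne j hj).symm), mul_zero]
  intro s₀ j hj
  have hjne := hne j hj
  let x : Fin k → K := fun s => ζ ^ (s.val * j)
  let v : Fin k → K := fun s => c s j * ζ ^ (s.val * j.choose 2)
  have hx : Function.Injective x := by
    intro s t hst
    have hm : s.val * j ≡ t.val * j [MOD q] := by
      refine hζ.pow_inj (Nat.mod_lt _ hq.pos) (Nat.mod_lt _ hq.pos) ?_
      rw [← pow_eq_pow_mod _ hζ.pow_eq_one, ← pow_eq_pow_mod _ hζ.pow_eq_one]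
      exact hst
    rw [← ZMod.natCast_eq_natCast_iff] at hm
    push_cast at hm
    have := (ZMod.natCast_eq_natCast_iff _ _ _).mp (mul_right_cancel₀ hjne hm)
    exact Fin.ext (this.eq_of_lt_of_lt (s.2.trans_le hk) (t.2.trans_le hk))
  have hv : v = 0 := by
    refine Matrix.eq_zero_of_forall_pow_sum_mul_pow_eq_zero hx ?_
    intro i
    have hi := congrFun (congrFun h ((i : ℕ) : ZMod q)) (((i : ℕ) : ZMod q) + j)
    have hival : ((i.val : ℕ) : ZMod q).val = i.val :=
      ZMod.val_natCast_of_lt (i.2.trans_le hk)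
    simp only [Matrix.sum_apply, Matrix.smul_apply, weyl_pow_apply q hζ.pow_eq_one,
      Matrix.one_apply, smul_eq_mul, hival, add_right_inj] at hi
    rw [if_neg (by simpa using hjne), mul_zero] at hi
    rw [← hi]
    refine sum_congr rfl fun s _ => ?_
    rw [sum_eq_single j]
    · simp only [v, x, if_pos, ← pow_mul, mul_assoc, ← pow_add]
      ring_nf
    · intro b hb hbj
      rw [if_neg, mul_zero]
      rw [ZMod.natCast_eq_natCast_iff]
      intro hm
      exact hbj (hm.eq_of_lt_of_lt (mem_Ico.mp hj).2 (mem_Ico.mp hb).2).symm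
    · exact fun hn => absurd hj hn
  have := congrFun hv s₀
  exact (mul_eq_zero.mp this).resolve_right (pow_ne_zero _ (hζ.ne_zero hq.ne_zero))

end Weyl

section Vandermonde

open Polynomial

variable {K : Type*} [Field K]

/-- The entries of `(D + ξ S) ^ e` on the `a`-th diagonal, as polynomials in the row index. -/
noncomputable def diagPoly (K : Type*) [Field K] : ℕ → ℕ → K[X]
  | 0, 0 => 1
  | 0, _ + 1 => 0
  | e + 1, 0 => X * diagPoly K e 0
  | e + 1, a + 1 => X * diagPoly K e (a + 1) + (diagPoly K e a).comp (X + 1)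

/-- `D + ξ S`. -/
def slope (q : ℕ) (ξ : K) : Matrix (Fin q) (Fin q) K :=
  fun i k => if k.val = i.val then (i.val : K) else if k.val = i.val + 1 then ξ else 0

theorem slope_pow_apply (q : ℕ) (ξ : K) (e a : ℕ) (i k : Fin q) (h : k.val = i.val + a) :
    (slope q ξ ^ e) i k = ξ ^ a * (diagPoly K e a).eval (i.val : K) := by
  have main : ∀ e : ℕ, ∀ i k : Fin q, (k.val < i.val → (slope q ξ ^ e) i k = 0) ∧
      ∀ a, k.val = i.val + a →
        (slope q ξ ^ e) i k = ξ ^ a * (diagPoly K e a).eval (i.val : K) := by
    intro e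
    induction e with
    | zero =>
      intro i k
      refine ⟨fun h => by simp [Fin.ext_iff, h.ne'], fun a h => ?_⟩
      cases a with
      | zero => simp [diagPoly, Fin.ext h]
      | succ a =>
        rw [pow_zero, Matrix.one_apply, if_neg (fun hh => by rw [hh] at h; omega)]
        simp [diagPoly]
    | succ e ih =>
      intro i k
      have hmul : (slope q ξ ^ (e + 1)) i k = (i.val : K) * (slope q ξ ^ e) i k +
          (if h : i.val + 1 < q then ξ * (slope q ξ ^ e) ⟨i.val + 1, h⟩ k else 0) := by
        rw [pow_succ', Matrix.mul_apply, ← add_sum_erase _ _ (mem_univ i)]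
        congr 1
        · simp [slope]
        split_ifs with hlt
        · rw [sum_eq_single (⟨i.val + 1, hlt⟩ : Fin q)]
          · simp [slope]
          · intro b hb hb'
            have h1 : b.val ≠ i.val := fun h => (mem_erase.mp hb).1 (Fin.ext h)
            have h2 : b.val ≠ i.val + 1 := fun h => hb' (Fin.ext h)
            simp [slope, h1, h2]
          · intro hn
            exact absurd (mem_erase.mpr ⟨fun h => by simp [Fin.ext_iff] at h, mem_univ _⟩) hn
        · refine sum_eq_zero fun b hb => ?_
          have h1 : b.val ≠ i.val := fun h => (mem_erase.mp hb).1 (Fin.ext h)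
          have h2 : b.val ≠ i.val + 1 := by have := b.2; omega
          simp [slope, h1, h2]
      refine ⟨fun h => ?_, fun a h => ?_⟩
      · rw [hmul, (ih i k).1 h, mul_zero, zero_add]
        split_ifs with hlt
        · rw [(ih _ k).1 (by simp only; omega), mul_zero]
        · rfl
      · rw [hmul, (ih i k).2 a h]
        cases a with
        | zero =>
          split_ifs with hlt
          · rw [(ih _ k).1 (by simp only; omega)]
            simp [diagPoly]
          · simp [diagPoly]
        | succ a =>
          have hlt : i.val + 1 < q := by have := k.2; omega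
          rw [dif_pos hlt, (ih _ k).2 a (by simp only; omega)]
          simp only [diagPoly, eval_add, eval_mul, eval_X, eval_comp, eval_one, Nat.cast_add,
            Nat.cast_one]
          ring
  exact (main e i k).2 a h

theorem diagPoly_spec : ∀ e a : ℕ,
    (diagPoly K e a).natDegree ≤ e - a ∧
      (e < a → diagPoly K e a = 0) ∧ (a ≤ e → (diagPoly K e a).coeff (e - a) = (e.choose a : K))
  | 0, 0 => by simp [diagPoly]
  | 0, a + 1 => by simp [diagPoly]
  | e + 1, 0 => by
    obtain ⟨hd, -, hc⟩ := diagPoly_spec e 0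
    refine ⟨?_, fun h => absurd h (by omega), fun _ => ?_⟩
    · rw [diagPoly]
      refine natDegree_mul_le.trans ?_
      rw [natDegree_X]
      omega
    · rw [diagPoly, Nat.sub_zero, coeff_X_mul]
      simpa using hc (Nat.zero_le _)
  | e + 1, a + 1 => by
    obtain ⟨hd1, hz1, hc1⟩ := diagPoly_spec e (a + 1)
    obtain ⟨hd0, hz0, hc0⟩ := diagPoly_spec e a
    have hcomp : ((diagPoly K e a).comp (X + 1)).natDegree ≤ e - a := by
      refine natDegree_comp_le.trans ?_
      have : (X + 1 : K[X]).natDegree ≤ 1 := by compute_degree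
      calc _ ≤ (diagPoly K e a).natDegree * 1 := Nat.mul_le_mul_left _ this
        _ ≤ e - a := by simpa using hd0
    refine ⟨?_, fun h => ?_, fun h => ?_⟩
    · rw [diagPoly]
      refine natDegree_add_le_of_degree_le ?_ (by simpa using hcomp)
      rcases Nat.lt_or_ge e (a + 1) with h | h
      · simp [hz1 h]
      · refine natDegree_mul_le.trans ?_
        rw [natDegree_X]
        omega
    · rw [diagPoly, hz1 (by omega), hz0 (by omega)]
      simp
    · rw [diagPoly, coeff_add, Nat.choose_succ_succ', Nat.cast_add, add_comm]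
      congr 1
      · rw [show e + 1 - (a + 1) = e - a by omega]
        have hlead : ((diagPoly K e a).comp (X + 1)).coeff (e - a) =
            (diagPoly K e a).coeff (e - a) := by
          rw [comp_eq_sum_left, sum_over_range' _ (fun n => by simp) (e - a + 1) (by omega),
            finsetSum_coeff, sum_range_succ, sum_eq_zero]
          · simp [coeff_C_mul, coeff_X_add_one_pow]
          · intro n hn
            simp [coeff_C_mul, coeff_X_add_one_pow, Nat.choose_eq_zero_of_lt (mem_range.mp hn)]
        rw [hlead, hc0 (by omega)]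
      · rcases Nat.lt_or_ge e (a + 1) with h' | h'
        · rw [hz1 h', Nat.choose_eq_zero_of_lt h']
          simp
        · rw [show e + 1 - (a + 1) = e - (a + 1) + 1 by omega, coeff_X_mul, hc1 h']

/-- A vanishing combination of polynomials in `D + ξ_C S` has degree at most `#C - 2`. -/
theorem slope_degree {C : Type*} [Fintype C] [CharZero K] {q : ℕ} (ξ : C → K)
    (hξ : Function.Injective ξ) (p : C → K[X]) (hp : ∀ c, (p c).natDegree < q)
    (h : ∑ c, Polynomial.aeval (slope q (ξ c)) (p c) = 0) (c : C) (hc : p c ≠ 0) :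
    (p c).natDegree + 2 ≤ Fintype.card C := by
  have : Nonempty C := ⟨c⟩
  obtain ⟨c₁, -, hmax⟩ := exists_max_image univ (fun c => (p c).natDegree) univ_nonempty
  set e := (p c₁).natDegree with he
  by_contra hlt
  have hbig : Fintype.card C ≤ e + 1 := by
    have : (p c).natDegree ≤ e := hmax c (mem_univ _)
    omega
  have heq : e < q := hp c₁
  have hzero : ∀ a ≤ e, ∑ c, (p c).coeff e * ξ c ^ a = 0 := by
    intro a ha
    let P : K[X] := ∑ c, ∑ j ∈ range (e + 1),
      Polynomial.C ((p c).coeff j * ξ c ^ a) * diagPoly K j a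
    have hdeg : P.natDegree ≤ e - a := by
      refine natDegree_sum_le_of_forall_le _ _ fun c _ =>
        natDegree_sum_le_of_forall_le _ _ fun j hj => (natDegree_C_mul_le _ _).trans
          ((diagPoly_spec j a).1.trans (by have := mem_range.mp hj; omega))
    have heval : ∀ i : Fin (e - a + 1), P.eval ((i.val : ℕ) : K) = 0 := by
      intro i
      have hi := i.2
      have h' := congrFun (congrFun h ⟨i.val, by omega⟩) ⟨i.val + a, by omega⟩
      simp only [Matrix.sum_apply, Matrix.zero_apply] at h'
      rw [← h']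
      simp only [P, eval_finsetSum, eval_mul, eval_C]
      refine sum_congr rfl fun c _ => ?_
      rw [aeval_eq_sum_range' (Nat.lt_succ_of_le (hmax c (mem_univ _))), Matrix.sum_apply]
      refine sum_congr rfl fun j _ => ?_
      rw [Matrix.smul_apply, slope_pow_apply q (ξ c) j a _ _ rfl, smul_eq_mul]
      ring
    have hP : P = 0 := by
      refine eq_zero_of_natDegree_lt_card_of_eval_eq_zero P
        (f := fun i : Fin (e - a + 1) => ((i.val : ℕ) : K)) ?_ heval ?_
      · exact fun i j hij => Fin.ext (Nat.cast_injective hij)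
      · rw [Fintype.card_fin]
        omega
    have hcoe := congrArg (fun r : K[X] => r.coeff (e - a)) hP
    simp only [P, finsetSum_coeff, coeff_C_mul, coeff_zero] at hcoe
    have hterm : ∀ c, ∑ j ∈ range (e + 1), (p c).coeff j * ξ c ^ a * (diagPoly K j a).coeff (e - a)
        = ((p c).coeff e * ξ c ^ a) * (e.choose a : K) := by
      intro c
      rw [sum_range_succ, (diagPoly_spec e a).2.2 ha, sum_eq_zero, zero_add]
      intro j hj
      rcases Nat.lt_or_ge j a with hja | hja
      · rw [(diagPoly_spec j a).2.1 hja, coeff_zero, mul_zero]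
      · rw [coeff_eq_zero_of_natDegree_lt (p := diagPoly K j a), mul_zero]
        have := (diagPoly_spec (K := K) j a).1
        have := mem_range.mp hj
        omega
    rw [sum_congr rfl fun c _ => hterm c, ← sum_mul] at hcoe
    exact (mul_eq_zero.mp hcoe).resolve_right
      (Nat.cast_ne_zero.mpr (Nat.choose_pos ha).ne')
  let σ := Fintype.equivFin C
  have hv : (fun i => (p (σ.symm i)).coeff e) = 0 := by
    refine Matrix.eq_zero_of_forall_pow_sum_mul_pow_eq_zero
      (hξ.comp σ.symm.injective) ?_
    intro a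
    rw [← hzero a.val (by have := a.2; omega)]
    exact Fintype.sum_equiv σ.symm _ _ fun i => rfl
  have h1 : (p c₁).coeff e = 0 := by simpa using congrFun hv (σ c₁)
  by_cases hne : p c₁ = 0
  · -- then every `p` is a constant, and the top coefficient is the constant itself
    have h0 : e = 0 := by rw [he, hne, natDegree_zero]
    have h2 : (p c).natDegree = 0 := by
      have : (p c).natDegree ≤ e := hmax c (mem_univ _)
      omega
    have h3 : (p c).coeff e = 0 := by simpa using congrFun hv (σ c)
    rw [h0] at h3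
    exact hc (by rw [eq_C_of_natDegree_eq_zero h2, h3, map_zero])
  exact hne (leadingCoeff_eq_zero.mp h1)

end Vandermonde

end Vale.Agent.P199
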