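import Vale.Agent.P199.Eval
import Mathlib

/-!
# P199: linear algebra and leading terms for the NULL lemma
-/

namespace Vale.Agent.P199.NullAlg

open Finset

section Van

variable {A : Type*} [CommRing A] {m n : Type*}

/-- `τ ^ e` times a constant matrix. -/
noncomputable def monPt {ι : Type*} (e : ℕ) (v : ι → Matrix m n A) (i : ι) :
    Matrix m n (PowerSeries A) :=
  Matrix.of fun x y => PowerSeries.X ^ e * PowerSeries.C (v i x y)

theorem cm_monPt {ι : Type*} (e : ℕ) (v : ι → Matrix m n A) (i : ι) (j : ℕ) :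
    cm j (monPt e v i) = if j = e then v i else 0 := by
  ext x y
  simp only [cm_apply, monPt, Matrix.of_apply, PowerSeries.coeff_X_pow_mul', PowerSeries.coeff_C]
  split_ifs with h1 h2 h3 h4 <;> first | rfl | omega

theorem van_monPt {ι : Type*} (e : ℕ) (v : ι → Matrix m n A) (i : ι) : Van e (monPt e v i) :=
  fun j hj => by rw [cm_monPt, if_neg hj.ne]

variable [Fintype m] [DecidableEq m]

theorem van_pow {e : ℕ} {M : Matrix m m (PowerSeries A)} (h : Van e M) :
    ∀ j : ℕ, Van (e * j) (M ^ j) ∧ cm (e * j) (M ^ j) = cm e M ^ j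
  | 0 => ⟨(Van.of_zero _).mono (by simp), by simp [cm_one]⟩
  | j + 1 => by
    obtain ⟨h1, h2⟩ := van_pow h j
    rw [pow_succ, pow_succ, Nat.mul_succ]
    exact ⟨h1.mul h, (Van.cm_mul_lead h1 h).trans (by rw [h2])⟩

omit [Fintype m] [DecidableEq m] in
theorem van_monomial_smul {e p : ℕ} (c : A) {M : Matrix m m (PowerSeries A)} (h : Van e M) :
    Van (p + e) ((PowerSeries.X ^ p * PowerSeries.C c) • M) ∧
      cm (p + e) ((PowerSeries.X ^ p * PowerSeries.C c) • M) = c • cm e M := by
  refine ⟨fun j hj => Matrix.ext fun x y => ?_, ?_⟩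
  · rw [cm_apply, Matrix.smul_apply, smul_eq_mul, mul_assoc, PowerSeries.coeff_X_pow_mul']
    split_ifs with hp
    · have := congrFun₂ (h (j - p) (by omega)) x y
      rw [cm_apply] at this
      rw [PowerSeries.coeff_C_mul, this, Matrix.zero_apply, mul_zero]
    · rfl
  · ext x y
    simp [mul_assoc, PowerSeries.coeff_X_pow_mul', PowerSeries.coeff_C_mul]

/-- A polynomial with coefficients `c`, homogenised for a matrix divisible by `τ ^ e`. -/
noncomputable def homPoly {q : ℕ} (e : ℕ) (c : Fin q → A) : Polynomial (PowerSeries A) :=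
  ∑ j : Fin q, Polynomial.C (PowerSeries.X ^ (e * (q - 1 - j.val)) * PowerSeries.C (c j)) *
    Polynomial.X ^ j.val

theorem van_homPoly {q e : ℕ} (c : Fin q → A) {M : Matrix m m (PowerSeries A)} (h : Van e M) :
    Van (e * (q - 1)) (Polynomial.aeval M (homPoly e c)) ∧
      cm (e * (q - 1)) (Polynomial.aeval M (homPoly e c)) = ∑ j, c j • cm e M ^ j.val := by
  have hterm : ∀ j : Fin q,
      Polynomial.aeval M (Polynomial.C (PowerSeries.X ^ (e * (q - 1 - j.val)) * PowerSeries.C (c j))
        * Polynomial.X ^ j.val)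
      = (PowerSeries.X ^ (e * (q - 1 - j.val)) * PowerSeries.C (c j)) • M ^ j.val := fun j => by
    rw [map_mul, map_pow, Polynomial.aeval_X, Polynomial.aeval_C, ← Algebra.smul_def]
  have hexp : ∀ j : Fin q, e * (q - 1 - j.val) + e * j.val = e * (q - 1) := fun j => by
    have := j.2
    rw [← Nat.mul_add]
    congr 1
    omega
  simp only [homPoly, map_sum, hterm]
  refine ⟨Van.sum fun j _ => ?_, ?_⟩
  · rw [← hexp j]
    exact (van_monomial_smul (c j) (van_pow h j.val).1).1
  · rw [cm_sum]
    refine sum_congr rfl fun j _ => ?_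
    rw [← hexp j, (van_monomial_smul (c j) (van_pow h j.val).1).2, (van_pow h j.val).2]

omit [DecidableEq m] in
/-- The trace of a product with given orders. -/
theorem coeff_trace_mul {e f : ℕ} {M M' : Matrix m m (PowerSeries A)} (h : Van e M)
    (h' : Van f M') :
    (∀ i < e + f, PowerSeries.coeff i (Matrix.trace (M * M')) = 0) ∧
      PowerSeries.coeff (e + f) (Matrix.trace (M * M')) = Matrix.trace (cm e M * cm f M') := by
  refine ⟨fun i hi => ?_, ?_⟩
  · simp only [Matrix.trace, map_sum]
    exact sum_eq_zero fun x _ => congrFun₂ ((h.mul h') i hi) x x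
  · rw [← Van.cm_mul_lead h h']
    simp [Matrix.trace]

end Van

section Det

variable {F : Type*} [Field F]

/-- Weighted leading terms which are block triangular give a nonzero determinant. -/
theorem det_ne_zero_of_lead {n n' : Type*} [Fintype n] [DecidableEq n] [Fintype n']
    [DecidableEq n'] (M : Matrix (n ⊕ n') (n ⊕ n') (PowerSeries F)) (ρ γ : n ⊕ n' → ℕ)
    (hvan : ∀ z z', ∀ i < ρ z + γ z', PowerSeries.coeff i (M z z') = 0)
    (A0 : Matrix n n F) (T : Matrix n' n' F) (hA0 : A0.det ≠ 0) (hT : T.det ≠ 0)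
    (h11 : ∀ a b, PowerSeries.coeff (ρ (.inl a) + γ (.inl b)) (M (.inl a) (.inl b)) = A0 a b)
    (h21 : ∀ a b, PowerSeries.coeff (ρ (.inr a) + γ (.inl b)) (M (.inr a) (.inl b)) = 0)
    (h22 : ∀ a b, PowerSeries.coeff (ρ (.inr a) + γ (.inr b)) (M (.inr a) (.inr b)) = T a b) :
    M.det ≠ 0 := by
  let N : Matrix (n ⊕ n') (n ⊕ n') (PowerSeries F) := Matrix.of fun z z' =>
    PowerSeries.mk fun i => PowerSeries.coeff (i + (ρ z + γ z')) (M z z')
  have hM : M = Matrix.of fun z z' => PowerSeries.X ^ ρ z * (N z z' * PowerSeries.X ^ γ z') := by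
    refine Matrix.ext fun z z' => PowerSeries.ext fun i => ?_
    rw [Matrix.of_apply, mul_comm (N z z'), ← mul_assoc, ← pow_add,
      PowerSeries.coeff_X_pow_mul']
    split_ifs with h
    · simp [N, Nat.sub_add_cancel h]
    · exact hvan z z' i (not_le.1 h)
  have hN : N.det ≠ 0 := by
    intro h0
    have h1 : (PowerSeries.constantCoeff.mapMatrix N).det = 0 := by
      rw [← RingHom.map_det, h0, map_zero]
    have hblock : PowerSeries.constantCoeff.mapMatrix N =
        Matrix.fromBlocks A0
          (Matrix.of fun a b => PowerSeries.coeff (ρ (.inl a) + γ (.inr b)) (M (.inl a) (.inr b)))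
          0 T := by
      ext z z'
      rcases z with a | a <;> rcases z' with b | b <;>
        simp [N, ← PowerSeries.coeff_zero_eq_constantCoeff_apply, h11, h21, h22]
    rw [hblock, Matrix.det_fromBlocks_zero₂₁] at h1
    exact mul_ne_zero hA0 hT h1
  rw [hM]
  have : (Matrix.of fun z z' => PowerSeries.X ^ ρ z * (N z z' * PowerSeries.X ^ γ z')).det =
      (∏ z, (PowerSeries.X : PowerSeries F) ^ ρ z) *
        ((∏ z', (PowerSeries.X : PowerSeries F) ^ γ z') * N.det) := by
    rw [← Matrix.det_mul_row (fun z' => (PowerSeries.X : PowerSeries F) ^ γ z') N,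
      ← Matrix.det_mul_column (fun z => (PowerSeries.X : PowerSeries F) ^ ρ z)]
    congr 1
    ext z z' : 2
    simp [mul_comm]
  rw [this]
  refine mul_ne_zero (prod_ne_zero_iff.2 fun _ _ => ?_) (mul_ne_zero (prod_ne_zero_iff.2 fun _ _ => ?_) hN)
  all_goals exact pow_ne_zero _ PowerSeries.X_ne_zero

end Det

section Rank

variable {F : Type*} [Field F]

/-- Independent rows have dual columns. -/
theorem exists_dual {P : Type*} [Fintype P] {R : ℕ} (w : Fin R → P → F)
    (hw : LinearIndependent F w) :
    ∃ v : Fin R → P → F, ∀ a b, ∑ p, w a p * v b p = if a = b then 1 else 0 := by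
  classical
  let W : Matrix (Fin R) P F := Matrix.of w
  have hr : W.rank = R := by
    rw [LinearIndependent.rank_matrix (M := W) (by exact hw), Fintype.card_fin]
  have hsurj : LinearMap.range W.mulVecLin = ⊤ := by
    refine Submodule.eq_top_of_finrank_eq ?_
    rw [Module.finrank_fin_fun]
    exact hr
  choose v hv using fun b => LinearMap.range_eq_top.1 hsurj (Pi.single b (1 : F))
  refine ⟨v, fun a b => ?_⟩
  have := congrFun (hv b) a
  simpa [W, Matrix.mulVec, dotProduct, Pi.single_apply] using this

/-- Rows `p(M_s)` paired with `Σ l v` have rank `#classes * q - #relations` when every relation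
among the polynomial multiples is constant. -/
theorem exists_rows {Cls ι : Type*} [Fintype Cls] [Fintype ι] {q : ℕ} (hq : 0 < q)
    (l : Cls → ι → F) (Ms : Cls → Matrix (Fin q) (Fin q) F)
    (hrel : ∀ f : Cls → Polynomial F, (∀ s, (f s).natDegree < q) →
      (∀ i, ∑ s, l s i • Polynomial.aeval (Ms s) (f s) = 0) → ∀ s, (f s).natDegree = 0)
    {R : ℕ} (hR : R = Fintype.card Cls * q -
      (Fintype.card Cls - Module.finrank F (Submodule.span F (Set.range l)))) :
    ∃ (c : Fin R → Cls → Fin q → F) (v : Fin R → ι → Matrix (Fin q) (Fin q) F), ∀ a b,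
      ∑ s, Matrix.trace ((∑ j, c a s j • Ms s ^ (j : ℕ)) * ∑ i, l s i • v b i) =
        if a = b then 1 else 0 := by
  classical
  let Φ : (Cls × Fin q → F) →ₗ[F] (ι × Fin q × Fin q → F) :=
    Fintype.linearCombination F fun (p : Cls × Fin q) =>
      fun r : ι × Fin q × Fin q => l p.1 r.1 * (Ms p.1 ^ (p.2 : ℕ)) r.2.1 r.2.2
  have hΦ : ∀ c r, Φ c r =
      ∑ s, l s r.1 * (∑ j, c (s, j) • Ms s ^ (j : ℕ)) r.2.1 r.2.2 := by
    intro c r
    simp only [Φ, Fintype.linearCombination_apply, Finset.sum_apply, Pi.smul_apply, smul_eq_mul,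
      Fintype.sum_prod_type, Matrix.sum_apply, Matrix.smul_apply, mul_sum]
    exact sum_congr rfl fun s _ => sum_congr rfl fun j _ => by ring
  let L : (Cls → F) →ₗ[F] (ι → F) := Fintype.linearCombination F l
  let j0 : Fin q := ⟨0, hq⟩
  let E : LinearMap.ker L →ₗ[F] LinearMap.ker Φ :=
    LinearMap.codRestrict _
      ((LinearMap.pi fun p : Cls × Fin q => if p.2 = j0 then LinearMap.proj p.1 else 0).comp
        (LinearMap.ker L).subtype) (by
      rintro ⟨ω, hω⟩
      rw [LinearMap.mem_ker]
      funext r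
      rw [hΦ]
      have hω' : ∑ s, ω s * l s r.1 = 0 := by
        simpa [L, Fintype.linearCombination_apply] using congrFun (LinearMap.mem_ker.1 hω) r.1
      have e : ∀ s, (∑ j, ((LinearMap.pi fun p : Cls × Fin q =>
          if p.2 = j0 then LinearMap.proj (R := F) (φ := fun _ : Cls => F) p.1 else 0) ω) (s, j) •
            Ms s ^ (j : ℕ)) = ω s • 1 := by
        intro s
        rw [sum_eq_single j0]
        · simp [j0]
        · intro j _ hj; simp [hj]
        · simp
      simp only [LinearMap.comp_apply, Submodule.subtype_apply, e, Matrix.smul_apply, smul_eq_mul,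
        Pi.zero_apply]
      calc ∑ s, l s r.1 * (ω s * (1 : Matrix (Fin q) (Fin q) F) r.2.1 r.2.2)
          = (∑ s, ω s * l s r.1) * (1 : Matrix (Fin q) (Fin q) F) r.2.1 r.2.2 := by
            rw [sum_mul]; exact sum_congr rfl fun s _ => by ring
        _ = 0 := by rw [hω', zero_mul])
  have hEinj : Function.Injective E := by
    rintro ⟨ω, hω⟩ ⟨ω', hω'⟩ h
    refine Subtype.ext (funext fun s => ?_)
    simpa [E] using congrFun (congrArg Subtype.val h) (s, j0)
  have hEsurj : Function.Surjective E := by
    rintro ⟨c, hc⟩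
    let f : Cls → Polynomial F := fun s => ∑ j : Fin q, Polynomial.C (c (s, j)) * Polynomial.X ^ (j : ℕ)
    have hcoef : ∀ s (j : Fin q), (f s).coeff j = c (s, j) := by
      intro s j
      simp [f, Polynomial.finsetSum_coeff, Polynomial.coeff_X_pow, Fin.val_inj]
    have hdeg : ∀ s, (f s).natDegree < q := by
      intro s
      refine lt_of_le_of_lt (Polynomial.natDegree_sum_le_of_forall_le _ _ (n := q - 1) fun j _ => ?_)
        (by omega)
      exact (Polynomial.natDegree_C_mul_X_pow_le _ _).trans (by have := j.2; omega)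
    have hzero := hrel f hdeg fun i => by
      ext x y
      have := congrFun (LinearMap.mem_ker.1 hc) (i, x, y)
      rw [hΦ] at this
      simpa [f, Matrix.sum_apply, Algebra.smul_def, ← Algebra.smul_def] using this
    have hc0 : ∀ s (j : Fin q), j ≠ j0 → c (s, j) = 0 := fun s j hj => by
      rw [← hcoef]
      refine Polynomial.coeff_eq_zero_of_natDegree_lt ?_
      rw [hzero s]
      exact Nat.pos_of_ne_zero fun h => hj (Fin.ext h)
    have hω : (fun s => c (s, j0)) ∈ LinearMap.ker L := by
      rw [LinearMap.mem_ker]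
      funext i
      have := congrFun (LinearMap.mem_ker.1 hc) (i, j0, j0)
      rw [hΦ] at this
      simp only [L, Fintype.linearCombination_apply, Finset.sum_apply, Pi.smul_apply, smul_eq_mul,
        Pi.zero_apply]
      refine Eq.trans (sum_congr rfl fun s _ => ?_) this
      rw [sum_eq_single j0 (fun j _ hj => by simp [hc0 s j hj]) (by simp)]
      simp [j0, mul_comm]
    refine ⟨⟨_, hω⟩, Subtype.ext (funext fun p => ?_)⟩
    obtain ⟨s, j⟩ := p
    by_cases hj : j = j0
    · simp [E, hj]
    · simp [E, hj, hc0 s j hj]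
  have hker := (LinearEquiv.ofBijective E ⟨hEinj, hEsurj⟩).finrank_eq
  have h1 := LinearMap.finrank_range_add_finrank_ker Φ
  have h2 := LinearMap.finrank_range_add_finrank_ker L
  rw [Fintype.range_linearCombination, Module.finrank_fintype_fun_eq_card] at h2
  rw [Module.finrank_fintype_fun_eq_card, Fintype.card_prod, Fintype.card_fin] at h1
  have hrank : Module.finrank F (LinearMap.range Φ) = R := by omega
  let B := Module.finBasisOfFinrankEq F (LinearMap.range Φ) hrank
  choose c hc using fun a => LinearMap.mem_range.1 (B a).2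
  have hw : LinearIndependent F fun a => Φ (c a) := by
    simp only [hc]
    exact B.linearIndependent.map' (LinearMap.range Φ).subtype (Submodule.ker_subtype _)
  obtain ⟨v, hv⟩ := exists_dual _ hw
  refine ⟨fun a s j => c a (s, j), fun b i => Matrix.of fun x y => v b (i, y, x), fun a b => ?_⟩
  rw [← hv a b]
  simp only [hΦ, Fintype.sum_prod_type, Matrix.mul_sum, Matrix.trace_sum, mul_smul_comm,
    Matrix.trace_smul, smul_eq_mul]
  rw [Finset.sum_comm]
  refine Finset.sum_congr rfl fun i _ => ?_
  simp only [Matrix.trace, Matrix.diag_apply, Matrix.mul_apply, Matrix.of_apply, Finset.mul_sum]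
  rw [Finset.sum_comm]
  refine Finset.sum_congr rfl fun x _ => ?_
  rw [Finset.sum_comm]
  refine Finset.sum_congr rfl fun y _ => ?_
  rw [Finset.sum_mul]
  exact Finset.sum_congr rfl fun s _ => by ring

end Rank

end Vale.Agent.P199.NullAlg
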