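import Vale.Agent.P199.Frame
import Vale.Agent.P199.Eval
import Vale.Agent.P199.Kernels
import Vale.Agent.P199.CyclicWord
import Vale.Agent.P199.NullAlg

/-!
# P199: the NULL lemma

If the trace rows of the representatives have rank at most `#classes * q - m` at every large size,
then related combinations of the normalised traces have all rotation sums zero at the first
degree where they are substituted to nonzero values.
-/

namespace Vale.Agent.P199

open Finset Series
open scoped Kronecker

namespace Null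

variable {A : Type*} [CommRing A] {ι β p : Type*} [Fintype ι] [DecidableEq ι] [Fintype β]
  [DecidableEq β] [Fintype p] [DecidableEq p]

omit [Fintype ι] [DecidableEq ι] in
theorem dprod_self (H : ι → Matrix p p (PowerSeries A)) : ∀ w : List ι,
    dprod H H w = w.length • (w.map H).prod
  | [] => by simp [dprod]
  | i :: w => by
    rw [dprod, dprod_self H w, List.map_cons, List.prod_cons, List.length_cons, succ_nsmul,
      mul_smul_comm]

/-- The derivative of an evaluation at `K` along `K` multiplies the lowest degree part by its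
degree. -/
theorem cm_dev_self {K : ι → Matrix p p (PowerSeries A)} {f k : ℕ} (hf : 1 ≤ f)
    (hK : ∀ i, Van f (K i)) {a : Ser (Matrix β β A) ι} (ha : Series.Ser.LowVanish k a) :
    cm (f * k) (dev K K a) =
      ∑ w ∈ words ι k, a.coeff w ⊗ₖ (k • (w.map fun i => cm f (K i)).prod) := by
  rw [cm_dev, sum_eq_single k]
  · refine sum_congr rfl fun w hw => ?_
    rw [dprod_self, mem_words.1 hw, ← (van_list_prod hK w).2, mem_words.1 hw]
    congr 1
  · intro l _ hl
    refine sum_eq_zero fun w hw => ?_
    rcases lt_or_gt_of_ne hl with h | h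
    · rw [ha w (by rwa [mem_words.1 hw])]
      exact Matrix.zero_kronecker _
    · have hz := (van_list_prod hK w).1 (f * k)
        (Nat.mul_lt_mul_of_pos_left (by rw [mem_words.1 hw]; exact h) hf)
      rw [dprod_self]
      refine (congrArg _ (?_ : cm (f * k) (w.length • (w.map K).prod) = 0)).trans
        (Matrix.kronecker_zero _)
      ext x y
      have := congrFun₂ hz x y
      simp only [cm_apply, Matrix.zero_apply] at this
      rw [cm_apply, Matrix.smul_apply, map_nsmul, this, smul_zero, Matrix.zero_apply]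
  · intro h
    exact absurd (mem_range.2 (Nat.lt_succ_of_le (Nat.le_mul_of_pos_left k hf))) h

/-- The linear part of a derivative along a direction of order one. -/
theorem cm_dev_one (H : ι → Matrix p p (PowerSeries A)) {V : ι → Matrix p p (PowerSeries A)}
    (a : Ser (Matrix β β A) ι) :
    Van 0 (dev H V a) ∧ cm 0 (dev H V a) = 0 ∧
      cm 1 (dev H V a) = ∑ i, a.coeff [i] ⊗ₖ cm 1 (V i) := by
  refine ⟨Van.of_zero _, ?_, ?_⟩
  · rw [cm_dev, sum_range_one, words_zero, sum_singleton, dprod, cm_zero]
    exact Matrix.kronecker_zero _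
  · rw [cm_dev, sum_range_succ, sum_range_one, words_zero, sum_singleton, dprod, cm_zero,
      Matrix.kronecker_zero, zero_add, sum_words_one]
    simp [dprod]

omit [Fintype ι] [DecidableEq ι] in
theorem one_kron_pow (M : Matrix p p A) : ∀ j : ℕ,
    ((1 : Matrix β β A) ⊗ₖ M) ^ j = (1 : Matrix β β A) ⊗ₖ (M ^ j)
  | 0 => by simp
  | j + 1 => by rw [pow_succ, one_kron_pow M j, ← Matrix.mul_kronecker_mul, one_mul, pow_succ]

omit [Fintype ι] [DecidableEq ι] in
theorem sum_one_kron_pow {q : ℕ} (c : Fin q → A) (M : Matrix p p A) :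
    ∑ j, c j • ((1 : Matrix β β A) ⊗ₖ M) ^ (j : ℕ) =
      (1 : Matrix β β A) ⊗ₖ (∑ j, c j • M ^ (j : ℕ)) := by
  simp only [one_kron_pow]
  ext x y
  simp [Matrix.sum_apply, mul_sum, mul_left_comm]

end Null

variable {F : Type*} [Field F] [CharZero F] {Cls ι β : Type*} [Fintype Cls]
  [Fintype ι] [DecidableEq ι] [Fintype β] [DecidableEq β]

namespace Null

omit [CharZero F] [Fintype Cls] [DecidableEq ι] in
theorem scalar_kron_sum {q : ℕ} {X : Ser (Matrix β β F) ι}
    (hlin : ∀ i, X.coeff [i] = lf X i • 1) (v : ι → Matrix (Fin q) (Fin q) F) :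
    ∑ i, X.coeff [i] ⊗ₖ v i = (1 : Matrix β β F) ⊗ₖ (∑ i, lf X i • v i) := by
  ext x y
  simp [Matrix.sum_apply, hlin, mul_sum, mul_assoc, mul_left_comm]

omit [CharZero F] [Fintype Cls] in
/-- Substituting into a series whose traceless part is controlled. -/
theorem substM_of_selfDom {X : Ser (Matrix β β F) ι} (hself : SelfDom X) {d k : ℕ}
    {h : ι → Ser F (Fin d)} (hh : ∀ i, (h i).coeff [] = 0)
    (hy : Series.Ser.LowVanish k (substS h (yser X))) :
    Series.Ser.LowVanish k (substM h X) ∧
      ∀ w : List (Fin d), w.length = k →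
        (substM h X).coeff w = Matrix.scalar β ((substS h (yser X)).coeff w) := by
  have e : substM h X = substM h (zser X) + Ser.map (Matrix.scalar β) (substS h (yser X)) := by
    rw [map_scalar_substS, substM, substM, substM, ← Series.Ser.subst_add, zser, sub_add_cancel]
  have hz := hself d k h hh hy
  refine ⟨?_, fun w hw => ?_⟩
  · rw [e]
    exact (hz.mono k.le_succ).add (hy.map _)
  · rw [e, Series.Ser.coeff_add, hz w (by omega), zero_add, Series.Ser.coeff_map]

end Null

open Null NullAlg in
/-- NULL. -/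
theorem nullRel [Nonempty β] (Xs : Cls → Ser (Matrix β β F) ι)
    (hnil : ∀ s, (Xs s).coeff [] = 0) (hlin : ∀ s i, (Xs s).coeff [i] = lf (Xs s) i • 1)
    (hself : ∀ s, SelfDom (Xs s))
    (hpiv : ∃ N : ℕ, ∀ q ≥ N, ∃ (Y : ι → Matrix (Fin q) (Fin q) F) (lam : Cls → Fin q → F),
      (∀ C, Function.Injective (lam C) ∧
        (Kernels.M (fun s => lf (Xs s)) C Y).charpoly =
          ∏ k, (Polynomial.X - Polynomial.C (lam C k))) ∧
      ∀ f : Cls → Polynomial F, (∀ C, (f C).natDegree < q) →
        (∀ i, ∑ C, lf (Xs C) i •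
          Polynomial.aeval (Kernels.M (fun s => lf (Xs s)) C Y) (f C) = 0) →
        ∀ C, (f C).natDegree = 0)
    (hR : ∃ N : ℕ, ∀ q ≥ N, RankLe Xs q (Fintype.card Cls * q -
      (Fintype.card Cls - Module.finrank F (Submodule.span F (Set.range fun s => lf (Xs s)))))) :
    NullRel fun s => yser (Xs s) := by
  intro ω hω d k h hh hy w hw
  have hy0 : ∀ s, (yser (Xs s)).coeff [] = 0 := fun s => by simp [yser, hnil]
  rcases Nat.lt_or_ge k 2 with hk | hk
  · obtain rfl | rfl : k = 0 ∨ k = 1 := by omega
    · simp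
    obtain ⟨j, rfl⟩ := List.length_eq_one_iff.1 hw
    have e : ∀ s, (substS h (yser (Xs s))).coeff [j] =
        ∑ i, (yser (Xs s)).coeff [i] * (h i).coeff [j] := by
      intro s
      rw [substS, Series.Ser.coeff_subst, List.length_singleton, sum_range_succ, sum_range_one,
        words_zero, sum_singleton, sum_words_one, hy0]
      simp
    simp only [sum_range_one, List.rotate_zero, e, mul_sum]
    rw [sum_comm]
    refine sum_eq_zero fun i _ => ?_
    have := congrArg (· * (h i).coeff [j]) (hω i)
    simpa [sum_mul, mul_assoc] using this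
  obtain ⟨N₁, hpiv⟩ := hpiv
  obtain ⟨N₂, hR⟩ := hR
  obtain ⟨q, hq1, hq2, hqk⟩ : ∃ q, N₁ ≤ q ∧ N₂ ≤ q ∧ k ≤ q :=
    ⟨N₁ + N₂ + k, by omega, by omega, by omega⟩
  obtain ⟨Y, -, -, hrel⟩ := hpiv q hq1
  set l : Cls → ι → F := fun s => lf (Xs s) with hl
  set Ms : Cls → Matrix (Fin q) (Fin q) F := fun s => Kernels.M l s Y with hMs
  obtain ⟨R, hRdef⟩ : ∃ R, R = Fintype.card Cls * q -
      (Fintype.card Cls - Module.finrank F (Submodule.span F (Set.range l))) := ⟨_, rfl⟩
  have hrk : RankLe Xs q R := hRdef ▸ hR q hq2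
  obtain ⟨c, v, hcv⟩ := exists_rows (by omega) l Ms hrel hRdef
  let T : List (Fin d) → F := fun u => ∑ s, ω s * (substS h (yser (Xs s))).coeff u
  suffices hnull : CyclicWord.Null fun u : Fin k → Fin d => T (List.ofFn u) by
    subst hw
    have h1 := hnull fun j => w[j]
    rw [← Fin.sum_univ_eq_sum_range fun r => T (w.rotate r)]
    refine Eq.trans (sum_congr rfl fun r _ => congrArg T ?_) h1
    refine List.ext_getElem (by simp) fun n h₁ h₂ => ?_
    simp [List.getElem_rotate, CyclicWord.rot, Fin.val_add]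
  refine CyclicWord.null_of_trace (n := Fin q) (by rw [Fintype.card_fin]; exact hqk) _ fun W => ?_
  by_contra ht
  -- the point and the directions
  obtain ⟨e, he⟩ : ∃ e, e + 1 = 2 * k := ⟨2 * k - 1, by omega⟩
  let K : Fin d → Matrix (Fin q) (Fin q) (PowerSeries F) := monPt 2 W
  have hK : ∀ i, Van 2 (K i) := van_monPt 2 W
  have hKs : SmallAt K := smallAt_iff.2 fun i => (hK i).mono one_le_two
  have hh1 : ∀ i, Series.Ser.LowVanish 1 (h i) := fun i => Ser.LowVanish.of_coeff_nil (hh i)
  let G : ι → Matrix (Fin q) (Fin q) (PowerSeries F) := fun i => evS K (h i)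
  let VW : ι → Matrix (Fin q) (Fin q) (PowerSeries F) := fun i => devS K K (h i)
  let H : ι → Matrix (Fin q) (Fin q) (PowerSeries F) := fun i => monPt e Y i + G i
  have hG : ∀ i, Van 2 (G i) := fun i => (evS_van hK (hh1 i)).mono (by simp)
  have hVW : ∀ i, Van 2 (VW i) := fun i =>
    ((evS_van (van_dblPoint hK hK) (hh1 i)).mono (by simp)).submatrix Sum.inl Sum.inr
  have hH : ∀ i, Van 2 (H i) := fun i => ((van_monPt e Y i).mono (by omega)).add (hG i)
  have hHs : SmallAt H := smallAt_iff.2 fun i => (hH i).mono one_le_two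
  have hHG : ∀ i, H i - G i = monPt e Y i := fun i => by simp [H]
  have hsub := fun s => substM_of_selfDom (hself s) hh (hy s)
  have hGvan : ∀ s, Van (e + 1) (ev G (Xs s)) := fun s => by
    rw [he, ← ev_substM hKs hh]
    exact ev_van hK (hsub s).1
  have hE : ∀ s, Van e (ev H (Xs s)) ∧ cm e (ev H (Xs s)) = (1 : Matrix β β F) ⊗ₖ Ms s := by
    intro s
    have h1 := ev_first_order one_le_two hG hH (e := e)
      (fun i => by rw [hHG]; exact van_monPt e Y i) (Xs s)
    have hj : ∀ j ≤ e, cm j (ev H (Xs s)) =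
        ∑ i, (Xs s).coeff [i] ⊗ₖ cm j (monPt e Y i) := by
      intro j hj
      have h2 := h1 j (by omega)
      simp only [cm_sub, cm_sum, cm_kronecker_C, hHG, hGvan s j (by omega), sub_zero] at h2
      exact sub_eq_zero.1 h2
    refine ⟨fun j hjlt => ?_, ?_⟩
    · rw [hj j hjlt.le]
      exact sum_eq_zero fun i _ => by rw [cm_monPt, if_neg hjlt.ne]; exact Matrix.kronecker_zero _
    · rw [hj e le_rfl]
      simp only [cm_monPt, if_true]
      exact scalar_kron_sum (hlin s) Y
  have hDV : ∀ s b, Van 1 (dev H (monPt 1 (v b)) (Xs s)) ∧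
      cm 1 (dev H (monPt 1 (v b)) (Xs s)) = (1 : Matrix β β F) ⊗ₖ ∑ i, l s i • v b i := by
    intro s b
    obtain ⟨-, h0, h1⟩ := cm_dev_one H (V := monPt 1 (v b)) (Xs s)
    refine ⟨fun j hj => by obtain rfl : j = 0 := by omega
                           exact h0, ?_⟩
    rw [h1]
    simp only [cm_monPt, if_true]
    exact scalar_kron_sum (hlin s) (v b)
  have hDW : ∀ s, Van (2 * k) (dev H VW (Xs s)) ∧ Matrix.trace (cm (2 * k) (dev H VW (Xs s))) =
      ∑ u ∈ words (Fin d) k, (Fintype.card β : F) * ((substS h (yser (Xs s))).coeff u *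
        ((k : F) * Matrix.trace (u.map W).prod)) := by
    intro s
    have h1 := dev_first_order one_le_two hG hH hVW hVW (e := e)
      (fun i => by rw [hHG]; exact van_monPt e Y i) (fun i => by rw [sub_self]; exact Van.zero e)
      (Xs s)
    have hj : ∀ j ≤ 2 * k, cm j (dev H VW (Xs s)) = cm j (dev K K (substM h (Xs s))) := by
      intro j hj
      have h2 := h1 j (by omega)
      simp only [sub_self, Matrix.kronecker_zero, sum_const_zero, sub_zero, cm_sub] at h2
      rw [dev_substM hKs hKs hh]
      exact sub_eq_zero.1 h2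
    refine ⟨fun j hjlt => ?_, ?_⟩
    · rw [hj j hjlt.le]
      exact dev_van hK hK (hsub s).1 j hjlt
    · rw [hj _ le_rfl, cm_dev_self one_le_two hK (hsub s).1, Matrix.trace_sum]
      refine sum_congr rfl fun u hu => ?_
      rw [Matrix.trace_kronecker, (hsub s).2 u (mem_words.1 hu), Matrix.trace_smul]
      simp only [K, cm_monPt, if_true, Matrix.scalar_apply, Matrix.trace_diagonal, sum_const,
        card_univ, nsmul_eq_mul]
      ring
  -- the rows
  let f : Fin R ⊕ Fin 1 → Cls → Polynomial (PowerSeries F) :=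
    Sum.elim (fun a s => homPoly e (c a s)) (fun _ s => Polynomial.C (PowerSeries.C (ω s)))
  let V : Fin R ⊕ Fin 1 → ι → Matrix (Fin q) (Fin q) (PowerSeries F) :=
    Sum.elim (fun b => monPt 1 (v b)) fun _ => VW
  let M : Matrix (Fin R ⊕ Fin 1) (Fin R ⊕ Fin 1) (PowerSeries F) :=
    Matrix.of fun a b => ∑ s, row (Xs s) (f a s) H (V b)
  have hVs : ∀ b, SmallAt (V b) := by
    rintro (b | b)
    · exact smallAt_iff.2 fun i => van_monPt 1 (v b) i
    · exact smallAt_iff.2 fun i => (hVW i).mono one_le_two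
  have hdet : M.det = 0 := by
    have := hrk H hHs (fun a => f (finSumFinEquiv.symm a)) (fun b => V (finSumFinEquiv.symm b))
      fun b => hVs _
    rwa [show (Matrix.of fun a b => ∑ s,
      row (Xs s) (f (finSumFinEquiv.symm a) s) H (V (finSumFinEquiv.symm b))) =
        M.submatrix finSumFinEquiv.symm finSumFinEquiv.symm from rfl,
      Matrix.det_submatrix_equiv_self] at this
  have hμ : (Fintype.card β : F) ≠ 0 := Nat.cast_ne_zero.2 Fintype.card_ne_zero
  have hwords : ∑ u : Fin k → Fin d, T (List.ofFn u) * Matrix.trace ((List.ofFn u).map W).prod =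
      ∑ u ∈ words (Fin d) k, T u * Matrix.trace (u.map W).prod :=
    (sum_image (f := fun u => T u * Matrix.trace (u.map W).prod)
      fun a _ b _ hab => List.ofFn_injective hab).symm
  rw [hwords] at ht
  set t := ∑ u ∈ words (Fin d) k, T u * Matrix.trace (u.map W).prod with htdef
  have hconst : ∀ s, Van 0 (Polynomial.aeval (ev H (Xs s)) (Polynomial.C (PowerSeries.C (ω s)))) ∧
      cm 0 (Polynomial.aeval (ev H (Xs s)) (Polynomial.C (PowerSeries.C (ω s)))) = ω s • 1 := by
    intro s
    refine ⟨Van.of_zero _, ?_⟩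
    rw [Polynomial.aeval_C, Algebra.algebraMap_eq_smul_one, cm_smul, cm_one, if_pos rfl]
  refine det_ne_zero_of_lead M (Sum.elim (fun _ => e * (q - 1) + 1) fun _ => 1)
    (Sum.elim (fun _ => 0) fun _ => e) ?_ ((Fintype.card β : F) • (1 : Matrix (Fin R) (Fin R) F))
    (((Fintype.card β : F) * k * t) • (1 : Matrix (Fin 1) (Fin 1) F)) ?_ ?_ ?_ ?_ ?_ hdet
  · rintro (a | a) (b | b) j hj <;> simp only [Sum.elim_inl, Sum.elim_inr] at hj <;>
      simp only [M, Matrix.of_apply, map_sum, row, f, V, Sum.elim_inl, Sum.elim_inr] <;>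
      refine sum_eq_zero fun s _ => ?_
    · exact (coeff_trace_mul (van_homPoly (c a s) (hE s).1).1 (hDV s b).1).1 j (by omega)
    · exact (coeff_trace_mul (van_homPoly (c a s) (hE s).1).1 (hDW s).1).1 j (by omega)
    · obtain rfl : j = 0 := by omega
      exact (coeff_trace_mul (hconst s).1 (hDV s b).1).1 0 (by omega)
    · exact (coeff_trace_mul (hconst s).1 (hDW s).1).1 j (by omega)
  · simp [hμ]
  · have hk0 : (k : F) ≠ 0 := Nat.cast_ne_zero.2 (by omega)
    simp [hμ, hk0, ht]
  · intro a b
    simp only [M, Matrix.of_apply, map_sum, row, f, V, Sum.elim_inl, add_zero]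
    calc ∑ s, PowerSeries.coeff (e * (q - 1) + 1) (Matrix.trace
          (Polynomial.aeval (ev H (Xs s)) (homPoly e (c a s)) * dev H (monPt 1 (v b)) (Xs s)))
        = ∑ s, (Fintype.card β : F) *
            Matrix.trace ((∑ j, c a s j • Ms s ^ (j : ℕ)) * ∑ i, l s i • v b i) := by
          refine sum_congr rfl fun s _ => ?_
          rw [(coeff_trace_mul (van_homPoly (c a s) (hE s).1).1 (hDV s b).1).2,
            (van_homPoly (c a s) (hE s).1).2, (hE s).2, (hDV s b).2, sum_one_kron_pow,
            ← Matrix.mul_kronecker_mul, Matrix.mul_one, Matrix.trace_kronecker, Matrix.trace_one]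
      _ = _ := by
          rw [← mul_sum, hcv a b]
          by_cases hab : a = b <;> simp [hab]
  · intro a b
    simp only [M, Matrix.of_apply, map_sum, row, f, V, Sum.elim_inr, Sum.elim_inl, add_zero]
    have e1 : ∀ s, PowerSeries.coeff 1 (Matrix.trace
        (Polynomial.aeval (ev H (Xs s)) (Polynomial.C (PowerSeries.C (ω s))) *
          dev H (monPt 1 (v b)) (Xs s))) =
        ∑ i, ω s * l s i * ((Fintype.card β : F) * Matrix.trace (v b i)) := by
      intro s
      rw [show (1 : ℕ) = 0 + 1 from rfl, (coeff_trace_mul (hconst s).1 (hDV s b).1).2,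
        (hconst s).2, (hDV s b).2, smul_mul_assoc, Matrix.one_mul, Matrix.trace_smul,
        Matrix.trace_kronecker, Matrix.trace_one, Matrix.trace_sum, smul_eq_mul, mul_sum, mul_sum]
      refine sum_congr rfl fun i _ => ?_
      rw [Matrix.trace_smul, smul_eq_mul]
      ring
    simp only [e1]
    rw [sum_comm]
    refine sum_eq_zero fun i _ => ?_
    rw [← sum_mul, show ∑ s, ω s * l s i = 0 from hω i, zero_mul]
  · intro a b
    obtain rfl := Subsingleton.elim a b
    simp only [M, Matrix.of_apply, map_sum, row, f, V, Sum.elim_inr]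
    have e2 : ∀ s, PowerSeries.coeff (1 + e) (Matrix.trace
        (Polynomial.aeval (ev H (Xs s)) (Polynomial.C (PowerSeries.C (ω s))) * dev H VW (Xs s))) =
        ω s * Matrix.trace (cm (2 * k) (dev H VW (Xs s))) := by
      intro s
      rw [show 1 + e = 0 + 2 * k by omega, (coeff_trace_mul (hconst s).1 (hDW s).1).2,
        (hconst s).2, smul_mul_assoc, Matrix.one_mul, Matrix.trace_smul, smul_eq_mul]
    simp only [e2, fun s => (hDW s).2, mul_sum]
    rw [sum_comm, Matrix.smul_apply, Matrix.one_apply_eq, smul_eq_mul, mul_one, htdef, mul_sum]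
    refine sum_congr rfl fun u _ => ?_
    simp only [T, sum_mul, mul_sum]
    exact sum_congr rfl fun s _ => by ring

end Vale.Agent.P199
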