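import Vale.Agent.P199.Kernels
import Vale.Agent.P199.SelectLin
import Vale.Agent.P199.Universal
import Mathlib

/-!
# P199: the openness polynomials of the selection (O1, O2)

At a tuple `c` avoiding one hypersurface the leading vectors `leadVec e (l C) (proj C k)` span a
space of codimension at most `m` (O1), and their squares are independent (O2).
-/

namespace Vale.Agent.P199.OpenPoly

open Finset Polynomial Vale.Agent.P199.SelectLin

section Coord

variable {F : Type*} [Field F] {J ι : Type*} [Fintype ι] {q : ℕ}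

/-- The coordinates `e` applied to a vector indexed by form index and matrix entry. -/
def coord (e : J → ι → Matrix (Fin q) (Fin q) F) :
    (ι × Fin q × Fin q → F) →ₗ[F] (J → F) where
  toFun v i := ∑ p, v p * e i p.1 p.2.2 p.2.1
  map_add' v w := by funext i; simp [add_mul, sum_add_distrib]
  map_smul' a v := by funext i; simp [mul_sum, mul_assoc]

theorem coord_injective {e : J → ι → Matrix (Fin q) (Fin q) F}
    (he : Submodule.span F (Set.range e) = ⊤) : Function.Injective (coord e) := by
  classical
  rw [injective_iff_map_eq_zero]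
  intro v hv
  have hall : ∀ V : ι → Matrix (Fin q) (Fin q) F, ∑ p, v p * V p.1 p.2.2 p.2.1 = 0 := by
    intro V
    have hV : V ∈ Submodule.span F (Set.range e) := by rw [he]; trivial
    induction hV using Submodule.span_induction with
    | mem x hx => obtain ⟨i, rfl⟩ := hx; exact congrFun hv i
    | zero => simp
    | add x y _ _ hx hy => simp [mul_add, sum_add_distrib, hx, hy]
    | smul a x _ hx => simp [mul_left_comm _ a, ← mul_sum, hx]
  funext ⟨i, x, y⟩
  have h := hall (Pi.single i (Matrix.single y x 1))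
  rw [sum_eq_single (i, x, y)] at h
  · simpa using h
  · rintro ⟨j, a, b⟩ _ hne
    rcases eq_or_ne j i with rfl | hj
    · rw [Pi.single_eq_same, Matrix.single_apply, if_neg, mul_zero]
      rintro ⟨rfl, rfl⟩
      exact hne rfl
    · simp [hj]
  · simp

theorem leadVec_eq_coord (e : J → ι → Matrix (Fin q) (Fin q) F) (l : ι → F)
    (P : Matrix (Fin q) (Fin q) F) :
    leadVec e l P = coord e fun p => l p.1 * P p.2.1 p.2.2 := by
  funext i
  simp only [leadVec, pairing, coord, LinearMap.coe_mk, AddHom.coe_mk, Matrix.trace,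
    Matrix.diag_apply, Matrix.mul_apply, Matrix.sum_apply, Matrix.smul_apply, smul_eq_mul, mul_sum,
    Fintype.sum_prod_type]
  rw [sum_comm]
  exact sum_congr rfl fun j _ => sum_congr rfl fun x _ => sum_congr rfl fun y _ => by ring

end Coord

section Spectral

variable {F : Type*} [Field F] {q : ℕ} {A : Matrix (Fin q) (Fin q) F} {lam : Fin q → F}

theorem eval_basis (hl : Function.Injective lam) (k j : Fin q) :
    (Lagrange.basis univ lam k).eval (lam j) = if k = j then 1 else 0 := by
  split_ifs with h
  · subst h; exact Lagrange.eval_basis_self hl.injOn (mem_univ _)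
  · exact Lagrange.eval_basis_of_ne h (mem_univ _)

theorem pow_eq_sum (hA : A.charpoly = ∏ k, (X - C (lam k))) (hl : Function.Injective lam)
    (e : ℕ) : A ^ e = ∑ k, lam k ^ e • proj A lam k := by
  have h := aeval_eq_zero_of_eval hA hl
    (p := X ^ e - ∑ k, C (lam k ^ e) * Lagrange.basis univ lam k) fun j => by
      simp [eval_finsetSum, eval_basis hl]
  rw [map_sub, map_pow, aeval_X, map_sum, sub_eq_zero] at h
  rw [h]
  refine sum_congr rfl fun k _ => ?_
  rw [map_mul, aeval_C, Algebra.smul_def]
  rfl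

/-- The derivative of the characteristic polynomial at an eigenvalue. -/
def kappa (lam : Fin q → F) (k : Fin q) : F := ∏ j ∈ univ.erase k, (lam k - lam j)

theorem kappa_ne_zero (hl : Function.Injective lam) (k : Fin q) : kappa lam k ≠ 0 :=
  prod_ne_zero_iff.mpr fun _ hj => sub_ne_zero.mpr fun h => (mem_erase.mp hj).1 (hl h.symm)

theorem bezout_eval (hA : A.charpoly = ∏ k, (X - C (lam k))) (hl : Function.Injective lam)
    (k k' : Fin q) : ∑ n ∈ range (q + 1), A.charpoly.coeff n *
      (∑ a ∈ range n, lam k ^ a * lam k' ^ (n - 1 - a)) = if k = k' then kappa lam k else 0 := by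
  have hdeg : A.charpoly.natDegree < q + 1 := by
    rw [Matrix.charpoly_natDegree_eq_dim, Fintype.card_fin]
    exact Nat.lt_succ_self q
  split_ifs with h
  · subst h
    have hk : A.charpoly.derivative.eval (lam k) = kappa lam k := by
      rw [hA, derivative_prod_finset, eval_finsetSum, sum_eq_single k]
      · simp [eval_prod, kappa]
      · intro j _ hjk
        rw [eval_mul, eval_prod, prod_eq_zero (mem_erase.mpr ⟨Ne.symm hjk, mem_univ k⟩) (by simp),
          zero_mul]
      · simp
    rw [← hk]
    conv_rhs => rw [A.charpoly.as_sum_range' (q + 1) hdeg]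
    simp only [derivative_sum, eval_finsetSum, derivative_monomial, eval_monomial]
    refine sum_congr rfl fun n _ => ?_
    rw [sum_congr rfl fun a ha => by
      rw [← pow_add, show a + (n - 1 - a) = n - 1 by have := mem_range.mp ha; omega],
      sum_const, card_range, nsmul_eq_mul]
    ring
  · refine mul_right_cancel₀ (sub_ne_zero.mpr fun he => h (hl he) : lam k - lam k' ≠ 0) ?_
    rw [zero_mul, sum_mul]
    simp only [mul_assoc, geom_sum₂_mul]
    simp only [mul_sub, sum_sub_distrib, ← eval_eq_sum_range' hdeg]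
    have hev : ∀ j, A.charpoly.eval (lam j) = 0 := fun j => by
      rw [hA, eval_prod]
      exact prod_eq_zero (mem_univ j) (by simp)
    rw [hev, hev, sub_zero]

end Spectral

variable {Cls ι : Type*} [Fintype Cls] [Fintype ι]

/-- The form value `M l C` on the generic tuple. -/
noncomputable def genM {F : Type*} [Field F] (l : Cls → ι → F) (q : ℕ) (C : Cls) :
    Matrix (Fin q) (Fin q) (MvPolynomial (ι × Fin q × Fin q) F) :=
  Matrix.of fun x y => ∑ i, MvPolynomial.C (l C i) * MvPolynomial.X (i, x, y)

/-- Rows `l C ⊗ M_C ^ j`. -/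
noncomputable def linRows {R : Type*} [CommRing R] {q : ℕ} (l : Cls → ι → R)
    (M : Cls → Matrix (Fin q) (Fin q) R) :
    Matrix (Cls × Fin q) (ι × Fin q × Fin q) R :=
  Matrix.of fun Cj p => l Cj.1 p.1 * (M Cj.1 ^ Cj.2.val) p.2.1 p.2.2

/-- Rows `∑ κ λ ^ j (l ⊗ P) ⊗ (l ⊗ P)`, written polynomially. -/
noncomputable def sqRows {R : Type*} [CommRing R] {q : ℕ} (l : Cls → ι → R)
    (M : Cls → Matrix (Fin q) (Fin q) R) :
    Matrix (Cls × Fin q) ((ι × Fin q × Fin q) × (ι × Fin q × Fin q)) R :=
  Matrix.of fun Cj p => l Cj.1 p.1.1 * l Cj.1 p.2.1 *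
    ∑ n ∈ range (q + 1), (M Cj.1).charpoly.coeff n * ∑ a ∈ range n,
      (M Cj.1 ^ (a + Cj.2.val)) p.1.2.1 p.1.2.2 * (M Cj.1 ^ (n - 1 - a)) p.2.2.1 p.2.2.2

section Point

variable {F F₀ : Type*} [Field F] [Field F₀] (f : F →+* F₀) (l : Cls → ι → F) {q : ℕ}
  (c : ι → Matrix (Fin q) (Fin q) F₀)

theorem map_linRows :
    (linRows (fun C i => MvPolynomial.C (l C i)) (genM l q)).map
      (MvPolynomial.eval₂Hom f fun x => c x.1 x.2.1 x.2.2) =
    linRows (fun C i => f (l C i)) fun C => Kernels.M (fun C i => f (l C i)) C c := by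
  set φ := MvPolynomial.eval₂Hom f fun x : ι × Fin q × Fin q => c x.1 x.2.1 x.2.2
  have hM : ∀ C, (genM l q C).map φ = Kernels.M (fun C i => f (l C i)) C c := fun C => by
    ext x y
    simp [genM, φ, Kernels.M, Matrix.sum_apply]
  ext Cj p
  simp only [linRows, Matrix.map_apply, Matrix.of_apply, map_mul, ← hM]
  congr 1
  · simp [φ]
  · exact congrFun (congrFun (map_pow φ.mapMatrix (genM l q Cj.1) Cj.2.val) p.2.1) p.2.2

theorem map_sqRows :
    (sqRows (fun C i => MvPolynomial.C (l C i)) (genM l q)).map
      (MvPolynomial.eval₂Hom f fun x => c x.1 x.2.1 x.2.2) =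
    sqRows (fun C i => f (l C i)) fun C => Kernels.M (fun C i => f (l C i)) C c := by
  set φ := MvPolynomial.eval₂Hom f fun x : ι × Fin q × Fin q => c x.1 x.2.1 x.2.2
  have hM : ∀ C, (genM l q C).map φ = Kernels.M (fun C i => f (l C i)) C c := fun C => by
    ext x y
    simp [genM, φ, Kernels.M, Matrix.sum_apply]
  have hpow : ∀ C e x y, φ ((genM l q C ^ e) x y) = ((genM l q C).map φ ^ e) x y :=
    fun C e x y => congrFun (congrFun (map_pow φ.mapMatrix (genM l q C) e) x) y
  ext Cj p
  simp only [sqRows, Matrix.map_apply, Matrix.of_apply, map_mul, map_sum, hpow, ← hM,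
    Matrix.charpoly_map, coeff_map]
  simp [φ]

variable {lam : Cls → Fin q → F₀}
  (hc : ∀ C, Function.Injective (lam C) ∧
    (Kernels.M (fun C i => f (l C i)) C c).charpoly = ∏ k, (X - Polynomial.C (lam C k)))

include hc in
theorem sqRows_eq (Cj : Cls × Fin q) (p : (ι × Fin q × Fin q) × (ι × Fin q × Fin q)) :
    sqRows (fun C i => f (l C i)) (fun C => Kernels.M (fun C i => f (l C i)) C c) Cj p =
      ∑ k, lam Cj.1 k ^ Cj.2.val * kappa (lam Cj.1) k *
        ((f (l Cj.1 p.1.1) * proj (Kernels.M (fun C i => f (l C i)) Cj.1 c) (lam Cj.1) k p.1.2.1 p.1.2.2) *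
         (f (l Cj.1 p.2.1) * proj (Kernels.M (fun C i => f (l C i)) Cj.1 c) (lam Cj.1) k p.2.2.1 p.2.2.2)) := by
  obtain ⟨hl, hA⟩ := hc Cj.1
  simp only [sqRows, Matrix.of_apply]
  set A := Kernels.M (fun C i => f (l C i)) Cj.1 c with hAdef
  have hpow : ∀ e x y, (A ^ e) x y = ∑ k, lam Cj.1 k ^ e * proj A (lam Cj.1) k x y := fun e x y => by
    rw [pow_eq_sum hA hl, Matrix.sum_apply]
    simp
  simp only [hpow, sum_mul, mul_sum]
  rw [sum_congr rfl fun n _ => sum_comm, sum_comm]
  refine sum_congr rfl fun k _ => ?_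
  rw [sum_congr rfl fun n _ => sum_comm, sum_comm]
  rw [sum_eq_single k]
  · calc _ = f (l Cj.1 p.1.1) * f (l Cj.1 p.2.1) * lam Cj.1 k ^ Cj.2.val *
          proj A (lam Cj.1) k p.1.2.1 p.1.2.2 * proj A (lam Cj.1) k p.2.2.1 p.2.2.2 *
          ∑ n ∈ range (q + 1), A.charpoly.coeff n *
            ∑ a ∈ range n, lam Cj.1 k ^ a * lam Cj.1 k ^ (n - 1 - a) := by
            simp only [mul_sum]
            refine sum_congr rfl fun n _ => sum_congr rfl fun a _ => ?_
            ring
      _ = _ := by rw [bezout_eval hA hl, if_pos rfl]; ring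
  · intro k' _ hk'
    calc _ = f (l Cj.1 p.1.1) * f (l Cj.1 p.2.1) * lam Cj.1 k' ^ Cj.2.val *
          proj A (lam Cj.1) k' p.1.2.1 p.1.2.2 * proj A (lam Cj.1) k p.2.2.1 p.2.2.2 *
          ∑ n ∈ range (q + 1), A.charpoly.coeff n *
            ∑ a ∈ range n, lam Cj.1 k' ^ a * lam Cj.1 k ^ (n - 1 - a) := by
            simp only [mul_sum]
            refine sum_congr rfl fun n _ => sum_congr rfl fun a _ => ?_
            ring
      _ = _ := by rw [bezout_eval hA hl, if_neg hk', mul_zero]
  · simp

end Point

/-- (O1) An open condition making the leading vectors span codimension at most `m`. -/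
theorem rank_open {F : Type*} [Field F] [CharZero F] (l : Cls → ι → F) (h0 : ∀ C, l C ≠ 0)
    (hpair : ∀ C D, C ≠ D → LinearIndependent F ![l C, l D]) (hSQ : Kernels.SQ l) :
    ∃ N : ℕ, ∀ q ≥ N, ∃ P : MvPolynomial (ι × Fin q × Fin q) F, P ≠ 0 ∧
      ∀ {F₀ J : Type} [Field F₀] [Finite J] (f : F →+* F₀) (c : ι → Matrix (Fin q) (Fin q) F₀)
        (lam : Cls → Fin q → F₀) (e : J → ι → Matrix (Fin q) (Fin q) F₀),
        MvPolynomial.eval₂ f (fun x => c x.1 x.2.1 x.2.2) P ≠ 0 →
        (∀ C, Function.Injective (lam C) ∧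
          (Kernels.M (fun C i => f (l C i)) C c).charpoly = ∏ k, (X - Polynomial.C (lam C k))) →
        Submodule.span F₀ (Set.range e) = ⊤ →
        Fintype.card Cls * q ≤ Module.finrank F₀ (Submodule.span F₀ (Set.range
            fun Ck : Cls × Fin q => leadVec e (fun i => f (l Ck.1 i))
              (proj (Kernels.M (fun C i => f (l C i)) Ck.1 c) (lam Ck.1) Ck.2))) +
          (Fintype.card Cls - Module.finrank F (Submodule.span F (Set.range l))) := by
  classical
  obtain ⟨N, hN⟩ := Kernels.pivot l h0 hpair hSQ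
  refine ⟨N + 1, fun q hq => ?_⟩
  obtain ⟨Y, lamY, -, hker⟩ := hN q (by omega)
  let φY : MvPolynomial (ι × Fin q × Fin q) F →+* F :=
    MvPolynomial.eval₂Hom (RingHom.id F) fun x => Y x.1 x.2.1 x.2.2
  let W := linRows l fun C => Kernels.M l C Y
  let m := Fintype.card Cls - Module.finrank F (Submodule.span F (Set.range l))
  -- the rank at `Y`
  have hrank : Fintype.card Cls * q ≤ W.rank + m := by
    have h1 := LinearMap.finrank_range_add_finrank_ker W.transpose.mulVecLin
    rw [Module.finrank_fintype_fun_eq_card, Fintype.card_prod, Fintype.card_fin,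
      show Module.finrank F (LinearMap.range W.transpose.mulVecLin) = W.transpose.rank from rfl,
      Matrix.rank_transpose] at h1
    suffices Module.finrank F (LinearMap.ker W.transpose.mulVecLin) ≤ m by omega
    have h2 := LinearMap.finrank_range_add_finrank_ker (Fintype.linearCombination F l)
    rw [Module.finrank_fintype_fun_eq_card, Fintype.range_linearCombination] at h2
    let z : Fin q := ⟨0, by omega⟩
    let r : LinearMap.ker W.transpose.mulVecLin →ₗ[F] (Cls → F) :=
      LinearMap.pi fun C => (LinearMap.proj (C, z)).comp (Submodule.subtype _)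
    have hg : ∀ g : LinearMap.ker W.transpose.mulVecLin,
        (∀ C (j : Fin q), j ≠ z → g.1 (C, j) = 0) ∧
          Fintype.linearCombination F l (r g) = 0 := by
      intro g
      let p : Cls → F[X] := fun C => ∑ j : Fin q, monomial j.val (g.1 (C, j))
      have hpc : ∀ C (j : Fin q), (p C).coeff j.val = g.1 (C, j) := fun C j => by
        simp [p, finsetSum_coeff, coeff_monomial, Fin.val_inj]
      have hpd : ∀ C, (p C).natDegree < q := fun C =>
        lt_of_le_of_lt (natDegree_sum_le_of_forall_le (n := q - 1) _ _ fun j _ =>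
          (natDegree_monomial_le _).trans (by have := j.2; omega)) (by omega)
      have hg0 : W.transpose.mulVecLin g.1 = 0 := g.2
      have hrel : ∀ i, ∑ C, l C i • aeval (Kernels.M l C Y) (p C) = 0 := by
        intro i
        ext x y
        have h := congrFun hg0 (i, x, y)
        simp only [Matrix.mulVecLin_apply, Matrix.mulVec, dotProduct, Matrix.transpose_apply, W,
          linRows, Matrix.of_apply, Fintype.sum_prod_type, Pi.zero_apply] at h
        rw [Matrix.zero_apply, ← h, Matrix.sum_apply]
        refine sum_congr rfl fun C _ => ?_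
        simp only [p, map_sum, aeval_monomial, Matrix.smul_apply, Matrix.sum_apply,
          ← Algebra.smul_def, smul_eq_mul, mul_sum]
        exact sum_congr rfl fun j _ => by ring
      have hconst : ∀ C (j : Fin q), j ≠ z → g.1 (C, j) = 0 := fun C j hj => by
        rw [← hpc, coeff_eq_zero_of_natDegree_lt]
        rw [hker p hpd hrel C]
        exact Nat.pos_of_ne_zero fun h => hj (Fin.ext h)
      refine ⟨hconst, funext fun i => ?_⟩
      rw [Fintype.linearCombination_apply, Finset.sum_apply, Pi.zero_apply]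
      have h := congrFun (congrFun (hrel i) z) z
      rw [Matrix.zero_apply, Matrix.sum_apply] at h
      rw [← h]
      refine sum_congr rfl fun C _ => ?_
      have hp : p C = Polynomial.C (g.1 (C, z)) := by
        rw [eq_C_of_natDegree_eq_zero (hker p hpd hrel C)]
        exact congrArg Polynomial.C (hpc C z)
      simp [hp, r, Matrix.algebraMap_matrix_apply, mul_comm]
    have hinj : Function.Injective r := by
      rw [injective_iff_map_eq_zero]
      intro g h
      refine Subtype.ext (funext fun Cj => ?_)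
      obtain ⟨C, j⟩ := Cj
      rcases eq_or_ne j z with rfl | hj
      · exact congrFun h C
      · exact (hg g).1 C j hj
    have h3 : Module.finrank F (LinearMap.range r) ≤
        Module.finrank F (LinearMap.ker (Fintype.linearCombination F l)) := by
      refine Submodule.finrank_mono ?_
      rintro _ ⟨g, rfl⟩
      exact (hg g).2
    rw [LinearMap.finrank_range_of_inj hinj] at h3
    simp only [m]
    omega
  obtain ⟨R, hR⟩ : ∃ R, R = W.rank := ⟨_, rfl⟩
  obtain ⟨a, b, hdet⟩ := Universal.exists_minor W hR.le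
  let Wgen := linRows (fun C i => (MvPolynomial.C (l C i) : MvPolynomial (ι × Fin q × Fin q) F))
    (genM l q)
  refine ⟨(Wgen.submatrix a b).det, fun h => hdet ?_, fun {F₀ J} _ _ f c lam e hP hc he => ?_⟩
  · have := congrArg φY h
    rw [map_zero, RingHom.map_det, RingHom.mapMatrix_apply, ← Matrix.submatrix_map, map_linRows]
      at this
    exact this
  let φ : MvPolynomial (ι × Fin q × Fin q) F →+* F₀ :=
    MvPolynomial.eval₂Hom f fun x => c x.1 x.2.1 x.2.2
  let W₀ := linRows (fun C i => f (l C i)) fun C => Kernels.M (fun C i => f (l C i)) C c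
  have hdet₀ : (W₀.submatrix a b).det ≠ 0 := fun h => hP (by
    show φ _ = 0
    rw [RingHom.map_det, RingHom.mapMatrix_apply, ← Matrix.submatrix_map, map_linRows]
    exact h)
  let v : Cls × Fin q → (ι × Fin q × Fin q → F₀) := fun Ck p => f (l Ck.1 p.1) *
    proj (Kernels.M (fun C i => f (l C i)) Ck.1 c) (lam Ck.1) Ck.2 p.2.1 p.2.2
  have hrows : LinearIndependent F₀ fun r : Fin R => (W₀ (a r) : ι × Fin q × Fin q → F₀) :=
    LinearIndependent.of_comp (LinearMap.funLeft F₀ F₀ b)
      (Matrix.linearIndependent_rows_of_det_ne_zero hdet₀)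
  have hsub : Submodule.span F₀ (Set.range fun r : Fin R => W₀ (a r)) ≤
      Submodule.span F₀ (Set.range v) := by
    rw [Submodule.span_le]
    rintro _ ⟨r, rfl⟩
    obtain ⟨hl, hA⟩ := hc (a r).1
    have : W₀ (a r) = ∑ k, lam (a r).1 k ^ (a r).2.val • v ((a r).1, k) := by
      funext p
      simp only [W₀, linRows, Matrix.of_apply, v, pow_eq_sum hA hl, Matrix.sum_apply,
        Finset.sum_apply, Pi.smul_apply, Matrix.smul_apply, smul_eq_mul, mul_sum]
      exact sum_congr rfl fun k _ => by ring
    show W₀ (a r) ∈ _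
    rw [this]
    exact Submodule.sum_mem _ fun k _ => Submodule.smul_mem _ _ (Submodule.subset_span ⟨_, rfl⟩)
  have h4 := Submodule.finrank_mono hsub
  rw [finrank_span_eq_card hrows, Fintype.card_fin] at h4
  have hcoord : (fun Ck : Cls × Fin q => leadVec e (fun i => f (l Ck.1 i))
      (proj (Kernels.M (fun C i => f (l C i)) Ck.1 c) (lam Ck.1) Ck.2)) =
        coord e ∘ v := funext fun Ck => leadVec_eq_coord e _ _
  rw [hcoord, Set.range_comp, ← Submodule.map_span,
    ← (Submodule.equivMapOfInjective _ (coord_injective he) _).finrank_eq]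
  omega

/-- (O2) An open condition making the squares of the leading vectors independent. -/
theorem sq_open {F : Type*} [Field F] [CharZero F] (l : Cls → ι → F) (h0 : ∀ C, l C ≠ 0)
    (hpair : ∀ C D, C ≠ D → LinearIndependent F ![l C, l D]) (q : ℕ)
    (hq : 2 * Fintype.card Cls ≤ q) :
    ∃ P : MvPolynomial (ι × Fin q × Fin q) F, P ≠ 0 ∧
      ∀ {F₀ J : Type} [Field F₀] (f : F →+* F₀) (c : ι → Matrix (Fin q) (Fin q) F₀)
        (lam : Cls → Fin q → F₀) (e : J → ι → Matrix (Fin q) (Fin q) F₀),
        MvPolynomial.eval₂ f (fun x => c x.1 x.2.1 x.2.2) P ≠ 0 →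
        (∀ C, Function.Injective (lam C) ∧
          (Kernels.M (fun C i => f (l C i)) C c).charpoly = ∏ k, (X - Polynomial.C (lam C k))) →
        Submodule.span F₀ (Set.range e) = ⊤ →
        LinearIndependent F₀ fun Ck : Cls × Fin q => fun p : J × J =>
          leadVec e (fun i => f (l Ck.1 i))
              (proj (Kernels.M (fun C i => f (l C i)) Ck.1 c) (lam Ck.1) Ck.2) p.1 *
            leadVec e (fun i => f (l Ck.1 i))
              (proj (Kernels.M (fun C i => f (l C i)) Ck.1 c) (lam Ck.1) Ck.2) p.2 := by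
  classical
  obtain ⟨Y, lamY, hY, hind⟩ := Kernels.sq_acquire l h0 hpair q hq
  let W := sqRows l fun C => Kernels.M l C Y
  have hW : LinearIndependent F fun Cj : Cls × Fin q => W Cj := by
    rw [Fintype.linearIndependent_iff]
    intro g hg
    have hlag : ∀ C k, Kernels.Lag l C k Y lamY =
        kappa (lamY C) k • proj (Kernels.M l C Y) (lamY C) k := by
      intro C k
      rw [Kernels.Lag, proj, ← map_smul, Polynomial.smul_eq_C_mul, Lagrange.basis]
      congr 1
      simp only [Lagrange.basisDivisor]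
      rw [prod_mul_distrib, ← map_prod, prod_inv_distrib, ← mul_assoc, ← map_mul, kappa,
        mul_inv_cancel₀ (by simpa [kappa] using kappa_ne_zero (hY C).1 k), map_one, one_mul]
    have hcoef := Fintype.linearIndependent_iff.mp hind
      (fun Ck => (∑ j : Fin q, g (Ck.1, j) * lamY Ck.1 Ck.2 ^ j.val) / kappa (lamY Ck.1) Ck.2)
      (funext fun p => by
        obtain ⟨i, x, y, i', x', y'⟩ := p
        have h := congrFun hg ((i, x, y), (i', x', y'))
        simp only [Finset.sum_apply, Pi.smul_apply, smul_eq_mul, Pi.zero_apply,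
          Fintype.sum_prod_type] at h ⊢
        rw [← h]
        refine sum_congr rfl fun C _ => ?_
        rw [sum_congr rfl fun j _ => show g (C, j) * W (C, j) ((i, x, y), (i', x', y')) = _ from
          congrArg (g (C, j) * ·) (sqRows_eq (RingHom.id F) l Y (lam := lamY) hY (C, j) ((i, x, y), (i', x', y')))]
        simp only [RingHom.id_apply, mul_sum, sum_div, sum_mul, hlag, Matrix.smul_apply,
          smul_eq_mul]
        rw [sum_comm]
        refine sum_congr rfl fun j _ => sum_congr rfl fun k _ => ?_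
        field_simp [kappa_ne_zero (hY C).1 k])
    intro ⟨C, j⟩
    have hp : ∑ j : Fin q, monomial j.val (g (C, j)) = 0 := by
      refine eq_zero_of_natDegree_lt_card_of_eval_eq_zero _ (hY C).1 (fun k => ?_) ?_
      · simp only [eval_finsetSum, eval_monomial]
        exact (div_eq_zero_iff.mp (hcoef (C, k))).resolve_right (kappa_ne_zero (hY C).1 k)
      · rw [Fintype.card_fin]
        exact lt_of_le_of_lt (natDegree_sum_le_of_forall_le (n := q - 1) _ _ fun j _ =>
          (natDegree_monomial_le _).trans (by have := j.2; omega)) (by have := j.2; omega)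
    simpa [finsetSum_coeff, coeff_monomial, Fin.val_inj] using
      congrArg (fun r : F[X] => r.coeff j.val) hp
  have hrk : Fintype.card (Cls × Fin q) ≤ W.rank := by
    rw [Matrix.rank_eq_finrank_span_row]
    exact (finrank_span_eq_card hW).ge
  obtain ⟨a, b, hdet⟩ := Universal.exists_minor W hrk
  let Wgen := sqRows (fun C i => (MvPolynomial.C (l C i) : MvPolynomial (ι × Fin q × Fin q) F))
    (genM l q)
  refine ⟨(Wgen.submatrix a b).det, fun h => hdet ?_, fun {F₀ J} _ f c lam e hP hc he => ?_⟩
  · have := congrArg (MvPolynomial.eval₂Hom (RingHom.id F) fun x => Y x.1 x.2.1 x.2.2) h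
    rw [map_zero, RingHom.map_det, RingHom.mapMatrix_apply, ← Matrix.submatrix_map, map_sqRows]
      at this
    exact this
  let φ : MvPolynomial (ι × Fin q × Fin q) F →+* F₀ :=
    MvPolynomial.eval₂Hom f fun x => c x.1 x.2.1 x.2.2
  let W₀ := sqRows (fun C i => f (l C i)) fun C => Kernels.M (fun C i => f (l C i)) C c
  have hdet₀ : (W₀.submatrix a b).det ≠ 0 := fun h => hP (by
    show φ _ = 0
    rw [RingHom.map_det, RingHom.mapMatrix_apply, ← Matrix.submatrix_map, map_sqRows]
    exact h)
  have hrows : LinearIndependent F₀ fun r => W₀ (a r) :=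
    LinearIndependent.of_comp (LinearMap.funLeft F₀ F₀ b)
      (Matrix.linearIndependent_rows_of_det_ne_zero hdet₀)
  have hainj : Function.Injective a := fun r s h => hrows.injective (by simp [h])
  let σ := Equiv.ofBijective a ((Fintype.bijective_iff_injective_and_card a).mpr
    ⟨hainj, Fintype.card_fin _⟩)
  have hall : LinearIndependent F₀ fun Cj => W₀ Cj := (linearIndependent_equiv σ).mp hrows
  let v : Cls × Fin q → (ι × Fin q × Fin q → F₀) := fun Ck p => f (l Ck.1 p.1) *
    proj (Kernels.M (fun C i => f (l C i)) Ck.1 c) (lam Ck.1) Ck.2 p.2.1 p.2.2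
  rw [Fintype.linearIndependent_iff]
  intro g hg
  -- remove the coordinates
  have h1 : ∀ i', ∑ Ck, (g Ck * coord e (v Ck) i') • v Ck = 0 := fun i' => by
    refine coord_injective he ?_
    rw [map_zero, map_sum]
    funext i
    have := congrFun hg (i, i')
    simp only [Finset.sum_apply, Pi.smul_apply, smul_eq_mul, Pi.zero_apply, leadVec_eq_coord]
      at this
    simp only [Finset.sum_apply, map_smul, Pi.smul_apply, smul_eq_mul, Pi.zero_apply]
    rw [← this]
    exact sum_congr rfl fun Ck _ => by ring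
  have h2 : ∀ p, ∑ Ck, (g Ck * v Ck p) • v Ck = 0 := fun p => by
    refine coord_injective he ?_
    rw [map_zero, map_sum]
    funext i'
    have := congrFun (h1 i') p
    simp only [Finset.sum_apply, Pi.smul_apply, smul_eq_mul, Pi.zero_apply] at this
    simp only [Finset.sum_apply, map_smul, Pi.smul_apply, smul_eq_mul, Pi.zero_apply]
    rw [← this]
    exact sum_congr rfl fun Ck _ => by ring
  -- pass to the polynomial rows
  let P : Cls → F₀[X] := fun C => Lagrange.interpolate univ (lam C)
    fun k => g (C, k) / kappa (lam C) k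
  have hPdeg : ∀ C, (P C).degree < q := fun C => by
    have h3 := Lagrange.degree_interpolate_lt (fun k => g (C, k) / kappa (lam C) k)
      ((hc C).1.injOn (s := ↑(univ : Finset (Fin q))))
    rwa [card_univ, Fintype.card_fin] at h3
  have hPev : ∀ C k, (P C).eval (lam C k) * kappa (lam C) k = g (C, k) := fun C k => by
    rw [Lagrange.eval_interpolate_at_node _ (hc C).1.injOn (mem_univ k),
      div_mul_cancel₀ _ (kappa_ne_zero (hc C).1 k)]
  have hsum : ∑ Cj : Cls × Fin q, (P Cj.1).coeff Cj.2.val • W₀ Cj = 0 := by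
    funext ⟨p, p'⟩
    have := congrFun (h2 p) p'
    simp only [Finset.sum_apply, Pi.smul_apply, smul_eq_mul, Pi.zero_apply, Fintype.sum_prod_type]
      at this ⊢
    rw [← this]
    refine sum_congr rfl fun C _ => ?_
    simp only [W₀, sqRows_eq f l c hc (C, _) (p, p'), v, mul_sum]
    rw [sum_comm]
    refine sum_congr rfl fun k _ => ?_
    have hd : (P C).natDegree < q := by
      rcases eq_or_ne (P C) 0 with h0' | h0'
      · rw [h0', natDegree_zero]; exact k.pos
      · exact (natDegree_lt_iff_degree_lt h0').mpr (hPdeg C)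
    rw [← hPev C k, eval_eq_sum_range' hd, sum_mul, sum_mul, sum_mul, ← Fin.sum_univ_eq_sum_range]
    exact sum_congr rfl fun j _ => by ring
  intro ⟨C, k⟩
  have hz := Fintype.linearIndependent_iff.mp hall (fun Cj => (P Cj.1).coeff Cj.2.val) hsum
  have hP0 : P C = 0 := by
    refine Polynomial.ext fun n => ?_
    rcases Nat.lt_or_ge n q with hn | hn
    · simpa using hz (C, ⟨n, hn⟩)
    · exact coeff_eq_zero_of_degree_lt (lt_of_lt_of_le (hPdeg C) (by exact_mod_cast hn))
  rw [← hPev C k, hP0, eval_zero, zero_mul]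

section Open

variable {F : Type} [Field F] [CharZero F] {ι Cls : Type} [Fintype ι] [Fintype Cls] [DecidableEq ι]
  [DecidableEq Cls] (l : Cls → ι → F)

omit [DecidableEq ι] [DecidableEq Cls] in
/-- (O1), in the form used by the selection. -/
theorem open_pivot (h0 : ∀ C, l C ≠ 0)
    (hpair : ∀ C D, C ≠ D → LinearIndependent F ![l C, l D]) (hSQ : Kernels.SQ l) :
    ∃ N : ℕ, ∀ q ≥ N, ∃ P : MvPolynomial (ι × Fin q × Fin q) F, P ≠ 0 ∧
      ∀ (F₀ : Type) [Field F₀] [CharZero F₀] (f : F →+* F₀) (c : ι → Matrix (Fin q) (Fin q) F₀)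
        (lam : Cls → Fin q → F₀), MvPolynomial.eval₂ f (fun x => c x.1 x.2.1 x.2.2) P ≠ 0 →
        (∀ C, Function.Injective (lam C) ∧ (Kernels.M (fun C i => f (l C i)) C c).charpoly =
          ∏ k, (Polynomial.X - Polynomial.C (lam C k))) →
        ∀ (J : Type) [Fintype J] (e : J → ι → Matrix (Fin q) (Fin q) F₀),
          Submodule.span F₀ (Set.range e) = ⊤ →
          Fintype.card Cls * q - (Fintype.card Cls - Module.finrank F (Submodule.span F (Set.range l)))
            ≤ Module.finrank F₀ (Submodule.span F₀ (Set.range fun Ck : Cls × Fin q =>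
              SelectLin.leadVec e (fun i => f (l Ck.1 i))
                (SelectLin.proj (Kernels.M (fun C i => f (l C i)) Ck.1 c) (lam Ck.1) Ck.2))) := by
  obtain ⟨N, hN⟩ := rank_open l h0 hpair hSQ
  refine ⟨N, fun q hq => ?_⟩
  obtain ⟨P, hP, h⟩ := hN q hq
  refine ⟨P, hP, fun F₀ _ _ f c lam hne hc J _ e he => ?_⟩
  have := h f c lam e hne hc he
  omega

omit [DecidableEq ι] [DecidableEq Cls] in
/-- (O2), in the form used by the selection. -/
theorem open_sq (h0 : ∀ C, l C ≠ 0)
    (hpair : ∀ C D, C ≠ D → LinearIndependent F ![l C, l D]) (q : ℕ)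
    (hq : 2 * Fintype.card Cls ≤ q) :
    ∃ P : MvPolynomial (ι × Fin q × Fin q) F, P ≠ 0 ∧
      ∀ (F₀ : Type) [Field F₀] [CharZero F₀] (f : F →+* F₀) (c : ι → Matrix (Fin q) (Fin q) F₀)
        (lam : Cls → Fin q → F₀), MvPolynomial.eval₂ f (fun x => c x.1 x.2.1 x.2.2) P ≠ 0 →
        (∀ C, Function.Injective (lam C) ∧ (Kernels.M (fun C i => f (l C i)) C c).charpoly =
          ∏ k, (Polynomial.X - Polynomial.C (lam C k))) →
        ∀ (J : Type) [Fintype J] (e : J → ι → Matrix (Fin q) (Fin q) F₀),
          Submodule.span F₀ (Set.range e) = ⊤ →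
          LinearIndependent F₀ fun Ck : Cls × Fin q => fun p : J × J =>
            SelectLin.leadVec e (fun i => f (l Ck.1 i))
                (SelectLin.proj (Kernels.M (fun C i => f (l C i)) Ck.1 c) (lam Ck.1) Ck.2) p.1 *
              SelectLin.leadVec e (fun i => f (l Ck.1 i))
                (SelectLin.proj (Kernels.M (fun C i => f (l C i)) Ck.1 c) (lam Ck.1) Ck.2) p.2 := by
  obtain ⟨P, hP, h⟩ := sq_open l h0 hpair q hq
  exact ⟨P, hP, fun F₀ _ _ f c lam hne hc J _ e he => h f c lam e hne hc he⟩

end Open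

end Vale.Agent.P199.OpenPoly
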