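import Mathlib.LinearAlgebra.Matrix.DotProduct
import Mathlib.Data.Matrix.Basis
import Mathlib.Algebra.Polynomial.Roots
import Mathlib.Algebra.BigOperators.Field
import Mathlib.Data.Finset.Prod
import Mathlib.LinearAlgebra.Dimension.Finrank
import Mathlib.LinearAlgebra.FiniteDimensional.Lemmas
import Mathlib.Tactic.LinearCombination
import Mathlib.Algebra.CharZero.Infinite
import Mathlib.RingTheory.Noetherian.Basic

/-!
The second-order form at a diagonal point has rank growing faster than the size.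
-/

namespace Vale.Agent.P199.Pairs

open Finset Matrix Polynomial

variable {F : Type*} [Field F] {ι : Type*} {s : ℕ}

lemma exists_forall_dot_ne_zero [Infinite F] {κ : Type*} (S : Finset κ) (a : κ → Fin s → F)
    (ha : ∀ c ∈ S, a c ≠ 0) : ∃ w : Fin s → F, ∀ c ∈ S, a c ⬝ᵥ w ≠ 0 := by
  classical
  induction S using Finset.induction with
  | empty => exact ⟨0, by simp⟩
  | insert c S hc ih =>
    obtain ⟨w, hw⟩ := ih fun d hd => ha d (mem_insert_of_mem hd)
    obtain ⟨k, hk⟩ : ∃ k, a c k ≠ 0 := Function.ne_iff.1 (ha c (mem_insert_self c S))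
    let u : Fin s → F := Pi.single k 1
    have hu : a c ⬝ᵥ u = a c k := by simp [u]
    let bad : Finset F := (insert c S).image fun d => -(a d ⬝ᵥ w) / (a d ⬝ᵥ u)
    obtain ⟨e, he⟩ := Infinite.exists_notMem_finset (insert 0 bad)
    simp only [Finset.mem_insert, not_or] at he
    refine ⟨w + e • u, fun d hd h0 => ?_⟩
    rw [dotProduct_add, dotProduct_smul, smul_eq_mul] at h0
    by_cases hz : a d ⬝ᵥ u = 0
    · rcases mem_insert.1 hd with rfl | hd'
      · exact hk (hu ▸ hz)
      · rw [hz, mul_zero, add_zero] at h0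
        exact hw d hd' h0
    · refine he.2 (mem_image.2 ⟨d, hd, ?_⟩)
      rw [div_eq_iff hz]
      linear_combination -h0

/-- A sum of simple fractions with distinct poles vanishing at as many points as terms is
zero. -/
lemma coeff_eq_zero [Fintype ι] {ρ c : ι → F} (hρ : Function.Injective ρ) (K : Finset F)
    (hK : Fintype.card ι ≤ K.card) (hpole : ∀ k ∈ K, ∀ i, k + ρ i ≠ 0)
    (h : ∀ k ∈ K, ∑ i, c i / (k + ρ i) = 0) : c = 0 := by
  classical
  rcases isEmpty_or_nonempty ι with hι | hι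
  · exact funext fun i => (hι.false i).elim
  let P : F[X] := ∑ i, Polynomial.C (c i) * ∏ j ∈ univ.erase i, (X + Polynomial.C (ρ j))
  have hdeg : P.natDegree < Fintype.card ι := by
    have hb : P.natDegree ≤ Fintype.card ι - 1 := by
      refine natDegree_sum_le_of_forall_le _ _ fun i _ => ?_
      refine (natDegree_C_mul_le _ _).trans ((natDegree_prod_le _ _).trans ?_)
      simp
    have := Fintype.card_pos (α := ι)
    omega
  have hroot : ∀ k ∈ K, P.eval k = 0 := by
    intro k hk
    have hterm : ∀ i, Polynomial.eval k (Polynomial.C (c i) *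
        ∏ j ∈ univ.erase i, (X + Polynomial.C (ρ j))) =
        (∏ j, (k + ρ j)) * (c i / (k + ρ i)) := by
      intro i
      rw [← mul_prod_erase univ (fun j => k + ρ j) (mem_univ i)]
      simp [eval_prod]
      field_simp [hpole k hk i]
    simp only [P, eval_finset_sum, hterm, ← Finset.mul_sum, h k hk, mul_zero]
  have hP : P = 0 :=
    Polynomial.eq_zero_of_natDegree_lt_card_of_eval_eq_zero' P K hroot (hdeg.trans_le hK)
  funext i
  have he := congrArg (Polynomial.eval (-ρ i)) hP
  simp only [P, eval_finset_sum, eval_mul, eval_C, eval_prod, eval_add, eval_X, eval_zero] at he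
  rw [Finset.sum_eq_single i (fun j _ hji => mul_eq_zero_of_right _
    (prod_eq_zero (mem_erase.2 ⟨Ne.symm hji, mem_univ i⟩) (by simp))) (by simp)] at he
  rcases mul_eq_zero.1 he with h1 | h1
  · exact h1
  · obtain ⟨j, hj, hj0⟩ := prod_eq_zero_iff.1 h1
    exact absurd (hρ (neg_add_eq_zero.1 hj0).symm) (mem_erase.1 hj).1

/-- The second-order form at the diagonal point `t`. -/
def psi [Fintype ι] (α : ι → Fin s → F) (ω : ι → F) {q : ℕ} (t : Fin q → Fin s → F)
    (D E : Fin s → Matrix (Fin q) (Fin q) F) : F :=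
  ∑ c, ω c * ∑ i, ∑ j, if i = j then 0 else
    (α c ⬝ᵥ fun a => D a i j) * (α c ⬝ᵥ fun a => E a j i) / (α c ⬝ᵥ t i - α c ⬝ᵥ t j)

lemma psi_single [Fintype ι] (α : ι → Fin s → F) (ω : ι → F) {q : ℕ} (t : Fin q → Fin s → F)
    (u v : Fin s → F) (i j k l : Fin q) (hij : i ≠ j) :
    psi α ω t (fun a => Matrix.single i j (u a)) (fun a => Matrix.single l k (v a)) =
      if i = k ∧ j = l then
        ∑ c, ω c * ((α c ⬝ᵥ u) * (α c ⬝ᵥ v) / (α c ⬝ᵥ t i - α c ⬝ᵥ t j)) else 0 := by
  classical
  have hu : ∀ c x y, (α c ⬝ᵥ fun a => Matrix.single i j (u a) x y) =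
      if i = x ∧ j = y then α c ⬝ᵥ u else 0 := by
    intro c x y
    split_ifs with h <;> simp [Matrix.single_apply, h, dotProduct]
  have hv : ∀ c x y, (α c ⬝ᵥ fun a => Matrix.single l k (v a) x y) =
      if l = x ∧ k = y then α c ⬝ᵥ v else 0 := by
    intro c x y
    split_ifs with h <;> simp [Matrix.single_apply, h, dotProduct]
  simp only [psi, hu, hv]
  by_cases h : i = k ∧ j = l
  · obtain ⟨rfl, rfl⟩ := h
    simp only [and_self, ↓reduceIte]
    refine sum_congr rfl fun c _ => ?_
    congr 1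
    rw [sum_eq_single i (fun x _ hx => sum_eq_zero fun y _ => by simp [Ne.symm hx]) (by simp),
      sum_eq_single j (fun y _ hy => by simp [Ne.symm hy]) (by simp)]
    simp [hij]
  · rw [if_neg h]
    refine sum_eq_zero fun c _ => mul_eq_zero_of_right _
      (sum_eq_zero fun x _ => sum_eq_zero fun y _ => ?_)
    by_cases hx : i = x ∧ j = y
    · obtain ⟨rfl, rfl⟩ := hx
      have : ¬(l = j ∧ k = i) := fun e => h ⟨e.2.symm, e.1.symm⟩
      simp [this]
    · simp [hx]

/-- For pairwise independent forms there is a diagonal point at which every nonzero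
combination has rank at least `B * q`, witnessed by a biorthogonal system. -/
theorem exists_point [CharZero F] [Fintype ι] (α : ι → Fin s → F)
    (hne : ∀ c, α c ≠ 0) (hind : ∀ c d, c ≠ d → ∀ r : F, α c ≠ r • α d)
    (B q : ℕ) (hq : 2 * (B + Fintype.card ι) + 1 ≤ q) :
    ∃ t : Fin q → Fin s → F, (∀ c i j, i ≠ j → α c ⬝ᵥ t i ≠ α c ⬝ᵥ t j) ∧
      ∀ ω : ι → F, ω ≠ 0 → ∃ (P : Finset (Fin q × Fin q))
        (D E : Fin q × Fin q → Fin s → Matrix (Fin q) (Fin q) F), B * q ≤ P.card ∧
        ∀ p ∈ P, ∀ p' ∈ P, psi α ω t (D p) (E p') = if p = p' then 1 else 0 := by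
  classical
  obtain ⟨w, hw⟩ := exists_forall_dot_ne_zero univ α fun c _ => hne c
  let β : ι × ι → Fin s → F := fun p => (α p.2 ⬝ᵥ w) • α p.1 - (α p.1 ⬝ᵥ w) • α p.2
  obtain ⟨v₀, hv₀⟩ := exists_forall_dot_ne_zero (univ.filter fun p : ι × ι => p.1 ≠ p.2) β
    (fun p hp h0 => hind p.1 p.2 (mem_filter.1 hp).2 ((α p.1 ⬝ᵥ w) / (α p.2 ⬝ᵥ w)) (by
      rw [div_eq_inv_mul, mul_smul, eq_inv_smul_iff₀ (hw _ (mem_univ _))]
      exact sub_eq_zero.1 h0))
  -- shift so that the poles avoid the integers in use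
  obtain ⟨e, he⟩ := Infinite.exists_notMem_finset
    ((univ (α := ι) ×ˢ range (2 * q)).image fun p => -((p.2 : F) + (α p.1 ⬝ᵥ v₀) / (α p.1 ⬝ᵥ w)))
  let ρ : ι → F := fun c => (α c ⬝ᵥ v₀) / (α c ⬝ᵥ w) + e
  have hρ : Function.Injective ρ := by
    intro c d h
    by_contra hcd
    have h' := add_right_cancel h
    rw [div_eq_div_iff (hw c (mem_univ c)) (hw d (mem_univ d))] at h'
    refine hv₀ (c, d) (mem_filter.2 ⟨mem_univ _, hcd⟩) ?_
    simp only [β, sub_dotProduct, smul_dotProduct, smul_eq_mul]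
    linear_combination h'
  have hpole : ∀ k < 2 * q, ∀ c, (k : F) + ρ c ≠ 0 := by
    intro k hk c h0
    refine he (mem_image.2 ⟨(c, k), by simp [hk], ?_⟩)
    simp only [ρ] at h0
    linear_combination -h0
  let t : Fin q → Fin s → F :=
    fun i => ((i : ℕ) : F) • (v₀ + e • w) + ((i : ℕ) : F) ^ 2 • w
  have hdiff : ∀ c i j, α c ⬝ᵥ t i - α c ⬝ᵥ t j =
      (((i : ℕ) : F) - ((j : ℕ) : F)) * (α c ⬝ᵥ w) * ((((i : ℕ) + (j : ℕ) : ℕ) : F) + ρ c) := by
    intro c i j
    have hw' := hw c (mem_univ c)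
    simp only [t, ρ, dotProduct_add, dotProduct_smul, smul_eq_mul]
    push_cast
    field_simp
    ring
  have hne' : ∀ {i j : Fin q}, i ≠ j → ((i : ℕ) : F) - ((j : ℕ) : F) ≠ 0 := fun h h0 =>
    h (Fin.ext (Nat.cast_injective (R := F) (sub_eq_zero.1 h0)))
  refine ⟨t, fun c i j hij h0 => ?_, fun ω hω => ?_⟩
  · have h1 := hdiff c i j
    rw [h0, sub_self] at h1
    exact mul_ne_zero (mul_ne_zero (hne' hij) (hw c (mem_univ c)))
      (hpole _ (by omega) c) h1.symm
  let Good : ℕ → Prop := fun k => ∃ a b : Fin s,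
    ∑ c, ω c * α c a * α c b / (α c ⬝ᵥ w) / ((k : F) + ρ c) ≠ 0
  let Bad := (range (2 * q)).filter fun k => ¬Good k
  have hbad : Bad.card < Fintype.card ι := by
    by_contra hle
    push Not at hle
    refine hω (funext fun c => ?_)
    obtain ⟨a, ha⟩ : ∃ a, α c a ≠ 0 := Function.ne_iff.1 (hne c)
    have := coeff_eq_zero (c := fun c => ω c * α c a * α c a / (α c ⬝ᵥ w)) hρ
      (Bad.image (Nat.cast : ℕ → F)) (by rwa [card_image_of_injective _ Nat.cast_injective])
      (fun k hk => by
        obtain ⟨n, hn, rfl⟩ := mem_image.1 hk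
        exact hpole n (mem_range.1 (mem_filter.1 hn).1))
      (fun k hk => by
        obtain ⟨n, hn, rfl⟩ := mem_image.1 hk
        by_contra hne0
        exact (mem_filter.1 hn).2 ⟨a, a, hne0⟩)
    have hc := congrFun this c
    simpa [ha, hw c (mem_univ c)] using hc
  let P := (univ : Finset (Fin q × Fin q)).filter fun p =>
    p.1 ≠ p.2 ∧ Good ((p.1 : ℕ) + (p.2 : ℕ))
  have hP : B * q ≤ P.card := by
    have hsub : (univ : Finset (Fin q × Fin q)) ⊆
        P ∪ (univ.image fun i : Fin q => (i, i)) ∪ Bad.biUnion fun k =>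
          univ.filter fun p : Fin q × Fin q => (p.1 : ℕ) + (p.2 : ℕ) = k := by
      intro p _
      simp only [P, Bad, mem_union, mem_filter, mem_univ, true_and, mem_image, mem_biUnion,
        mem_range]
      by_cases hp : p.1 = p.2
      · exact Or.inl (Or.inr ⟨p.1, Prod.ext rfl hp⟩)
      · by_cases hg : Good ((p.1 : ℕ) + (p.2 : ℕ))
        · exact Or.inl (Or.inl ⟨hp, hg⟩)
        · exact Or.inr ⟨_, ⟨by omega, hg⟩, rfl⟩
    have hfib : ∀ k, (univ.filter fun p : Fin q × Fin q =>
        (p.1 : ℕ) + (p.2 : ℕ) = k).card ≤ q := by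
      intro k
      refine (card_le_card_of_injOn (fun p => p.1) (fun _ _ => mem_univ _) ?_).trans
        (card_fin q).le
      intro p hp p' hp' h
      simp only [coe_filter, mem_univ, true_and, Set.mem_setOf_eq] at hp hp'
      exact Prod.ext h (Fin.ext (by have := congrArg Fin.val h; simp only at this; omega))
    have h1 := (card_le_card hsub).trans ((card_union_le _ _).trans
      (add_le_add (card_union_le _ _) (card_biUnion_le.trans (sum_le_card_nsmul _ _ q
        fun k _ => hfib k))))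
    have h2 : (univ.image fun i : Fin q => (i, i)).card ≤ q :=
      card_image_le.trans (card_fin q).le
    simp only [card_univ, Fintype.card_prod, Fintype.card_fin, smul_eq_mul] at h1
    nlinarith [Nat.mul_le_mul_right q hbad, Nat.mul_le_mul_right q hq]
  have hgood : ∀ p ∈ P, ∃ a b : Fin s,
      ∑ c, ω c * α c a * α c b / (α c ⬝ᵥ w) / ((((p.1 : ℕ) + (p.2 : ℕ) : ℕ) : F) + ρ c) ≠ 0 :=
    fun p hp => (mem_filter.1 hp).2.2
  obtain ⟨c₀, -⟩ := Function.ne_iff.1 hω
  haveI : Nonempty (Fin s) := ⟨(Function.ne_iff.1 (hne c₀)).choose⟩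
  choose! a b hab using hgood
  let D : Fin q × Fin q → Fin s → Matrix (Fin q) (Fin q) F :=
    fun p x => Matrix.single p.1 p.2 ((Pi.single (a p) 1 : Fin s → F) x)
  let val : Fin q × Fin q → F := fun p => ∑ c, ω c *
    ((α c ⬝ᵥ (Pi.single (a p) 1 : Fin s → F)) * (α c ⬝ᵥ (Pi.single (b p) 1 : Fin s → F)) /
      (α c ⬝ᵥ t p.1 - α c ⬝ᵥ t p.2))
  let E : Fin q × Fin q → Fin s → Matrix (Fin q) (Fin q) F :=
    fun p x => Matrix.single p.2 p.1 (((val p)⁻¹ • (Pi.single (b p) 1 : Fin s → F)) x)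
  refine ⟨P, D, E, hP, fun p hp p' hp' => ?_⟩
  have hij := (mem_filter.1 hp).2.1
  simp only [D, E]
  rw [psi_single α ω t _ _ _ _ p'.1 p'.2 hij]
  by_cases h : p = p'
  · subst h
    simp only [and_self, ↓reduceIte]
    have hval : val p ≠ 0 := by
      have hv : val p = (((p.1 : ℕ) : F) - ((p.2 : ℕ) : F))⁻¹ *
          ∑ c, ω c * α c (a p) * α c (b p) / (α c ⬝ᵥ w) /
            ((((p.1 : ℕ) + (p.2 : ℕ) : ℕ) : F) + ρ c) := by
        simp only [val, Finset.mul_sum, hdiff, dotProduct_single, mul_one]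
        refine sum_congr rfl fun c _ => ?_
        rw [div_div, div_eq_mul_inv, div_eq_mul_inv]
        simp only [mul_inv]
        ring
      rw [hv]
      exact mul_ne_zero (inv_ne_zero (hne' hij)) (hab p hp)
    calc _ = (val p)⁻¹ * val p := by
          simp only [val, Finset.mul_sum, dotProduct_smul, smul_eq_mul]
          refine sum_congr rfl fun c _ => ?_
          ring
      _ = 1 := inv_mul_cancel₀ hval
  · rw [if_neg h, if_neg]
    exact fun e => h (Prod.ext e.1 e.2)

/-- A biorthogonal system bounds the rank of a bilinear map from below. -/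
lemma card_le_finrank_range {V W κ : Type*} [AddCommGroup V] [Module F V] [AddCommGroup W]
    [Module F W] [FiniteDimensional F W] [DecidableEq κ] (L : V →ₗ[F] W →ₗ[F] F) (P : Finset κ)
    (D : κ → V) (E : κ → W)
    (h : ∀ p ∈ P, ∀ p' ∈ P, L (D p) (E p') = if p = p' then 1 else 0) :
    P.card ≤ Module.finrank F (LinearMap.range L) := by
  have hind : LinearIndependent F (fun p : P => L.rangeRestrict (D p)) := by
    refine Fintype.linearIndependent_iffₛ.2 fun g g' hg p => ?_
    have h1 : ∀ g : P → F, (∑ x : P, g x • L (D x)) (E p) = g p := by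
      intro g
      rw [LinearMap.sum_apply, Finset.sum_eq_single p (fun x _ hx => by
        simp [h x x.2 p p.2, Subtype.coe_injective.ne hx]) (by simp)]
      simp [h p p.2 p p.2]
    have h2 := congrArg Subtype.val hg
    simp only [AddSubmonoidClass.coe_finsetSum, SetLike.val_smul] at h2
    rw [← h1 g, ← h1 g']
    exact LinearMap.congr_fun h2 (E p)
  simpa using hind.fintype_card_le_finrank

end Vale.Agent.P199.Pairs
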