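import Mathlib.RingTheory.LaurentSeries
import Mathlib.LinearAlgebra.FiniteDimensional.Lemmas
import Mathlib.LinearAlgebra.Dimension.Finrank
import Mathlib.RingTheory.Noetherian.Basic
import Mathlib.Tactic.LinearCombination

/-!
Leading terms of subspaces over Laurent series.
-/

namespace Vale.Agent.P199.Reduction

open Module

variable {F : Type*} [Field F] {M : Type*}

/-- A vector of Laurent series with no negative powers. -/
def Integral (v : M → LaurentSeries F) : Prop := ∀ i, ∀ n : ℤ, n < 0 → (v i).coeff n = 0

/-- The constant terms of a vector. -/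
def red (v : M → LaurentSeries F) : M → F := fun i => (v i).coeff 0

/-- The constant terms of the integral vectors of a subspace. -/
def redSpace (U : Submodule (LaurentSeries F) (M → LaurentSeries F)) : Submodule F (M → F) where
  carrier := {r | ∃ v ∈ U, Integral v ∧ red v = r}
  zero_mem' := ⟨0, U.zero_mem, fun i n _ => by simp, by funext i; simp [red]⟩
  add_mem' := by
    rintro _ _ ⟨v, hv, hi, rfl⟩ ⟨w, hw, hj, rfl⟩
    refine ⟨v + w, U.add_mem hv hw, fun i n hn => ?_, by funext i; simp [red]⟩
    simp [hi i n hn, hj i n hn]
  smul_mem' := by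
    rintro c _ ⟨v, hv, hi, rfl⟩
    refine ⟨(HahnSeries.single (0 : ℤ) c : LaurentSeries F) • v, U.smul_mem _ hv,
      fun i n hn => ?_, ?_⟩
    · simp [hi i n hn]
    · funext i
      simp [red]

/-- Integral vectors with independent constant terms are independent. -/
theorem linearIndependent_of_red {κ : Type*} (v : κ → M → LaurentSeries F)
    (hv : ∀ k, Integral (v k)) (h : LinearIndependent F fun k => red (v k)) :
    LinearIndependent (LaurentSeries F) v := by
  classical
  rw [linearIndependent_iff']
  intro S g hg k hk
  by_contra hne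
  obtain ⟨k₀, hk₀, hmin⟩ := (S.filter fun k => g k ≠ 0).exists_min_image (fun k => (g k).order)
    ⟨k, Finset.mem_filter.2 ⟨hk, hne⟩⟩
  obtain ⟨hk₀S, hk₀0⟩ := Finset.mem_filter.1 hk₀
  set n := (g k₀).order
  have hlow : ∀ k ∈ S, ∀ m < n, (g k).coeff m = 0 := by
    intro k hk m hm
    rcases eq_or_ne (g k) 0 with h0 | h0
    · simp [h0]
    · exact HahnSeries.coeff_eq_zero_of_lt_order
        (hm.trans_le (hmin k (Finset.mem_filter.2 ⟨hk, h0⟩)))
  have hcoeff : ∀ k ∈ S, ∀ i, (g k * v k i).coeff n = (g k).coeff n * (v k i).coeff 0 := by
    intro k hk i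
    rw [HahnSeries.coeff_mul]
    rw [Finset.sum_eq_single ((n, 0) : ℤ × ℤ)]
    · rintro ⟨a, b⟩ hab hne'
      simp only [Finset.mem_addAntidiagonal, HahnSeries.mem_support] at hab
      exfalso
      have ha : n ≤ a := by
        by_contra hlt
        exact hab.1 (hlow k hk a (not_le.1 hlt))
      have hb : 0 ≤ b := by
        by_contra hlt
        exact hab.2.1 (hv k i b (not_le.1 hlt))
      have := hab.2.2
      exact hne' (Prod.ext (by dsimp only; omega) (by dsimp only; omega))
    · intro hmem
      simp only [Finset.mem_addAntidiagonal, HahnSeries.mem_support, add_zero, and_true,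
        not_and_or, not_not] at hmem
      rcases hmem with hmem | hmem <;> simp [hmem]
  have h0 : ∑ k ∈ S, (g k).coeff n • red (v k) = 0 := by
    funext i
    have := congrArg (fun w : M → LaurentSeries F => (w i).coeff n) hg
    simp only [Finset.sum_apply, Pi.smul_apply, smul_eq_mul, Pi.zero_apply,
      HahnSeries.coeff_sum, HahnSeries.coeff_zero] at this
    simp only [Finset.sum_apply, Pi.smul_apply, smul_eq_mul, Pi.zero_apply, red]
    rw [← this]
    exact Finset.sum_congr rfl fun k hk => (hcoeff k hk i).symm
  exact HahnSeries.coeff_order_eq_zero.not.2 hk₀0 (linearIndependent_iff'.1 h S _ h0 k₀ hk₀S)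

/-- The constant-term space of a subspace has the same dimension. -/
theorem finrank_redSpace [Fintype M] (U : Submodule (LaurentSeries F) (M → LaurentSeries F)) :
    finrank F (redSpace U) = finrank (LaurentSeries F) U := by
  classical
  let b := finBasis F (redSpace U)
  choose v hvU hvi hvr using fun k => (b k).2
  apply le_antisymm
  · have hli : LinearIndependent (LaurentSeries F) v := by
      refine linearIndependent_of_red v hvi ?_
      simp only [hvr]
      exact b.linearIndependent.map' (redSpace U).subtype (Submodule.ker_subtype _)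
    have hliU : LinearIndependent (LaurentSeries F) (fun k => (⟨v k, hvU k⟩ : U)) :=
      LinearIndependent.of_comp U.subtype hli
    simpa using hliU.fintype_card_le_finrank
  · obtain ⟨p, hp⟩ := LinearMap.exists_leftInverse_of_injective (redSpace U).subtype
      (Submodule.ker_subtype _)
    let π : (M → F) →ₗ[F] (Fin (finrank F (redSpace U)) → F) :=
      (b.equivFun : _ →ₗ[F] _).comp p
    let πL : (M → LaurentSeries F) →ₗ[LaurentSeries F]
        (Fin (finrank F (redSpace U)) → LaurentSeries F) :=
      LinearMap.pi fun k => ∑ i, (HahnSeries.single (0 : ℤ) (π (Pi.single i 1) k) :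
        LaurentSeries F) • LinearMap.proj i
    have hinj : Function.Injective (πL.comp U.subtype) := by
      rw [← LinearMap.ker_eq_bot, LinearMap.ker_eq_bot']
      rintro ⟨u, hu⟩ h0
      by_contra hne
      have hu0 : u ≠ 0 := fun h => hne (Subtype.ext h)
      obtain ⟨i₁, hi₁⟩ := Function.ne_iff.1 hu0
      obtain ⟨i₀, hi₀, hmin⟩ := (Finset.univ.filter fun i => u i ≠ 0).exists_min_image
        (fun i => (u i).order) ⟨i₁, Finset.mem_filter.2 ⟨Finset.mem_univ _, hi₁⟩⟩
      set n := (u i₀).order
      set u' := (HahnSeries.single (-n) (1 : F) : LaurentSeries F) • u with hu'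
      have hc : ∀ i m, (u' i).coeff m = (u i).coeff (m + n) := fun i m => by
        simp [hu', HahnSeries.coeff_single_mul]
      have hint : Integral u' := by
        intro i m hm
        rw [hc]
        rcases eq_or_ne (u i) 0 with h | h
        · simp [h]
        · refine HahnSeries.coeff_eq_zero_of_lt_order (lt_of_lt_of_le ?_
            (hmin i (Finset.mem_filter.2 ⟨Finset.mem_univ _, h⟩)))
          linarith
      have hred : red u' ∈ redSpace U := ⟨u', U.smul_mem _ hu, hint, rfl⟩
      have hπ : π (red u') = 0 := by
        funext k
        have h1 := congrArg (fun w => (w k).coeff n) h0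
        simp only [LinearMap.comp_apply, Submodule.subtype_apply, πL, LinearMap.pi_apply,
          LinearMap.sum_apply, LinearMap.smul_apply, LinearMap.proj_apply, smul_eq_mul,
          HahnSeries.coeff_sum, HahnSeries.coeff_single_zero_mul, Pi.zero_apply,
          HahnSeries.coeff_zero] at h1
        rw [LinearMap.pi_apply_eq_sum_univ π (red u')]
        simp only [Finset.sum_apply, Pi.smul_apply, smul_eq_mul, red, hc, zero_add, Pi.zero_apply]
        refine Eq.trans ?_ h1
        refine Finset.sum_congr rfl fun i _ => ?_
        rw [mul_comm]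
        congr 1
        refine congrArg (fun x => π x k) (funext fun j => ?_)
        simp [Pi.single_apply, eq_comm]
      have hz : b.equivFun ⟨red u', hred⟩ = 0 := by
        have h2 : p (red u') = ⟨red u', hred⟩ := LinearMap.congr_fun hp ⟨red u', hred⟩
        have := hπ
        simp only [π, LinearMap.comp_apply, h2] at this
        exact this
      have := congrFun (congrArg Subtype.val ((LinearEquiv.map_eq_zero_iff _).1 hz)) i₀
      simp only [red, hc, zero_add, ZeroMemClass.coe_zero, Pi.zero_apply] at this
      exact HahnSeries.coeff_order_eq_zero.not.2 (Finset.mem_filter.1 hi₀).2 this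
    simpa using LinearMap.finrank_le_finrank_of_injective hinj

end Vale.Agent.P199.Reduction
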