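import Vale.Agent.P199.Pairs
import Vale.Agent.P199.Reduction
import Mathlib.LinearAlgebra.Dual.Lemmas
import Mathlib.LinearAlgebra.Matrix.Rank

/-!
Rank form of the pair lemma, and semicontinuity of the rank at the constant term.
-/

namespace Vale.Agent.P199.PairsRank

open Matrix Module Pairs

variable {F : Type*} [Field F] {ι : Type*} [Fintype ι] {s q : ℕ}

lemma dot_entry_add (a : Fin s → F) (D D' : Fin s → Matrix (Fin q) (Fin q) F) (i j : Fin q) :
    (a ⬝ᵥ fun x => (D + D') x i j) = (a ⬝ᵥ fun x => D x i j) + a ⬝ᵥ fun x => D' x i j := by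
  rw [← dotProduct_add]; rfl

lemma dot_entry_smul (a : Fin s → F) (r : F) (D : Fin s → Matrix (Fin q) (Fin q) F)
    (i j : Fin q) : (a ⬝ᵥ fun x => (r • D) x i j) = r * (a ⬝ᵥ fun x => D x i j) := by
  rw [← smul_eq_mul, ← dotProduct_smul]; rfl

/-- The form `psi` as a bilinear map. -/
def psiL (α : ι → Fin s → F) (t : Fin q → Fin s → F) (ω : ι → F) :
    (Fin s → Matrix (Fin q) (Fin q) F) →ₗ[F] Dual F (Fin s → Matrix (Fin q) (Fin q) F) :=
  LinearMap.mk₂ F (psi α ω t)
    (fun D D' E => by
      simp only [psi, dot_entry_add, ← Finset.sum_add_distrib, ← mul_add]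
      refine Finset.sum_congr rfl fun c _ => ?_
      congr 1
      refine Finset.sum_congr rfl fun i _ => Finset.sum_congr rfl fun j _ => ?_
      split_ifs with h
      · rw [add_zero]
      · rw [← add_div]; ring)
    (fun r D E => by
      simp only [psi, dot_entry_smul, smul_eq_mul, Finset.mul_sum]
      refine Finset.sum_congr rfl fun c _ => Finset.sum_congr rfl fun i _ =>
        Finset.sum_congr rfl fun j _ => ?_
      split_ifs with h
      · simp
      · ring)
    (fun D E E' => by
      simp only [psi, dot_entry_add, ← Finset.sum_add_distrib, ← mul_add]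
      refine Finset.sum_congr rfl fun c _ => ?_
      congr 1
      refine Finset.sum_congr rfl fun i _ => Finset.sum_congr rfl fun j _ => ?_
      split_ifs with h
      · rw [add_zero]
      · rw [← add_div]; ring)
    (fun r D E => by
      simp only [psi, dot_entry_smul, smul_eq_mul, Finset.mul_sum]
      refine Finset.sum_congr rfl fun c _ => Finset.sum_congr rfl fun i _ =>
        Finset.sum_congr rfl fun j _ => ?_
      split_ifs with h
      · simp
      · ring)

lemma psiL_sum {κ : Type*} (S : Finset κ) (α : ι → Fin s → F) (t : Fin q → Fin s → F)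
    (r : κ → F) (ω : κ → ι → F) :
    ∑ k ∈ S, r k • psiL α t (ω k) = psiL α t (∑ k ∈ S, r k • ω k) := by
  refine LinearMap.ext₂ fun D E => ?_
  simp only [LinearMap.sum_apply, LinearMap.smul_apply, psiL, LinearMap.mk₂_apply, psi,
    Finset.sum_apply, Pi.smul_apply, smul_eq_mul, Finset.sum_mul, Finset.mul_sum]
  rw [Finset.sum_comm]
  refine Finset.sum_congr rfl fun c _ => ?_
  rw [Finset.sum_comm]
  refine Finset.sum_congr rfl fun i _ => ?_
  rw [Finset.sum_comm]
  exact Finset.sum_congr rfl fun j _ => Finset.sum_congr rfl fun k _ => by ring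

/-- There is a diagonal point at which every nonzero combination has rank at least `B * q`. -/
theorem exists_point_rank [CharZero F] (α : ι → Fin s → F)
    (hne : ∀ c, α c ≠ 0) (hind : ∀ c d, c ≠ d → ∀ r : F, α c ≠ r • α d)
    (B : ℕ) (hq : 2 * (B + Fintype.card ι) + 1 ≤ q) :
    ∃ t : Fin q → Fin s → F, (∀ c i j, i ≠ j → α c ⬝ᵥ t i ≠ α c ⬝ᵥ t j) ∧
      ∀ ω : ι → F, ω ≠ 0 → B * q ≤ finrank F (LinearMap.range (psiL α t ω)) := by
  obtain ⟨t, ht, h⟩ := exists_point α hne hind B q hq
  refine ⟨t, ht, fun ω hω => ?_⟩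
  obtain ⟨P, D, E, hP, hDE⟩ := h ω hω
  exact hP.trans (card_le_finrank_range (psiL α t ω) P D E hDE)

/-- The rank of the constant term is at most the rank. -/
theorem rank_const_le {m n : Type*} [Fintype m] [Fintype n] (A : Matrix m n (LaurentSeries F))
    (hA : ∀ i j, ∀ k : ℤ, k < 0 → (A i j).coeff k = 0) :
    (Matrix.of fun i j => (A i j).coeff 0).rank ≤ A.rank := by
  classical
  rw [Matrix.rank_eq_finrank_span_row, Matrix.rank_eq_finrank_span_row]
  obtain ⟨b, hbsub, hbspan, hbind⟩ :=
    exists_linearIndependent F (Set.range (Matrix.of fun i j => (A i j).coeff 0).row)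
  haveI : Fintype b := ((Set.finite_range _).subset hbsub).fintype
  choose idx hidx using fun x : b => hbsub x.2
  have hind : LinearIndependent (LaurentSeries F) fun x : b => A.row (idx x) := by
    refine Reduction.linearIndependent_of_red _ (fun x => hA (idx x)) ?_
    have he : (fun x : b => Reduction.red (A.row (idx x))) = fun x : b => (x : n → F) :=
      funext fun x => hidx x
    rw [he]
    exact hbind
  rw [← hbspan, finrank_span_set_eq_card hbind, Set.toFinset_card]
  refine le_trans (le_of_eq (finrank_span_eq_card hind).symm) (Submodule.finrank_mono ?_)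
  refine Submodule.span_mono ?_
  rintro _ ⟨x, rfl⟩
  exact ⟨idx x, rfl⟩

end Vale.Agent.P199.PairsRank
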