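import Vale.Agent.P199.UniversalityAux

/-!
P199: universality. A failure of an identity at some small point gives a nonzero polynomial
outside whose zero set the identity fails at the points `τ • c`.
-/

namespace Vale.Agent.P199.Univ

open Finset Series
open scoped Polynomial

section Power

variable {R : Type*} [CommRing R]

theorem pow_succ_expand_coeff {q j m N : ℕ} (g r : R[X]) (hj : j < q) (hg : g.natDegree ≤ q)
    (hr : r.natDegree ≤ j) (hN : m * q + j ≤ N) :
    ((g + r) ^ (m + 1)).coeff N =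
      (g ^ (m + 1)).coeff N + ((m + 1 : ℕ) : R) * (g ^ m * r).coeff N := by
  induction m generalizing N with
  | zero => simp
  | succ m ih =>
    set e := (g + r) ^ (m + 1) - g ^ (m + 1) - ((m + 1 : ℕ) : R[X]) * (g ^ m * r) with he
    have hzero : ∀ M, m * q + j ≤ M → e.coeff M = 0 := fun M hM => by
      rw [he, Polynomial.coeff_sub, Polynomial.coeff_sub, ih hM, Polynomial.coeff_natCast_mul]
      ring
    have hexp : (g + r) ^ (m + 1 + 1) = g ^ (m + 1 + 1) +
        ((m + 1 + 1 : ℕ) : R[X]) * (g ^ (m + 1) * r) +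
        (((m + 1 : ℕ) : R[X]) * (g ^ m * r * r) + e * (g + r)) := by
      rw [he]; push_cast; ring
    have h1 : (g ^ m * r * r).coeff N = 0 := by
      refine Polynomial.coeff_eq_zero_of_natDegree_lt (lt_of_le_of_lt
        (Polynomial.natDegree_mul_le.trans (Nat.add_le_add (Polynomial.natDegree_mul_le.trans
          (Nat.add_le_add (Polynomial.natDegree_pow_le.trans (Nat.mul_le_mul le_rfl hg)) hr)) hr)) ?_)
      rw [Nat.succ_mul] at hN
      omega
    have h2 : (e * (g + r)).coeff N = 0 := by
      rw [Polynomial.coeff_mul]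
      refine sum_eq_zero fun x hx => ?_
      rw [HasAntidiagonal.mem_antidiagonal] at hx
      rw [Nat.succ_mul] at hN
      by_cases h : m * q + j ≤ x.1
      · rw [hzero _ h, zero_mul]
      · have : (g + r).coeff x.2 = 0 := by
          refine Polynomial.coeff_eq_zero_of_natDegree_lt (lt_of_le_of_lt
            ((Polynomial.natDegree_add_le g r).trans (max_le hg (hr.trans hj.le))) ?_)
          omega
        rw [this, mul_zero]
    rw [hexp, Polynomial.coeff_add, Polynomial.coeff_add, Polynomial.coeff_add,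
      Polynomial.coeff_natCast_mul, Polynomial.coeff_natCast_mul, h1, h2]
    ring

/-- The coefficient which a correction of degree `j` changes. -/
theorem coeff_pow_add {q j m : ℕ} {g r : R[X]} (hj : j < q) (hg : g.natDegree ≤ q)
    (hg1 : g.coeff q = 1) (hr : r.natDegree ≤ j) :
    ((g + r) ^ (m + 1)).coeff (m * q + j) =
      (g ^ (m + 1)).coeff (m * q + j) + ((m + 1 : ℕ) : R) * r.coeff j := by
  rw [pow_succ_expand_coeff g r hj hg hr le_rfl,
    Polynomial.coeff_mul_add_eq_of_natDegree_le (Polynomial.natDegree_pow_le.trans (Nat.mul_le_mul le_rfl hg))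
      hr, Polynomial.coeff_pow_of_natDegree_le hg, hg1, one_pow, one_mul]

theorem coeff_pow_add_of_lt {q j m N : ℕ} {g r : R[X]} (hj : j < q) (hg : g.natDegree ≤ q)
    (hr : r.natDegree ≤ j) (hN : m * q + j < N) :
    ((g + r) ^ (m + 1)).coeff N = (g ^ (m + 1)).coeff N := by
  rw [pow_succ_expand_coeff g r hj hg hr hN.le,
    Polynomial.coeff_eq_zero_of_natDegree_lt (p := g ^ m * r), mul_zero, add_zero]
  exact lt_of_le_of_lt (Polynomial.natDegree_mul_le.trans
    (Nat.add_le_add (Polynomial.natDegree_pow_le.trans (Nat.mul_le_mul le_rfl hg)) hr)) hN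

theorem isUnit_natCast [Algebra ℚ R] (m : ℕ) : IsUnit ((m + 1 : ℕ) : R) := by
  rw [← map_natCast (algebraMap ℚ R)]
  exact ((Nat.cast_ne_zero.2 m.succ_ne_zero).isUnit).map _

/-- The candidate `(m+1)`-th root: the top coefficients determine it. -/
theorem exists_cand [Algebra ℚ R] {q m : ℕ} (p : R[X]) (hdeg : p.natDegree ≤ (m + 1) * q)
    (htop : p.coeff ((m + 1) * q) = 1) :
    ∃ h : R[X], h.natDegree ≤ q ∧ h.coeff q = 1 ∧
      ∀ N, m * q ≤ N → (h ^ (m + 1)).coeff N = p.coeff N := by
  suffices H : ∀ k ≤ q, ∃ h : R[X], h.natDegree ≤ q ∧ h.coeff q = 1 ∧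
      ∀ N, m * q + (q - k) ≤ N → (h ^ (m + 1)).coeff N = p.coeff N by
    obtain ⟨h, h1, h2, h3⟩ := H q le_rfl
    exact ⟨h, h1, h2, fun N hN => h3 N (by omega)⟩
  intro k
  induction k with
  | zero =>
    refine fun _ => ⟨Polynomial.X ^ q, Polynomial.natDegree_X_pow_le q, by simp, fun N hN => ?_⟩
    rw [← pow_mul, mul_comm q, Polynomial.coeff_X_pow, Nat.succ_mul]
    rcases lt_or_eq_of_le hN with h | h
    · rw [if_neg (by omega), Polynomial.coeff_eq_zero_of_natDegree_lt]
      exact lt_of_le_of_lt hdeg (by rw [Nat.succ_mul]; omega)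
    · have : N = (m + 1) * q := by rw [Nat.succ_mul]; omega
      rw [if_pos (by omega), this, htop]
  | succ k ih =>
    intro hk
    obtain ⟨h, h1, h2, h3⟩ := ih (by omega)
    set j := q - (k + 1) with hj
    obtain ⟨u, hu⟩ := isUnit_natCast (R := R) m
    set c := (↑u⁻¹ : R) * (p.coeff (m * q + j) - (h ^ (m + 1)).coeff (m * q + j)) with hc
    have hr : (Polynomial.C c * Polynomial.X ^ j).natDegree ≤ j :=
      Polynomial.natDegree_C_mul_X_pow_le c j
    refine ⟨h + Polynomial.C c * Polynomial.X ^ j,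
      (Polynomial.natDegree_add_le _ _).trans (max_le h1 (hr.trans (by omega))), ?_, fun N hN => ?_⟩
    · rw [Polynomial.coeff_add, h2, Polynomial.coeff_eq_zero_of_natDegree_lt (lt_of_le_of_lt hr
        (by omega)), add_zero]
    · rcases lt_or_eq_of_le hN with hlt | heq
      · rw [coeff_pow_add_of_lt (by omega) h1 hr hlt]
        exact h3 N (by omega)
      · rw [← heq, coeff_pow_add (by omega) h1 h2 hr, Polynomial.coeff_C_mul_X_pow, if_pos rfl,
          hc, ← hu, ← mul_assoc, Units.mul_inv, one_mul]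
        ring

theorem cand_unique [Algebra ℚ R] {q m : ℕ} {h h' : R[X]} (hd : h.natDegree ≤ q)
    (hd' : h'.natDegree ≤ q) (h1 : h.coeff q = 1) (h1' : h'.coeff q = 1)
    (he : ∀ N, m * q ≤ N → (h ^ (m + 1)).coeff N = (h' ^ (m + 1)).coeff N) : h' = h := by
  by_contra hne
  have hr0 : h' - h ≠ 0 := sub_ne_zero.2 hne
  have hle : (h' - h).natDegree ≤ q := (Polynomial.natDegree_sub_le _ _).trans (max_le hd' hd)
  have hlt : (h' - h).natDegree < q := by
    refine lt_of_le_of_ne hle fun e => hr0 (Polynomial.leadingCoeff_eq_zero.1 ?_)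
    rw [Polynomial.leadingCoeff, e, Polynomial.coeff_sub, h1, h1', sub_self]
  set j := (h' - h).natDegree with hj
  have := he (m * q + j) (Nat.le_add_right _ _)
  rw [show h' = h + (h' - h) by ring, coeff_pow_add hlt hd h1 le_rfl] at this
  have h0 : (h' - h).coeff j = 0 :=
    (isUnit_natCast (R := R) m).mul_right_eq_zero.1 (left_eq_add.1 this)
  exact hr0 (Polynomial.leadingCoeff_eq_zero.1 h0)

/-- A root of a power is detected by the candidate, also after a change of rings. -/
theorem isPow_map_iff_cand {S : Type*} [CommRing S] [Algebra ℚ R] (κ : R →+* S) {q m : ℕ}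
    {p h : R[X]} (hd : h.natDegree ≤ q) (h1 : h.coeff q = 1)
    (hc : ∀ N, m * q ≤ N → (h ^ (m + 1)).coeff N = p.coeff N)
    (H : IsPow (m + 1) q (p.map κ)) : p.map κ = (h.map κ) ^ (m + 1) := by
  obtain ⟨g, hg, hgd, hgp⟩ := H
  let : Algebra ℚ S := (κ.comp (algebraMap ℚ R)).toAlgebra
  have e : g = h.map κ := by
    refine cand_unique (m := m) (Polynomial.natDegree_map_le.trans hd) hgd.le
      (by rw [Polynomial.coeff_map, h1, map_one]) (hgd ▸ hg.coeff_natDegree) fun N hN => ?_
    rw [← hgp, ← Polynomial.map_pow, Polynomial.coeff_map, hc N hN, Polynomial.coeff_map]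
  rw [hgp, e]

theorem cand_monic {q : ℕ} {h : R[X]} (hd : h.natDegree ≤ q) (h1 : h.coeff q = 1) :
    h.Monic :=
  Polynomial.monic_of_natDegree_le_of_coeff_eq_one q hd h1

theorem isPow_map {S : Type*} [CommRing S] [Nontrivial S] (κ : R →+* S) {μ q : ℕ} {p : R[X]}
    (H : IsPow μ q p) : IsPow μ q (p.map κ) := by
  obtain ⟨h, hm, hd, hp⟩ := H
  exact ⟨h.map κ, hm.map κ, by rw [hm.natDegree_map κ, hd], by rw [hp, Polynomial.map_pow]⟩

/-- Being a power descends along injective homomorphisms. -/
theorem isPow_of_map {S : Type*} [CommRing S] [Algebra ℚ R] (κ : R →+* S)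
    (hκ : Function.Injective κ) {μ q : ℕ} {p : R[X]} (hp : p.Monic) (hdeg : p.natDegree = μ * q)
    (hμ : 0 < μ) (H : IsPow μ q (p.map κ)) : IsPow μ q p := by
  obtain ⟨m, rfl⟩ : ∃ m, μ = m + 1 := ⟨μ - 1, by omega⟩
  obtain ⟨h, hd, h1, hc⟩ := exists_cand p hdeg.le (hdeg ▸ hp.coeff_natDegree)
  have heq := isPow_map_iff_cand κ hd h1 hc H
  rw [← Polynomial.map_pow] at heq
  refine ⟨h, cand_monic hd h1, ?_, Polynomial.map_injective κ hκ heq⟩
  rcases subsingleton_or_nontrivial R with hR | hR
  · obtain ⟨g, hg, hgd, -⟩ := H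
    have : Subsingleton S := (subsingleton_iff_zero_eq_one).1 (by
      rw [← map_zero κ, ← map_one κ, Subsingleton.elim (0 : R) 1])
    rw [Polynomial.natDegree_of_subsingleton] at hgd ⊢
    exact hgd
  · exact le_antisymm hd (Polynomial.le_natDegree_of_ne_zero (by rw [h1]; exact one_ne_zero))

end Power

section Diag

variable (R : Type*) [CommRing R]

/-- The first terms of a series of series, summed in one variable. -/
noncomputable def diagT (n : ℕ) (f : PowerSeries (PowerSeries R)) : PowerSeries R :=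
  (PowerSeries.trunc (n + 1) f).eval PowerSeries.X

variable {R}

theorem X_pow_dvd_eval (n : ℕ) {P : (PowerSeries R)[X]} (h : ∀ d < n, P.coeff d = 0) :
    (PowerSeries.X : PowerSeries R) ^ n ∣ P.eval PowerSeries.X := by
  obtain ⟨Q, rfl⟩ := Polynomial.X_pow_dvd_iff.2 h
  simp

theorem diagT_stable {n N : ℕ} (h : n ≤ N) (f : PowerSeries (PowerSeries R)) :
    (PowerSeries.X : PowerSeries R) ^ (n + 1) ∣ diagT R N f - diagT R n f := by
  rw [diagT, diagT, ← Polynomial.eval_sub]
  refine X_pow_dvd_eval _ fun d hd => ?_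
  rw [Polynomial.coeff_sub, PowerSeries.coeff_trunc, PowerSeries.coeff_trunc, if_pos hd,
    if_pos (by omega), sub_self]

/-- Diagonal of a series of series. -/
noncomputable def diag : PowerSeries (PowerSeries R) →+* PowerSeries R where
  toFun f := PowerSeries.mk fun n => PowerSeries.coeff n (diagT R n f)
  map_one' := by ext n; simp [diagT, PowerSeries.trunc_one]
  map_zero' := by ext n; simp [diagT]
  map_add' f g := by ext n; simp [diagT]
  map_mul' f g := by
    ext n
    have h1 : ∀ f : PowerSeries (PowerSeries R), ∀ k ≤ n,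
        PowerSeries.coeff k (diagT R k f) = PowerSeries.coeff k (diagT R n f) := by
      intro f k hk
      have := PowerSeries.X_pow_dvd_iff.1 (diagT_stable hk f) k (Nat.lt_succ_self k)
      rw [map_sub, sub_eq_zero] at this
      exact this.symm
    have h2 : (PowerSeries.X : PowerSeries R) ^ (n + 1) ∣
        diagT R n f * diagT R n g - diagT R n (f * g) := by
      rw [diagT, diagT, diagT, ← Polynomial.eval_mul, ← Polynomial.eval_sub]
      refine X_pow_dvd_eval _ fun d hd => ?_
      rw [Polynomial.coeff_sub, PowerSeries.coeff_trunc, if_pos hd, Polynomial.coeff_mul,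
        PowerSeries.coeff_mul, sub_eq_zero]
      refine sum_congr rfl fun x hx => ?_
      rw [HasAntidiagonal.mem_antidiagonal] at hx
      rw [PowerSeries.coeff_trunc, PowerSeries.coeff_trunc, if_pos (by omega), if_pos (by omega)]
    have h3 := PowerSeries.X_pow_dvd_iff.1 h2 n (Nat.lt_succ_self n)
    rw [map_sub, sub_eq_zero] at h3
    rw [PowerSeries.coeff_mk, ← h3, PowerSeries.coeff_mul, PowerSeries.coeff_mul]
    refine sum_congr rfl fun x hx => ?_
    rw [HasAntidiagonal.mem_antidiagonal] at hx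
    rw [PowerSeries.coeff_mk, PowerSeries.coeff_mk, h1 f x.1 (by omega), h1 g x.2 (by omega)]

theorem diag_C (a : PowerSeries R) : diag (PowerSeries.C a) = a := by
  ext n
  simp [diag, diagT, PowerSeries.trunc_C]

theorem diag_X : diag (PowerSeries.X : PowerSeries (PowerSeries R)) = PowerSeries.X := by
  refine eq_of_X_pow_dvd fun n => PowerSeries.X_pow_dvd_iff.2 fun k hk => ?_
  have h : (PowerSeries.X : PowerSeries R) ^ (k + 1) ∣
      diagT R k PowerSeries.X - Polynomial.eval PowerSeries.X Polynomial.X := by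
    rw [diagT, ← Polynomial.eval_sub]
    refine X_pow_dvd_eval _ fun d hd => ?_
    rw [Polynomial.coeff_sub, PowerSeries.coeff_trunc, if_pos hd, PowerSeries.coeff_X,
      Polynomial.coeff_X]
    simp [eq_comm]
  have h2 := PowerSeries.X_pow_dvd_iff.1 h k (Nat.lt_succ_self k)
  rw [Polynomial.eval_X] at h2
  rw [map_sub] at h2 ⊢
  simpa [diag] using h2

end Diag

section Generic

variable (F : Type*) [Field F] (ι : Type*) (q : ℕ)

/-- Polynomials in the entries of a tuple of matrices. -/
abbrev GenRing := MvPolynomial (ι × Fin q × Fin q) F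

/-- The generic tuple of matrices. -/
noncomputable def genC (i : ι) : Matrix (Fin q) (Fin q) (GenRing F ι q) :=
  Matrix.of fun x y => MvPolynomial.X (i, x, y)

variable {F ι q}

/-- Specialisation of the generic point to a point. -/
noncomputable def atC {F₀ : Type*} [Field F₀] (f : F →+* F₀)
    (c : ι → Matrix (Fin q) (Fin q) F₀) : PowerSeries (GenRing F ι q) →+* PowerSeries F₀ :=
  PowerSeries.map (MvPolynomial.eval₂Hom f fun x => c x.1 x.2.1 x.2.2)

theorem atC_X {F₀ : Type*} [Field F₀] (f : F →+* F₀) (c : ι → Matrix (Fin q) (Fin q) F₀) :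
    atC f c PowerSeries.X = PowerSeries.X := PowerSeries.map_X _

theorem atC_C {F₀ : Type*} [Field F₀] (f : F →+* F₀) (c : ι → Matrix (Fin q) (Fin q) F₀)
    (x : F) : atC f c (PowerSeries.C (MvPolynomial.C x)) = PowerSeries.C (f x) := by
  simp [atC]

theorem atC_gen {F₀ : Type*} [Field F₀] (f : F →+* F₀) (c : ι → Matrix (Fin q) (Fin q) F₀) :
    (fun i => (tauPoint (genC F ι q) i).map (atC f c)) = tauPoint c := by
  funext i
  ext1 x y
  simp [tauPoint, atC, genC]

theorem atC_const {F₀ : Type*} [Field F₀] (f : F →+* F₀) (c : ι → Matrix (Fin q) (Fin q) F₀)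
    (v : ι → Matrix (Fin q) (Fin q) F) :
    (fun i => (tauPoint (fun i => (v i).map MvPolynomial.C) i).map (atC f c)) =
      tauPoint fun i => (v i).map f := by
  funext i
  ext1 x y
  simp [tauPoint, atC]

/-- Specialisation of the generic point to a small point. -/
noncomputable def atH (H : ι → Matrix (Fin q) (Fin q) (PowerSeries F)) :
    PowerSeries (GenRing F ι q) →+* PowerSeries F :=
  diag.comp (PowerSeries.map (MvPolynomial.eval₂Hom PowerSeries.C fun x =>
    PowerSeries.mk fun k => PowerSeries.coeff (k + 1) (H x.1 x.2.1 x.2.2)))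

variable (H : ι → Matrix (Fin q) (Fin q) (PowerSeries F))

theorem atH_X : atH H PowerSeries.X = PowerSeries.X := by simp [atH, diag_X]

theorem atH_C (x : F) : atH H (PowerSeries.C (MvPolynomial.C x)) = PowerSeries.C x := by
  simp [atH, diag_C]

theorem atH_gen (hH : SmallAt H) : (fun i => (tauPoint (genC F ι q) i).map (atH H)) = H := by
  funext i
  ext1 x y
  simp only [Matrix.map_apply, tauPoint, map_mul, atH_X]
  conv_rhs => rw [PowerSeries.eq_X_mul_shift_add_const (H i x y), hH i x y, map_zero, add_zero]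
  simp [atH, genC, diag_C]

theorem atH_const (v : ι → Matrix (Fin q) (Fin q) F) :
    (fun i => (tauPoint (fun i => (v i).map MvPolynomial.C) i).map (atH H)) = tauPoint v := by
  funext i
  ext1 x y
  simp [tauPoint, atH_X, atH_C]

/-- Some coefficient of a nonzero series witnesses that it stays nonzero. -/
theorem exists_witness {z : PowerSeries (GenRing F ι q)} (hz : z ≠ 0) :
    ∃ P : GenRing F ι q, P ≠ 0 ∧ ∀ (F₀ : Type) [Field F₀] (f : F →+* F₀)
      (c : ι → Matrix (Fin q) (Fin q) F₀),
      MvPolynomial.eval₂ f (fun x => c x.1 x.2.1 x.2.2) P ≠ 0 → atC f c z ≠ 0 := by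
  obtain ⟨k, hk⟩ : ∃ k, PowerSeries.coeff k z ≠ 0 := by
    by_contra h
    push Not at h
    exact hz (PowerSeries.ext fun k => by rw [h k, map_zero])
  refine ⟨_, hk, fun F₀ _ f c hP h0 => hP ?_⟩
  have := congrArg (PowerSeries.coeff k) h0
  rwa [atC, PowerSeries.coeff_map, map_zero] at this

theorem smallAt_tauPoint {A : Type*} [CommRing A] {p : Type*} (v : ι → Matrix p p A) :
    SmallAt (tauPoint v) := fun i x y => by simp [tauPoint]

end Generic

section Main

variable {F : Type*} [Field F] {ι β : Type*} [Fintype ι] [DecidableEq ι] [Fintype β]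
  [DecidableEq β]

/-- A series with coefficients seen over the generic ring. -/
noncomputable def genX (q : ℕ) (X : Ser (Matrix β β F) ι) :
    Ser (Matrix β β (GenRing F ι q)) ι :=
  Ser.map (MvPolynomial.C : F →+* GenRing F ι q).mapMatrix X

theorem ev_atC {q : ℕ} {F₀ : Type*} [Field F₀] (f : F →+* F₀)
    (c : ι → Matrix (Fin q) (Fin q) F₀) (X : Ser (Matrix β β F) ι) :
    (ev (tauPoint (genC F ι q)) (genX q X)).map (atC f c) =
      ev (tauPoint c) (Ser.map f.mapMatrix X) := by
  rw [genX, ev_natural (atC f c) (atC_X f c) _ f (atC_C f c) (smallAt_tauPoint _), atC_gen]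

theorem ser_map_id (X : Ser (Matrix β β F) ι) : Ser.map (RingHom.id F).mapMatrix X = X := by
  ext w i j
  simp

theorem ev_atH {q : ℕ} {H : ι → Matrix (Fin q) (Fin q) (PowerSeries F)} (hH : SmallAt H)
    (X : Ser (Matrix β β F) ι) :
    (ev (tauPoint (genC F ι q)) (genX q X)).map (atH H) = ev H X := by
  rw [genX, ev_natural (atH H) (atH_X H) _ (RingHom.id F) (atH_C H) (smallAt_tauPoint _),
    atH_gen H hH, ser_map_id]

theorem dev_atC {q : ℕ} {F₀ : Type*} [Field F₀] (f : F →+* F₀)
    (c : ι → Matrix (Fin q) (Fin q) F₀) (v : ι → Matrix (Fin q) (Fin q) F)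
    (X : Ser (Matrix β β F) ι) :
    (dev (tauPoint (genC F ι q)) (tauPoint fun i => (v i).map MvPolynomial.C) (genX q X)).map
        (atC f c) =
      dev (tauPoint c) (tauPoint fun i => (v i).map f) (Ser.map f.mapMatrix X) := by
  rw [genX, dev_natural (atC f c) (atC_X f c) _ f (atC_C f c) (smallAt_tauPoint _)
    (smallAt_tauPoint _), atC_gen, atC_const]

theorem dev_atH {q : ℕ} {H : ι → Matrix (Fin q) (Fin q) (PowerSeries F)} (hH : SmallAt H)
    (v : ι → Matrix (Fin q) (Fin q) F) (X : Ser (Matrix β β F) ι) :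
    (dev (tauPoint (genC F ι q)) (tauPoint fun i => (v i).map MvPolynomial.C) (genX q X)).map
        (atH H) =
      dev H (tauPoint v) X := by
  rw [genX, dev_natural (atH H) (atH_X H) _ (RingHom.id F) (atH_C H) (smallAt_tauPoint _)
    (smallAt_tauPoint _), atH_gen H hH, atH_const, ser_map_id]

variable [CharZero F]

omit [CharZero F] in
theorem map_trace_pow {A B n : Type*} [CommRing A] [CommRing B] [Fintype n] [DecidableEq n]
    (ψ : A →+* B) (M : Matrix n n A) (k : ℕ) :
    ψ (Matrix.trace (M ^ k)) = Matrix.trace ((M.map ψ) ^ k) := by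
  rw [← RingHom.mapMatrix_apply ψ M, ← map_pow]
  exact AddMonoidHom.map_trace ψ.toAddMonoidHom _

omit [CharZero F] in
theorem map_trace_pow_mul {A B n : Type*} [CommRing A] [CommRing B] [Fintype n] [DecidableEq n]
    (ψ : A →+* B) (M N : Matrix n n A) (k : ℕ) :
    ψ (Matrix.trace (M ^ k * N)) = Matrix.trace ((M.map ψ) ^ k * N.map ψ) := by
  rw [← RingHom.mapMatrix_apply ψ M, ← RingHom.mapMatrix_apply ψ N, ← map_pow, ← map_mul]
  exact AddMonoidHom.map_trace ψ.toAddMonoidHom _

omit [CharZero F] in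
/-- Expansion of a determinant along rows given by finite sums. -/
theorem exists_rows {R : Type*} [CommRing R] {n W : Type*} [Fintype n] [DecidableEq n]
    [Fintype W] (A : n → W → R) (N : W → n → R)
    (h : (Matrix.of fun a b => ∑ u, A a u * N u b).det ≠ 0) :
    ∃ r : n → W, (Matrix.of fun a b => N (r a) b).det ≠ 0 := by
  classical
  by_contra hcon
  push Not at hcon
  refine h ?_
  have e : (Matrix.of fun a b => ∑ u, A a u * N u b) = fun a => ∑ u, A a u • N u := by
    funext a b
    simp [Matrix.of_apply, Finset.sum_apply]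
  rw [e]
  show (Matrix.detRowAlternating (R := R) (n := n)).toMultilinearMap
    (fun a => ∑ u, A a u • N u) = 0
  rw [MultilinearMap.map_sum]
  refine sum_eq_zero fun r _ => ?_
  rw [MultilinearMap.map_smul_univ]
  exact smul_eq_zero_of_right _ (hcon r)

/-- (2) If some small point has a characteristic polynomial which is not a power, so do the
points `τ • c` off a hypersurface. -/
theorem exists_poly_pw [Nonempty β] (X : Ser (Matrix β β F) ι) (q : ℕ)
    (h : ¬ ∀ H : ι → Matrix (Fin q) (Fin q) (PowerSeries F), SmallAt H →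
      IsPow (Fintype.card β) q (ev H X).charpoly) :
    ∃ P : GenRing F ι q, P ≠ 0 ∧
      ∀ (F₀ : Type) [Field F₀] [CharZero F₀] (f : F →+* F₀)
        (c : ι → Matrix (Fin q) (Fin q) F₀),
        MvPolynomial.eval₂ f (fun x => c x.1 x.2.1 x.2.2) P ≠ 0 →
          ¬ IsPow (Fintype.card β) q
            (ev (tauPoint c) (Ser.map (f.mapMatrix (m := β)) X)).charpoly := by
  obtain ⟨m, hm⟩ : ∃ m, Fintype.card β = m + 1 :=
    ⟨Fintype.card β - 1, by have := Fintype.card_pos (α := β); omega⟩
  rw [hm] at h ⊢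
  set p := (ev (tauPoint (genC F ι q)) (genX q X)).charpoly with hp
  have hpd : p.natDegree = (m + 1) * q := by
    rw [hp, Matrix.charpoly_natDegree_eq_dim, Fintype.card_prod, hm, Fintype.card_fin]
  have hpm : p.coeff ((m + 1) * q) = 1 := by
    rw [← hpd]; exact (Matrix.charpoly_monic _).coeff_natDegree
  obtain ⟨g, hgd, hg1, hgc⟩ := exists_cand p hpd.le hpm
  have hne : p - g ^ (m + 1) ≠ 0 := by
    intro he
    refine h fun H hH => ?_
    have hI : IsPow (m + 1) q p := ⟨g, cand_monic hgd hg1, le_antisymm hgd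
      (Polynomial.le_natDegree_of_ne_zero (by rw [hg1]; exact one_ne_zero)), sub_eq_zero.1 he⟩
    have := isPow_map (atH H) hI
    rwa [hp, ← Matrix.charpoly_map, ev_atH hH] at this
  obtain ⟨d, hd⟩ : ∃ d, (p - g ^ (m + 1)).coeff d ≠ 0 := by
    by_contra hcon
    push Not at hcon
    exact hne (Polynomial.ext fun d => by rw [hcon d, Polynomial.coeff_zero])
  obtain ⟨P, hP, hPc⟩ := exists_witness hd
  refine ⟨P, hP, fun F₀ _ _ f c hc hI => hPc F₀ f c hc ?_⟩
  have hI' : IsPow (m + 1) q (p.map (atC f c)) := by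
    rwa [hp, ← Matrix.charpoly_map, ev_atC]
  have := isPow_map_iff_cand (atC f c) hgd hg1 hgc hI'
  rw [← Polynomial.map_pow] at this
  rw [← Polynomial.coeff_map, Polynomial.map_sub, this, sub_self, Polynomial.coeff_zero]

omit [CharZero F] in
/-- (4) A nonzero trace of a power stays nonzero. -/
theorem exists_poly_trace (X : Ser (Matrix β β F) ι) (q k : ℕ)
    (h : ∃ H : ι → Matrix (Fin q) (Fin q) (PowerSeries F),
      SmallAt H ∧ Matrix.trace ((ev H X) ^ k) ≠ 0) :
    ∃ P : GenRing F ι q, P ≠ 0 ∧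
      ∀ (F₀ : Type) [Field F₀] [CharZero F₀] (f : F →+* F₀)
        (c : ι → Matrix (Fin q) (Fin q) F₀),
        MvPolynomial.eval₂ f (fun x => c x.1 x.2.1 x.2.2) P ≠ 0 →
          Matrix.trace ((ev (tauPoint c) (Ser.map (f.mapMatrix (m := β)) X)) ^ k) ≠ 0 := by
  obtain ⟨H, hH, hne⟩ := h
  set M := ev (tauPoint (genC F ι q)) (genX q X) with hM
  have hz : Matrix.trace (M ^ k) ≠ 0 := fun e => hne (by
    rw [← ev_atH hH, ← hM, ← map_trace_pow, e, map_zero])
  obtain ⟨P, hP, hPc⟩ := exists_witness hz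
  refine ⟨P, hP, fun F₀ _ _ f c hc => ?_⟩
  have := hPc F₀ f c hc
  rwa [map_trace_pow, hM, ev_atC] at this

/-- The determinant of a product through finite index types is nonzero only if some square
selection of the middle factor has nonzero determinant. -/
theorem exists_selection {R : Type*} [CommRing R] {n U V : Type*} [Fintype n] [DecidableEq n]
    [Fintype U] [Fintype V] (A : n → U → R) (M : U → V → R) (B : n → V → R)
    (h : (Matrix.of fun a b => ∑ u, A a u * ∑ v, B b v * M u v).det ≠ 0) :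
    ∃ (r : n → U) (s : n → V), (Matrix.of fun a b => M (r a) (s b)).det ≠ 0 := by
  obtain ⟨r, hr⟩ := exists_rows A _ h
  rw [← Matrix.det_transpose] at hr
  obtain ⟨s, hs⟩ := exists_rows B (fun v a => M (r a) v) hr
  rw [← Matrix.det_transpose] at hs
  exact ⟨r, s, hs⟩

omit [CharZero F] in
/-- (3) A failure of the rank bound stays, with fixed polynomials and directions. -/
theorem exists_poly_rankLe {σ : Type*} [Fintype σ] [DecidableEq σ]
    (Xs : σ → Ser (Matrix β β F) ι) (q R : ℕ) (h : ¬ RankLe Xs q R) :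
    ∃ P : GenRing F ι q, P ≠ 0 ∧
      ∀ (F₀ : Type) [Field F₀] [CharZero F₀] (f : F →+* F₀)
        (c : ι → Matrix (Fin q) (Fin q) F₀),
        MvPolynomial.eval₂ f (fun x => c x.1 x.2.1 x.2.2) P ≠ 0 →
          ∃ (g : Fin (R + 1) → σ → Polynomial (PowerSeries F₀))
            (V : Fin (R + 1) → ι → Matrix (Fin q) (Fin q) F₀),
            Matrix.det (Matrix.of fun a b =>
              ∑ s, row (Ser.map f.mapMatrix (Xs s)) (g a s) (tauPoint c) (tauPoint (V b))) ≠ 0 := by
  unfold RankLe at h
  push Not at h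
  obtain ⟨H, hH, g₀, V₀, hV₀, hne⟩ := h
  set E := (univ.sup fun as : Fin (R + 1) × σ => (g₀ as.1 as.2).natDegree) + 1 with hE
  let unit : ι × Fin q × Fin q → ι → Matrix (Fin q) (Fin q) F := fun v i =>
    Matrix.of fun x y => if v = (i, x, y) then 1 else 0
  let M : σ × Fin E → ι × Fin q × Fin q → PowerSeries F := fun u v =>
    Matrix.trace ((ev H (Xs u.1)) ^ (u.2 : ℕ) * dev H (tauPoint (unit v)) (Xs u.1))
  let Bv : Fin (R + 1) → ι × Fin q × Fin q → PowerSeries F := fun b v =>
    PowerSeries.mk fun k => PowerSeries.coeff (k + 1) (V₀ b v.1 v.2.1 v.2.2)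
  let Au : Fin (R + 1) → σ × Fin E → PowerSeries F := fun a u => (g₀ a u.1).coeff u.2
  have hV : ∀ b, V₀ b = fun i => ∑ v, Bv b v • tauPoint (unit v) i := by
    intro b
    funext i
    ext1 x y
    rw [Matrix.sum_apply, Finset.sum_eq_single (i, x, y)]
    · rw [Matrix.smul_apply, smul_eq_mul]
      conv_lhs => rw [PowerSeries.eq_X_mul_shift_add_const (V₀ b i x y), hV₀ b i x y, map_zero,
        add_zero]
      simp [Bv, unit, tauPoint, mul_comm]
    · intro v _ hv
      simp [unit, tauPoint, hv]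
    · simp
  have hrow : ∀ a b, ∑ s, row (Xs s) (g₀ a s) H (V₀ b) = ∑ u, Au a u * ∑ v, Bv b v * M u v := by
    intro a b
    rw [Fintype.sum_prod_type]
    refine sum_congr rfl fun s _ => ?_
    have hlin : dev H (V₀ b) (Xs s) = ∑ v, Bv b v • dev H (tauPoint (unit v)) (Xs s) := by
      rw [hV b]
      exact dev_sum_smul univ (Bv b) hH (fun v => smallAt_tauPoint _) (Xs s)
    rw [row, Polynomial.aeval_eq_sum_range' (n := E) (Nat.lt_succ_of_le (Finset.le_sup
      (f := fun as : Fin (R + 1) × σ => (g₀ as.1 as.2).natDegree) (mem_univ (a, s)))),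
      sum_mul, Matrix.trace_sum, ← Fin.sum_univ_eq_sum_range (fun e => Matrix.trace
        ((g₀ a s).coeff e • ev H (Xs s) ^ e * dev H (V₀ b) (Xs s)))]
    refine sum_congr rfl fun e _ => ?_
    rw [hlin, smul_mul_assoc, Matrix.trace_smul, mul_sum, Matrix.trace_sum, smul_eq_mul]
    simp [M, Au]
  simp only [hrow] at hne
  obtain ⟨r, t, hrt⟩ := exists_selection Au M Bv hne
  let G : σ × Fin E → ι × Fin q × Fin q → PowerSeries (GenRing F ι q) := fun u v =>
    Matrix.trace ((ev (tauPoint (genC F ι q)) (genX q (Xs u.1))) ^ (u.2 : ℕ) *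
      dev (tauPoint (genC F ι q)) (tauPoint fun i => (unit v i).map MvPolynomial.C)
        (genX q (Xs u.1)))
  have hz : (Matrix.of fun a b => G (r a) (t b)).det ≠ 0 := by
    intro he
    have := RingHom.map_det (atH H) (Matrix.of fun a b => G (r a) (t b))
    rw [he, map_zero] at this
    refine hrt ((this.trans ?_).symm)
    congr 1
    ext1 a b
    simp only [G, RingHom.mapMatrix_apply, Matrix.map_apply, Matrix.of_apply]
    rw [map_trace_pow_mul, ev_atH hH, dev_atH hH]
  obtain ⟨P, hP, hPc⟩ := exists_witness hz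
  refine ⟨P, hP, fun F₀ _ _ f c hc => ?_⟩
  refine ⟨fun a s => if s = (r a).1 then Polynomial.X ^ ((r a).2 : ℕ) else 0,
    fun b i => (unit (t b) i).map f, ?_⟩
  have := hPc F₀ f c hc
  rw [RingHom.map_det] at this
  refine fun he => this (Eq.trans ?_ he)
  congr 1
  ext1 a b
  simp only [G, RingHom.mapMatrix_apply, Matrix.map_apply, Matrix.of_apply]
  rw [map_trace_pow_mul, ev_atC, dev_atC]
  symm
  rw [Finset.sum_eq_single (r a).1]
  · simp [row]
  · intro s _ hs
    simp [row, hs]
  · simp

end Main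

end Vale.Agent.P199.Univ
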