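import Vale.Agent.P199.SelfClass
import Vale.Agent.P199.OpenPoly
import Vale.Agent.P199.SelectDefs
import Vale.Agent.P199.Facts
import Vale.Agent.P199.InflCount
import Vale.Agent.P199.InflForms
import Vale.Agent.P199.Null
import Vale.Agent.P199.Universality

/-!
# P199: the choice of the frame

In a class of frames closed under inflation, a frame minimising the multiplicity, then the class
size, then the defect among frames with independent squares, has all the properties needed to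
solve `c ∘ h = 0`.
-/

namespace Vale.Agent.P199

open Finset Series

variable {P : Frame → Prop}

theorem InflData.evalPoint_mul {S S' : Frame} {q : ℕ} (d : InflData S S' q)
    {Q Q' : MvPolynomial (S.ι × Fin q × Fin q) S.F} (h : d.evalPoint (Q * Q') ≠ 0) :
    d.evalPoint Q ≠ 0 ∧ d.evalPoint Q' ≠ 0 := by
  rw [InflData.evalPoint, MvPolynomial.eval₂_mul] at h
  exact ⟨left_ne_zero_of_mul h, right_ne_zero_of_mul h⟩

theorem isPow_zero {S : Frame} {R : Type} [CommRing R] [Nontrivial R]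
    (M : Matrix (S.β × Fin 0) (S.β × Fin 0) R) : IsPow S.mu 0 M.charpoly :=
  ⟨1, Polynomial.monic_one, Polynomial.natDegree_one, by
    rw [one_pow, Matrix.charpoly, Matrix.det_isEmpty]⟩

/-- A frame which is not identically zero has a descendant with a nonzero form. -/
theorem exists_pos (hP : Inflatable P) {S : Frame} (hS : P S) (hne : ∃ r, S.X r ≠ 0) :
    ∃ T, P T ∧ T.Pos := by
  classical
  by_contra hno
  push Not at hno
  obtain ⟨r, hr⟩ := hne
  obtain ⟨B, hB⟩ := S.exists_blockAlg r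
  refine hr (eq_zero_of_traces B hB (S.X_nil r) fun q H hH k hk => ?_)
  by_contra h
  rcases Nat.eq_zero_or_pos q with rfl | hq
  · exact h (by simp [Matrix.trace])
  obtain ⟨Q, hQ, hQ'⟩ := Univ.exists_poly_trace (S.X r) q k ⟨H, hH, h⟩
  obtain ⟨S', d, hS', hev, -⟩ := hP S hS q hq Q hQ
  refine hQ' d.F₀ d.f d.c hev (d.zero (fun r' => ?_) r k hk)
  by_contra h'
  exact hno S' hS' ⟨r', h'⟩

theorem exists_minMu (hpos : ∃ T, P T ∧ T.Pos) : ∃ S, MinMu P S := by
  classical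
  have hex : ∃ n, ∃ T, P T ∧ T.Pos ∧ T.mu = n := by
    obtain ⟨T, h1, h2⟩ := hpos
    exact ⟨_, T, h1, h2, rfl⟩
  obtain ⟨S, h1, h2, h3⟩ := Nat.find_spec hex
  exact ⟨S, h1, h2, fun T hT hT' => h3 ▸ Nat.find_le ⟨T, hT, hT', rfl⟩⟩

theorem MinMu.of_mu_eq {S T : Frame} (h : MinMu P S) (hT : P T) (hT' : T.Pos)
    (hmu : T.mu = S.mu) : MinMu P T :=
  ⟨hT, hT', fun U hU hU' => hmu ▸ h.mu_le U hU hU'⟩

theorem exists_minCl (hpos : ∃ T, P T ∧ T.Pos) : ∃ S, MinCl P S := by
  classical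
  obtain ⟨S₀, h₀⟩ := exists_minMu hpos
  have hex : ∃ n, ∃ T, P T ∧ T.Pos ∧ T.mu = S₀.mu ∧ T.clSize = n :=
    ⟨_, S₀, h₀.mem, h₀.pos, rfl, rfl⟩
  obtain ⟨S, h1, h2, h3, h4⟩ := Nat.find_spec hex
  exact ⟨S, h₀.of_mu_eq h1 h2 h3, fun T hT hT' hmu =>
    h4 ▸ Nat.find_le ⟨T, hT, hT', hmu.trans h3, rfl⟩⟩

namespace MinMu

variable (hP : Inflatable P) {S : Frame} (hS : MinMu P S)
include hP hS

theorem h0 (r : S.ρ) : S.l r ≠ 0 := (Frame.l_ne_zero _ hS.pos) r

/-- The characteristic polynomials of the blocks are powers. -/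
theorem pw (r : S.ρ) : PW (S.X r) := by
  intro q
  rcases Nat.eq_zero_or_pos q with rfl | hq
  · exact fun H _ => isPow_zero _
  by_contra hfail
  obtain ⟨Q, hQ, hQ'⟩ := Univ.exists_poly_pw (S.X r) q hfail
  obtain ⟨Q₂, hQ₂, hQ₂'⟩ := S.count q (fun r => (Frame.l_ne_zero _ hS.pos) r)
  obtain ⟨S', d, hS', hev, -⟩ := hP S hS.mem q hq (Q * Q₂) (mul_ne_zero hQ hQ₂)
  obtain ⟨he1, he2⟩ := d.evalPoint_mul hev
  obtain ⟨hle, hpow⟩ := hQ₂' S' d hq he2
  have hmu : S'.mu = S.mu :=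
    le_antisymm hle (hS.mu_le S' hS' (d.pos hq fun r => (Frame.l_ne_zero _ hS.pos) r))
  refine hQ' d.F₀ d.f d.c he1 ?_
  refine Univ.isPow_of_map d.κ d.κ_injective (Matrix.charpoly_monic _) ?_ Fintype.card_pos (hpow hmu r)
  rw [Matrix.charpoly_natDegree_eq_dim, Fintype.card_prod, Fintype.card_fin]

theorem lin (r : S.ρ) (i : S.ι) : (S.X r).coeff [i] = S.l r i • 1 := by
  obtain ⟨B, hB⟩ := S.exists_blockAlg r
  exact (selfDom_of_pw B hB (S.X_nil r) (hS.pw hP r) (hS.h0 hP r)).1 i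

theorem selfDom' (r : S.ρ) : SelfDom (S.X r) := by
  obtain ⟨B, hB⟩ := S.exists_blockAlg r
  exact (selfDom_of_pw B hB (S.X_nil r) (hS.pw hP r) (hS.h0 hP r)).2

/-- Inflation at a good point. -/
theorem exists_infl {q : ℕ} (hq : 0 < q) {Q : MvPolynomial (S.ι × Fin q × Fin q) S.F}
    (hQ : Q ≠ 0) :
    ∃ (S' : Frame) (d : InflData S S' q) (φ : S.ρ × Fin q ≃ S'.ρ)
      (lam : S.ρ → Fin q → d.F₀) (x : S.ρ × Fin q → PowerSeries d.F₀)
      (L : S.ρ × Fin q → S'.ι → PowerSeries d.F₀),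
      P S' ∧ S'.Pos ∧ S'.mu = S.mu ∧ d.evalPoint Q ≠ 0 ∧ d.Quad ∧ d.Forms φ lam x L := by
  obtain ⟨Q₁, hQ₁, hQ₁'⟩ := S.count q (fun r => (Frame.l_ne_zero _ hS.pos) r)
  obtain ⟨Q₂, hQ₂, hQ₂'⟩ := InflForms.exists_forms S q (hS.lin hP) (hS.h0 hP)
  obtain ⟨S', d, hS', hev, hquad⟩ :=
    hP S hS.mem q hq (Q * (Q₁ * Q₂)) (mul_ne_zero hQ (mul_ne_zero hQ₁ hQ₂))
  obtain ⟨he, he'⟩ := d.evalPoint_mul hev
  obtain ⟨he1, he2⟩ := d.evalPoint_mul he'
  obtain ⟨hle, hpow⟩ := hQ₁' S' d hq he1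
  have hpos : S'.Pos := d.pos hq fun r => (Frame.l_ne_zero _ hS.pos) r
  have hmu : S'.mu = S.mu := le_antisymm hle (hS.mu_le S' hS' hpos)
  obtain ⟨φ, lam, x, L, hL⟩ := hQ₂' S' d he2 hmu (hpow hmu)
  exact ⟨S', d, φ, lam, x, L, hS', hpos, hmu, he, hquad, hL⟩

end MinMu

namespace InflData

variable {S S' : Frame} {q : ℕ} {d : InflData S S' q} {φ : S.ρ × Fin q ≃ S'.ρ}
  {lam : S.ρ → Fin q → d.F₀} {x : S.ρ × Fin q → PowerSeries d.F₀}
  {L : S.ρ × Fin q → S'.ι → PowerSeries d.F₀}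

variable (d lam) in
/-- The projector at the leading order. -/
noncomputable def P0 (p : S.ρ × Fin q) : Matrix (Fin q) (Fin q) d.F₀ :=
  SelectLin.proj (Kernels.M (fun r i => d.f (S.l r i)) p.1 d.c) (lam p.1) p.2

variable (d lam) in
/-- The leading vector. -/
noncomputable def v0 (p : S.ρ × Fin q) : S'.ι → d.F₀ :=
  SelectLin.leadVec d.e (fun i => d.f (S.l p.1 i)) (d.P0 lam p)

variable (h : d.Forms φ lam x L) (h0 : ∀ r, S.l r ≠ 0)
include h

theorem constantCoeff_L (p : S.ρ × Fin q) (i : S'.ι) :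
    PowerSeries.constantCoeff (L p i) = d.v0 lam p i := h.2.2.2.2.1 p i

theorem P0_mul (r : S.ρ) (j k : Fin q) :
    d.P0 lam (r, j) * d.P0 lam (r, k) = if j = k then d.P0 lam (r, j) else 0 :=
  SelectLin.proj_mul (h.1 r).2 (h.1 r).1 j k

theorem P0_ne_zero (p : S.ρ × Fin q) : d.P0 lam p ≠ 0 :=
  SelectLin.proj_ne_zero (h.1 p.1).2 (h.1 p.1).1 p.2

theorem P0_sq (p : S.ρ × Fin q) : d.P0 lam p * d.P0 lam p = d.P0 lam p := by
  have := P0_mul h p.1 p.2 p.2
  simpa using this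

include h0

theorem v0_ne_zero (p : S.ρ × Fin q) : d.v0 lam p ≠ 0 := by
  intro hv
  obtain ⟨j, hj⟩ := Function.ne_iff.mp (h0 p.1)
  have := SelectLin.sum_pairing_eq_zero d.e_span (σ := Unit) (fun _ i => d.f (S.l p.1 i))
    (fun _ => d.P0 lam p) (fun _ => 1) (fun i => by
      have := congrFun hv i
      simpa [InflData.v0] using this) j
  simp only [Finset.univ_unique, Finset.sum_singleton, one_mul, smul_eq_zero] at this
  exact this.elim (fun h' => hj ((map_eq_zero d.f).mp h')) (P0_ne_zero h p)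

theorem l'_ne_zero (p : S.ρ × Fin q) : S'.l (φ p) ≠ 0 := by
  obtain ⟨i, hi⟩ := Function.ne_iff.mp (v0_ne_zero h h0 p)
  refine Function.ne_iff.mpr ⟨i, ?_⟩
  rw [h.2.2.2.1 p i]
  intro h'
  have := (map_eq_zero_iff d.κ d.κ_injective).mp h'
  exact hi (by rw [← constantCoeff_L h, this, map_zero]; rfl)

/-- Proportional new forms come from proportional old forms and the same projector. -/
theorem of_rel {p p' : S.ρ × Fin q} (hrel : S'.Rel (φ p) (φ p')) :
    S.Rel p.1 p'.1 ∧ d.P0 lam p = d.P0 lam p' := by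
  obtain ⟨j, hj⟩ := Function.ne_iff.mp (v0_ne_zero h h0 p')
  have hvv : ∀ i, d.v0 lam p' j * d.v0 lam p i = d.v0 lam p j * d.v0 lam p' i := by
    intro i
    have h1 := hrel i j
    rw [h.2.2.2.1, h.2.2.2.1, h.2.2.2.1, h.2.2.2.1, ← map_mul, ← map_mul] at h1
    have h2 := congrArg PowerSeries.constantCoeff (d.κ_injective h1)
    rw [map_mul, map_mul, constantCoeff_L h, constantCoeff_L h, constantCoeff_L h,
      constantCoeff_L h] at h2
    linear_combination h2
  have hl : (fun i => d.f (S.l p.1 i)) ≠ 0 := by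
    obtain ⟨i, hi⟩ := Function.ne_iff.mp (h0 p.1)
    exact Function.ne_iff.mpr ⟨i, fun h' => hi ((map_eq_zero d.f).mp h')⟩
  obtain ⟨h1, h2⟩ := SelectLin.rel_of_leadVec d.e_span (l := fun i => d.f (S.l p.1 i))
    (l' := fun i => d.f (S.l p'.1 i)) hl (P0_ne_zero h p) (P0_sq h p) (P0_sq h p') hj hvv
  refine ⟨fun i i' => d.f.injective ?_, h2⟩
  rw [map_mul, map_mul]
  exact h1 i i'

/-- Two new eigenvalues over the same old one are never proportional. -/
theorem snd_eq_of_rel {r : S.ρ} {k k' : Fin q} (hrel : S'.Rel (φ (r, k)) (φ (r, k'))) :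
    k = k' := by
  obtain ⟨-, hP⟩ := of_rel h h0 hrel
  by_contra hne
  have h1 := P0_mul h r k k'
  rw [if_neg hne, ← hP, P0_sq h] at h1
  exact P0_ne_zero h (r, k) h1

/-- The first coordinate maps a new class into an old one injectively. -/
theorem class_inj (p₀ : S.ρ × Fin q) :
    Function.Injective fun s : {s // S'.Rel (φ p₀) s} =>
      (⟨(φ.symm s.1).1, (of_rel h h0 (p' := φ.symm s.1) (by simpa using s.2)).1⟩ :
        {s // S.Rel p₀.1 s}) := by
  rintro ⟨s, hs⟩ ⟨t, ht⟩ hst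
  obtain ⟨⟨a, k⟩, rfl⟩ := φ.surjective s
  obtain ⟨⟨b, k'⟩, rfl⟩ := φ.surjective t
  simp only [Equiv.symm_apply_apply, Subtype.mk.injEq] at hst
  subst hst
  have := snd_eq_of_rel h h0
    (Frame.rel_trans (l'_ne_zero h h0 p₀) (Frame.rel_symm hs) ht)
  subst this
  rfl

theorem clSize_le (hcard : ∀ r r', Nat.card {s // S.Rel r s} = Nat.card {s // S.Rel r' s}) :
    S'.clSize ≤ S.clSize := by
  obtain ⟨p₀, hp⟩ := φ.surjective (Classical.arbitrary S'.ρ)
  rw [Frame.clSize, ← hp, Frame.clSize, hcard _ p₀.1]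
  exact Nat.card_le_card_of_injective _ (class_inj h h0 p₀)

/-- Equal class sizes: a new class meets every old eigenvalue of its old class. -/
theorem exists_rel_of_clSize (hcard : ∀ r r', Nat.card {s // S.Rel r s} = Nat.card {s // S.Rel r' s})
    (hcard' : ∀ r r', Nat.card {s // S'.Rel r s} = Nat.card {s // S'.Rel r' s})
    (hcl : S.clSize ≤ S'.clSize) {r s : S.ρ} (hrs : S.Rel r s) (k : Fin q) :
    ∃ k', S'.Rel (φ (r, k)) (φ (s, k')) := by
  have hle : Nat.card {s // S.Rel r s} ≤ Nat.card {s // S'.Rel (φ (r, k)) s} := by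
    rw [hcard r (Classical.arbitrary S.ρ), hcard' _ (Classical.arbitrary S'.ρ)]
    exact hcl
  obtain ⟨⟨t, ht⟩, hts⟩ := ((class_inj h h0 (r, k)).bijective_of_nat_card_le hle).2 ⟨s, hrs⟩
  obtain ⟨⟨a, k'⟩, rfl⟩ := φ.surjective t
  simp only [Equiv.symm_apply_apply, Subtype.mk.injEq] at hts
  exact ⟨k', hts ▸ ht⟩

end InflData

namespace InflData

variable {S S' : Frame} {q : ℕ} {d : InflData S S' q} {φ : S.ρ × Fin q ≃ S'.ρ}
  {lam : S.ρ → Fin q → d.F₀} {x : S.ρ × Fin q → PowerSeries d.F₀}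
  {L : S.ρ × Fin q → S'.ι → PowerSeries d.F₀}

/-- The classes of the inflated frame. -/
noncomputable def inflReps (h : d.Forms φ lam x L) (h0 : ∀ r, S.l r ≠ 0)
    (hfull : ∀ r s, S.Rel r s → ∀ k, ∃ k', S'.Rel (φ (r, k)) (φ (s, k'))) (R : S.Reps) :
    S'.Reps where
  Cls := R.Cls × Fin q
  rep Ck := φ (R.rep Ck.1, Ck.2)
  cls t := (R.cls (φ.symm t).1,
    (hfull (φ.symm t).1 (R.rep (R.cls (φ.symm t).1)) (Frame.rel_symm (R.rel_cls _))
      (φ.symm t).2).choose)
  rel_cls t := by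
    have := (hfull (φ.symm t).1 (R.rep (R.cls (φ.symm t).1)) (Frame.rel_symm (R.rel_cls _))
      (φ.symm t).2).choose_spec
    have h2 : φ ((φ.symm t).1, (φ.symm t).2) = t := φ.apply_symm_apply t
    exact Frame.rel_symm (h2.subst (motive := fun z => S'.Rel z _) this)
  sep := by
    rintro ⟨C, k⟩ ⟨C', k'⟩ hrel
    obtain rfl := R.sep C C' (of_rel h h0 hrel).1
    exact Prod.ext rfl (snd_eq_of_rel h h0 hrel)

/-- Rows of blocks whose new forms span little have vanishing determinants. -/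
theorem det_rows_eq_zero (h : d.Forms φ lam x L) {σ : Type} [Fintype σ] (pick : σ → S.ρ) {R : ℕ}
    (hspan : Module.finrank S'.F (Submodule.span S'.F
      (Set.range fun p : σ × Fin q => S'.l (φ (pick p.1, p.2)))) ≤ R)
    (g : Fin (R + 1) → σ → Polynomial (PowerSeries d.F₀))
    (V : Fin (R + 1) → S.ι → Matrix (Fin q) (Fin q) d.F₀) :
    (Matrix.of fun a b => ∑ s, row (Series.Ser.map (d.f.mapMatrix (m := S.β)) (S.X (pick s))) (g a s)
      (tauPoint d.c) (tauPoint (V b))).det = 0 := by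
  classical
  have hco : ∀ b, ∃ co : S'.ι → d.F₀, ∑ i, co i • d.e i = V b := fun b =>
    (Submodule.mem_span_range_iff_exists_fun d.F₀).mp (by rw [d.e_span]; trivial)
  choose co hco using hco
  have hrow : ∀ r (gg : Polynomial (PowerSeries d.F₀)) b,
      row (d.XF r) gg (tauPoint d.c) (tauPoint (V b)) =
        ∑ i, PowerSeries.C (co b i) * row (d.XF r) gg (tauPoint d.c) (tauPoint (d.e i)) := by
    intro r gg b
    rw [← hco b]
    simp only [row, InflCount.dev_combination, mul_sum, Matrix.trace_sum, Matrix.mul_smul,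
      Matrix.trace_smul, smul_eq_mul]
  let A : Matrix (Fin (R + 1)) (σ × Fin q) S'.F := Matrix.of fun a p => d.κ
    (PowerSeries.X * (S.mu : PowerSeries d.F₀) *
      (g a p.1).eval (PowerSeries.X * x (pick p.1, p.2)))
  let cm : Matrix S'.ι (Fin (R + 1)) S'.F := Matrix.of fun i b => d.κ (PowerSeries.C (co b i))
  let B₀ : Matrix (σ × Fin q) S'.ι S'.F := Matrix.of fun p i => S'.l (φ (pick p.1, p.2)) i
  have hmat : (Matrix.of fun a b => ∑ s, row (Series.Ser.map (d.f.mapMatrix (m := S.β))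
      (S.X (pick s))) (g a s) (tauPoint d.c) (tauPoint (V b))).map d.κ = A * (B₀ * cm) := by
    ext a b
    simp only [Matrix.map_apply, Matrix.of_apply, map_sum, Matrix.mul_apply, A, B₀, cm,
      Fintype.sum_prod_type, h.2.2.2.1, ← map_mul]
    refine sum_congr rfl fun s _ => ?_
    rw [show row (Series.Ser.map (d.f.mapMatrix (m := S.β)) (S.X (pick s))) (g a s) (tauPoint d.c)
      (tauPoint (V b)) = row (d.XF (pick s)) (g a s) (tauPoint d.c) (tauPoint (V b)) from rfl,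
      hrow]
    simp only [h.2.2.2.2.2, mul_sum, map_sum]
    rw [sum_comm]
    refine sum_congr rfl fun k _ => sum_congr rfl fun i _ => ?_
    rw [← map_mul]
    congr 1
    ring
  refine (map_eq_zero_iff d.κ d.κ_injective).mp ?_
  rw [RingHom.map_det, RingHom.mapMatrix_apply, hmat]
  refine SelectLin.det_mul_eq_zero _ _ (le_trans ?_ hspan)
  have h1 : Module.finrank S'.F (Submodule.span S'.F (Set.range (B₀ * cm))) = (B₀ * cm).rank :=
    (Matrix.rank_eq_finrank_span_row _).symm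
  have h2 : B₀.rank = Module.finrank S'.F (Submodule.span S'.F
      (Set.range fun p : σ × Fin q => S'.l (φ (pick p.1, p.2)))) :=
    Matrix.rank_eq_finrank_span_row _
  rw [← h2]
  exact h1.le.trans (Matrix.rank_mul_le_left _ _)

end InflData

namespace MinCl

variable (hP : Inflatable P) {S : Frame} (hS : MinCl P S)
include hP hS

theorem full {S' : Frame} (hS' : P S') (hpos : S'.Pos) (hmu : S'.mu = S.mu) {q : ℕ}
    {d : InflData S S' q} {φ : S.ρ × Fin q ≃ S'.ρ} {lam : S.ρ → Fin q → d.F₀}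
    {x : S.ρ × Fin q → PowerSeries d.F₀} {L : S.ρ × Fin q → S'.ι → PowerSeries d.F₀}
    (h : d.Forms φ lam x L) :
    S'.clSize = S.clSize ∧ ∀ r s, S.Rel r s → ∀ k, ∃ k', S'.Rel (φ (r, k)) (φ (s, k')) := by
  have hle := InflData.clSize_le h (hS.toMinMu.h0 hP) ((Frame.rel_card _ hS.pos))
  have hge := hS.cl_le S' hS' hpos hmu
  exact ⟨le_antisymm hle hge, fun r s hrs k => InflData.exists_rel_of_clSize h (hS.toMinMu.h0 hP)
    ((Frame.rel_card _ hS.pos)) ((Frame.rel_card _ hpos)) hge hrs k⟩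

/-- In a class the first member controls the others. -/
theorem classDom' {r s : S.ρ} (hrs : S.Rel r s) : ClassDom (yser (S.X r)) (yser (S.X s)) := by
  classical
  obtain ⟨a, ha⟩ := Frame.exists_smul_of_rel hrs (hS.toMinMu.h0 hP r)
  refine classDom_of_rankLe (S.X_nil s) (hS.toMinMu.lin hP r) (hS.toMinMu.lin hP s)
    (hS.toMinMu.selfDom' hP r) (hS.toMinMu.selfDom' hP s) ha (hS.toMinMu.h0 hP s) fun q => ?_
  rcases Nat.eq_zero_or_pos q with rfl | hq
  · intro H _ f V _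
    simp [row, Matrix.trace]
  by_contra hfail
  obtain ⟨Q, hQ, hQ'⟩ := Univ.exists_poly_rankLe _ q q hfail
  obtain ⟨S', d, φ, lam, x, L, hS', hpos, hmu, hev, -, hF⟩ := hS.toMinMu.exists_infl hP hq hQ
  obtain ⟨g, V, hdet⟩ := hQ' d.F₀ d.f d.c hev
  obtain ⟨-, hfull⟩ := hS.full hP hS' hpos hmu hF
  refine hdet ?_
  have hsum : ∀ a b, ∑ i : Fin 2, row (Series.Ser.map (d.f.mapMatrix (m := S.β))
      (![S.X r, S.X s] i)) (g a i) (tauPoint d.c) (tauPoint (V b)) =
      ∑ i : Fin 2, row (Series.Ser.map (d.f.mapMatrix (m := S.β)) (S.X (![r, s] i))) (g a i)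
        (tauPoint d.c) (tauPoint (V b)) := fun a b => by simp [Fin.sum_univ_two]
  simp only [hsum]
  refine InflData.det_rows_eq_zero hF ![r, s] ?_ g V
  have hsub : Submodule.span S'.F (Set.range fun p : Fin 2 × Fin q => S'.l (φ (![r, s] p.1, p.2))) ≤
      Submodule.span S'.F (Set.range fun k : Fin q => S'.l (φ (r, k))) := by
    rw [Submodule.span_le]
    rintro _ ⟨⟨i, k⟩, rfl⟩
    fin_cases i
    · exact Submodule.subset_span ⟨k, rfl⟩
    · obtain ⟨k', hk'⟩ := hfull s r (Frame.rel_symm hrs) k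
      obtain ⟨b, hb⟩ := Frame.exists_smul_of_rel (Frame.rel_symm hk')
        (InflData.l'_ne_zero hF (hS.toMinMu.h0 hP) (r, k'))
      show S'.l (φ (s, k)) ∈ _
      rw [hb]
      exact Submodule.smul_mem _ b (Submodule.subset_span ⟨k', rfl⟩)
  exact (Submodule.finrank_mono hsub).trans
    ((finrank_range_le_card _).trans (Fintype.card_fin q).le)

end MinCl

/-- A best frame exists. -/
theorem exists_best (hP : Inflatable P) (hpos : ∃ T, P T ∧ T.Pos) : ∃ S, Best P S := by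
  classical
  obtain ⟨S₀, h₀⟩ := exists_minCl hpos
  have h00 := h₀.toMinMu.h0 hP
  obtain ⟨R⟩ := Frame.exists_reps h00
  have hq : 0 < 2 * Fintype.card R.Cls := by
    have : Nonempty R.Cls := ⟨R.cls (Classical.arbitrary _)⟩
    have : 0 < Fintype.card R.Cls := Fintype.card_pos
    omega
  obtain ⟨Q, hQ, hQ'⟩ := OpenPoly.open_sq (fun C => S₀.l (R.rep C)) (fun C => h00 _)
    (fun C C' h => R.linearIndependent_pair h) _ le_rfl
  obtain ⟨S', d, φ, lam, x, L, hS', hpos', hmu, hev, -, hF⟩ := h₀.toMinMu.exists_infl hP hq hQ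
  obtain ⟨hcl, hfull⟩ := h₀.full hP hS' hpos' hmu hF
  have hsqs : S'.SQS := by
    rw [(InflData.inflReps hF h00 hfull R).sqs_iff (fun r => (Frame.l_ne_zero _ hpos') r)
      ((Frame.rel_card _ hpos'))]
    have hlead := hQ' d.F₀ d.f d.c (fun C => lam (R.rep C)) hev (fun C => hF.1 (R.rep C)) S'.ι d.e
      d.e_span
    have hlift := SelectLin.linearIndependent_lift d.κ
      (fun (Ck : R.Cls × Fin (2 * Fintype.card R.Cls)) (p : S'.ι × S'.ι) =>
        L (R.rep Ck.1, Ck.2) p.1 * L (R.rep Ck.1, Ck.2) p.2) (by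
          simp only [map_mul, InflData.constantCoeff_L hF]
          exact hlead)
    simp only [map_mul, ← hF.2.2.2.1] at hlift
    exact hlift
  have hex : ∃ n, ∃ T, P T ∧ T.Pos ∧ T.mu = S₀.mu ∧ T.clSize = S₀.clSize ∧ T.SQS ∧ T.defect = n :=
    ⟨_, S', hS', hpos', hmu, hcl, hsqs, rfl⟩
  obtain ⟨S, h1, h2, h3, h4, h5, h6⟩ := Nat.find_spec hex
  exact ⟨S, ⟨⟨h₀.toMinMu.of_mu_eq h1 h2 h3, fun T hT hT' he =>
    h4.trans_le (h₀.cl_le T hT hT' (he.trans h3))⟩, h5, fun T hT hT' he hc hs =>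
    h6 ▸ Nat.find_le ⟨T, hT, hT', he.trans h3, hc.trans h4, hs, rfl⟩⟩⟩

namespace Best

variable (hP : Inflatable P) {S : Frame} (hS : Best P S)
include hP hS

/-- A good inflation of a best frame is best, with the classes `(C, k)`. -/
theorem exists_infl (R : S.Reps) :
    ∃ N, ∀ q ≥ N, ∀ Q : MvPolynomial (S.ι × Fin q × Fin q) S.F, Q ≠ 0 →
      ∃ (S' : Frame) (d : InflData S S' q) (φ : S.ρ × Fin q ≃ S'.ρ)
        (lam : S.ρ → Fin q → d.F₀) (x : S.ρ × Fin q → PowerSeries d.F₀)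
        (L : S.ρ × Fin q → S'.ι → PowerSeries d.F₀) (R' : S'.Reps)
        (e : R.Cls × Fin q ≃ R'.Cls),
        Best P S' ∧ d.evalPoint Q ≠ 0 ∧ d.Quad ∧ d.Forms φ lam x L ∧
        (∀ Ck, R'.rep (e Ck) = φ (R.rep Ck.1, Ck.2)) ∧
        Module.finrank S'.F (Submodule.span S'.F
          (Set.range fun Ck : R.Cls × Fin q => S'.l (φ (R.rep Ck.1, Ck.2)))) =
          Fintype.card R.Cls * q - S.defect ∧ S'.defect = S.defect ∧ S.defect ≤ Fintype.card R.Cls * q := by
  classical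
  have h00 := hS.toMinMu.h0 hP
  have hcard := (Frame.rel_card _ hS.pos)
  have hSQ := (R.sqs_iff h00 hcard).mp hS.sqs
  obtain ⟨N, hN⟩ := OpenPoly.open_pivot (fun C => S.l (R.rep C)) (fun C => h00 _)
    (fun C C' h => R.linearIndependent_pair h) hSQ
  refine ⟨max N 1, fun q hq Q hQ => ?_⟩
  have hqN : N ≤ q := le_trans (le_max_left _ _) hq
  have hq0 : 0 < q := lt_of_lt_of_le Nat.one_pos (le_trans (le_max_right _ _) hq)
  obtain ⟨Q₁, hQ₁, hQ₁'⟩ := hN q hqN
  obtain ⟨S', d, φ, lam, x, L, hS', hpos', hmu, hev, hquad, hF⟩ :=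
    hS.toMinMu.exists_infl hP hq0 (mul_ne_zero hQ hQ₁)
  obtain ⟨hev0, hev1⟩ := d.evalPoint_mul hev
  obtain ⟨hcl, hfull⟩ := hS.toMinCl.full hP hS' hpos' hmu hF
  let R' := InflData.inflReps hF h00 hfull R
  have h0' : ∀ r, S'.l r ≠ 0 := (Frame.l_ne_zero _ hpos')
  have hcard' := (Frame.rel_card _ hpos')
  have hnum : S'.numCls = Fintype.card R.Cls * q := by
    rw [R'.numCls_eq h0' hcard']
    exact (Fintype.card_prod _ _).trans (by rw [Fintype.card_fin])
  have hdef : S.defect = Fintype.card R.Cls -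
      Module.finrank S.F (Submodule.span S.F (Set.range fun C => S.l (R.rep C))) := by
    rw [Frame.defect, R.numCls_eq h00 hcard, R.span_eq h00]
  have hlow : Fintype.card R.Cls * q - S.defect ≤ Module.finrank S'.F (Submodule.span S'.F
      (Set.range fun Ck : R.Cls × Fin q => S'.l (φ (R.rep Ck.1, Ck.2)))) := by
    have h1 := hQ₁' d.F₀ d.f d.c (fun C => lam (R.rep C)) hev1 (fun C => hF.1 (R.rep C)) S'.ι d.e
      d.e_span
    have h2 := SelectLin.finrank_span_lift d.κ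
      (fun (Ck : R.Cls × Fin q) (i : S'.ι) => L (R.rep Ck.1, Ck.2) i)
    have e1 : (fun (Ck : R.Cls × Fin q) (i : S'.ι) =>
        PowerSeries.constantCoeff (L (R.rep Ck.1, Ck.2) i)) =
          fun Ck => d.v0 lam (R.rep Ck.1, Ck.2) :=
      funext fun _ => funext fun _ => InflData.constantCoeff_L hF _ _
    have e2 : (fun (Ck : R.Cls × Fin q) (i : S'.ι) => d.κ (L (R.rep Ck.1, Ck.2) i)) =
          fun Ck => S'.l (φ (R.rep Ck.1, Ck.2)) :=
      funext fun _ => funext fun _ => (hF.2.2.2.1 _ _).symm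
    rw [e1, e2] at h2
    rw [hdef]
    exact h1.trans h2
  have hsqs : S'.SQS := by
    rw [R'.sqs_iff h0' hcard']
    have hsq0 : LinearIndependent d.F₀ fun (C : R.Cls) (p : S.ι × S.ι) =>
        d.f (S.l (R.rep C) p.1) * d.f (S.l (R.rep C) p.2) := by
      simp only [← map_mul]
      exact SelectLin.linearIndependent_map_field d.f _ hSQ
    have hlead := SelectLin.sq_leadVec d.e_span (fun (C : R.Cls) i => d.f (S.l (R.rep C) i)) hsq0
      (fun C k => d.P0 lam (R.rep C, k)) (fun C k => InflData.P0_ne_zero hF _)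
      (fun C j k => InflData.P0_mul hF _ j k)
    have hlift := SelectLin.linearIndependent_lift d.κ
      (fun (Ck : R.Cls × Fin q) (p : S'.ι × S'.ι) =>
        L (R.rep Ck.1, Ck.2) p.1 * L (R.rep Ck.1, Ck.2) p.2) (by
          simp only [map_mul, InflData.constantCoeff_L hF]
          exact hlead)
    simp only [map_mul, ← hF.2.2.2.1] at hlift
    exact hlift
  have hge := hS.defect_le S' hS' hpos' hmu hcl hsqs
  have hspan' : Submodule.span S'.F (Set.range S'.l) = Submodule.span S'.F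
      (Set.range fun Ck : R.Cls × Fin q => S'.l (φ (R.rep Ck.1, Ck.2))) := R'.span_eq h0'
  have hupper : Module.finrank S'.F (Submodule.span S'.F
      (Set.range fun Ck : R.Cls × Fin q => S'.l (φ (R.rep Ck.1, Ck.2)))) ≤
        Fintype.card R.Cls * q :=
    (finrank_range_le_card _).trans ((Fintype.card_prod _ _).trans (by rw [Fintype.card_fin])).le
  have hd' : S'.defect = Fintype.card R.Cls * q - Module.finrank S'.F (Submodule.span S'.F
      (Set.range fun Ck : R.Cls × Fin q => S'.l (φ (R.rep Ck.1, Ck.2)))) := by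
    rw [Frame.defect, hnum, hspan']
  have hdle : S.defect ≤ Fintype.card R.Cls * q :=
    le_trans (by rw [hdef]; exact Nat.sub_le _ _) (Nat.le_mul_of_pos_right _ hq0)
  have hdd : S'.defect = S.defect := le_antisymm (by omega) hge
  refine ⟨S', d, φ, lam, x, L, R', Equiv.refl _, ?_, hev0, hquad, hF, fun _ => rfl, by omega, hdd,
    hdle⟩
  exact ⟨⟨hS.toMinMu.of_mu_eq hS' hpos' hmu, fun T hT hT' he =>
    hcl.trans_le (hS.cl_le T hT hT' (he.trans hmu))⟩, hsqs, fun T hT hT' he hc hs =>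
    hdd.trans_le (hS.defect_le T hT hT' (he.trans hmu) (hc.trans hcl) hs)⟩

/-- The rows of the representatives have low rank at every large size. -/
theorem rankLe (R : S.Reps) :
    ∃ N, ∀ q ≥ N, RankLe (fun C => S.X (R.rep C)) q (Fintype.card R.Cls * q - S.defect) := by
  obtain ⟨N, hN⟩ := hS.exists_infl hP R
  refine ⟨N, fun q hq => ?_⟩
  by_contra hfail
  obtain ⟨Q, hQ, hQ'⟩ := Univ.exists_poly_rankLe _ q _ hfail
  obtain ⟨S', d, φ, lam, x, L, R', e, -, hev, -, hF, -, hrank, -, -⟩ := hN q hq Q hQ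
  obtain ⟨g, V, hdet⟩ := hQ' d.F₀ d.f d.c hev
  exact hdet (InflData.det_rows_eq_zero hF R.rep hrank.le g V)

theorem nullRel' (R : S.Reps) : NullRel (fun C => yser (S.X (R.rep C))) := by
  classical
  have h00 := hS.toMinMu.h0 hP
  have hcard := (Frame.rel_card _ hS.pos)
  obtain ⟨N, hN⟩ := hS.rankLe hP R
  have hdef : S.defect = Fintype.card R.Cls -
      Module.finrank S.F (Submodule.span S.F (Set.range fun C => S.l (R.rep C))) := by
    rw [Frame.defect, R.numCls_eq h00 hcard, R.span_eq h00]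
  refine nullRel _ (fun C => S.X_nil _) (fun C i => hS.toMinMu.lin hP _ i)
    (fun C => hS.toMinMu.selfDom' hP _) ?_ ⟨N, fun q hq => ?_⟩
  · exact Kernels.pivot (fun C => S.l (R.rep C)) (fun C => h00 _)
      (fun C C' h => R.linearIndependent_pair h) ((R.sqs_iff h00 hcard).mp hS.sqs)
  · have := hN q hq
    rw [hdef] at this
    exact this

end Best

end Vale.Agent.P199
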