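import Mathlib

/-!
# P199: matrix lemmas for SELF and CLASS

Vanishing traces of powers give nilpotency; a characteristic polynomial which is a power forces a
single eigenvalue on the first-order block of a cluster.
-/

namespace Vale.Agent.P199.SelfClassAlg

open Finset
open scoped Kronecker

section Trace

open Polynomial

variable {F : Type*} [Field F] {n : Type*} [Fintype n] [DecidableEq n]

/-- If all traces of positive powers vanish, the matrix is nilpotent. -/
theorem isNilpotent_of_trace_pow [CharZero F] (M : Matrix n n F)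
    (h : ∀ k, 1 ≤ k → (M ^ k).trace = 0) : IsNilpotent M := by
  obtain ⟨g, hg, hgX⟩ :=
    exists_eq_pow_rootMultiplicity_mul_and_not_dvd M.charpoly M.charpoly_monic.ne_zero 0
  rw [map_zero, sub_zero] at hg hgX
  set a := M.charpoly.rootMultiplicity 0
  obtain ⟨u, v, huv⟩ : IsCoprime ((X : F[X]) ^ (a + 1)) g :=
    ((prime_X (R := F)).coprime_iff_not_dvd.2 hgX).pow_left
  have hgM : (aeval M) ((X : F[X]) ^ (a + 1) * g) = 0 := by
    rw [pow_succ', mul_assoc, ← hg, map_mul, Matrix.aeval_self_charpoly, mul_zero]
  set e := (aeval M) (u * X ^ (a + 1)) with he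
  have hidem : e * e = e := by
    have : u * X ^ (a + 1) * (u * X ^ (a + 1)) =
        u * X ^ (a + 1) - u * v * (X ^ (a + 1) * g) := by linear_combination (u * X ^ (a + 1)) * huv
    rw [he, ← map_mul, this, map_sub, map_mul _ (u * v), hgM, mul_zero, sub_zero]
  have htr : e.trace = 0 := by
    rw [he, show u * X ^ (a + 1) = (u * X ^ a) * X by ring, map_mul, aeval_X,
      aeval_eq_sum_range, Finset.sum_mul, Matrix.trace_sum]
    refine Finset.sum_eq_zero fun i _ => ?_
    rw [smul_mul_assoc, Matrix.trace_smul, ← pow_succ, h (i + 1) (by omega), smul_zero]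
  have he0 : e = 0 := by
    set f := Matrix.toLin' e with hf
    have hff : f * f = f := by
      rw [hf, Module.End.mul_eq_comp, ← Matrix.toLin'_mul, hidem]
    have hproj : LinearMap.IsProj (LinearMap.range f) f :=
      ⟨fun x => LinearMap.mem_range_self f x, by
        rintro _ ⟨y, rfl⟩
        exact LinearMap.congr_fun hff y⟩
    have hrk := hproj.trace
    rw [hf, Matrix.trace_toLin'_eq, htr] at hrk
    have : Module.finrank F (LinearMap.range f) = 0 := by exact_mod_cast hrk.symm
    rw [Submodule.finrank_eq_zero, LinearMap.range_eq_bot] at this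
    exact Matrix.toLin'.injective (this.trans (map_zero _).symm)
  have hone : (aeval M) (v * g) = 1 := by
    have h1 := congrArg (aeval M) huv
    rw [map_add, map_one, ← he, he0, zero_add] at h1
    exact h1
  refine ⟨a + 1, ?_⟩
  calc M ^ (a + 1) = (aeval M) ((X : F[X]) ^ (a + 1)) * (aeval M) (v * g) := by
        rw [hone, mul_one, map_pow, aeval_X]
    _ = (aeval M) (v * (X ^ (a + 1) * g)) := by rw [← map_mul]; ring_nf
    _ = 0 := by rw [map_mul, hgM, mul_zero]

end Trace

section Cluster

variable {F : Type*} [Field F] {β q : Type*} [Fintype β] [DecidableEq β] [Fintype q] [DecidableEq q]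

/-- Extraction of a root from a power divisible by a power of the variable. -/
theorem exists_root_extract {R : Type*} [CommRing R] [IsDomain R] (T : R) (hT : T ≠ 0)
    (hp : ∀ a : R, ∀ k, T ∣ a ^ k → T ∣ a) {μ : ℕ} (hμ : 0 < μ) :
    ∀ (e : ℕ) (P Q : R), P ^ μ = T ^ (e * μ) * Q → ∃ P', P'^ μ = Q := by
  intro e
  induction e with
  | zero => exact fun P Q h => ⟨P, by simpa using h⟩
  | succ e ih =>
    intro P Q h
    obtain ⟨P1, rfl⟩ : T ∣ P := hp P μ ⟨T ^ (e * μ + (μ - 1)) * Q, by
      rw [h, ← mul_assoc, ← pow_succ']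
      congr 2
      rw [Nat.succ_mul]
      omega⟩
    refine ih P1 Q (mul_left_cancel₀ (pow_ne_zero μ hT) ?_)
    rw [← mul_pow, h, ← mul_assoc, ← pow_add]
    congr 2
    ring

/-- Near a cluster `i₀` of `1 ⊗ E₀₀`, a characteristic polynomial which is a power has a single
first-order eigenvalue. -/
theorem cluster_single_root [CharZero F] [Nonempty β] (e : ℕ) (i₀ : q)
    (M1 : Matrix (β × q) (β × q) (PowerSeries F)) (h : Polynomial (PowerSeries F))
    (hh : (Matrix.of fun x y : β × q => PowerSeries.X ^ e *
      ((if x = y ∧ x.2 = i₀ then 1 else 0) + PowerSeries.X * M1 x y)).charpoly =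
        h ^ Fintype.card β) :
    IsNilpotent ((Matrix.of fun a b => PowerSeries.constantCoeff (M1 (a, i₀) (b, i₀))) -
      Matrix.scalar β ((Fintype.card β : F)⁻¹ *
        Matrix.trace (Matrix.of fun a b => PowerSeries.constantCoeff (M1 (a, i₀) (b, i₀))))) := by
  classical
  set μ := Fintype.card β with hμdef
  have hμ : 0 < μ := Fintype.card_pos
  set G : Matrix β β F := Matrix.of fun a b => PowerSeries.constantCoeff (M1 (a, i₀) (b, i₀))
    with hG
  -- the rescaled variable
  let T : Polynomial (PowerSeries F) := Polynomial.C PowerSeries.X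
  let s : Polynomial (PowerSeries F) := T ^ e * (1 + T * Polynomial.X)
  let N : Matrix (β × q) (β × q) (Polynomial (PowerSeries F)) := Matrix.of fun x y =>
    if x.2 = i₀ then (if x = y then Polynomial.X else 0) - Polynomial.C (M1 x y)
    else (if x = y then 1 + T * Polynomial.X else 0) - T * Polynomial.C (M1 x y)
  let v : β × q → Polynomial (PowerSeries F) := fun x => if x.2 = i₀ then T ^ e * T else T ^ e
  let Q := N.det
  have hkey : (h.comp s) ^ μ = T ^ ((e * Fintype.card q + 1) * μ) * Q := by
    have h1 := congrArg (Polynomial.compRingHom s) hh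
    rw [map_pow, Matrix.charpoly, RingHom.map_det] at h1
    change _ = (h.comp s) ^ μ at h1
    rw [← h1]
    have hprod : ∏ x, v x = T ^ ((e * Fintype.card q + 1) * μ) := by
      have hv : ∀ x, v x = T ^ e * (if x.2 = i₀ then T else 1) := fun x => by
        simp only [v]; split_ifs <;> simp
      simp only [hv, prod_mul_distrib, prod_const, card_univ, Fintype.card_prod,
        Fintype.prod_prod_type]
      simp only [prod_ite_eq', mem_univ, if_true, prod_const, card_univ, ← pow_mul, ← pow_add]
      congr 1
      simp only [hμdef]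
      ring
    rw [← hprod, ← Matrix.det_mul_column v N]
    congr 1
    ext1 x y
    simp only [RingHom.mapMatrix_apply, Matrix.map_apply, Matrix.charmatrix_apply, Matrix.of_apply,
      Polynomial.coe_compRingHom_apply, Polynomial.sub_comp,
      Matrix.diagonal_apply, v, N, s, T, map_mul, map_pow, map_add]
    split_ifs <;> simp_all <;> ring
  have hT : T ≠ 0 := by simp [T, PowerSeries.X_ne_zero]
  have hTdvd : ∀ a : Polynomial (PowerSeries F),
      T ∣ a ↔ Polynomial.mapRingHom PowerSeries.constantCoeff a = 0 := fun a => by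
    simp [T, Polynomial.C_dvd_iff_dvd_coeff, PowerSeries.X_dvd_iff, Polynomial.ext_iff,
      Polynomial.coeff_map]
  obtain ⟨P, hP⟩ := exists_root_extract T hT (fun a k hk => by
    rw [hTdvd] at hk ⊢
    rw [map_pow] at hk
    exact eq_zero_of_pow_eq_zero hk) hμ _ _ _ hkey
  set φ : Polynomial (PowerSeries F) →+* Polynomial F :=
    Polynomial.mapRingHom PowerSeries.constantCoeff
  have hQ : φ Q = G.charpoly := by
    let p : β × q → Prop := fun x => x.2 = i₀
    have hφT : φ T = 0 := (hTdvd T).1 dvd_rfl
    rw [show φ Q = _ from RingHom.map_det φ N,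
      Matrix.twoBlockTriangular_det _ p (fun x hx y hy => by
        have : x ≠ y := fun e => hx (e ▸ hy)
        simp [N, hφT, this, show x.2 ≠ i₀ from hx])]
    have h2 : (Matrix.toSquareBlockProp (φ.mapMatrix N) fun x => ¬ p x) = 1 := by
      ext1 x y
      simp [Matrix.toSquareBlockProp, N, hφT, show x.1.2 ≠ i₀ from x.2, Matrix.one_apply,
        Subtype.ext_iff, apply_ite φ, map_sub, map_add, map_mul]
    let eb : β ≃ {x : β × q // p x} :=
      { toFun := fun a => ⟨(a, i₀), rfl⟩
        invFun := fun x => x.1.1
        left_inv := fun a => rfl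
        right_inv := fun x => Subtype.ext (Prod.ext rfl x.2.symm) }
    rw [h2, Matrix.det_one, mul_one, Matrix.charpoly, ← Matrix.det_submatrix_equiv_self eb]
    congr 1
    ext1 a b
    simp [Matrix.toSquareBlockProp, N, eb, hG, φ, Matrix.charmatrix_apply, Matrix.diagonal_apply,
      apply_ite (Polynomial.map PowerSeries.constantCoeff), Polynomial.map_sub]
  -- a monic power of degree `μ`
  have hPμ : (φ P) ^ μ = G.charpoly := by rw [← map_pow, hP, hQ]
  have hdeg : (φ P).natDegree = 1 := by
    have := congrArg Polynomial.natDegree hPμ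
    rw [Polynomial.natDegree_pow, G.charpoly_natDegree_eq_dim] at this
    exact Nat.eq_of_mul_eq_mul_left hμ (by rw [this, mul_one])
  obtain ⟨a, b, hab⟩ := Polynomial.exists_eq_X_add_C_of_natDegree_le_one hdeg.le
  have ha : a ≠ 0 := by
    intro h0
    rw [hab, h0, map_zero, zero_mul, zero_add, Polynomial.natDegree_C] at hdeg
    exact zero_ne_one hdeg
  have hroot : G.charpoly = (Polynomial.C a) ^ μ *
      (Polynomial.X - Polynomial.C (-(b / a))) ^ μ := by
    rw [← hPμ, hab, ← mul_pow, mul_sub, ← map_mul, sub_eq_add_neg, ← map_neg,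
      show -(a * -(b / a)) = b by field_simp]
  set c := -(b / a)
  have hnil : IsNilpotent (G - Matrix.scalar β c) := by
    refine ⟨μ, ?_⟩
    have h1 := G.aeval_self_charpoly
    rw [hroot, map_mul, map_pow, map_pow, Polynomial.aeval_C, map_sub, Polynomial.aeval_X,
      Polynomial.aeval_C, ← map_pow] at h1
    have hu : IsUnit (algebraMap F (Matrix β β F) (a ^ μ)) :=
      (isUnit_iff_ne_zero.2 (pow_ne_zero μ ha)).map _
    have h2 := hu.mul_right_eq_zero.1 h1
    rw [Matrix.algebraMap_eq_diagonal] at h2
    simpa [Matrix.scalar_apply, Pi.algebraMap_def] using h2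
  have htr := Matrix.isNilpotent_trace_of_isNilpotent hnil
  rw [isNilpotent_iff_eq_zero, Matrix.trace_sub, sub_eq_zero] at htr
  have hc : (μ : F)⁻¹ * G.trace = c := by
    rw [htr]
    simp [Matrix.scalar_apply, Matrix.trace_diagonal, ← hμdef, hμ.ne']
  rw [hc]
  exact hnil

end Cluster

end Vale.Agent.P199.SelfClassAlg
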