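import Vale.Agent.P199.SerHom
import Vale.Agent.P199.Eval
import Vale.Agent.P199.CyclicWord
import Vale.Agent.P199.SelfClassAlg

/-!
# P199: SELF and CLASS

The normalised trace of a block controls the block, and one representative controls its class.
-/

namespace Vale.Agent.P199

open Finset
open scoped Kronecker
open Series

namespace SelfClass

variable {F : Type} [Field F]

section Tools

variable {p κ β : Type} [Fintype p] [DecidableEq p] [Fintype β] [DecidableEq β]

/-- A constant matrix times a power of the variable. -/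
noncomputable def tp (e : ℕ) (M : Matrix p p F) : Matrix p p (PowerSeries F) :=
  Matrix.of fun x y => PowerSeries.X ^ e * PowerSeries.C (M x y)

omit [Fintype p] [DecidableEq p] in
theorem cm_tp (e k : ℕ) (M : Matrix p p F) : cm k (tp e M) = if k = e then M else 0 := by
  ext x y
  rw [cm_apply, tp, Matrix.of_apply, PowerSeries.coeff_X_pow_mul']
  rcases lt_trichotomy k e with h | rfl | h
  · simp [h.ne, Nat.not_le.2 h]
  · simp
  · simp [h.ne', h.le, PowerSeries.coeff_C, Nat.sub_ne_zero_of_lt h]

omit [Fintype p] [DecidableEq p] in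
theorem van_tp (e : ℕ) (M : Matrix p p F) : Van e (tp e M) := fun k hk => by
  rw [cm_tp, if_neg hk.ne]

omit [Fintype p] [DecidableEq p] in
theorem cm_tp_self (e : ℕ) (M : Matrix p p F) : cm e (tp e M) = M := by rw [cm_tp, if_pos rfl]

theorem van_pow {M : Matrix p p (PowerSeries F)} {e : ℕ} (h : Van e M) : ∀ k : ℕ,
    Van (e * k) (M ^ k) ∧ cm (e * k) (M ^ k) = cm e M ^ k
  | 0 => by simp [cm_one, Van.of_zero]
  | k + 1 => by
    obtain ⟨h1, h2⟩ := van_pow h k
    rw [Nat.mul_succ, pow_succ, pow_succ, ← h2]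
    exact ⟨h1.mul h, Van.cm_mul_lead h1 h⟩

omit [DecidableEq p] in
theorem coeff_trace (k : ℕ) (M : Matrix p p (PowerSeries F)) :
    PowerSeries.coeff k M.trace = (cm k M).trace := by
  simp [Matrix.trace]

/-- Weighted cycle realising a word. -/
def cyc [DecidableEq κ] {n : ℕ} (w : Fin (n + 1) → κ) (a : κ) :
    Matrix (Fin (n + 1)) (Fin (n + 1)) F :=
  Matrix.of fun r c => ∑ k : Fin (n + 1), if r = k ∧ c = k + 1 ∧ w k = a then 1 else 0

/-- The rotation of a word starting at a place. -/
def rotW {n : ℕ} (w : Fin (n + 1) → κ) (r : Fin (n + 1)) : List κ :=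
  List.ofFn fun j => w (r + j)

theorem rotW_zero {n : ℕ} (w : Fin (n + 1) → κ) : rotW w 0 = List.ofFn w := by simp [rotW]

open Fin.NatCast in
theorem cyc_prod [DecidableEq κ] {n : ℕ} (w : Fin (n + 1) → κ) (l : List κ)
    (hl : l.length = n + 1) (r c : Fin (n + 1)) :
    (l.map (cyc (F := F) w)).prod r c = if r = c ∧ l = rotW w r then 1 else 0 := by
  rw [CyclicWord.prod_cycle (Function.Embedding.refl _) w (cyc (F := F) w) (fun a r c => rfl) l
    (by intro h; simp [h] at hl), sum_eq_single r (fun b _ hb => if_neg fun h => hb h.1.symm)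
    (fun h => absurd (mem_univ r) h)]
  refine if_congr ?_ rfl rfl
  simp only [Function.Embedding.refl_apply, true_and, hl, Fin.natCast_self, add_zero]
  constructor
  · rintro ⟨rfl, h⟩
    refine ⟨rfl, List.ext_getElem (by simp [rotW, hl]) fun j hj hj' => ?_⟩
    rw [← h j (by omega)]
    simp only [rotW, List.getElem_ofFn]
    congr 2
    exact Fin.ext (by simp [Fin.val_natCast, Nat.mod_eq_of_lt (show j < n + 1 by omega)])
  · rintro ⟨rfl, rfl⟩
    refine ⟨rfl, fun j hj => ?_⟩
    simp only [rotW, List.getElem_ofFn]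
    congr 2
    exact Fin.ext (by simp [Fin.val_natCast, Nat.mod_eq_of_lt (show j < n + 1 by omega)])

omit [Fintype β] [DecidableEq β] in
/-- Weighted by the cycle, a sum over words is block diagonal. -/
theorem sum_cyc [Fintype κ] [DecidableEq κ] {n : ℕ} (w : Fin (n + 1) → κ)
    (f : List κ → Matrix β β F) :
    ∑ u ∈ words κ (n + 1), f u ⊗ₖ (u.map (cyc (F := F) w)).prod =
      Matrix.blockDiagonal fun r => f (rotW w r) := by
  refine Matrix.ext fun x y => ?_
  rw [Matrix.sum_apply, Matrix.blockDiagonal_apply]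
  calc ∑ u ∈ words κ (n + 1), (f u ⊗ₖ (u.map (cyc (F := F) w)).prod) x y
      = ∑ u ∈ words κ (n + 1),
          f u x.1 y.1 * (if x.2 = y.2 ∧ u = rotW w x.2 then 1 else 0) :=
        sum_congr rfl fun u hu => by
          rw [Matrix.kroneckerMap_apply, cyc_prod w u (mem_words.1 hu)]
    _ = _ := by
        by_cases h : x.2 = y.2
        · simp [h, mem_words, rotW]
        · simp [h]

end Tools

theorem exists_ofFn {κ : Type} {n : ℕ} {w : List κ} (hw : w.length = n) :
    ∃ u : Fin n → κ, List.ofFn u = w := by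
  subst hw
  exact ⟨fun i => w[i], List.ofFn_getElem⟩

section Block

variable {ι κ β : Type} [Fintype ι] [DecidableEq ι] [Fintype β] [DecidableEq β]

/-- A nilpotent element of a block algebra is zero. -/
theorem eq_zero_of_nilpotent (B : BlockAlg β F) {x : Matrix β β F} (hx : x ∈ B.C)
    (h : IsNilpotent x) : x = 0 := by
  by_contra hne
  obtain ⟨k, hk⟩ := h
  have hu := (B.unit_of_ne x hx hne).pow k
  rw [hk, isUnit_zero_iff] at hu
  exact hne (by rw [← mul_one x, ← hu, mul_zero])

omit [Fintype ι] [DecidableEq ι] in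
theorem yser_mem (B : BlockAlg β F) {X : Ser (Matrix β β F) ι} (hC : ∀ w, X.coeff w ∈ B.C)
    (w : List ι) : (yser X).coeff w ∈ B.L :=
  mul_mem (inv_mem (natCast_mem B.L _)) (B.trace_mem _ (hC w))

omit [Fintype ι] [DecidableEq ι] in
theorem zser_mem (B : BlockAlg β F) {X : Ser (Matrix β β F) ι} (hC : ∀ w, X.coeff w ∈ B.C)
    (w : List ι) : (zser X).coeff w ∈ B.C :=
  sub_mem (hC w) (B.scalar_mem _ (yser_mem B hC w))

omit [Fintype ι] [DecidableEq ι] in
theorem trace_zser [CharZero F] (X : Ser (Matrix β β F) ι) (w : List ι) :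
    ((zser X).coeff w).trace = 0 := by
  rcases isEmpty_or_nonempty β with h | h
  · simp [Matrix.trace]
  have hμ : (Fintype.card β : F) ≠ 0 := Nat.cast_ne_zero.2 Fintype.card_ne_zero
  simp only [zser, Ser.coeff_sub, Ser.coeff_map, Matrix.scalar_apply, Matrix.trace_sub,
    Matrix.trace_diagonal, sum_const, card_univ, nsmul_eq_mul, yser]
  rw [← mul_assoc, mul_inv_cancel₀ hμ, one_mul, sub_self]

theorem substM_split (h : ι → Ser F κ) (X : Ser (Matrix β β F) ι) :
    substM h X = Ser.map (Matrix.scalar β) (substS h (yser X)) + substM h (zser X) := by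
  have e : X = Ser.map (Matrix.scalar β) (yser X) + zser X := by
    rw [zser, add_sub_cancel]
  conv_lhs => rw [e]
  rw [map_scalar_substS, substM, Ser.subst_add]
  rfl

theorem trace_substM_zero (h : ι → Ser F κ) {Z : Ser (Matrix β β F) ι}
    (hZ : ∀ w, (Z.coeff w).trace = 0) (W : List κ) : ((substM h Z).coeff W).trace = 0 := by
  rw [substM, Ser.coeff_subst, Matrix.trace_sum]
  refine sum_eq_zero fun k _ => ?_
  rw [Matrix.trace_sum]
  refine sum_eq_zero fun w _ => ?_
  have e : (w.map fun i => Ser.map (Matrix.scalar β) (h i)).prod =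
      Ser.map (Matrix.scalar β) (w.map h).prod := by
    rw [map_list_prod, List.map_map]
    rfl
  rw [e, Ser.coeff_map, RingHom.id_apply, Matrix.scalar_apply,
    ← Matrix.smul_one_eq_diagonal, Matrix.mul_smul, Matrix.mul_one, Matrix.trace_smul, hZ,
    smul_zero]

theorem substM_zser_two {X : Ser (Matrix β β F) ι} (h0 : X.coeff [] = 0)
    (hlin : ∀ i, X.coeff [i] = lf X i • (1 : Matrix β β F)) (h : ι → Ser F κ)
    (hh : ∀ i, (h i).coeff [] = 0) : Ser.LowVanish 2 (substM h (zser X)) := by
  refine Ser.LowVanish.subst (RingHom.id _) (fun w hw => ?_) fun i => by simp [hh i]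
  match w, hw with
  | [], _ => simp [zser, yser, h0]
  | [i], _ =>
    rw [zser, Ser.coeff_sub, Ser.coeff_map, hlin, Matrix.scalar_apply,
      ← Matrix.smul_one_eq_diagonal, sub_eq_zero]
    rfl
  | _ :: _ :: _, h2 => simp only [List.length_cons] at h2; omega

/-- The linear expansion of a substitution. -/
theorem substS_first {v v' : ι → Ser F κ} (hv : ∀ i, (v i).coeff [] = 0)
    (hv' : ∀ i, (v' i).coeff [] = 0) {k : ℕ} (h : ∀ i, Ser.LowVanish k (v i - v' i))
    (y : Ser F ι) :
    Ser.LowVanish (k + 1)
      (substS v y - substS v' y - ∑ i, Ser.C (y.coeff [i]) * (v i - v' i)) := by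
  set lin : Ser F ι := ∑ i, Ser.C (y.coeff [i]) * Ser.X i with hlin
  have h1 := (Ser.subst_congr (RingHom.id F) hv hv' h (y - lin)).2 fun i => by
    simp [hlin, Ser.coeff_C_mul, Ser.X_coeff]
  have e : ∀ u : ι → Ser F κ, (∀ i, (u i).coeff [] = 0) →
      substS u (y - lin) = substS u y - ∑ i, Ser.C (y.coeff [i]) * u i := by
    intro u hu
    have hc : ∀ (x : F) i w, Commute (RingHom.id F x) ((u i).coeff w) := fun x i w => Commute.all _ _
    show Ser.substHom (RingHom.id F) hu hc _ = _
    rw [map_sub, hlin, map_sum]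
    refine congrArg₂ _ rfl (sum_congr rfl fun i _ => ?_)
    rw [map_mul, Ser.substHom_apply, Ser.substHom_apply, Ser.subst_C, Ser.subst_X _ hu]
    rfl
  change Ser.LowVanish (k + 1) (substS v (y - lin) - substS v' (y - lin)) at h1
  rw [e v hv, e v' hv'] at h1
  simp only [mul_sub, sum_sub_distrib]
  convert h1 using 1
  abel

variable (L : Subfield F) {y : Ser F ι}

/-- A parametrisation of the zero set of `y` to every order. -/
theorem exists_param (hy0 : y.coeff [] = 0) (hyL : ∀ w, y.coeff w ∈ L) (j : ι)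
    (hj : y.coeff [j] ≠ 0) : ∀ n : ℕ, ∃ h0 : ι → Ser F ι, (∀ i, (h0 i).coeff [] = 0) ∧
      (∀ i w, (h0 i).coeff w ∈ L) ∧ (∀ i, i ≠ j → h0 i = Ser.X i) ∧
      Ser.LowVanish (n + 1) (substS h0 y) := by
  intro n
  induction n with
  | zero =>
    refine ⟨fun i => if i = j then 0 else Ser.X i, fun i => ?_, fun i w => ?_,
      fun i hi => if_neg hi, ?_⟩
    · show (if i = j then (0 : Ser F ι) else Ser.X i).coeff [] = 0
      split_ifs <;> simp
    · show (if i = j then (0 : Ser F ι) else Ser.X i).coeff w ∈ L
      split_ifs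
      · exact L.zero_mem
      · rw [Ser.X_coeff]
        split_ifs
        exacts [L.one_mem, L.zero_mem]
    · refine Ser.LowVanish.subst (RingHom.id _) (Ser.LowVanish.of_coeff_nil hy0) fun i => ?_
      show (if i = j then (0 : Ser F ι) else Ser.X i).coeff [] = 0
      split_ifs <;> simp
  | succ n ih =>
    obtain ⟨h, hh0, hhL, hhX, hv⟩ := ih
    let h' : ι → Ser F ι := fun i => h i -
      if i = j then Ser.C (y.coeff [j])⁻¹ * substS h y else 0
    have hmemy : substS h y ∈ Ser.coeffIn L.toSubring :=
      Ser.subst_coeff_mem _ hyL fun i => Ser.mem_coeffIn.2 (hhL i)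
    have hd : ∀ i, Ser.LowVanish (n + 1) (h' i - h i) := by
      intro i
      simp only [h', sub_sub_cancel_left]
      refine Ser.LowVanish.neg ?_
      split_ifs
      · exact Ser.LowVanish.mul_left _ hv
      · exact Ser.LowVanish.zero _
    have hh'0 : ∀ i, (h' i).coeff [] = 0 := fun i => by
      have := hd i [] (Nat.succ_pos n)
      rw [Ser.coeff_sub, hh0, sub_zero] at this
      exact this
    refine ⟨h', hh'0, fun i w => ?_, fun i hi => by simp [h', hi, hhX i hi], ?_⟩
    · simp only [h', Ser.coeff_sub]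
      refine sub_mem (hhL i w) ?_
      split_ifs
      · rw [Ser.coeff_C_mul]
        exact mul_mem (inv_mem (hyL _)) (Ser.mem_coeffIn.1 hmemy w)
      · exact L.zero_mem
    · have h1 := substS_first hh'0 hh0 hd y
      have e : ∑ i, Ser.C (y.coeff [i]) * (h' i - h i) = -substS h y := by
        rw [sum_eq_single j]
        · simp only [h', if_true, sub_sub_cancel_left, mul_neg, ← mul_assoc, ← map_mul,
            mul_inv_cancel₀ hj, map_one, one_mul]
        · intro i _ hi
          simp [h', hi]
        · simp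
      rw [e] at h1
      simpa using h1

end Block

end SelfClass

open SelfClass

variable {F : Type} [Field F] [CharZero F] {ι β : Type} [Fintype ι] [DecidableEq ι] [Fintype β]
  [DecidableEq β]

/-- (L0) A series over a block algebra all of whose power traces vanish is zero. -/
theorem eq_zero_of_traces (B : BlockAlg β F) {X : Ser (Matrix β β F) ι}
    (hC : ∀ w, X.coeff w ∈ B.C) (h0 : X.coeff [] = 0)
    (htr : ∀ (q : ℕ) (H : ι → Matrix (Fin q) (Fin q) (PowerSeries F)), SmallAt H →
      ∀ k, 1 ≤ k → ((ev H X) ^ k).trace = 0) : X = 0 := by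
  refine Ser.LowVanish.eq_zero fun N => ?_
  induction N with
  | zero => exact Ser.LowVanish.of_zero _
  | succ N ih =>
    intro w hw
    rcases Nat.lt_succ_iff_lt_or_eq.1 hw with hw | hw
    · exact ih w hw
    cases N with
    | zero => rw [List.length_eq_zero_iff.1 hw]; exact h0
    | succ n =>
      obtain ⟨u, rfl⟩ := exists_ofFn hw
      set H : ι → Matrix (Fin (n + 1)) (Fin (n + 1)) (PowerSeries F) := fun a => tp 1 (cyc u a)
      have hH : ∀ a, Van 1 (H a) := fun a => van_tp 1 _
      have hv : Van (n + 1) (ev H X) := (ev_van hH ih).mono (by simp)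
      have hlead : cm (n + 1) (ev H X) = Matrix.blockDiagonal fun r => X.coeff (rotW u r) := by
        have := cm_ev_lead le_rfl hH ih
        rw [one_mul] at this
        simp only [H, cm_tp_self] at this
        rw [this]
        exact sum_cyc u fun v => X.coeff v
      have hnil : IsNilpotent (Matrix.blockDiagonal fun r => X.coeff (rotW u r)) :=
        SelfClassAlg.isNilpotent_of_trace_pow _ fun k hk => by
          rw [← hlead, ← (van_pow hv k).2, ← coeff_trace, htr _ H (smallAt_iff.2 hH) k hk, map_zero]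
      obtain ⟨m, hm⟩ := hnil
      rw [← Matrix.blockDiagonal_pow, ← Matrix.blockDiagonal_zero] at hm
      have := congrFun (Matrix.blockDiagonal_injective hm) 0
      simp only [Pi.pow_apply, Pi.zero_apply, rotW_zero] at this
      exact eq_zero_of_nilpotent B (hC _) ⟨m, this⟩

variable [Nonempty β]

/-- (L1) The linear part of a block is scalar. -/
theorem coeff_singleton_of_pw (B : BlockAlg β F) {X : Ser (Matrix β β F) ι}
    (hC : ∀ w, X.coeff w ∈ B.C) (h0 : X.coeff [] = 0) (hPW : PW X) (j : ι) :
    X.coeff [j] = lf X j • (1 : Matrix β β F) := by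
  set μ := Fintype.card β with hμdef
  have hμ : 0 < μ := Fintype.card_pos
  set H : ι → Matrix (Fin 1) (Fin 1) (PowerSeries F) := fun i => tp 1 (if i = j then 1 else 0)
    with hHdef
  have hH : ∀ i, Van 1 (H i) := fun i => van_tp 1 _
  obtain ⟨p, hp, hdeg, hchar⟩ := hPW 1 H (smallAt_iff.2 hH)
  rw [hp.eq_X_add_C hdeg] at hchar
  set c := p.coeff 0
  set M := ev H X with hM
  have hMv : Van 1 M :=
    (ev_van hH (Ser.LowVanish.of_coeff_nil h0)).mono (by simp)
  have hlead : cm 1 M = X.coeff [j] ⊗ₖ (1 : Matrix (Fin 1) (Fin 1) F) := by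
    have := cm_ev_lead le_rfl hH (Ser.LowVanish.of_coeff_nil h0)
    rw [one_mul, sum_words_one, sum_eq_single j] at this
    · rw [hM, this]
      simp [hHdef, cm_tp_self]
    · intro i _ hi
      simp [hHdef, cm_tp_self, hi]
    · simp
  have hnil : (M + Matrix.scalar (β × Fin 1) c) ^ μ = 0 := by
    have h1 := M.aeval_self_charpoly
    rw [hchar, map_pow, map_add, Polynomial.aeval_X, Polynomial.aeval_C,
      Matrix.algebraMap_eq_diagonal] at h1
    simpa [Matrix.scalar_apply, Pi.algebraMap_def] using h1
  have hc0 : PowerSeries.constantCoeff c = 0 := by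
    have h2 : (cm 0 (M + Matrix.scalar (β × Fin 1) c)) ^ μ = 0 := by
      have := (van_pow (Van.of_zero (M + Matrix.scalar (β × Fin 1) c)) μ).2
      rw [zero_mul, hnil, cm_zero] at this
      exact this.symm
    rw [cm_add, hMv 0 one_pos, zero_add, show cm 0 (Matrix.scalar (β × Fin 1) c) =
      Matrix.scalar (β × Fin 1) (PowerSeries.constantCoeff c) by
        ext x y; by_cases h : x = y <;> simp [Matrix.scalar_apply, h], ← map_pow] at h2
    obtain ⟨b⟩ := ‹Nonempty β›
    exact eq_zero_of_pow_eq_zero (by simpa using congrFun₂ h2 (b, 0) (b, 0))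
  have hv : Van 1 (M + Matrix.scalar (β × Fin 1) c) := hMv.add fun k hk => by
    obtain rfl : k = 0 := by omega
    ext x y
    by_cases h : x = y <;> simp [Matrix.scalar_apply, h, hc0]
  set d := PowerSeries.coeff 1 c
  have h3 : (X.coeff [j] + Matrix.scalar β d) ^ μ = 0 := by
    have h4 := (van_pow hv μ).2
    rw [hnil, cm_zero, cm_add, hlead, show cm 1 (Matrix.scalar (β × Fin 1) c) =
      Matrix.scalar β d ⊗ₖ (1 : Matrix (Fin 1) (Fin 1) F) by
        ext ⟨x, x'⟩ ⟨y, y'⟩
        obtain rfl := Subsingleton.elim x' y'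
        by_cases h : x = y <;> simp [Matrix.scalar_apply, h, d], ← Matrix.add_kronecker] at h4
    have h5 : kronOne (p := Fin 1) ((X.coeff [j] + Matrix.scalar β d) ^ μ) = 0 := by
      rw [map_pow]; exact h4.symm
    ext x y
    simpa [kronOne] using congrFun₂ h5 (x, 0) (y, 0)
  have htr := Matrix.isNilpotent_trace_of_isNilpotent ⟨μ, h3⟩
  rw [isNilpotent_iff_eq_zero, Matrix.trace_add, Matrix.scalar_apply, Matrix.trace_diagonal,
    sum_const, card_univ, nsmul_eq_mul, ← hμdef] at htr
  have hd : d = -lf X j := by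
    have hμ' : (μ : F) ≠ 0 := Nat.cast_ne_zero.2 hμ.ne'
    rw [lf, yser, ← hμdef, eq_neg_iff_add_eq_zero]
    field_simp
    linear_combination htr
  rw [hd] at h3
  have h6 : X.coeff [j] + Matrix.scalar β (-lf X j) ∈ B.C :=
    add_mem (hC _) (B.scalar_mem _ (neg_mem (yser_mem B hC _)))
  have h7 := eq_zero_of_nilpotent B h6 ⟨μ, h3⟩
  rw [map_neg, ← sub_eq_add_neg, sub_eq_zero] at h7
  rw [h7, Matrix.scalar_apply, Matrix.smul_one_eq_diagonal]

/-- The degree step of SELF at a parametrised zero set. -/
theorem self_step (B : BlockAlg β F) {X : Ser (Matrix β β F) ι} (hC : ∀ w, X.coeff w ∈ B.C)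
    (h0 : X.coeff [] = 0) (hPW : PW X) (j : ι) (hj : lf X j ≠ 0)
    {h : ι → Ser F ι} (hh : ∀ i, (h i).coeff [] = 0) (hL : ∀ i w, (h i).coeff w ∈ B.L)
    {n : ℕ} (hn : 1 ≤ n) (hy : Ser.LowVanish (n + 1) (substS h (yser X)))
    (hz : Ser.LowVanish (n + 1) (substM h (zser X))) :
    Ser.LowVanish (n + 2) (substM h (zser X)) := by
  intro w hw
  rcases Nat.lt_succ_iff_lt_or_eq.1 hw with hw | hw
  · exact hz w hw
  obtain ⟨u, rfl⟩ := exists_ofFn hw
  set U := substM h X with hU
  have hsplit := substM_split h X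
  have hUv : Ser.LowVanish (n + 1) U := by
    rw [hU, hsplit]; exact (hy.map _).add hz
  set W : ι → Matrix (Fin (n + 1)) (Fin (n + 1)) (PowerSeries F) := fun a => tp 2 (cyc u a)
    with hW
  have hWv : ∀ a, Van 2 (W a) := fun a => van_tp 2 _
  have hWs : SmallAt W := smallAt_iff.2 fun a => (hWv a).mono (by norm_num)
  set H0 := fun i => evS W (h i) with hH0
  have hH0v : ∀ i, Van 2 (H0 i) := fun i =>
    (evS_van hWv (Ser.LowVanish.of_coeff_nil (hh i))).mono (by simp)
  set E : Matrix (Fin (n + 1)) (Fin (n + 1)) F := Matrix.single 0 0 1 with hE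
  set H := fun i => H0 i + tp (2 * n + 1) (if i = j then (lf X j)⁻¹ • E else 0) with hHdef
  have hHd : ∀ i, Van (2 * n + 1) (H i - H0 i) := fun i => by
    simp only [hHdef, add_sub_cancel_left]; exact van_tp _ _
  have hHv : ∀ i, Van 2 (H i) := fun i => (hH0v i).add ((van_tp _ _).mono (by omega))
  obtain ⟨p, -, -, hchar⟩ := hPW (n + 1) H (smallAt_iff.2 fun i => (hHv i).mono (by norm_num))
  set M := ev H X with hMdef
  have hev0 : ev H0 X = ev W U := (ev_substM hWs hh X).symm
  have hUw : cm (2 * (n + 1)) (ev W U) =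
      Matrix.blockDiagonal fun r => U.coeff (rotW u r) := by
    rw [cm_ev_lead (by norm_num) hWv hUv]
    simp only [hW, cm_tp_self]
    exact sum_cyc u fun v => U.coeff v
  have hfirst := ev_first_order (by norm_num : 1 ≤ 2) hH0v hHv hHd X
  have hlin : ∀ k, cm k (∑ i, (X.coeff [i]).map PowerSeries.C ⊗ₖ (H i - H0 i)) =
      if k = 2 * n + 1 then (1 : Matrix β β F) ⊗ₖ E else 0 := by
    intro k
    rw [cm_sum, sum_eq_single j]
    · rw [cm_kronecker_C]
      simp only [hHdef, if_true, add_sub_cancel_left, cm_tp]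
      split_ifs
      · rw [coeff_singleton_of_pw B hC h0 hPW j, Matrix.smul_kronecker, Matrix.kronecker_smul,
          smul_smul, mul_inv_cancel₀ hj, one_smul]
      · exact Matrix.kronecker_zero _
    · intro i _ hi
      rw [cm_kronecker_C]
      simp [hHdef, hi, cm_tp]
    · simp
  have hlow : ∀ k, k < 2 * n + 3 → cm k M =
      cm k (ev W U) + if k = 2 * n + 1 then (1 : Matrix β β F) ⊗ₖ E else 0 := by
    intro k hk
    have := hfirst k (by omega)
    rw [cm_sub, cm_sub, hlin, hev0, sub_sub, sub_eq_zero] at this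
    rw [hMdef, this]
  have hWU : Van (2 * (n + 1)) (ev W U) := ev_van hWv hUv
  set M1 : Matrix (β × Fin (n + 1)) (β × Fin (n + 1)) (PowerSeries F) := Matrix.of fun x y =>
    PowerSeries.mk fun k => PowerSeries.coeff (k + (2 * n + 2)) (M x y) with hM1
  have hM : M = Matrix.of fun x y => PowerSeries.X ^ (2 * n + 1) *
      ((if x = y ∧ x.2 = 0 then 1 else 0) + PowerSeries.X * M1 x y) := by
    ext x y k
    rw [Matrix.of_apply, PowerSeries.coeff_X_pow_mul']
    rcases lt_trichotomy k (2 * n + 1) with hk | rfl | hk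
    · have := congrFun₂ (hlow k (by omega)) x y
      rw [hWU k (by omega), if_neg hk.ne, add_zero, cm_apply, Matrix.zero_apply] at this
      rw [this, if_neg (by omega)]
    · have := congrFun₂ (hlow (2 * n + 1) (by omega)) x y
      rw [hWU _ (by omega), if_pos rfl, zero_add, cm_apply] at this
      rw [this, if_pos le_rfl, Nat.sub_self]
      obtain ⟨x, r⟩ := x
      obtain ⟨y, s⟩ := y
      simp only [PowerSeries.coeff_zero_eq_constantCoeff, map_add, map_mul,
        PowerSeries.constantCoeff_X, zero_mul, add_zero, apply_ite PowerSeries.constantCoeff,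
        map_one, map_zero]
      by_cases hxy : x = y <;> by_cases hr : r = 0 <;> by_cases hs : s = 0 <;>
        simp [hE, hxy, hr, hs, eq_comm (a := (0 : Fin (n + 1)))]
    · obtain ⟨i, rfl⟩ : ∃ i, k = i + (2 * n + 2) := ⟨k - (2 * n + 2), by omega⟩
      rw [if_pos (by omega), show i + (2 * n + 2) - (2 * n + 1) = i + 1 by omega, map_add,
        PowerSeries.coeff_succ_X_mul, hM1, Matrix.of_apply, PowerSeries.coeff_mk]
      simp [apply_ite (PowerSeries.coeff (i + 1)), PowerSeries.coeff_one]
  rw [hM] at hchar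
  have hnil := SelfClassAlg.cluster_single_root (2 * n + 1) 0 M1 p hchar
  have hG : (Matrix.of fun a b => PowerSeries.constantCoeff (M1 (a, 0) (b, 0))) =
      U.coeff (List.ofFn u) := by
    ext a b
    have := congrFun₂ (hlow (2 * n + 2) (by omega)) (a, 0) (b, 0)
    rw [show 2 * n + 2 = 2 * (n + 1) by ring, hUw, if_neg (by omega)] at this
    simpa [hM1, rotW_zero, ← PowerSeries.coeff_zero_eq_constantCoeff, Matrix.blockDiagonal_apply,
      show 2 * (n + 1) = 2 * n + 2 by ring] using this
  rw [hG] at hnil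
  have hmem : substM h (zser X) ∈ Ser.coeffIn B.C :=
    Ser.subst_coeff_mem _ (zser_mem B hC) fun i =>
      Ser.mem_coeffIn.2 fun v => B.scalar_mem _ (hL i v)
  have hUc : U.coeff (List.ofFn u) = Matrix.scalar β ((substS h (yser X)).coeff (List.ofFn u)) +
      (substM h (zser X)).coeff (List.ofFn u) := by
    rw [hU, hsplit, Ser.coeff_add, Ser.coeff_map]
  have htr : (Fintype.card β : F)⁻¹ * (U.coeff (List.ofFn u)).trace =
      (substS h (yser X)).coeff (List.ofFn u) := by
    rw [hUc, Matrix.trace_add, trace_substM_zero h (trace_zser X), add_zero, Matrix.scalar_apply,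
      Matrix.trace_diagonal, sum_const, card_univ, nsmul_eq_mul, ← mul_assoc,
      inv_mul_cancel₀ (Nat.cast_ne_zero.2 Fintype.card_ne_zero), one_mul]
  rw [htr, hUc, add_sub_cancel_left] at hnil
  exact eq_zero_of_nilpotent B (Ser.mem_coeffIn.1 hmem _) hnil

/-- (L1) SELF. -/
theorem selfDom_of_pw (B : BlockAlg β F) {X : Ser (Matrix β β F) ι} (hC : ∀ w, X.coeff w ∈ B.C)
    (h0 : X.coeff [] = 0) (hPW : PW X) (hl : lf X ≠ 0) :
    (∀ i, X.coeff [i] = lf X i • (1 : Matrix β β F)) ∧ SelfDom X := by
  have hlin := coeff_singleton_of_pw B hC h0 hPW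
  refine ⟨hlin, ?_⟩
  obtain ⟨j, hj⟩ := Function.ne_iff.1 hl
  set y := yser X with hy
  have hy0 : y.coeff [] = 0 := by simp [hy, yser, h0]
  have key : ∀ (k : ℕ) (κ : Type) [Fintype κ] [DecidableEq κ] (h : ι → Ser F κ),
      (∀ i, (h i).coeff [] = 0) → Ser.LowVanish k (substS h y) →
      Ser.LowVanish (k + 1) (substM h (zser X)) := by
    intro k
    induction k with
    | zero => exact fun κ _ _ h hh _ => (substM_zser_two h0 hlin h hh).mono (by omega)
    | succ k ih =>
      intro κ _ _ h hh hk
      rcases Nat.eq_zero_or_pos k with rfl | hk1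
      · exact substM_zser_two h0 hlin h hh
      obtain ⟨g, hg0, hgL, hgX, hgy⟩ := exists_param B.L hy0 (yser_mem B hC) j hj k
      have hgz := self_step B hC h0 hPW j hj hg0 hgL hk1 hgy (ih ι g hg0 (hgy.mono (by omega)))
      -- compare `h` with `g ∘ h`
      let h' : ι → Ser F κ := fun i => substS h (g i)
      have hc : ∀ (x : F) i w, Commute (RingHom.id F x) ((g i).coeff w) :=
        fun x i w => Commute.all _ _
      have hc' : ∀ (x : F) i w, Commute (RingHom.id F x) ((h i).coeff w) :=
        fun x i w => Commute.all _ _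
      have hh' : ∀ i, (h' i).coeff [] = 0 := fun i =>
        ((Ser.LowVanish.of_coeff_nil (hg0 i)).subst _ hh).coeff_nil one_pos
      have hy' : substS h' y = substS h (substS g y) :=
        (Ser.subst_subst (RingHom.id F) (RingHom.id F) hg0 hc hh hc' y).symm
      have hy'v : Ser.LowVanish (k + 1) (substS h' y) := by
        rw [hy']; exact hgy.subst _ hh
      have hne : ∀ i, i ≠ j → h' i = h i := fun i hi => by
        simp only [h', hgX i hi]
        exact Ser.subst_X _ hh i
      have hclose : ∀ e, e ≤ k + 1 → ∀ i, Ser.LowVanish e (h i - h' i) := by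
        intro e
        induction e with
        | zero => exact fun _ i => Ser.LowVanish.of_zero _
        | succ e ihe =>
          intro he i
          by_cases hi : i = j
          swap
          · rw [hne i hi, sub_self]; exact Ser.LowVanish.zero _
          subst hi
          have h1 := substS_first hh hh' (ihe (by omega)) y
          rw [sum_eq_single i (fun b _ hb => by rw [hne b hb, sub_self, mul_zero]) (by simp)] at h1
          have h2 := ((hk.sub hy'v).mono he).sub (h1.mono le_rfl)
          rw [sub_sub_cancel] at h2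
          intro v hv
          have := h2 v hv
          rw [Ser.coeff_C_mul] at this
          exact (mul_eq_zero.1 this).resolve_left hj
      have hs : ∀ (u : ι → Ser F κ), (∀ i, (u i).coeff [] = 0) →
          ∀ i, (Ser.map (Matrix.scalar β) (u i)).coeff [] = 0 := fun u hu i => by simp [hu i]
      have hdiff := (Ser.subst_congr (RingHom.id (Matrix β β F)) (hs h hh) (hs h' hh')
        (k := k + 1) (fun i => by
          rw [← map_sub]; exact (hclose (k + 1) le_rfl i).map _) (zser X)).2 fun i => by
          rw [zser, Ser.coeff_sub, Ser.coeff_map, hlin, Matrix.scalar_apply,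
            ← Matrix.smul_one_eq_diagonal, sub_eq_zero]
          rfl
      change Ser.LowVanish (k + 1 + 1) (substM h (zser X) - substM h' (zser X)) at hdiff
      have hz' : substM h' (zser X) = substM h (substM g (zser X)) := by
        have hcm : ∀ (κ' : Type) (u : ι → Ser F κ') (x : Matrix β β F) i w,
            Commute (RingHom.id _ x) ((Ser.map (Matrix.scalar β) (u i)).coeff w) := fun κ' u x i w =>
          (Matrix.scalar_commute _ (fun _ => Commute.all _ _) x).symm
        have e : ∀ i, Ser.map (Matrix.scalar β) (h' i) = substM h (Ser.map (Matrix.scalar β) (g i)) :=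
          fun i => map_scalar_substS h (g i)
        show subst _ _ _ = _
        simp only [e]
        exact (Ser.subst_subst (RingHom.id (Matrix β β F)) (RingHom.id _) (fun i => by simp [hg0 i])
          (fun x i w => hcm ι g x i w) (fun i => by simp [hh i]) (fun x i w => (Matrix.scalar_commute _ (fun _ => Commute.all _ _) x).symm) (zser X)).symm
      have := hdiff.add (show Ser.LowVanish (k + 1 + 1) (substM h' (zser X)) by
        rw [hz']; exact hgz.subst _ (fun i => by simp [hh i]))
      rwa [sub_add_cancel] at this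
  exact fun d k h hh hk => key k (Fin d) h hh hk

namespace SelfClass

omit [CharZero F] in
/-- Leading column coefficients of a singular matrix of series. -/
theorem det_lead {m : Type} [Fintype m] [DecidableEq m] (K : Matrix m m (PowerSeries F))
    (e : m → ℕ) (hlow : ∀ a b k, k < e b → PowerSeries.coeff k (K a b) = 0) (hdet : K.det = 0) :
    (Matrix.of fun a b => PowerSeries.coeff (e b) (K a b)).det = 0 := by
  set K' : Matrix m m (PowerSeries F) :=
    Matrix.of fun a b => PowerSeries.mk fun k => PowerSeries.coeff (k + e b) (K a b) with hK'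
  have hK : K = Matrix.of fun a b => PowerSeries.X ^ e b * K' a b := by
    ext a b k
    rw [Matrix.of_apply, PowerSeries.coeff_X_pow_mul']
    split_ifs with h
    · rw [hK', Matrix.of_apply, PowerSeries.coeff_mk, Nat.sub_add_cancel h]
    · exact hlow a b k (by omega)
  rw [hK, Matrix.det_mul_row, mul_eq_zero] at hdet
  have h0 : K'.det = 0 :=
    hdet.resolve_left (prod_ne_zero_iff.2 fun b _ => pow_ne_zero _ PowerSeries.X_ne_zero)
  have h1 := congrArg PowerSeries.constantCoeff h0
  rw [RingHom.map_det, map_zero] at h1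
  convert h1 using 2
  ext a b
  simp [hK', ← PowerSeries.coeff_zero_eq_constantCoeff]

omit [CharZero F] in
/-- The doubled product of a point along itself. -/
theorem prod_dbl_self {p κ : Type} [Fintype p] [DecidableEq p] (M : κ → Matrix p p F) :
    ∀ w : List κ, (w.map fun i => Matrix.fromBlocks (M i) (M i) 0 (M i)).prod =
      Matrix.fromBlocks (w.map M).prod (w.length • (w.map M).prod) 0 (w.map M).prod
  | [] => by simp [Matrix.fromBlocks_one]
  | i :: w => by
    rw [List.map_cons, List.prod_cons, prod_dbl_self M w, Matrix.fromBlocks_multiply]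
    simp [List.prod_cons]
    rw [add_mul, one_mul, ← mul_assoc, ← Nat.cast_comm, mul_assoc]

variable {p : Type} [Fintype p] [DecidableEq p]

/-- The product of the factors separating `a` from the other eigenvalues `c * t`, at order `e`. -/
noncomputable def lag (e : ℕ) (c : F) (t : p → F) (a : p) : Polynomial (PowerSeries F) :=
  (((univ : Finset p).erase a).toList.map fun b =>
    Polynomial.C (PowerSeries.C (c * (t a - t b))⁻¹) *
      (Polynomial.X - Polynomial.C (PowerSeries.X ^ e * PowerSeries.C (c * t b)))).prod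

omit [CharZero F] [Nonempty β] in
theorem aeval_lag {e : ℕ} {c : F} (hc : c ≠ 0) {t : p → F} (ht : Function.Injective t)
    {M : Matrix (β × p) (β × p) (PowerSeries F)} (hM : Van e M)
    (hlead : cm e M = Matrix.diagonal fun x => c * t x.2) (a : p) :
    Van (e * (Fintype.card p - 1)) (Polynomial.aeval M (lag e c t a)) ∧
      cm (e * (Fintype.card p - 1)) (Polynomial.aeval M (lag e c t a)) =
        Matrix.diagonal fun x => if x.2 = a then 1 else 0 := by
  set fac : p → Matrix (β × p) (β × p) (PowerSeries F) := fun b =>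
    PowerSeries.C (c * (t a - t b))⁻¹ • (M - tp e (Matrix.diagonal fun _ => c * t b)) with hfac
  have hae : Polynomial.aeval M (lag e c t a) =
      (((univ : Finset p).erase a).toList.map fac).prod := by
    rw [lag, map_list_prod, List.map_map]
    refine congrArg List.prod (List.map_congr_left fun b _ => ?_)
    simp only [Function.comp_apply, map_mul, map_sub, Polynomial.aeval_C, Polynomial.aeval_X,
      Algebra.algebraMap_eq_smul_one, Matrix.smul_mul, Matrix.one_mul, hfac]
    congr 2
    ext x y
    by_cases h : x = y <;> simp [tp, h]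
  have hv : ∀ b, Van e (fac b) := fun b => van_smul (hM.sub (van_tp _ _)) _
  have hl : ∀ b, cm e (fac b) =
      Matrix.diagonal fun x => (c * (t a - t b))⁻¹ * (c * t x.2 - c * t b) := fun b => by
    rw [hfac, cm_smul, cm_sub, hlead, cm_tp_self, Matrix.diagonal_sub, ← Matrix.diagonal_smul]
    rfl
  have hlen : ((univ : Finset p).erase a).toList.length = Fintype.card p - 1 := by
    rw [length_toList, card_erase_of_mem (mem_univ a), card_univ]
  obtain ⟨h1, h2⟩ := van_list_prod hv ((univ : Finset p).erase a).toList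
  rw [hlen] at h1 h2
  refine ⟨hae ▸ h1, ?_⟩
  rw [hae, h2]
  have e2 : (((univ : Finset p).erase a).toList.map fun b => cm e (fac b)) =
      ((((univ : Finset p).erase a).toList.map fun b => fun x : β × p =>
        (c * (t a - t b))⁻¹ * (c * t x.2 - c * t b)).map (Matrix.diagonalRingHom (β × p) F)) := by
    rw [List.map_map]
    exact List.map_congr_left fun b _ => hl b
  rw [e2, ← map_list_prod, prod_map_toList]
  refine congrArg Matrix.diagonal (funext fun x => ?_)
  rw [Finset.prod_apply]
  split_ifs with h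
  · refine prod_eq_one fun b hb => ?_
    rw [h, ← mul_sub, inv_mul_cancel₀]
    exact mul_ne_zero hc (sub_ne_zero.2 fun h' => (mem_erase.1 hb).1 (ht h'.symm))
  · exact prod_eq_zero (mem_erase.2 ⟨h, mem_univ _⟩) (by ring)

omit [Nonempty β] in
/-- The degree step of CLASS. -/
theorem class_step {X₁ X₂ : Ser (Matrix β β F) ι} [Nonempty β]
    (hlin₁ : ∀ i, X₁.coeff [i] = lf X₁ i • (1 : Matrix β β F))
    (hlin₂ : ∀ i, X₂.coeff [i] = lf X₂ i • (1 : Matrix β β F))
    (hs₁ : SelfDom X₁) (hs₂ : SelfDom X₂) {κ : F} (hκ : κ ≠ 0) (hrel : lf X₂ = κ • lf X₁)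
    {j : ι} (hj : lf X₁ j ≠ 0)
    (hR : ∀ q, RankLe ![X₁, X₂] q q) {d n : ℕ} (hn : 1 ≤ n) {h : ι → Ser F (Fin d)}
    (hh : ∀ i, (h i).coeff [] = 0) (hy₁ : Ser.LowVanish (n + 2) (substS h (yser X₁)))
    (hy₂ : Ser.LowVanish (n + 1) (substS h (yser X₂))) (u : Fin (n + 1) → Fin d) :
    (substS h (yser X₂)).coeff (List.ofFn u) = 0 := by
  by_contra hT
  set μ : F := (Fintype.card β : F) with hμdef
  have hμ : μ ≠ 0 := Nat.cast_ne_zero.2 Fintype.card_ne_zero
  -- the substituted series
  set U₁ := substM h X₁ with hU₁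
  set U₂ := substM h X₂ with hU₂
  have hU₁v : Ser.LowVanish (n + 2) U₁ := by
    rw [hU₁, substM_split]
    exact (hy₁.map _).add ((hs₁ d (n + 2) h hh hy₁).mono (by omega))
  have hz₂ := hs₂ d (n + 1) h hh hy₂
  have hU₂v : Ser.LowVanish (n + 1) U₂ := by
    rw [hU₂, substM_split]
    exact (hy₂.map _).add (hz₂.mono (by omega))
  -- the point
  set W : Fin d → Matrix (Fin (n + 1)) (Fin (n + 1)) (PowerSeries F) := fun a => tp 2 (cyc u a)
    with hW
  have hWv : ∀ a, Van 2 (W a) := fun a => van_tp 2 _
  have hWs : SmallAt W := smallAt_iff.2 fun a => (hWv a).mono (by norm_num)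
  set H0 := fun i => evS W (h i) with hH0
  have hH0v : ∀ i, Van 2 (H0 i) := fun i =>
    (evS_van hWv (Ser.LowVanish.of_coeff_nil (hh i))).mono (by simp)
  set VW := fun i => devS W W (h i) with hVW
  have hVWv : ∀ i, Van 2 (VW i) := fun i =>
    ((evS_van (van_dblPoint hWv hWv) (Ser.LowVanish.of_coeff_nil (hh i))).submatrix
      Sum.inl Sum.inr).mono (by simp)
  set t : Fin (n + 1) → F := fun a => ((a : ℕ) : F) with ht'
  have ht : Function.Injective t := fun a b hab => Fin.ext (Nat.cast_injective hab)
  set H := fun i => H0 i +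
    tp (2 * n + 1) (if i = j then (lf X₁ j)⁻¹ • Matrix.diagonal t else 0) with hHdef
  have hHd : ∀ i, Van (2 * n + 1) (H i - H0 i) := fun i => by
    simp only [hHdef, add_sub_cancel_left]; exact van_tp _ _
  have hHv : ∀ i, Van 2 (H i) := fun i => (hH0v i).add ((van_tp _ _).mono (by omega))
  have hHs : SmallAt H := smallAt_iff.2 fun i => (hHv i).mono (by norm_num)
  -- the diagonal directions
  set Vd : Fin (n + 1) → ι → Matrix (Fin (n + 1)) (Fin (n + 1)) (PowerSeries F) := fun b i =>
    tp 1 (if i = j then (lf X₁ j)⁻¹ • Matrix.single b b 1 else 0) with hVd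
  -- what is known of a series with linear part `c • lf X₁`
  have hblock : ∀ (X : Ser (Matrix β β F) ι) (c : F) (m : ℕ),
      (∀ i, X.coeff [i] = (c * lf X₁ i) • (1 : Matrix β β F)) → n + 1 ≤ m →
      Ser.LowVanish m (substM h X) →
      (Van (2 * n + 1) (ev H X) ∧
        cm (2 * n + 1) (ev H X) = Matrix.diagonal fun x => c * t x.2) ∧
      (∀ b, Van 1 (dev H (Vd b) X) ∧
        cm 1 (dev H (Vd b) X) = Matrix.diagonal fun x => if x.2 = b then c else 0) ∧
      (∀ k, k < 2 * n + 3 → cm k (dev H VW X) = cm k (dev W W (substM h X))) := by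
    intro X c m hX hm hU
    have hdiag : ∀ (i : ι) (w : Fin (n + 1) → F),
        X.coeff [i] ⊗ₖ (if i = j then (lf X₁ j)⁻¹ • Matrix.diagonal w else 0) =
          if i = j then Matrix.diagonal fun x : β × Fin (n + 1) => c * w x.2 else 0 := by
      intro i w
      split_ifs with hi
      · rw [hi, hX, Matrix.smul_kronecker, Matrix.kronecker_smul, smul_smul, mul_assoc,
          mul_inv_cancel₀ hj, mul_one, ← Matrix.diagonal_one,
          Matrix.diagonal_kronecker_diagonal, ← Matrix.diagonal_smul]
        simp [Pi.smul_def]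
      · exact Matrix.kronecker_zero _
    refine ⟨?_, fun b => ?_, fun k hk => ?_⟩
    · have hfirst := ev_first_order (by norm_num : 1 ≤ 2) hH0v hHv hHd X
      have h0 : ev H0 X = ev W (substM h X) := (ev_substM hWs hh X).symm
      have hv0 : Van (2 * (n + 1)) (ev W (substM h X)) := ev_van hWv (hU.mono hm)
      have key : ∀ k, k < 2 * n + 2 → cm k (ev H X) =
          if k = 2 * n + 1 then Matrix.diagonal fun x => c * t x.2 else 0 := by
        intro k hk
        have := hfirst k (by omega)
        rw [cm_sub, cm_sub, h0, hv0 k (by omega), sub_zero, sub_eq_zero, cm_sum] at this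
        rw [this]
        simp only [cm_kronecker_C, hHdef, add_sub_cancel_left, cm_tp]
        by_cases hk' : k = 2 * n + 1
        · simp only [hk', if_true, hdiag, sum_ite_eq', mem_univ]
        · simp [hk']
      exact ⟨fun k hk => by rw [key k (by omega), if_neg hk.ne],
        by rw [key _ (by omega), if_pos rfl]⟩
    · have hfirst := dev_first_order (e := 1) (le_refl 1) (fun i : ι => Van.zero (A := F) 1)
        (fun i => (hHv i).mono (by norm_num)) (fun i : ι => Van.zero (A := F) 1)
        (fun i => van_tp 1 _) (V' := Vd b) (fun i => by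
          rw [sub_zero]; exact (hHv i).mono (by norm_num)) (fun i => by
          rw [sub_zero]; exact van_tp 1 _) X
      have h0 : dev (fun _ : ι => (0 : Matrix (Fin (n + 1)) (Fin (n + 1)) (PowerSeries F)))
          (fun _ => 0) X = 0 := by
        have := dev_smul_dir (H := fun _ : ι =>
          (0 : Matrix (Fin (n + 1)) (Fin (n + 1)) (PowerSeries F))) (V := fun _ => 0)
          (smallAt_iff.2 fun _ => Van.zero 1) (smallAt_iff.2 fun _ => Van.zero 1) 0 X
        rw [zero_smul, zero_smul] at this
        exact this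
      have key : ∀ k, k < 2 → cm k (dev H (Vd b) X) =
          if k = 1 then Matrix.diagonal fun x => if x.2 = b then c else 0 else 0 := by
        intro k hk
        have := hfirst k (by omega)
        rw [cm_sub, cm_sub, h0, cm_zero, sub_zero, sub_eq_zero, cm_sum] at this
        rw [this]
        simp only [cm_kronecker_C, sub_zero, hVd, cm_tp]
        by_cases hk' : k = 1
        · simp only [hk', if_true, ← Matrix.diagonal_single, hdiag, sum_ite_eq', mem_univ]
          refine congrArg Matrix.diagonal (funext fun x => ?_)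
          simp [Pi.single_apply]
        · simp [hk']
      exact ⟨fun k hk => by rw [key k (by omega), if_neg hk.ne],
        by rw [key 1 (by norm_num), if_pos rfl]⟩
    · have hfirst := dev_first_order (by norm_num : 1 ≤ 2) hH0v hHv hVWv hVWv hHd
        (fun i => by rw [sub_self]; exact Van.zero _) X
      have := hfirst k (by omega)
      simp only [sub_self, Matrix.kronecker_zero, sum_const_zero, sub_zero, cm_sub,
        sub_eq_zero] at this
      rw [this, hH0, hVW, dev_substM hWs hWs hh X]
  obtain ⟨⟨hM₁, hM₁l⟩, hd₁, hw₁⟩ := hblock X₁ 1 (n + 2) (fun i => by rw [hlin₁, one_mul])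
    (by omega) hU₁v
  obtain ⟨⟨hM₂, hM₂l⟩, hd₂, hw₂⟩ := hblock X₂ κ (n + 1) (fun i => by
    rw [hlin₂, hrel]; rfl) le_rfl hU₂v
  have hvW₁ : Van (2 * n + 3) (dev H VW X₁) := fun k hk => by
    rw [hw₁ k hk]
    exact dev_van hWv hWv hU₁v k (by omega)
  have hvW₂ : Van (2 * n + 2) (dev H VW X₂) := fun k hk => by
    rw [hw₂ k (by omega)]
    exact dev_van hWv hWv hU₂v k (by omega)
  have hWlead : cm (2 * n + 2) (dev H VW X₂) = (n + 1) •
      Matrix.blockDiagonal fun r => U₂.coeff (rotW u r) := by
    rw [hw₂ _ (by omega), show 2 * n + 2 = 2 * (n + 1) by ring, ← sum_cyc u fun v => U₂.coeff v]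
    have e := cm_ev_lead (by norm_num) (van_dblPoint hWv hWv) hU₂v
    have e1 : ∀ a : Fin d, cm 2 (dblPoint W W a) =
        Matrix.fromBlocks (cyc u a) (cyc u a) 0 (cyc u a) := by
      intro a
      rw [cm, dblPoint, Matrix.fromBlocks_map, Matrix.map_zero _ (map_zero _),
        show (W a).map (PowerSeries.coeff 2) = cyc u a from cm_tp_self 2 _]
    simp only [e1, prod_dbl_self] at e
    ext x y
    have e2 := congrFun₂ e (x.1, Sum.inl x.2) (y.1, Sum.inr y.2)
    simp only [Matrix.sum_apply, Matrix.kroneckerMap_apply, Matrix.fromBlocks_apply₁₂,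
      cm_apply] at e2
    refine e2.trans ?_
    rw [Matrix.smul_apply, Matrix.sum_apply, smul_sum]
    refine sum_congr rfl fun v hv => ?_
    rw [mem_words.1 hv, Matrix.smul_apply, Matrix.kroneckerMap_apply, mul_smul_comm]
  -- rows and columns
  set R := (2 * n + 1) * n with hRdef
  obtain ⟨hg₂, hg₂l⟩ := aeval_lag (β := β) hκ ht hM₂ hM₂l 0
  have hg₁ := fun a => aeval_lag (β := β) one_ne_zero ht hM₁ hM₁l a
  simp only [Fintype.card_fin, Nat.add_sub_cancel] at hg₁ hg₂ hg₂l
  let f : Fin (n + 2) → Fin 2 → Polynomial (PowerSeries F) :=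
    Fin.lastCases ![0, lag (2 * n + 1) κ t 0] fun a => ![lag (2 * n + 1) 1 t a, 0]
  let V : Fin (n + 2) → ι → Matrix (Fin (n + 1)) (Fin (n + 1)) (PowerSeries F) :=
    Fin.lastCases VW Vd
  let wgt : Fin (n + 2) → ℕ := fun b => R + Fin.lastCases (motive := fun _ => ℕ) (2 * n + 2)
    (fun _ => 1) b
  have hVs : ∀ b, SmallAt (V b) := by
    refine Fin.lastCases ?_ fun b => ?_
    · simp only [V, Fin.lastCases_last]
      exact smallAt_iff.2 fun i => (hVWv i).mono (by norm_num)
    · simp only [V, Fin.lastCases_castSucc]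
      exact smallAt_iff.2 fun i => van_tp 1 _
  have hdet := hR (n + 1) H hHs f V hVs
  set K : Matrix (Fin (n + 2)) (Fin (n + 2)) (PowerSeries F) :=
    Matrix.of fun a b => ∑ s, row (![X₁, X₂] s) (f a s) H (V b) with hKdef
  have hKlast : ∀ b, K (Fin.last _) b =
      (Polynomial.aeval (ev H X₂) (lag (2 * n + 1) κ t 0) * dev H (V b) X₂).trace := fun b => by
    simp [hKdef, f, Fin.sum_univ_two, row]
  have hKcast : ∀ a b, K (Fin.castSucc a) b =
      (Polynomial.aeval (ev H X₁) (lag (2 * n + 1) 1 t a) * dev H (V b) X₁).trace := fun a b => by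
    simp [hKdef, f, Fin.sum_univ_two, row]
  have hlow : ∀ a b k, k < wgt b → PowerSeries.coeff k (K a b) = 0 := by
    intro a b k hk
    induction a using Fin.lastCases with
    | last =>
      rw [hKlast, coeff_trace]
      induction b using Fin.lastCases with
      | last =>
        simp only [wgt, V, Fin.lastCases_last] at hk ⊢
        rw [(hg₂.mul hvW₂) k hk, Matrix.trace_zero]
      | cast b =>
        simp only [wgt, V, Fin.lastCases_castSucc] at hk ⊢
        rw [(hg₂.mul (hd₂ b).1) k hk, Matrix.trace_zero]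
    | cast a =>
      rw [hKcast, coeff_trace]
      induction b using Fin.lastCases with
      | last =>
        simp only [wgt, V, Fin.lastCases_last] at hk ⊢
        rw [((hg₁ a).1.mul hvW₁) k (by omega), Matrix.trace_zero]
      | cast b =>
        simp only [wgt, V, Fin.lastCases_castSucc] at hk ⊢
        rw [((hg₁ a).1.mul (hd₁ b).1) k hk, Matrix.trace_zero]
  have hdiagtr : ∀ (a : Fin (n + 1)) (g : β × Fin (n + 1) → F),
      (Matrix.diagonal (fun x : β × Fin (n + 1) => if x.2 = a then (1 : F) else 0) *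
        Matrix.diagonal g).trace = ∑ x, g (x, a) := fun a g => by
    simp [Matrix.diagonal_mul_diagonal, Matrix.trace_diagonal, Fintype.sum_prod_type,
      ite_mul]
  set L := Matrix.of fun a b => PowerSeries.coeff (wgt b) (K a b) with hLdef
  have htri : L.BlockTriangular OrderDual.toDual := by
    intro a b hab
    have hab' : a < b := hab
    induction a using Fin.lastCases with
    | last => exact absurd hab' (not_lt.2 (Fin.le_last b))
    | cast a =>
      rw [hLdef, Matrix.of_apply, hKcast, coeff_trace]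
      induction b using Fin.lastCases with
      | last =>
        simp only [wgt, V, Fin.lastCases_last]
        rw [((hg₁ a).1.mul hvW₁) _ (by omega), Matrix.trace_zero]
      | cast b =>
        simp only [wgt, V, Fin.lastCases_castSucc]
        rw [Van.cm_mul_lead (hg₁ a).1 (hd₁ b).1, (hg₁ a).2, (hd₁ b).2, hdiagtr]
        have : a ≠ b := fun e => absurd hab' (by simp [e])
        simp [this]
  have hlast : L (Fin.last _) (Fin.last _) =
      ((n : F) + 1) * (μ * (substS h (yser X₂)).coeff (List.ofFn u)) := by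
    rw [hLdef, Matrix.of_apply, hKlast, coeff_trace]
    simp only [wgt, V, Fin.lastCases_last]
    rw [Van.cm_mul_lead hg₂ hvW₂, hg₂l, hWlead, Matrix.mul_smul, Matrix.trace_smul,
      nsmul_eq_mul, Nat.cast_add, Nat.cast_one]
    congr 1
    have hc : U₂.coeff (List.ofFn u) =
        Matrix.scalar β ((substS h (yser X₂)).coeff (List.ofFn u)) := by
      rw [hU₂, substM_split, Ser.coeff_add, Ser.coeff_map,
        hz₂ (List.ofFn u) (by rw [List.length_ofFn]; omega), add_zero]
    simp only [Matrix.trace, Matrix.diag_apply, Matrix.diagonal_mul, Fintype.sum_prod_type,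
      ite_mul, one_mul, zero_mul, sum_ite_eq', mem_univ, if_true, Matrix.blockDiagonal_apply,
      rotW_zero, hc, Matrix.scalar_apply, Matrix.diagonal_apply_eq]
    simp [hμdef]
  refine absurd (det_lead K wgt hlow hdet) ?_
  rw [← hLdef, Matrix.det_of_isLowerTriangular L htri]
  refine prod_ne_zero_iff.2 fun a _ => ?_
  induction a using Fin.lastCases with
  | last =>
    rw [hlast]
    exact mul_ne_zero (Nat.cast_add_one_ne_zero n) (mul_ne_zero hμ hT)
  | cast a =>
    rw [hLdef, Matrix.of_apply, hKcast, coeff_trace]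
    simp only [wgt, V, Fin.lastCases_castSucc]
    rw [Van.cm_mul_lead (hg₁ a).1 (hd₁ a).1, (hg₁ a).2, (hd₁ a).2, hdiagtr]
    simp

end SelfClass

/-- (L2) CLASS. -/
theorem classDom_of_rankLe {X₁ X₂ : Ser (Matrix β β F) ι}
    (h02 : X₂.coeff [] = 0)
    (hlin₁ : ∀ i, X₁.coeff [i] = lf X₁ i • (1 : Matrix β β F))
    (hlin₂ : ∀ i, X₂.coeff [i] = lf X₂ i • (1 : Matrix β β F))
    (hs₁ : SelfDom X₁) (hs₂ : SelfDom X₂) {κ : F} (hrel : lf X₂ = κ • lf X₁)
    (hne : lf X₂ ≠ 0) (hR : ∀ q, RankLe ![X₁, X₂] q q) : ClassDom (yser X₁) (yser X₂) := by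
  have hκ : κ ≠ 0 := fun e => hne (by rw [hrel, e, zero_smul])
  obtain ⟨j, hj⟩ := Function.ne_iff.1 hne
  have hj₁ : lf X₁ j ≠ 0 := fun e => hj (by rw [hrel]; simp [e])
  have hy0 : (yser X₂).coeff [] = 0 := by simp [yser, h02]
  intro d k h hh
  induction k with
  | zero => exact fun _ => Ser.LowVanish.of_zero _
  | succ k ih =>
    intro hk
    have hk' := ih (hk.mono (by omega))
    intro w hw
    rcases Nat.lt_succ_iff_lt_or_eq.1 hw with hw | hw
    · exact hk' w hw
    obtain ⟨u, rfl⟩ := exists_ofFn hw
    match k, hk, hk', u with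
    | 0, _, _, u =>
      exact (Ser.LowVanish.of_coeff_nil hy0).subst _ hh _ (by simp)
    | 1, hk, _, u =>
      have e : ∀ y : Ser F ι, y.coeff [] = 0 → (substS h y).coeff (List.ofFn u) =
          ∑ i, y.coeff [i] * (h i).coeff (List.ofFn u) := fun y hy => by
        rw [substS, Ser.coeff_subst, List.length_ofFn, sum_range_succ, sum_range_one, words_zero,
          sum_singleton, sum_words_one]
        simp [hy]
      rw [e _ hy0]
      have hy1 : (yser X₁).coeff [] * (1 : Ser F (Fin d)).coeff (List.ofFn u) = 0 := by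
        rw [show (1 : Ser F (Fin d)).coeff (List.ofFn u) = 0 by
          simp [Ser.coeff_one, const], mul_zero]
      have e1 : ∑ i, (yser X₁).coeff [i] * (h i).coeff (List.ofFn u) = 0 := by
        have h1 := hk (List.ofFn u) (by simp)
        rw [substS, Ser.coeff_subst, List.length_ofFn, sum_range_succ, sum_range_one, words_zero,
          sum_singleton, sum_words_one] at h1
        simp only [RingHom.id_apply, List.map_nil, List.prod_nil, List.map_cons, List.prod_cons,
          mul_one, hy1, zero_add] at h1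
        exact h1
      have hl : ∀ i, (yser X₂).coeff [i] = κ * (yser X₁).coeff [i] := fun i => congrFun hrel i
      simp only [hl, mul_assoc, ← mul_sum, e1, mul_zero]
    | n + 2, hk, hk', u =>
      exact class_step hlin₁ hlin₂ hs₁ hs₂ hκ hrel hj₁ hR (by omega) hh hk hk' u

end Vale.Agent.P199
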