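import Vale.Agent.P199.Descends
import Vale.Agent.P199.StepCore
import Vale.Agent.P199.DescStart
import Vale.Agent.P199.BRank
import Vale.Agent.P199.DescFinish
import Vale.Agent.P199.Final

/-!
# P199: the step lemma
-/

noncomputable section

namespace Vale.Agent.P199

open Series

/-- A transcendental series becomes algebraic in some stage, density being preserved. -/
theorem stepLemma : StepLemma := by
  intro s a ha
  obtain ⟨g⟩ := exists_gauged s.A (Ser.map s.A.D.subtype a) (fun w => (a.coeff w).2)
  have hP : Inflatable (DescP s.A (Ser.map s.A.D.subtype a)) := inflatable_descends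
  obtain ⟨T, hT, h, hK, h0, hG, hkill⟩ := exists_killed hP
    ⟨g.frame, exists_descends g, exists_block_ne_zero s a ha g⟩ descG two_mul_finrank_descG
    (fun S hS R => rankHyp hP hS R)
  exact step_of_killed s a T hT h hK h0 hG hkill

end Vale.Agent.P199
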