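import Vale.Agent.P199.Reduction
import Mathlib

/-!
# P199: the rank bound of the NULL lemma

Rows with a leading `x` part, and rows whose `x` part vanishes at `τ = 0` but whose `w` part has
an independent coefficient at the least order `N` of the `w` parts, are independent.
-/

namespace Vale.Agent.P199.Triangular

variable {F : Type*} [Field F] {κ ρ X W : Type*} [Fintype κ] [Fintype ρ]

/-- Block triangular leading terms give independence over Laurent series. -/
theorem linearIndependent_block (N : ℤ) (a : κ ⊕ ρ → X → LaurentSeries F)
    (b : κ ⊕ ρ → W → LaurentSeries F) (ha : ∀ z, Reduction.Integral (a z))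
    (hb : ∀ z i, ∀ m < N, (b z i).coeff m = 0)
    (hx : LinearIndependent F fun i : κ => Reduction.red (a (.inl i)))
    (hx0 : ∀ r : ρ, Reduction.red (a (.inr r)) = 0)
    (hw : LinearIndependent F fun r : ρ => fun i => (b (.inr r) i).coeff N) :
    LinearIndependent (LaurentSeries F) fun z => Sum.elim (a z) (b z) := by
  classical
  let s : LaurentSeries F := HahnSeries.single (-N) 1
  let L : (X ⊕ W → LaurentSeries F) →ₗ[LaurentSeries F] (X ⊕ W → LaurentSeries F) :=
    LinearMap.pi fun i => (Sum.elim (fun _ => (1 : LaurentSeries F)) (fun _ => s) i) •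
      LinearMap.proj i
  refine LinearIndependent.of_comp L (Reduction.linearIndependent_of_red _ ?_ ?_)
  · rintro z (i | i) n hn
    · simpa [L] using ha z i n hn
    · simp only [L, s, Function.comp_apply, LinearMap.pi_apply, Sum.elim_inr, LinearMap.smul_apply,
        LinearMap.proj_apply, smul_eq_mul]
      rw [show n = (n + N) + -N by ring, HahnSeries.coeff_single_mul_add, one_mul]
      exact hb z i _ (by omega)
  · rw [Fintype.linearIndependent_iff]
    intro g hg
    have hxa : ∀ i, ∑ z, g z * (a z i).coeff 0 = 0 := fun i => by
      simpa [L, Reduction.red] using congrFun hg (Sum.inl i)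
    have hwb : ∀ i, ∑ z, g z * (b z i).coeff N = 0 := fun i => by
      have h := congrFun hg (Sum.inr i)
      simp only [L, s, Finset.sum_apply, Pi.smul_apply, Reduction.red, Function.comp_apply,
        LinearMap.pi_apply, Sum.elim_inr, LinearMap.smul_apply, LinearMap.proj_apply, smul_eq_mul,
        Pi.zero_apply] at h
      rw [← h]
      refine Finset.sum_congr rfl fun z _ => ?_
      rw [show (0 : ℤ) = N + -N by ring, HahnSeries.coeff_single_mul_add, one_mul]
    have hl : ∀ i : κ, g (.inl i) = 0 := by
      refine Fintype.linearIndependent_iff.mp hx (fun i => g (.inl i)) (funext fun i => ?_)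
      have h := hxa i
      rw [Fintype.sum_sum_type] at h
      have h0 : ∀ r : ρ, (a (.inr r) i).coeff 0 = 0 := fun r => congrFun (hx0 r) i
      simpa [h0, Reduction.red] using h
    rintro (i | r)
    · exact hl i
    · refine Fintype.linearIndependent_iff.mp hw (fun r => g (.inr r)) (funext fun i => ?_) r
      have h := hwb i
      rw [Fintype.sum_sum_type] at h
      simpa [hl] using h

end Vale.Agent.P199.Triangular
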