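import Vale.Agent.P199.Frame

/-!
P199: evaluation as a limit of finite sums; it commutes with homomorphisms of power series rings
fixing `τ`.
-/

namespace Vale.Agent.P199.Univ

open Finset PowerSeries Series
open scoped Kronecker

section EvT

variable {A : Type*} [CommRing A] {ι β p : Type*} [Fintype ι] [DecidableEq ι] [Fintype β]
  [DecidableEq β] [Fintype p] [DecidableEq p]

theorem mem_words {k : ℕ} {w : List ι} : w ∈ words ι k ↔ w.length = k := by
  simp only [words, mem_image, mem_univ, true_and]
  constructor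
  · rintro ⟨f, rfl⟩
    simp
  · rintro rfl
    exact ⟨w.get, List.ofFn_get w⟩

/-- The product of the matrices of a word. -/
noncomputable def prodH (H : ι → Matrix p p (PowerSeries A)) (w : List ι) :
    Matrix p p (PowerSeries A) :=
  (w.map H).prod

/-- The evaluation truncated to words of length at most `n`. -/
noncomputable def evT (n : ℕ) (H : ι → Matrix p p (PowerSeries A)) (a : Ser (Matrix β β A) ι) :
    Matrix (β × p) (β × p) (PowerSeries A) :=
  Matrix.of fun x y => ∑ k ∈ range (n + 1), ∑ w ∈ words ι k,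
    C (a.coeff w x.1 y.1) * prodH H w x.2 y.2

omit [Fintype ι] [DecidableEq ι] in
theorem X_pow_dvd_prodH {H : ι → Matrix p p (PowerSeries A)} (hH : SmallAt H) (w : List ι)
    (x y : p) : (PowerSeries.X : PowerSeries A) ^ w.length ∣ prodH H w x y := by
  induction w generalizing x y with
  | nil => simp
  | cons i w ih =>
    rw [prodH, List.map_cons, List.prod_cons, Matrix.mul_apply, List.length_cons, pow_succ']
    exact dvd_sum fun z _ => mul_dvd_mul (X_dvd_iff.2 (hH i x z)) (ih z y)

theorem conv_replicate {B : Type*} [Ring B] (f g : List Unit → B) (k : ℕ) :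
    Series.conv f g (List.replicate k ()) =
      ∑ q ∈ antidiagonal k, f (List.replicate q.1 ()) * g (List.replicate q.2 ()) := by
  induction k generalizing f with
  | zero => simp [Series.conv]
  | succ k ih =>
    rw [List.replicate_succ, Series.conv, ih, Finset.Nat.sum_antidiagonal_succ]
    simp [List.replicate_succ]

omit [Fintype ι] [DecidableEq ι] in
theorem coeff_prod_ofH (H : ι → Matrix p p (PowerSeries A)) (w : List ι) (k : ℕ) :
    ((w.map (ofH (β := β) H)).prod).coeff (List.replicate k ()) =
      (1 : Matrix β β A) ⊗ₖ (prodH H w).map (PowerSeries.coeff k) := by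
  induction w generalizing k with
  | nil =>
    cases k with
    | zero =>
      have e : (prodH H ([] : List ι)).map (PowerSeries.coeff 0) = (1 : Matrix p p A) := by
        ext x y
        by_cases h : x = y <;> simp [prodH, Matrix.one_apply, h]
      rw [e, Matrix.one_kronecker_one]
      simp [Series.Ser.coeff_one, Series.const]
    | succ k =>
      have e : (prodH H ([] : List ι)).map (PowerSeries.coeff (k + 1)) = (0 : Matrix p p A) := by
        ext x y
        by_cases h : x = y <;> simp [prodH, Matrix.one_apply, h, PowerSeries.coeff_one]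
      rw [e, Matrix.kronecker_zero]
      simp [Series.Ser.coeff_one, Series.const, List.replicate_succ]
  | cons i w ih =>
    rw [List.map_cons, List.prod_cons, Series.Ser.coeff_mul, conv_replicate]
    have e : (prodH H (i :: w)).map (PowerSeries.coeff k) = ∑ q ∈ antidiagonal k,
        (H i).map (PowerSeries.coeff q.1) * (prodH H w).map (PowerSeries.coeff q.2) := by
      ext x y
      simp only [prodH, List.map_cons, List.prod_cons, Matrix.map_apply, Matrix.mul_apply,
        map_sum, Matrix.sum_apply, PowerSeries.coeff_mul]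
      exact Finset.sum_comm
    rw [e]
    have hsum : ∀ (s : Finset (ℕ × ℕ)) (M : ℕ × ℕ → Matrix p p A),
        (1 : Matrix β β A) ⊗ₖ (∑ q ∈ s, M q) = ∑ q ∈ s, (1 : Matrix β β A) ⊗ₖ M q := by
      intro s M
      ext x y
      simp [Matrix.kroneckerMap_apply, Matrix.sum_apply, Finset.mul_sum]
    rw [hsum]
    refine sum_congr rfl fun q _ => ?_
    rw [ih]
    simp only [ofH, List.length_replicate]
    rw [← Matrix.mul_kronecker_mul, one_mul]

theorem coeff_ev {H : ι → Matrix p p (PowerSeries A)} (a : Ser (Matrix β β A) ι) (k : ℕ)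
    (x y : β × p) : PowerSeries.coeff k (ev H a x y) =
      ∑ j ∈ range (k + 1), ∑ w ∈ words ι j,
        a.coeff w x.1 y.1 * PowerSeries.coeff k (prodH H w x.2 y.2) := by
  simp only [ev, toPS, Matrix.of_apply, PowerSeries.coeff_mk, subst, List.length_replicate,
    Matrix.sum_apply]
  refine sum_congr rfl fun j _ => sum_congr rfl fun w _ => ?_
  rw [coeff_prod_ofH]
  have e : kronOne (p := p) (a.coeff w) *
      ((1 : Matrix β β A) ⊗ₖ (prodH H w).map (PowerSeries.coeff k)) =
      a.coeff w ⊗ₖ (prodH H w).map (PowerSeries.coeff k) := by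
    show (a.coeff w ⊗ₖ (1 : Matrix p p A)) * _ = _
    rw [← Matrix.mul_kronecker_mul, mul_one, one_mul]
  rw [e]
  rfl

theorem X_pow_dvd_ev_sub {H : ι → Matrix p p (PowerSeries A)} (hH : SmallAt H)
    (a : Ser (Matrix β β A) ι) (n : ℕ) (x y : β × p) :
    (PowerSeries.X : PowerSeries A) ^ (n + 1) ∣ ev H a x y - evT n H a x y := by
  rw [PowerSeries.X_pow_dvd_iff]
  intro k hk
  rw [map_sub, coeff_ev, sub_eq_zero]
  simp only [evT, Matrix.of_apply, map_sum, PowerSeries.coeff_C_mul]
  refine sum_subset (range_mono (by omega)) fun j _ hj => sum_eq_zero fun w hw => ?_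
  rw [mem_range] at hj
  have := PowerSeries.X_pow_dvd_iff.1 (X_pow_dvd_prodH hH w x.2 y.2) k
    (by rw [mem_words.1 hw]; omega)
  rw [this, mul_zero]

theorem eq_of_X_pow_dvd {z z' : PowerSeries A}
    (h : ∀ n, (PowerSeries.X : PowerSeries A) ^ (n + 1) ∣ z - z') : z = z' := by
  refine PowerSeries.ext fun k => sub_eq_zero.1 ?_
  rw [← map_sub]
  exact PowerSeries.X_pow_dvd_iff.1 (h k) k (Nat.lt_succ_self k)

theorem ev_congr {H : ι → Matrix p p (PowerSeries A)} (hH : SmallAt H)
    (a : Ser (Matrix β β A) ι) {x y : β × p} {z : PowerSeries A}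
    (h : ∀ n, (PowerSeries.X : PowerSeries A) ^ (n + 1) ∣ z - evT n H a x y) :
    ev H a x y = z :=
  eq_of_X_pow_dvd fun n => by
    have h1 := dvd_sub (X_pow_dvd_ev_sub hH a n x y) (h n)
    rwa [sub_sub_sub_cancel_right] at h1

end EvT

section Natural

variable {F A B : Type*} [CommRing F] [CommRing A] [CommRing B] {ι β p : Type*} [Fintype ι]
  [DecidableEq ι] [Fintype β] [DecidableEq β] [Fintype p] [DecidableEq p]

theorem smallAt_map (ψ : PowerSeries A →+* PowerSeries B) (hX : ψ PowerSeries.X = PowerSeries.X)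
    {H : ι → Matrix p p (PowerSeries A)} (hH : SmallAt H) : SmallAt fun i => (H i).map ψ := by
  intro i x y
  obtain ⟨c, hc⟩ := X_dvd_iff.2 (hH i x y)
  simp [Matrix.map_apply, hc, hX]

/-- A homomorphism fixing `τ` commutes with the evaluation. -/
theorem ev_natural (ψ : PowerSeries A →+* PowerSeries B) (hX : ψ PowerSeries.X = PowerSeries.X)
    (g : F →+* A) (f : F →+* B) (hC : ∀ c, ψ (C (g c)) = C (f c))
    {H : ι → Matrix p p (PowerSeries A)} (hH : SmallAt H) (a : Ser (Matrix β β F) ι) :
    (ev H (Ser.map g.mapMatrix a)).map ψ =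
      ev (fun i => (H i).map ψ) (Ser.map f.mapMatrix a) := by
  ext1 x y
  refine (ev_congr (smallAt_map ψ hX hH) _ fun n => ?_).symm
  have h := map_dvd ψ (X_pow_dvd_ev_sub hH (Ser.map g.mapMatrix a) n x y)
  rw [map_pow, hX, map_sub] at h
  have e : ψ (evT n H (Ser.map g.mapMatrix a) x y) =
      evT n (fun i => (H i).map ψ) (Ser.map f.mapMatrix a) x y := by
    simp only [evT, Matrix.of_apply, map_sum, map_mul, Series.Ser.coeff_map, RingHom.mapMatrix_apply,
      Matrix.map_apply, hC]
    refine sum_congr rfl fun k _ => sum_congr rfl fun w _ => ?_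
    congr 1
    have e2 : prodH (fun i => (H i).map ψ) w = (prodH H w).map ψ := by
      rw [prodH, prodH, ← RingHom.mapMatrix_apply ψ, map_list_prod, List.map_map]
      rfl
    rw [e2]
    rfl
  rw [e] at h
  exact h

theorem smallAt_dblPoint {H V : ι → Matrix p p (PowerSeries A)} (hH : SmallAt H)
    (hV : SmallAt V) : SmallAt (dblPoint H V) := by
  intro i x y
  rcases x with x | x <;> rcases y with y | y <;> simp [dblPoint, hH i, hV i]

omit [Fintype ι] [DecidableEq ι] in
theorem dblPoint_map (ψ : PowerSeries A →+* PowerSeries B) (H V : ι → Matrix p p (PowerSeries A)) :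
    (fun i => (dblPoint H V i).map ψ) =
      dblPoint (fun i => (H i).map ψ) (fun i => (V i).map ψ) := by
  funext i
  ext x y
  rcases x with x | x <;> rcases y with y | y <;> simp [dblPoint]

theorem dev_natural (ψ : PowerSeries A →+* PowerSeries B) (hX : ψ PowerSeries.X = PowerSeries.X)
    (g : F →+* A) (f : F →+* B) (hC : ∀ c, ψ (C (g c)) = C (f c))
    {H V : ι → Matrix p p (PowerSeries A)} (hH : SmallAt H) (hV : SmallAt V)
    (a : Ser (Matrix β β F) ι) :
    (dev H V (Ser.map g.mapMatrix a)).map ψ =
      dev (fun i => (H i).map ψ) (fun i => (V i).map ψ) (Ser.map f.mapMatrix a) := by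
  ext1 x y
  have h := ev_natural ψ hX g f hC (smallAt_dblPoint hH hV) a
  rw [dblPoint_map] at h
  exact congrFun (congrFun h (x.1, Sum.inl x.2)) (y.1, Sum.inr y.2)

end Natural

section Linear

variable {A : Type*} [CommRing A] {ι β p : Type*} [Fintype ι] [DecidableEq ι] [Fintype β]
  [DecidableEq β] [Fintype p] [DecidableEq p]

/-- The upper right block of a product of doubled matrices. -/
noncomputable def dprod (H V : ι → Matrix p p (PowerSeries A)) :
    List ι → Matrix p p (PowerSeries A)
  | [] => 0
  | i :: w => H i * dprod H V w + V i * prodH H w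

omit [Fintype ι] [DecidableEq ι] in
theorem prodH_dblPoint (H V : ι → Matrix p p (PowerSeries A)) (w : List ι) :
    prodH (dblPoint H V) w = Matrix.fromBlocks (prodH H w) (dprod H V w) 0 (prodH H w) := by
  induction w with
  | nil => simp [prodH, dprod, Matrix.fromBlocks_one]
  | cons i w ih =>
    rw [prodH, List.map_cons, List.prod_cons, ← prodH, ih]
    simp only [dblPoint, Matrix.fromBlocks_multiply, dprod, prodH, List.map_cons, List.prod_cons,
      mul_zero, zero_mul, add_zero, zero_add]

omit [Fintype ι] [DecidableEq ι] in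
theorem dprod_sum_smul {σ : Type*} (s : Finset σ) (c : σ → PowerSeries A)
    (H : ι → Matrix p p (PowerSeries A)) (E : σ → ι → Matrix p p (PowerSeries A)) (w : List ι) :
    dprod H (fun i => ∑ v ∈ s, c v • E v i) w = ∑ v ∈ s, c v • dprod H (E v) w := by
  induction w with
  | nil => simp [dprod]
  | cons i w ih =>
    simp only [dprod, ih, mul_sum, sum_mul, mul_smul_comm, smul_mul_assoc, smul_add,
      sum_add_distrib]

/-- The derivative is linear in the direction. -/
theorem dev_sum_smul {σ : Type*} (s : Finset σ) (c : σ → PowerSeries A)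
    {H : ι → Matrix p p (PowerSeries A)} (hH : SmallAt H)
    {E : σ → ι → Matrix p p (PowerSeries A)} (hE : ∀ v, SmallAt (E v))
    (a : Ser (Matrix β β A) ι) :
    dev H (fun i => ∑ v ∈ s, c v • E v i) a = ∑ v ∈ s, c v • dev H (E v) a := by
  have hV : SmallAt fun i => ∑ v ∈ s, c v • E v i := by
    intro i x y
    simp only [Matrix.sum_apply, map_sum]
    exact sum_eq_zero fun v _ => by simp [hE v i x y]
  ext1 x y
  show ev _ a _ _ = _
  refine ev_congr (smallAt_dblPoint hH hV) a fun n => ?_
  rw [Matrix.sum_apply]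
  simp only [Matrix.smul_apply, smul_eq_mul]
  have e : evT n (dblPoint H fun i => ∑ v ∈ s, c v • E v i) a (x.1, Sum.inl x.2) (y.1, Sum.inr y.2) =
      ∑ v ∈ s, c v * evT n (dblPoint H (E v)) a (x.1, Sum.inl x.2) (y.1, Sum.inr y.2) := by
    simp only [evT, Matrix.of_apply, prodH_dblPoint, Matrix.fromBlocks_apply₁₂, dprod_sum_smul,
      Matrix.sum_apply, Matrix.smul_apply, smul_eq_mul, mul_sum]
    symm
    rw [sum_comm]
    refine sum_congr rfl fun k _ => ?_
    rw [sum_comm]
    exact sum_congr rfl fun w _ => sum_congr rfl fun v _ => mul_left_comm _ _ _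
  rw [e, ← sum_sub_distrib]
  refine dvd_sum fun v _ => ?_
  rw [← mul_sub]
  exact dvd_mul_of_dvd_right (X_pow_dvd_ev_sub (smallAt_dblPoint hH (hE v)) a n _ _) _

end Linear

end Vale.Agent.P199.Univ
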